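-- KEEP
import Claimed.Agent.R255.Base.Seq

/-!
# Row 255 (BR paper), Section 7 (rate transfer): TRACE POINTS = the entry interface of Section 7      (chief S7: helper191)

`RtTrace4`, `RtTrace3`: what Section 6 (helper7) supplies at almost every point of the matched plane; Proposition 7.1 is proved POINTWISE at such a point.
Unit files import THIS file (and `Rate/Blk.lean`, `Rate/Gr.lean`), never `Rate/Contracts.lean`.
Definitions are FROZEN (ask helper191).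
-/

set_option autoImplicit false

namespace Claimed.Agent.R255

open Filter Topology

/-! ## trace points -/

/-- `z + h ξ` -/
def Cfg.shift (z ξ : Cfg) (h : ℝ) : Cfg :=
  ⟨z.LX + h * ξ.LX, z.LY + h * ξ.LY, z.LW + h * ξ.LW, z.LZ + h * ξ.LZ, z.v + h * ξ.v⟩

/-- the resolution cone (6.8) -/
def Cfg.InCone (m : ℝ) (ξ : Cfg) : Prop :=
  ξ.LY - ξ.LX ≤ ξ.v ∧ ξ.LW - ξ.LX ≤ m * ξ.v ∧ ξ.LZ - ξ.LW ≤ ξ.v ∧ ξ.LZ - ξ.LY ≤ m * ξ.v

def Cfg.Bd (R : ℝ) (ξ : Cfg) : Prop :=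
  |ξ.LX| ≤ R ∧ |ξ.LY| ≤ R ∧ |ξ.LW| ≤ R ∧ |ξ.LZ| ≤ R ∧ |ξ.v| ≤ R

namespace Matched

variable {γ m : ℝ} (M : Matched γ m)

/-- the information profile `f(𝐋, v)` -/
noncomputable def f (z : Cfg) : ℝ := M.Q.I M.Q.T (M.O z)

/-- the time profile `S(v)` -/
noncomputable def Sp (v : ℝ) : ℝ := M.Q.HC (M.Q.C v) M.Q.T

/-- the normal rate `σ` of Proposition 7.1 -/
noncomputable def sig : ℝ := min 1 (M.κ / m) / 2

end Matched

/-- a trace point at distinct clocks: affine blow-up (6.9) on the cone along some sequence, and differentiability of `S` -/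
structure RtTrace4 {γ m : ℝ} (M : Matched γ m) (i u x y w z D s : ℝ) : Prop where
  ipos : 0 < i
  upos : 0 < u
  ult : u < 1
  cap : 0 ≤ x ∧ x ≤ 1 ∧ 0 ≤ y ∧ y ≤ 1 ∧ 0 ≤ w ∧ w ≤ 1 ∧ 0 ≤ z ∧ z ≤ 1
  blow : ∃ h : ℕ → ℝ, (∀ l, 0 < h l) ∧ Tendsto h atTop (𝓝 0) ∧ ∀ R η : ℝ, 0 < η → ∀ᶠ l in atTop,
    ∀ ξ : Cfg, ξ.InCone m → ξ.Bd R →
      |M.f ((plane m i u).shift ξ (h l)) - M.f (plane m i u)
        - h l * (x * ξ.LX + y * ξ.LY + w * ξ.LW + z * ξ.LZ + D * ξ.v)| ≤ η * h l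
  dS : HasDerivAt M.Sp s u

/-- a trace point at tied clocks: only displacements with `ξ.LY = ξ.LW` -/
structure RtTrace3 {γ m : ℝ} (M : Matched γ m) (i u x q z D s : ℝ) : Prop where
  ipos : 0 < i
  upos : 0 < u
  ult : u < 1
  cap : 0 ≤ x ∧ x ≤ 1 ∧ 0 ≤ q ∧ q ≤ 2 ∧ 0 ≤ z ∧ z ≤ 1
  blow : ∃ h : ℕ → ℝ, (∀ l, 0 < h l) ∧ Tendsto h atTop (𝓝 0) ∧ ∀ R η : ℝ, 0 < η → ∀ᶠ l in atTop,
    ∀ ξ : Cfg, ξ.InCone m → ξ.Bd R → ξ.LY = ξ.LW →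
      |M.f ((plane m i u).shift ξ (h l)) - M.f (plane m i u)
        - h l * (x * ξ.LX + q * ξ.LY + z * ξ.LZ + D * ξ.v)| ≤ η * h l
  dS : HasDerivAt M.Sp s u

end Claimed.Agent.R255
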