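-- KEEP
import Claimed.Agent.R255.Base.Seq

/-!
# Row 255 (BR paper), Sec. 7 (rate transfer): THE BLOCK INTERFACE      (architect helper163; chief of Sec. 7: helper191)

`BLaw` = "one finite affine-block law" of Sec. 7.2: a finite law `π` of a pair (point `P`, full label `θ`) at the block scale `ρ = ε^h`, on ONE base cell `E = e`.
* the point carries REAL normalised coordinates `X Y W Z` (the rounded data of `E`-box, centred, divided by `ε^depth`), the label carries the normalised increments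
  `c = ε^(-u) (C_{u+Kh} - C_u)`, `r = - ε^(-mu) (R_{m(u+Kh)} - R_{mu})`; with these real scalings the shear (7.4) is EXACT:
  `X_θ = X`, `Y_θ = Y + c X`, `W_θ = W + r X`, `Z_θ = Z + c W + r Y + c r X`      (`qX qY qW qZ`, functions of the pair).
* canonical symbols: `B.Q t` = bins of the four label coordinates at the block depths `t = (tX,tY,tW,tZ) ∈ [0,1]^4` (`bbin`: dyadic cell of length `∈ (ρ^d/2, ρ^d]`, exactly nested; depth `≤ 0` = trivial bin).
* `B.Tol m x y w z s σ κ A N` : everything Sec. 7.1-7.2 extracts from the trace point, with ONE tolerance `κ` (block units `L = log 1/ρ`) on the mesh `{k/N}`: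
  `info`   `I(P;θ) ≤ κ L`                                                                   (7.6)
  `coord`  the conditional surprise of `Q t` given `θ` is `(x tX + y tY + w tW + z tZ ± κ) L` outside probability `κ`   (7.5) + homogeneity;  for `m = 1` only `tY = tW` (then only `q = y + w` matters)
  `time`   surprise of the prefix `c_d` is `≥ (s d - κ) L`,  `normal` the same for `r_d` with `σ`          (7.2), (7.3)
  `joint`  (`m = 1`) surprise of `Θ_b` given `Θ_a` is `≥ (s (b-a) - κ) L`                                   (7.3'), (7.3'')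
EXTRACT (Sec. 7.1-7.2, l.60-310) proves: for all `κ > 0`, `N`, `ρ₁ > 0` there is `B` with `B.ρ < ρ₁` and `B.Tol ..`  (`BlkSupply`).
 Order: `κ, N` → block length `h` on the trace sequence with affine error `≤ κ h/10` → one index `n` in a `𝓤`-large set → one base cell by Markov.  NO diagonal `(h_n, ε_n)`.
CONSUMERS: `Rate/Chain*.lean` (4 chains for `m ≠ 1`, `q ≥ s`), tied case (directional bootstrap, three labels, strip): take `κ = 1/n` to get a block sequence.
Definitions are FROZEN (ask helper163).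
-/

set_option autoImplicit false

namespace Claimed.Agent.R255

open scoped BigOperators
open Classical

/-- block bins: trivial at depth `≤ 0`, dyadic cell of level `⌈d log₂(1/ρ)⌉` otherwise -/
noncomputable def bbin (ρ d v : ℝ) : ℤ := if d ≤ 0 then 0 else tcell ρ d v

/-- the mesh `{k/N : 0 ≤ k ≤ N}` -/
def mesh (N : ℕ) : Set ℝ := {d | ∃ k : ℕ, k ≤ N ∧ d = (k : ℝ) / (N : ℝ)}

/-- unconditional surprise -/
noncomputable def FLaw.sur {Ω : Type} [Fintype Ω] (P : FLaw Ω) {α : Type} (X : Ω → α) (ω : Ω) : ℝ :=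
  - Real.log (P.fib X ω)

/-- block depths of the four coordinates -/
structure Dep where
  X : ℝ
  Y : ℝ
  W : ℝ
  Z : ℝ

/-- a finite point--parameter law at the scale `ρ` -/
structure BLaw where
  Pt : Type
  Lb : Type
  [finP : Fintype Pt]
  [finL : Fintype Lb]
  π : FLaw (Pt × Lb)
  ρ : ℝ
  X : Pt → ℝ
  Y : Pt → ℝ
  W : Pt → ℝ
  Z : Pt → ℝ
  c : Lb → ℝ
  r : Lb → ℝ

attribute [instance] BLaw.finP BLaw.finL

namespace BLaw

variable (B : BLaw)

/-- the point -/
def pt : B.Pt × B.Lb → B.Pt := Prod.fst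

/-- the full label -/
def lb : B.Pt × B.Lb → B.Lb := Prod.snd

def qX (ω : B.Pt × B.Lb) : ℝ := B.X ω.1

def qY (ω : B.Pt × B.Lb) : ℝ := B.Y ω.1 + B.c ω.2 * B.X ω.1

def qW (ω : B.Pt × B.Lb) : ℝ := B.W ω.1 + B.r ω.2 * B.X ω.1

def qZ (ω : B.Pt × B.Lb) : ℝ :=
  B.Z ω.1 + B.c ω.2 * B.W ω.1 + B.r ω.2 * B.Y ω.1 + B.c ω.2 * B.r ω.2 * B.X ω.1

/-- the canonical coordinate symbols at the depths `t` -/
noncomputable def Q (t : Dep) : B.Pt × B.Lb → ℤ × ℤ × ℤ × ℤ :=
  fun ω => (bbin B.ρ t.X (B.qX ω), bbin B.ρ t.Y (B.qY ω), bbin B.ρ t.W (B.qW ω), bbin B.ρ t.Z (B.qZ ω))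

/-- time prefix of the label -/
noncomputable def cb (d : ℝ) : B.Pt × B.Lb → ℤ := fun ω => bbin B.ρ d (B.c ω.2)

/-- normal prefix of the label -/
noncomputable def rb (d : ℝ) : B.Pt × B.Lb → ℤ := fun ω => bbin B.ρ d (B.r ω.2)

/-- the atom `Θ_d` of the parameter tree -/
noncomputable def Th (d : ℝ) : B.Pt × B.Lb → ℤ × ℤ := fun ω => (bbin B.ρ d (B.c ω.2), bbin B.ρ d (B.r ω.2))

/-- `L = log (1/ρ)` -/
noncomputable def L : ℝ := lg B.ρ

/-- the block law carries the rates `(x,y,w,z)`, `s`, `σ` with tolerance `κ` on the mesh `{k/N}`; `A` bounds all coordinates -/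
structure Tol (m x y w z s σ κ A : ℝ) (N : ℕ) : Prop where
  ρpos : 0 < B.ρ
  ρlt : B.ρ < 1
  bddP : ∀ p, |B.X p| ≤ A ∧ |B.Y p| ≤ A ∧ |B.W p| ≤ A ∧ |B.Z p| ≤ A
  bddL : ∀ θ, |B.c θ| ≤ A ∧ |B.r θ| ≤ A
  info : B.π.mi B.pt B.lb ≤ κ * B.L
  coord : ∀ t : Dep, t.X ∈ mesh N → t.Y ∈ mesh N → t.W ∈ mesh N → t.Z ∈ mesh N → (m = 1 → t.Y = t.W) →
    B.π.pr (fun ω => κ * B.L <
      |B.π.surC (B.Q t) B.lb ω - (x * t.X + y * t.Y + w * t.W + z * t.Z) * B.L|) ≤ κ
  time : ∀ d ∈ mesh N, B.π.pr (fun ω => B.π.sur (B.cb d) ω < (s * d - κ) * B.L) ≤ κ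
  normal : ∀ d ∈ mesh N, B.π.pr (fun ω => B.π.sur (B.rb d) ω < (σ * d - κ) * B.L) ≤ κ
  joint : m = 1 → ∀ a ∈ mesh N, ∀ b ∈ mesh N, a ≤ b →
    B.π.pr (fun ω => B.π.surC (B.Th b) (B.Th a) ω < (s * (b - a) - κ) * B.L) ≤ κ

end BLaw

/-- the output of EXTRACT at one trace point: block laws of every tolerance, every mesh, arbitrarily small scale -/
def BlkSupply (m x y w z s σ A : ℝ) : Prop :=
  ∀ κ : ℝ, 0 < κ → ∀ N : ℕ, 0 < N → ∀ ρ₁ : ℝ, 0 < ρ₁ →
    ∃ B : BLaw, B.ρ < ρ₁ ∧ B.Tol m x y w z s σ κ A N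

end Claimed.Agent.R255
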