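-- KEEP
import Claimed.Agent.R255.Rate.Blk

/-!
# Row 255 (BR paper), Sec. 7, unit U1a EXTRACT (architect helper34), file 2: THE DYADIC GRIDS      prefix `rx_`

PAPER-FREE, Mathlib + the definitions `tlev`, `tcell`, `trep` (`R255/Base/Classical.lean`), `bbin` (`Rate/Blk.lean`).
`gw ε t = 2^(-tlev ε t)` is the width of the grid of depth `t`:  `ε^t / 2 < gw ε t ≤ ε^t`.
LEAF L-RX-GRID (~250 l.): all the `sorry`s.  Routes: `Nat.le_ceil`, `Nat.ceil_lt_add_one`, `Real.rpow_natCast`, `Real.rpow_logb`, `Real.logb_rpow`, `Int.floor_le`, `Int.lt_floor_add_one`, `Int.floor_le_floor`, `Int.floor_add_natCast`.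
-/

set_option autoImplicit false

namespace Claimed.Agent.R255

open Classical

/-- the width of the grid of depth `t` -/
noncomputable def gw (ε t : ℝ) : ℝ := ((2 : ℝ) ^ (tlev ε t))⁻¹

theorem rx_gw_pos (ε t : ℝ) : 0 < gw ε t := by
  unfold gw
  positivity

/-- `2^(t log₂(1/ε)) = ε^(-t)` -/
theorem rx_two_rpow {ε : ℝ} (h0 : 0 < ε) (t : ℝ) : (2 : ℝ) ^ (t * Real.logb 2 (1 / ε)) = (ε ^ t)⁻¹ := by
  rw [mul_comm, Real.rpow_mul (by norm_num), Real.rpow_logb (by norm_num) (by norm_num) (by positivity), one_div,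
    Real.inv_rpow h0.le]

theorem rx_logb_pos {ε : ℝ} (h0 : 0 < ε) (h1 : ε < 1) : 0 < Real.logb 2 (1 / ε) :=
  Real.logb_pos (by norm_num) (one_lt_one_div h0 h1)

theorem rx_gw_le {ε : ℝ} (h0 : 0 < ε) (h1 : ε < 1) (t : ℝ) : gw ε t ≤ ε ^ t := by
  unfold gw
  have hp : 0 < ε ^ t := Real.rpow_pos_of_pos h0 t
  rw [inv_le_comm₀ (by positivity) hp, ← rx_two_rpow h0 t, ← Real.rpow_natCast]
  exact Real.rpow_le_rpow_of_exponent_le (by norm_num) (Nat.le_ceil _)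

theorem rx_lt_gw {ε : ℝ} (h0 : 0 < ε) (h1 : ε < 1) {t : ℝ} (ht : 0 ≤ t) : ε ^ t < 2 * gw ε t := by
  unfold gw
  have hp : 0 < ε ^ t := Real.rpow_pos_of_pos h0 t
  have ha : 0 ≤ t * Real.logb 2 (1 / ε) := mul_nonneg ht (rx_logb_pos h0 h1).le
  have h2 : (2 : ℝ) ^ (tlev ε t) < 2 * (ε ^ t)⁻¹ := by
    rw [← rx_two_rpow h0 t, ← Real.rpow_natCast]
    calc (2 : ℝ) ^ ((tlev ε t : ℕ) : ℝ) < 2 ^ (t * Real.logb 2 (1 / ε) + 1) :=
          Real.rpow_lt_rpow_of_exponent_lt (by norm_num) (Nat.ceil_lt_add_one ha)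
      _ = 2 * 2 ^ (t * Real.logb 2 (1 / ε)) := by
          rw [Real.rpow_add (by norm_num), Real.rpow_one, mul_comm]
  have h3 : (0 : ℝ) < 2 ^ (tlev ε t) := by positivity
  rw [← div_eq_mul_inv, lt_div_iff₀ h3]
  rw [← div_eq_mul_inv, lt_div_iff₀ hp] at h2
  linarith

theorem rx_tlev_mono {ε : ℝ} (h0 : 0 < ε) (h1 : ε < 1) {t t' : ℝ} (h : t ≤ t') : tlev ε t ≤ tlev ε t' := by
  unfold tlev
  exact Nat.ceil_mono (mul_le_mul_of_nonneg_right h (rx_logb_pos h0 h1).le)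

theorem rx_gw_anti {ε : ℝ} (h0 : 0 < ε) (h1 : ε < 1) {t t' : ℝ} (h : t ≤ t') : gw ε t' ≤ gw ε t := by
  unfold gw
  exact inv_anti₀ (by positivity) (pow_le_pow_right₀ (by norm_num) (rx_tlev_mono h0 h1 h))

/-- the grids of the block scale `ρ = ε^h` are grids of `ε` -/
theorem rx_tlev_rpow {ε : ℝ} (h0 : 0 < ε) (h t : ℝ) : tlev (ε ^ h) t = tlev ε (t * h) := by
  unfold tlev
  have e : Real.logb 2 (1 / ε ^ h) = h * Real.logb 2 (1 / ε) := by
    rw [one_div, ← Real.inv_rpow h0.le, Real.logb_rpow_eq_mul_logb_of_pos (by positivity), one_div]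
  rw [e, mul_assoc]

theorem rx_gw_rpow {ε : ℝ} (h0 : 0 < ε) (h t : ℝ) : gw (ε ^ h) t = gw ε (t * h) := by
  unfold gw
  rw [rx_tlev_rpow h0]

theorem rx_trep_eq (ε t x : ℝ) : trep ε t x = (tcell ε t x : ℝ) * gw ε t := by
  unfold trep gw
  rw [div_eq_mul_inv]

theorem rx_trep_le (ε t x : ℝ) : trep ε t x ≤ x := by
  unfold trep tcell
  rw [div_le_iff₀ (by positivity)]
  exact Int.floor_le _

theorem rx_lt_trep (ε t x : ℝ) : x < trep ε t x + gw ε t := by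
  unfold trep tcell gw
  have h3 : (0 : ℝ) < 2 ^ (tlev ε t) := by positivity
  rw [← one_div, ← add_div, lt_div_iff₀ h3]
  exact Int.lt_floor_add_one _

theorem rx_trep_congr {ε t x y : ℝ} (h : tcell ε t x = tcell ε t y) : trep ε t x = trep ε t y := by
  unfold trep
  rw [h]

/-- points of one cell -/
theorem rx_cell_lt {ε t x y : ℝ} (h : tcell ε t x = tcell ε t y) : |x - y| < gw ε t := by
  have e := rx_trep_congr h
  have h1 := rx_trep_le ε t x
  have h2 := rx_lt_trep ε t x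
  have h3 := rx_trep_le ε t y
  have h4 := rx_lt_trep ε t y
  rw [abs_lt]
  constructor <;> linarith

/-- one half of `rx_cell_close` -/
theorem rx_cell_close_aux {ε t x y : ℝ} (M : ℕ) (h : x ≤ y + M * gw ε t) : tcell ε t x ≤ tcell ε t y + (M : ℤ) := by
  unfold tcell
  rw [← Int.floor_add_natCast]
  refine Int.floor_le_floor ?_
  have h3 : (0 : ℝ) < 2 ^ (tlev ε t) := by positivity
  have h4 : gw ε t * 2 ^ (tlev ε t) = 1 := by
    unfold gw
    exact inv_mul_cancel₀ h3.ne'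
  calc x * 2 ^ (tlev ε t) ≤ (y + M * gw ε t) * 2 ^ (tlev ε t) := mul_le_mul_of_nonneg_right h h3.le
    _ = y * 2 ^ (tlev ε t) + M := by rw [add_mul, mul_assoc, h4, mul_one]

/-- close points lie in close cells -/
theorem rx_cell_close {ε t x y : ℝ} (M : ℕ) (h : |x - y| ≤ M * gw ε t) : |tcell ε t x - tcell ε t y| ≤ (M : ℤ) := by
  rw [abs_le] at h ⊢
  have h1 := rx_cell_close_aux (ε := ε) (t := t) (x := x) (y := y) M (by linarith [h.2])
  have h2 := rx_cell_close_aux (ε := ε) (t := t) (x := y) (y := x) M (by linarith [h.1])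
  constructor <;> linarith

/-- a coarse cell is the integer quotient of the fine cell -/
theorem rx_floor_div (x : ℝ) {n n' : ℕ} (h : n ≤ n') :
    ⌊x * 2 ^ n⌋ = ⌊x * 2 ^ n'⌋ / ((2 : ℤ) ^ (n' - n)) := by
  have hK : (0 : ℤ) < 2 ^ (n' - n) := by positivity
  have e : x * 2 ^ n' = x * 2 ^ n * ((2 ^ (n' - n) : ℤ) : ℝ) := by
    push_cast
    rw [mul_assoc, ← pow_add, Nat.add_sub_cancel' h]
  have hKr : (0 : ℝ) < ((2 ^ (n' - n) : ℤ) : ℝ) := by exact_mod_cast hK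
  refine le_antisymm ?_ ?_
  · rw [Int.le_ediv_iff_mul_le hK, Int.le_floor, e]
    push_cast
    exact mul_le_mul_of_nonneg_right (Int.floor_le _) (by positivity)
  · rw [← Int.lt_add_one_iff, Int.ediv_lt_iff_lt_mul hK, Int.floor_lt, e]
    push_cast
    exact mul_lt_mul_of_pos_right (Int.lt_floor_add_one _) (by positivity)

/-- exact nesting -/
theorem rx_cell_nest {ε : ℝ} (h0 : 0 < ε) (h1 : ε < 1) {t t' x y : ℝ} (h : t ≤ t') (hc : tcell ε t' x = tcell ε t' y) :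
    tcell ε t x = tcell ε t y := by
  unfold tcell at hc ⊢
  rw [rx_floor_div x (rx_tlev_mono h0 h1 h), rx_floor_div y (rx_tlev_mono h0 h1 h), hc]

/-- the representative lies in its cell -/
theorem rx_cell_trep_self (ε t x : ℝ) : tcell ε t (trep ε t x) = tcell ε t x := by
  have h3 : (0 : ℝ) < 2 ^ (tlev ε t) := by positivity
  have e : trep ε t x * 2 ^ (tlev ε t) = (tcell ε t x : ℝ) := by
    unfold trep
    exact div_mul_cancel₀ _ h3.ne'
  conv_lhs => unfold tcell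
  rw [e, Int.floor_intCast]

/-- the representative of a finer cell lies in the same coarse cell -/
theorem rx_cell_trep {ε : ℝ} (h0 : 0 < ε) (h1 : ε < 1) {t t' : ℝ} (h : t ≤ t') (x : ℝ) :
    tcell ε t (trep ε t' x) = tcell ε t x :=
  rx_cell_nest h0 h1 h (rx_cell_trep_self ε t' x)

theorem rx_trep_sub {ε : ℝ} (h0 : 0 < ε) (h1 : ε < 1) {t t' : ℝ} (h : t ≤ t') (x : ℝ) :
    0 ≤ trep ε t' x - trep ε t x ∧ trep ε t' x - trep ε t x < gw ε t := by
  have e := rx_trep_congr (rx_cell_trep h0 h1 h x)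
  have h2 := rx_trep_le ε t (trep ε t' x)
  have h3 := rx_trep_le ε t' x
  have h4 := rx_lt_trep ε t x
  constructor <;> linarith

/-- the ratio of two widths -/
theorem rx_gw_ratio {ε : ℝ} (h0 : 0 < ε) (h1 : ε < 1) {t t' : ℝ} (h : t ≤ t') :
    gw ε t = ((2 ^ (tlev ε t' - tlev ε t) : ℕ) : ℝ) * gw ε t' := by
  unfold gw
  have hn := rx_tlev_mono h0 h1 h
  have h3 : (0 : ℝ) < 2 ^ (tlev ε t) := by positivity
  have h4 : (0 : ℝ) < 2 ^ (tlev ε t') := by positivity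
  have e : (2 : ℝ) ^ (tlev ε t') = 2 ^ (tlev ε t' - tlev ε t) * 2 ^ (tlev ε t) := by
    rw [← pow_add, Nat.sub_add_cancel hn]
  push_cast
  rw [e]
  field_simp

/-- the number of children -/
theorem rx_cell_children {ε : ℝ} (h0 : 0 < ε) (h1 : ε < 1) {t t' x y : ℝ} (h : t ≤ t') (hc : tcell ε t x = tcell ε t y) :
    |tcell ε t' x - tcell ε t' y| ≤ ((2 ^ (tlev ε t' - tlev ε t) : ℕ) : ℤ) := by
  refine rx_cell_close _ ?_
  rw [← rx_gw_ratio h0 h1 h]
  exact (rx_cell_lt hc).le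

theorem rx_children_le {ε : ℝ} (h0 : 0 < ε) (h1 : ε < 1) {t t' : ℝ} (ht : 0 ≤ t) (h : t ≤ t') :
    ((2 ^ (tlev ε t' - tlev ε t) : ℕ) : ℝ) ≤ 2 * ε ^ (-(t' - t)) := by
  have e := rx_gw_ratio h0 h1 h
  have h2 := rx_gw_le h0 h1 t
  have h3 := rx_lt_gw h0 h1 (ht.trans h)
  have h4 := rx_gw_pos ε t'
  have hp : 0 < ε ^ t' := Real.rpow_pos_of_pos h0 t'
  have e2 : ε ^ (-(t' - t)) * ε ^ t' = ε ^ t := by
    rw [← Real.rpow_add h0]
    congr 1
    ring
  have hK : (0 : ℝ) ≤ ((2 ^ (tlev ε t' - tlev ε t) : ℕ) : ℝ) := Nat.cast_nonneg _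
  have hq : 0 < ε ^ (-(t' - t)) := Real.rpow_pos_of_pos h0 _
  -- `K gw' = gw ≤ ε^t = q ε^t' < 2 q gw'`
  by_contra hcon
  push Not at hcon
  have h5 : 2 * ε ^ (-(t' - t)) * gw ε t' < ((2 ^ (tlev ε t' - tlev ε t) : ℕ) : ℝ) * gw ε t' :=
    mul_lt_mul_of_pos_right hcon h4
  have h6 : ε ^ (-(t' - t)) * ε ^ t' < ε ^ (-(t' - t)) * (2 * gw ε t') := mul_lt_mul_of_pos_left h3 hq
  rw [← e] at h5
  linarith

/-- `lg (ε^h) = h lg ε` -/
theorem rx_lg_rpow {ε : ℝ} (h0 : 0 < ε) (h : ℝ) : lg (ε ^ h) = h * lg ε := by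
  unfold lg
  rw [one_div, one_div, Real.log_inv, Real.log_inv, Real.log_rpow h0]
  ring

theorem rx_lg_pos {ε : ℝ} (h0 : 0 < ε) (h1 : ε < 1) : 0 < lg ε := by
  unfold lg
  exact Real.log_pos (one_lt_one_div h0 h1)

/-- block bins of close points (`0 ≤ d`; at depth `0` the bin is trivial) -/
theorem rx_bbin_close {ρ d x y : ℝ} (M : ℕ) (h : 0 < d → |x - y| ≤ M * gw ρ d) : |bbin ρ d x - bbin ρ d y| ≤ (M : ℤ) := by
  unfold bbin
  by_cases hd : d ≤ 0
  · rw [if_pos hd, if_pos hd, sub_self, abs_zero]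
    exact Int.natCast_nonneg M
  · rw [if_neg hd, if_neg hd]
    exact rx_cell_close M (h (not_le.1 hd))

theorem rx_bbin_lt {ρ d x y : ℝ} (hd : 0 < d) (h : bbin ρ d x = bbin ρ d y) : |x - y| < gw ρ d := by
  unfold bbin at h
  rw [if_neg (not_le.2 hd), if_neg (not_le.2 hd)] at h
  exact rx_cell_lt h

theorem rx_grid_eqns_cite : True := by
  have := @gw.eq_1
  trivial

end Claimed.Agent.R255
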