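-- KEEP
import Claimed.Agent.R255.Rate.Blk
import Claimed.Agent.RW.Export

/-! ################ former file Rate/Chain.lean ################ -/
/-!
# Row 255 (BR paper), Sec. 7.3: THE ABSTRACT PROJECTION TEST `rt_chain`      (architect helper163)

PAPER-FREE.  One finite lemma replaces "replication + fixed-label core + point slicing + Theorem 3.2" (l.600-760 of 07-rate-transfer.tex) for all chains.
No core (Lemma 7.2), no Theorem 2.7, no Lemma 2.6, no Corollary 2.8.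

SETTING (`ChainData`).  Weights `π p θ ≥ 0`, total mass 1, on `Pt × Lb`; `mu p = ∑_θ π`, `la θ = ∑_p π`; `ms θ S` = mass of `{p ∈ S}` at the label `θ`.
At every label: a slice symbol `slc p θ`, a real source coordinate `src p θ`, a real target coordinate `tgt p θ`; the label has a real parameter `par θ`, and
  `tgt p θ₁ = tgt p θ₀ + (par θ₁ - par θ₀) * src p θ₀ + tr θ₀ θ₁ (slc p θ₀) + O(A ρ)`                                    (`rel`)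
HYPOTHESES (`Hyp`) on a set `H` of pairs of mass `≥ mH` (all are properties of the VALUES of the symbols at the pair, tolerance `κ`, `ρ^(±κ)`):
  `hratio`  the likelihood ratio `π/(mu la)` exceeds `ρ^(-κ)` on mass `≤ mH/4`          (from `I(P;θ) ≤ κ' L`, Lemma 2.5)
  `slc_up/lo`  `π(slc | θ) = ρ^(a0 ± κ)`;   `src_up`  `π(slc, src_d | θ) ≤ ρ^(a0 + β d - κ)` on the mesh;
  `tgt_up`  `π(slc, src_1, tgt_1 | θ) ≤ ρ^(σ-κ) π(slc, src_1 | θ)`;   `tgt_lo`  `π(tgt_1 | θ) ≥ ρ^(σ+κ)`;   `par_up`  `la(par_d) ≤ ρ^(γ d - κ)`.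
CONCLUSION (`rt_chain`, ChainTop.lean): impossible if `0 < β`, `0 < γ`, `0 ≤ σ < min 1 (β+γ)`, `κ = κ₀(β,γ,σ,A)`, `N ≥ N₀`, `ρ < ρ₀(mH)`.      I.e. target rate `≥ min(1, source rate + parameter rate)`.

PROOF (constants: `χ, ρ₁` from `RW.ex_W1 β γ σ A'`, `A' = 2A+2`; `κ₀ = χ/20`; `N₀ ≥ 20 (β+γ)/χ`).
 1. `GP = H ∩ {ρ^κ mu la ≤ π ≤ ρ^(-κ) mu la}` has mass `≥ mH/2`                                 (`rt_low_tail`, `rt_gp_mass`)
 2. Cauchy-Schwarz: some `θ₀` has `∑_{p,θ₁} mu p la θ₁ 1_GP(p,θ₀) 1_GP(p,θ₁) ≥ ρ^(2κ) (mH/2)²`     (`rt_star`)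
 3. at most `ρ^(-a0-κ)` slices meet `GP` at `θ₀`; pigeonhole one slice `ζ = slc p₀ θ₀`                (`rt_slice`)
 4. points: `μ'' p = mu p 1[GP p θ₀, slc = ζ] / ρ^(a0-2κ)`, position `(src p θ₀, tgt p θ₀)`; `mu p ≤ ρ^(-κ) π p θ₀ / la θ₀` on `GP`, so `∑ μ'' ≤ 1`;
    tags: `ν θ₁ = la θ₁ 1[∃ p, GP p θ₁]`, slope `-(par θ₁ - par θ₀)`; graph `{(p,θ₁) : GP p θ₀, slc = ζ, GP p θ₁}` of mass `≥ ρ^(5κ) mH²/4`.
 5. Frostman for `ν` (`par_up`) and for the reference law `lam p = π p θ₀ 1[slc = ζ, all prefixes of src good] / (ρ^(a0-κ) la θ₀)` (`src_up`)   (`rt_frost_mesh`)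
 6. `hU` of `ex_W1`: a `ρ`-square meets `≤ 5 × 5` cells; `tgt_up` in each                                  (`rt_hU`)
 7. covering: `≤ ρ^(-σ-κ)` target bins per tag (`tgt_lo`), each gives `≤ 2A+3` intervals of length `ρ` (`rel`)   (`rt_count`, `rt_cover`)
 8. `ex_W1` gives `ρ^(-σ-χ) ≤ M ≤ (2A+3) ρ^(-σ-κ)`: contradiction for small `ρ`.
-/

set_option autoImplicit false

namespace Claimed.Agent.R255

open scoped BigOperators
open Classical Finset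

/-- the data of one projection test -/
structure ChainData where
  Pt : Type
  Lb : Type
  Sl : Type
  [finP : Fintype Pt]
  [finL : Fintype Lb]
  π : Pt → Lb → ℝ
  ρ : ℝ
  slc : Pt → Lb → Sl
  src : Pt → Lb → ℝ
  tgt : Pt → Lb → ℝ
  par : Lb → ℝ
  tr : Lb → Lb → Sl → ℝ

attribute [instance] ChainData.finP ChainData.finL

namespace ChainData

variable (C : ChainData)

/-- point marginal -/
noncomputable def mu (p : C.Pt) : ℝ := ∑ θ, C.π p θ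

/-- label marginal -/
noncomputable def la (θ : C.Lb) : ℝ := ∑ p, C.π p θ

/-- mass of a set of points at the label `θ` -/
noncomputable def ms (θ : C.Lb) (S : C.Pt → Prop) : ℝ := ∑ p, if S p then C.π p θ else 0

/-- mass of a set of pairs -/
noncomputable def pm (G : C.Pt → C.Lb → Prop) : ℝ := ∑ p, ∑ θ, if G p θ then C.π p θ else 0

/-- the hypotheses of the projection test -/
structure Hyp (H : C.Pt → C.Lb → Prop) (A a0 β γ σ κ mH : ℝ) (N : ℕ) : Prop where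
  ρpos : 0 < C.ρ
  ρlt : C.ρ < 1
  nonneg : ∀ p θ, 0 ≤ C.π p θ
  sum_one : ∑ p, ∑ θ, C.π p θ = 1
  bdd : ∀ p θ, |C.src p θ| ≤ A ∧ |C.tgt p θ| ≤ A
  bddL : ∀ θ, |C.par θ| ≤ A
  rel : ∀ p θ₀ θ₁, |C.tgt p θ₁ - C.tgt p θ₀ - (C.par θ₁ - C.par θ₀) * C.src p θ₀ - C.tr θ₀ θ₁ (C.slc p θ₀)| ≤ A * C.ρ
  hH : mH ≤ C.pm H
  hpos : ∀ p θ, H p θ → 0 < C.π p θ
  hratio : C.pm (fun p θ => C.ρ ^ (-κ) * (C.mu p * C.la θ) < C.π p θ) ≤ mH / 4
  slc_up : ∀ p θ, H p θ → C.ms θ (fun p' => C.slc p' θ = C.slc p θ) ≤ C.ρ ^ (a0 - κ) * C.la θ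
  slc_lo : ∀ p θ, H p θ → C.ρ ^ (a0 + κ) * C.la θ ≤ C.ms θ (fun p' => C.slc p' θ = C.slc p θ)
  src_up : ∀ p θ, H p θ → ∀ d ∈ mesh N,
    C.ms θ (fun p' => C.slc p' θ = C.slc p θ ∧ bbin C.ρ d (C.src p' θ) = bbin C.ρ d (C.src p θ))
      ≤ C.ρ ^ (a0 + β * d - κ) * C.la θ
  tgt_up : ∀ p θ, H p θ →
    C.ms θ (fun p' => C.slc p' θ = C.slc p θ ∧ bbin C.ρ 1 (C.src p' θ) = bbin C.ρ 1 (C.src p θ) ∧
        bbin C.ρ 1 (C.tgt p' θ) = bbin C.ρ 1 (C.tgt p θ))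
      ≤ C.ρ ^ (σ - κ) *
        C.ms θ (fun p' => C.slc p' θ = C.slc p θ ∧ bbin C.ρ 1 (C.src p' θ) = bbin C.ρ 1 (C.src p θ))
  tgt_lo : ∀ p θ, H p θ →
    C.ρ ^ (σ + κ) * C.la θ ≤ C.ms θ (fun p' => bbin C.ρ 1 (C.tgt p' θ) = bbin C.ρ 1 (C.tgt p θ))
  par_up : ∀ p θ, H p θ → ∀ d ∈ mesh N,
    (∑ θ', if bbin C.ρ d (C.par θ') = bbin C.ρ d (C.par θ) then C.la θ' else 0) ≤ C.ρ ^ (γ * d - κ)

/-- the good pairs -/
def GP (H : C.Pt → C.Lb → Prop) (κ : ℝ) (p : C.Pt) (θ : C.Lb) : Prop :=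
  H p θ ∧ C.ρ ^ κ * (C.mu p * C.la θ) ≤ C.π p θ ∧ C.π p θ ≤ C.ρ ^ (-κ) * (C.mu p * C.la θ)

end ChainData

namespace ChainData

variable (C : ChainData)

/-- the point population of the test (first label `θ₀`, slice of `p₀`) -/
noncomputable def tMu (H : C.Pt → C.Lb → Prop) (κ a0 : ℝ) (θ₀ : C.Lb) (p₀ : C.Pt) : C.Pt → ℝ :=
  fun p => if C.GP H κ p θ₀ ∧ C.slc p θ₀ = C.slc p₀ θ₀ then C.mu p / C.ρ ^ (a0 - 2 * κ) else 0

/-- the tag population -/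
noncomputable def tNu (H : C.Pt → C.Lb → Prop) (κ : ℝ) : C.Lb → ℝ :=
  fun θ => if ∃ p, C.GP H κ p θ then C.la θ else 0

/-- the reference law of the source coordinate: the slice, restricted to the finest source cells that contain a good point of the slice -/
noncomputable def tLam (H : C.Pt → C.Lb → Prop) (κ a0 : ℝ) (θ₀ : C.Lb) (p₀ : C.Pt) : C.Pt → ℝ :=
  fun p => if C.slc p θ₀ = C.slc p₀ θ₀ ∧ (∃ p', C.GP H κ p' θ₀ ∧ C.slc p' θ₀ = C.slc p₀ θ₀ ∧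
      bbin C.ρ 1 (C.src p' θ₀) = bbin C.ρ 1 (C.src p θ₀))
    then C.π p θ₀ / (C.ρ ^ (a0 - κ) * C.la θ₀) else 0

/-- positions of the points -/
def tPt (θ₀ : C.Lb) : C.Pt → ℝ × ℝ := fun p => (C.src p θ₀, C.tgt p θ₀)

/-- slopes of the tags (`RW.kfProj a (x₁,x₂) = x₂ - a x₁`) -/
def tSl (θ₀ : C.Lb) : C.Lb → ℝ := fun θ => - (C.par θ - C.par θ₀)

/-- the incidence graph -/
noncomputable def tG (H : C.Pt → C.Lb → Prop) (κ : ℝ) (θ₀ : C.Lb) (p₀ : C.Pt) : Finset (C.Pt × C.Lb) :=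
  Finset.univ.filter (fun q => C.GP H κ q.1 θ₀ ∧ C.slc q.1 θ₀ = C.slc p₀ θ₀ ∧ C.GP H κ q.1 q.2)

end ChainData

end Claimed.Agent.R255

/-! ################ former file Rate/ChainA.lean ################ -/
/-!
# Row 255, Sec. 7.3, `rt_chain`: LEAF rt-A (good pairs, star, slice).  Paper-free, Mathlib only (finite sums).   Architect helper163.
Plans in the docstrings.  Statements frozen (if one is wrong or inconvenient: msg helper163).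
-/

set_option autoImplicit false

namespace Claimed.Agent.R255

open scoped BigOperators
open Classical Finset

theorem rt_a_mu_nonneg (C : ChainData) (h0 : ∀ p θ, 0 ≤ C.π p θ) (p : C.Pt) : 0 ≤ C.mu p :=
  Finset.sum_nonneg fun θ _ => h0 p θ

theorem rt_a_la_nonneg (C : ChainData) (h0 : ∀ p θ, 0 ≤ C.π p θ) (θ : C.Lb) : 0 ≤ C.la θ :=
  Finset.sum_nonneg fun p _ => h0 p θ

theorem rt_a_sum_mu (C : ChainData) (h1 : ∑ p, ∑ θ, C.π p θ = 1) : ∑ p, C.mu p = 1 := h1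

theorem rt_a_sum_la (C : ChainData) (h1 : ∑ p, ∑ θ, C.π p θ = 1) : ∑ θ, C.la θ = 1 := by
  unfold ChainData.la
  rw [Finset.sum_comm]
  exact h1

theorem rt_a_pm_nonneg (C : ChainData) (h0 : ∀ p θ, 0 ≤ C.π p θ) (G : C.Pt → C.Lb → Prop) : 0 ≤ C.pm G :=
  Finset.sum_nonneg fun p _ => Finset.sum_nonneg fun θ _ => by
    split_ifs
    · exact h0 p θ
    · exact le_rfl

/-- lower tail of the likelihood ratio.  Each term is `≤ c mu p la θ`, and `∑ mu p la θ = (∑ mu)(∑ la) = 1`. -/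
theorem rt_low_tail (C : ChainData) (h0 : ∀ p θ, 0 ≤ C.π p θ) (h1 : ∑ p, ∑ θ, C.π p θ = 1) (c : ℝ) (hc : 0 ≤ c) :
    C.pm (fun p θ => C.π p θ < c * (C.mu p * C.la θ)) ≤ c := by
  have e : ∑ p, ∑ θ, c * (C.mu p * C.la θ) = c := by
    have : ∑ p, ∑ θ, c * (C.mu p * C.la θ) = c * ((∑ p, C.mu p) * ∑ θ, C.la θ) := by
      rw [Finset.sum_mul_sum, Finset.mul_sum]
      exact Finset.sum_congr rfl fun p _ => (Finset.mul_sum _ _ _).symm
    rw [this, rt_a_sum_mu C h1, rt_a_sum_la C h1]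
    ring
  calc C.pm (fun p θ => C.π p θ < c * (C.mu p * C.la θ))
      ≤ ∑ p, ∑ θ, c * (C.mu p * C.la θ) := by
        unfold ChainData.pm
        refine Finset.sum_le_sum fun p _ => Finset.sum_le_sum fun θ _ => ?_
        split_ifs with h
        · exact h.le
        · exact mul_nonneg hc (mul_nonneg (rt_a_mu_nonneg C h0 p) (rt_a_la_nonneg C h0 θ))
    _ = c := e

/-- mass of the good pairs: `pm H ≤ pm GP + pm {ratio > ρ^-κ} + pm {ratio < ρ^κ}` termwise, then `rt_low_tail` with `c = ρ^κ`. -/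
theorem rt_gp_mass (C : ChainData) (H : C.Pt → C.Lb → Prop) (κ mH : ℝ) (h0 : ∀ p θ, 0 ≤ C.π p θ)
    (h1 : ∑ p, ∑ θ, C.π p θ = 1) (hρ : 0 < C.ρ) (hH : mH ≤ C.pm H)
    (hr : C.pm (fun p θ => C.ρ ^ (-κ) * (C.mu p * C.la θ) < C.π p θ) ≤ mH / 4) :
    mH - mH / 4 - C.ρ ^ κ ≤ C.pm (C.GP H κ) := by
  have h2 := rt_low_tail C h0 h1 (C.ρ ^ κ) (Real.rpow_pos_of_pos hρ κ).le
  have h3 : C.pm H ≤ C.pm (C.GP H κ) + C.pm (fun p θ => C.ρ ^ (-κ) * (C.mu p * C.la θ) < C.π p θ) +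
      C.pm (fun p θ => C.π p θ < C.ρ ^ κ * (C.mu p * C.la θ)) := by
    unfold ChainData.pm
    rw [← Finset.sum_add_distrib, ← Finset.sum_add_distrib]
    refine Finset.sum_le_sum fun p _ => ?_
    rw [← Finset.sum_add_distrib, ← Finset.sum_add_distrib]
    refine Finset.sum_le_sum fun θ _ => ?_
    have hπ := h0 p θ
    by_cases hHp : H p θ
    · rw [if_pos hHp]
      by_cases ha : C.π p θ < C.ρ ^ κ * (C.mu p * C.la θ)
      · rw [if_pos ha]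
        have : 0 ≤ (if C.GP H κ p θ then C.π p θ else 0) := by split_ifs <;> simp [hπ]
        have : 0 ≤ (if C.ρ ^ (-κ) * (C.mu p * C.la θ) < C.π p θ then C.π p θ else 0) := by
          split_ifs <;> simp [hπ]
        linarith
      · by_cases hb : C.ρ ^ (-κ) * (C.mu p * C.la θ) < C.π p θ
        · rw [if_pos hb]
          have : 0 ≤ (if C.GP H κ p θ then C.π p θ else 0) := by split_ifs <;> simp [hπ]
          have : 0 ≤ (if C.π p θ < C.ρ ^ κ * (C.mu p * C.la θ) then C.π p θ else 0) := by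
            split_ifs <;> simp [hπ]
          linarith
        · have hGP : C.GP H κ p θ := ⟨hHp, not_lt.1 ha, not_lt.1 hb⟩
          rw [if_pos hGP, if_neg ha, if_neg hb]
          linarith
    · rw [if_neg hHp]
      have : 0 ≤ (if C.GP H κ p θ then C.π p θ else 0) := by split_ifs <;> simp [hπ]
      have : 0 ≤ (if C.ρ ^ (-κ) * (C.mu p * C.la θ) < C.π p θ then C.π p θ else 0) := by
        split_ifs <;> simp [hπ]
      have : 0 ≤ (if C.π p θ < C.ρ ^ κ * (C.mu p * C.la θ) then C.π p θ else 0) := by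
        split_ifs <;> simp [hπ]
      linarith
  linarith

/-- weighted Cauchy-Schwarz (Jensen) for a probability weight. -/
theorem rt_a_jensen {ι : Type*} [Fintype ι] (w b : ι → ℝ) (hw : ∀ i, 0 ≤ w i) (h1 : ∑ i, w i = 1) :
    (∑ i, w i * b i) ^ 2 ≤ ∑ i, w i * b i ^ 2 := by
  obtain ⟨m, hm⟩ : ∃ m : ℝ, m = ∑ i, w i * b i := ⟨_, rfl⟩
  have h2 : 0 ≤ ∑ i, w i * (b i - m) ^ 2 := Finset.sum_nonneg fun i _ => mul_nonneg (hw i) (sq_nonneg _)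
  have h3 : ∑ i, w i * (b i - m) ^ 2 = (∑ i, w i * b i ^ 2) - 2 * m * (∑ i, w i * b i) + m ^ 2 * ∑ i, w i := by
    rw [Finset.mul_sum, Finset.mul_sum, ← Finset.sum_sub_distrib, ← Finset.sum_add_distrib]
    exact Finset.sum_congr rfl fun i _ => by ring
  rw [h3, h1, ← hm] at h2
  rw [← hm]
  nlinarith

/-- an average has a term above it. -/
theorem rt_a_avg {ι : Type*} [Fintype ι] (w T : ι → ℝ) (hw : ∀ i, 0 ≤ w i) (h1 : ∑ i, w i = 1) :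
    ∃ i₀, ∑ i, w i * T i ≤ T i₀ := by
  have hne : (Finset.univ : Finset ι).Nonempty := by
    by_contra h
    rw [Finset.not_nonempty_iff_eq_empty] at h
    rw [h, Finset.sum_empty] at h1
    exact zero_ne_one h1
  obtain ⟨i₀, -, hi₀⟩ := Finset.exists_max_image Finset.univ T hne
  refine ⟨i₀, ?_⟩
  calc ∑ i, w i * T i ≤ ∑ i, w i * T i₀ :=
        Finset.sum_le_sum fun i hi => mul_le_mul_of_nonneg_left (hi₀ i hi) (hw i)
    _ = T i₀ := by rw [← Finset.sum_mul, h1, one_mul]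

/-- the star.  `b p = ∑_θ 1_G la θ`;  `pm G ≤ K ∑_p mu p b p`;  Cauchy-Schwarz with the weights `mu` (`∑ mu = 1`): `(∑ mu b)² ≤ ∑ mu b²`;
`∑_p mu p (b p)² = ∑_θ₀ la θ₀ (∑_p ∑_θ₁ 1_G(p,θ₀) 1_G(p,θ₁) mu p la θ₁)`, an average with the weights `la` (`∑ la = 1`): some `θ₀` is at least the average. -/
theorem rt_star (C : ChainData) (G : C.Pt → C.Lb → Prop) (K : ℝ) (hK : 0 < K) (h0 : ∀ p θ, 0 ≤ C.π p θ)
    (h1 : ∑ p, ∑ θ, C.π p θ = 1) (hG : ∀ p θ, G p θ → C.π p θ ≤ K * (C.mu p * C.la θ)) :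
    ∃ θ₀, (C.pm G) ^ 2 ≤ K ^ 2 * ∑ p, ∑ θ₁, if G p θ₀ ∧ G p θ₁ then C.mu p * C.la θ₁ else 0 := by
  obtain ⟨b, hb⟩ : ∃ b : C.Pt → ℝ, ∀ p, b p = ∑ θ, if G p θ then C.la θ else 0 := ⟨_, fun _ => rfl⟩
  have hpm : C.pm G ≤ K * ∑ p, C.mu p * b p := by
    unfold ChainData.pm
    rw [Finset.mul_sum]
    refine Finset.sum_le_sum fun p _ => ?_
    rw [hb, Finset.mul_sum, Finset.mul_sum]
    refine Finset.sum_le_sum fun θ _ => ?_
    split_ifs with h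
    · exact hG p θ h
    · simp
  have hj := rt_a_jensen C.mu b (rt_a_mu_nonneg C h0) (rt_a_sum_mu C h1)
  obtain ⟨θ₀, hθ₀⟩ := rt_a_avg C.la
    (fun θ₀ => ∑ p, ∑ θ₁, if G p θ₀ ∧ G p θ₁ then C.mu p * C.la θ₁ else 0)
    (rt_a_la_nonneg C h0) (rt_a_sum_la C h1)
  have hexp : ∑ p, C.mu p * b p ^ 2 =
      ∑ θ₀, C.la θ₀ * ∑ p, ∑ θ₁, if G p θ₀ ∧ G p θ₁ then C.mu p * C.la θ₁ else 0 := by
    have e1 : ∀ p, C.mu p * b p ^ 2 =
        ∑ θ₀, C.la θ₀ * ∑ θ₁, if G p θ₀ ∧ G p θ₁ then C.mu p * C.la θ₁ else 0 := by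
      intro p
      rw [sq, hb, Finset.sum_mul_sum, Finset.mul_sum]
      refine Finset.sum_congr rfl fun θ₀ _ => ?_
      rw [Finset.mul_sum, Finset.mul_sum]
      refine Finset.sum_congr rfl fun θ₁ _ => ?_
      by_cases ha : G p θ₀ <;> by_cases hb' : G p θ₁ <;> simp [ha, hb'] <;> ring
    rw [Finset.sum_congr rfl fun p _ => e1 p, Finset.sum_comm]
    exact Finset.sum_congr rfl fun θ₀ _ => (Finset.mul_sum _ _ _).symm
  refine ⟨θ₀, ?_⟩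
  have h2 : (C.pm G) ^ 2 ≤ (K * ∑ p, C.mu p * b p) ^ 2 :=
    pow_le_pow_left₀ (rt_a_pm_nonneg C h0 G) hpm 2
  rw [mul_pow] at h2
  refine h2.trans (mul_le_mul_of_nonneg_left ?_ (by positivity))
  rw [hexp] at hj
  exact hj.trans hθ₀

/-- pigeonhole of one slice.  `S` = image of `slc · θ₀` on `G₀`; the fibres are disjoint, each of mass `≥ c la θ₀`, total `≤ la θ₀`: `|S| c ≤ 1`;
`∑ f = ∑_{ζ ∈ S} F ζ ≤ |S| max F`. -/
theorem rt_slice (C : ChainData) (θ₀ : C.Lb) (G₀ : C.Pt → Prop) (f : C.Pt → ℝ) (c : ℝ) (hc : 0 < c)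
    (h0 : ∀ p θ, 0 ≤ C.π p θ) (hla : 0 < C.la θ₀) (hf0 : ∀ p, 0 ≤ f p) (hf : ∀ p, ¬ G₀ p → f p = 0) (hpos : 0 < ∑ p, f p)
    (hlo : ∀ p, G₀ p → c * C.la θ₀ ≤ C.ms θ₀ (fun p' => C.slc p' θ₀ = C.slc p θ₀)) :
    ∃ p₀, G₀ p₀ ∧ c * ∑ p, f p ≤ ∑ p, if C.slc p θ₀ = C.slc p₀ θ₀ then f p else 0 := by
  obtain ⟨S, hS⟩ : ∃ S : Finset C.Sl, S = (Finset.univ.filter G₀).image (fun p => C.slc p θ₀) := ⟨_, rfl⟩
  obtain ⟨F, hF⟩ : ∃ F : C.Sl → ℝ, ∀ ζ, F ζ = ∑ p, if C.slc p θ₀ = ζ then f p else 0 := ⟨_, fun _ => rfl⟩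
  have hF0 : ∀ ζ, 0 ≤ F ζ := fun ζ => by
    rw [hF]
    exact Finset.sum_nonneg fun p _ => by split_ifs <;> simp [hf0 p]
  -- a general fibre decomposition: for `g ≥ 0`, `∑_{ζ ∈ S} ∑_p [slc p = ζ] g p ≤ ∑_p g p`, with equality if `g` vanishes off `G₀`
  have hdec : ∀ g : C.Pt → ℝ, ∑ ζ ∈ S, (∑ p, if C.slc p θ₀ = ζ then g p else 0) =
      ∑ p, if C.slc p θ₀ ∈ S then g p else 0 := by
    intro g
    rw [Finset.sum_comm]
    refine Finset.sum_congr rfl fun p _ => ?_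
    rw [Finset.sum_ite_eq]
  have hsumf : ∑ p, f p = ∑ ζ ∈ S, F ζ := by
    rw [Finset.sum_congr rfl fun ζ _ => hF ζ, hdec]
    refine Finset.sum_congr rfl fun p _ => ?_
    split_ifs with h
    · rfl
    · apply hf
      intro hG
      exact h (by rw [hS]; exact Finset.mem_image_of_mem _ (Finset.mem_filter.2 ⟨Finset.mem_univ p, hG⟩))
  have hcard : (S.card : ℝ) * c ≤ 1 := by
    have h2 : (S.card : ℝ) * (c * C.la θ₀) ≤ ∑ ζ ∈ S, (∑ p, if C.slc p θ₀ = ζ then C.π p θ₀ else 0) := by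
      have := Finset.card_nsmul_le_sum S (fun ζ => ∑ p, if C.slc p θ₀ = ζ then C.π p θ₀ else 0) (c * C.la θ₀)
        (fun ζ hζ => by
          rw [hS] at hζ
          obtain ⟨p, hp, rfl⟩ := Finset.mem_image.1 hζ
          exact hlo p (Finset.mem_filter.1 hp).2)
      simpa [nsmul_eq_mul] using this
    have h3 : ∑ ζ ∈ S, (∑ p, if C.slc p θ₀ = ζ then C.π p θ₀ else 0) ≤ C.la θ₀ := by
      rw [hdec]
      unfold ChainData.la
      refine Finset.sum_le_sum fun p _ => ?_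
      split_ifs
      · exact le_rfl
      · exact h0 p θ₀
    have h4 : (S.card : ℝ) * c * C.la θ₀ ≤ 1 * C.la θ₀ := by linarith
    exact le_of_mul_le_mul_right h4 hla
  have hne : S.Nonempty := by
    by_contra h
    rw [Finset.not_nonempty_iff_eq_empty] at h
    rw [hsumf, h, Finset.sum_empty] at hpos
    exact lt_irrefl _ hpos
  obtain ⟨ζ₀, hζ₀, hmax⟩ := Finset.exists_max_image S F hne
  have hζ₀' := hζ₀
  rw [hS] at hζ₀'
  obtain ⟨p₀, hp₀, rfl⟩ := Finset.mem_image.1 hζ₀'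
  refine ⟨p₀, (Finset.mem_filter.1 hp₀).2, ?_⟩
  rw [← hF, hsumf]
  have h5 : ∑ ζ ∈ S, F ζ ≤ (S.card : ℝ) * F (C.slc p₀ θ₀) := by
    have := Finset.sum_le_card_nsmul S F (F (C.slc p₀ θ₀)) hmax
    simpa [nsmul_eq_mul] using this
  calc c * ∑ ζ ∈ S, F ζ ≤ c * ((S.card : ℝ) * F (C.slc p₀ θ₀)) := mul_le_mul_of_nonneg_left h5 hc.le
    _ = ((S.card : ℝ) * c) * F (C.slc p₀ θ₀) := by ring
    _ ≤ 1 * F (C.slc p₀ θ₀) := mul_le_mul_of_nonneg_right hcard (hF0 _)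
    _ = F (C.slc p₀ θ₀) := one_mul _

end Claimed.Agent.R255

/-! ################ former file Rate/ChainB.lean ################ -/
/-!
# Row 255, Sec. 7.3, `rt_chain`: LEAF rt-B (block cells; prefix bounds on a mesh give a Frostman condition).  Paper-free, Mathlib only.   Architect helper163.
`bbin ρ d v = if d ≤ 0 then 0 else ⌊v 2^(tlev ρ d)⌋`, `tlev ρ d = ⌈d logb 2 (1/ρ)⌉₊`  (Base/Classical.lean, Rate/Blk.lean).
-/

set_option autoImplicit false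

namespace Claimed.Agent.R255

open scoped BigOperators
open Classical Finset

/-- `ρ^d = 2^(-(d log₂(1/ρ)))` -/
theorem rt_rpow_two (ρ d : ℝ) (h0 : 0 < ρ) : ρ ^ d = (2 : ℝ) ^ (-(d * Real.logb 2 (1 / ρ))) := by
  have h2 : (2 : ℝ) ^ Real.logb 2 (1 / ρ) = 1 / ρ := Real.rpow_logb (by norm_num) (by norm_num) (by positivity)
  rw [mul_comm, ← mul_neg, Real.rpow_mul (by norm_num), h2, one_div, Real.inv_rpow h0.le, Real.rpow_neg h0.le, inv_inv]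

/-- size of the block cells: `δ = 2^(-tlev ρ d) ∈ (ρ^d/2, ρ^d]` -/
theorem rt_cell (ρ d v : ℝ) (h0 : 0 < ρ) (h1 : ρ < 1) (hd : 0 < d) :
    ρ ^ d / 2 < (2 : ℝ)⁻¹ ^ (tlev ρ d) ∧ (2 : ℝ)⁻¹ ^ (tlev ρ d) ≤ ρ ^ d ∧
      (bbin ρ d v : ℝ) * (2 : ℝ)⁻¹ ^ (tlev ρ d) ≤ v ∧ v < ((bbin ρ d v : ℝ) + 1) * (2 : ℝ)⁻¹ ^ (tlev ρ d) := by
  have hL : 0 < Real.logb 2 (1 / ρ) := Real.logb_pos (by norm_num) (by rw [one_div]; exact (one_lt_inv₀ h0).2 h1)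
  have hx : 0 < d * Real.logb 2 (1 / ρ) := mul_pos hd hL
  have e1 : (2 : ℝ)⁻¹ ^ (tlev ρ d) = (2 : ℝ) ^ (-((tlev ρ d : ℕ) : ℝ)) := by
    rw [Real.rpow_neg (by norm_num), Real.rpow_natCast, inv_pow]
  have hp : (0 : ℝ) < (2 : ℝ)⁻¹ ^ (tlev ρ d) := by positivity
  have hb : bbin ρ d v = ⌊v * 2 ^ (tlev ρ d)⌋ := by
    unfold bbin tcell
    rw [if_neg (not_le.2 hd)]
  have e2 : v * 2 ^ (tlev ρ d) * (2 : ℝ)⁻¹ ^ (tlev ρ d) = v := by
    rw [inv_pow]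
    field_simp
  refine ⟨?_, ?_, ?_, ?_⟩
  · rw [e1, rt_rpow_two ρ d h0]
    have h3 : ((tlev ρ d : ℕ) : ℝ) < d * Real.logb 2 (1 / ρ) + 1 := Nat.ceil_lt_add_one hx.le
    have h4 : (2 : ℝ) ^ (-(d * Real.logb 2 (1 / ρ))) / 2 = (2 : ℝ) ^ (-(d * Real.logb 2 (1 / ρ)) - 1) := by
      rw [Real.rpow_sub (by norm_num), Real.rpow_one]
    rw [h4]
    exact Real.rpow_lt_rpow_of_exponent_lt (by norm_num) (by linarith)
  · rw [e1, rt_rpow_two ρ d h0]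
    have h3 : d * Real.logb 2 (1 / ρ) ≤ ((tlev ρ d : ℕ) : ℝ) := Nat.le_ceil _
    exact Real.rpow_le_rpow_of_exponent_le (by norm_num) (by linarith)
  · rw [hb]
    calc ((⌊v * 2 ^ (tlev ρ d)⌋ : ℤ) : ℝ) * (2 : ℝ)⁻¹ ^ (tlev ρ d) ≤ v * 2 ^ (tlev ρ d) * (2 : ℝ)⁻¹ ^ (tlev ρ d) :=
          mul_le_mul_of_nonneg_right (Int.floor_le _) hp.le
      _ = v := e2
  · rw [hb]
    calc v = v * 2 ^ (tlev ρ d) * (2 : ℝ)⁻¹ ^ (tlev ρ d) := e2.symm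
      _ < (((⌊v * 2 ^ (tlev ρ d)⌋ : ℤ) : ℝ) + 1) * (2 : ℝ)⁻¹ ^ (tlev ρ d) :=
          mul_lt_mul_of_pos_right (Int.lt_floor_add_one _) hp

/-- the dyadic cell of level `n` is determined by the cell of level `n + m` -/
theorem rt_floor_div (x : ℝ) (n m : ℕ) : ⌊x * (2 : ℝ) ^ n⌋ = ⌊x * (2 : ℝ) ^ (n + m)⌋ / ((2 ^ m : ℕ) : ℤ) := by
  rw [← Int.floor_div_natCast]
  congr 1
  push_cast
  rw [pow_add]
  field_simp

/-- the block cells are exactly nested (`⌊⌊v 2^n'⌋ / 2^(n'-n)⌋ = ⌊v 2^n⌋`, `tlev` monotone in `d`) -/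
theorem rt_nested (ρ d d' v v' : ℝ) (h0 : 0 < ρ) (h1 : ρ < 1) (hdd : d ≤ d') (h : bbin ρ d' v = bbin ρ d' v') :
    bbin ρ d v = bbin ρ d v' := by
  by_cases hd : d ≤ 0
  · unfold bbin
    rw [if_pos hd, if_pos hd]
  · have hd' : ¬ d' ≤ 0 := fun h2 => hd (hdd.trans h2)
    unfold bbin tcell at h ⊢
    rw [if_neg hd', if_neg hd'] at h
    rw [if_neg hd, if_neg hd]
    have hL : 0 < Real.logb 2 (1 / ρ) := Real.logb_pos (by norm_num) (by rw [one_div]; exact (one_lt_inv₀ h0).2 h1)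
    have hn : tlev ρ d ≤ tlev ρ d' := Nat.ceil_mono (mul_le_mul_of_nonneg_right hdd hL.le)
    obtain ⟨m, hm⟩ := Nat.exists_eq_add_of_le hn
    rw [hm] at h
    rw [rt_floor_div v _ m, rt_floor_div v' _ m, h]

/-- an interval of length `2 r`, `r ≤ ρ^d`, meets at most 5 cells of depth `d > 0` -/
theorem rt_five (ρ d z r : ℝ) (h0 : 0 < ρ) (h1 : ρ < 1) (hd : 0 < d) (hr : r ≤ ρ ^ d) :
    ∃ K : Finset ℤ, K.card ≤ 5 ∧ ∀ v : ℝ, |v - z| ≤ r → bbin ρ d v ∈ K := by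
  refine ⟨Finset.Icc (⌊z * 2 ^ (tlev ρ d)⌋ - 2) (⌊z * 2 ^ (tlev ρ d)⌋ + 2), ?_, ?_⟩
  · rw [Int.card_Icc]
    have : ⌊z * 2 ^ (tlev ρ d)⌋ + 2 + 1 - (⌊z * 2 ^ (tlev ρ d)⌋ - 2) = 5 := by ring
    rw [this]
    rfl
  · intro v hv
    have hc := (rt_cell ρ d v h0 h1 hd).1
    have hb : bbin ρ d v = ⌊v * 2 ^ (tlev ρ d)⌋ := by
      unfold bbin tcell
      rw [if_neg (not_le.2 hd)]
    have hp : (0 : ℝ) < 2 ^ (tlev ρ d) := by positivity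
    have h2 : r * 2 ^ (tlev ρ d) < 2 := by
      have h3 : r < 2 * (2 : ℝ)⁻¹ ^ (tlev ρ d) := by linarith
      have h4 : 2 * (2 : ℝ)⁻¹ ^ (tlev ρ d) * 2 ^ (tlev ρ d) = 2 := by
        rw [inv_pow]
        field_simp
      calc r * 2 ^ (tlev ρ d) < 2 * (2 : ℝ)⁻¹ ^ (tlev ρ d) * 2 ^ (tlev ρ d) := mul_lt_mul_of_pos_right h3 hp
        _ = 2 := h4
    have hv' := abs_le.1 hv
    have h5 : (v - z) * 2 ^ (tlev ρ d) ≤ r * 2 ^ (tlev ρ d) := mul_le_mul_of_nonneg_right hv'.2 hp.le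
    have h6 : -r * 2 ^ (tlev ρ d) ≤ (v - z) * 2 ^ (tlev ρ d) := mul_le_mul_of_nonneg_right hv'.1 hp.le
    rw [hb, Finset.mem_Icc]
    constructor
    · rw [Int.le_floor]
      push_cast
      have := Int.floor_le (z * 2 ^ (tlev ρ d))
      nlinarith
    · have h7 : ⌊v * 2 ^ (tlev ρ d)⌋ < ⌊z * 2 ^ (tlev ρ d)⌋ + 2 + 1 := by
        rw [Int.floor_lt]
        push_cast
        have := Int.lt_floor_add_one (z * 2 ^ (tlev ρ d))
        nlinarith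
      omega

/-- prefix bounds on a mesh give a Frostman condition.
For `r ∈ [ρ,1]` write `r = ρ^t`, `t ∈ [0,1]`, `d = ⌊t N⌋/N ≤ t < d + 1/N`.  `d = 0`: total mass `≤ Cc ≤ Cc ρ^(-e/N) r^e`.  `d > 0`: `rt_five`, each cell `≤ Cc ρ^(e d)`, `ρ^d ≤ r ρ^(-1/N)`. -/
theorem rt_frost_mesh {ι : Type} [Fintype ι] (w : ι → ℝ) (pos : ι → ℝ) (hw : ∀ i, 0 ≤ w i) (ρ Cc e : ℝ) (N : ℕ)
    (hN : 0 < N) (h0 : 0 < ρ) (h1 : ρ < 1) (he : 0 ≤ e) (hC : 0 ≤ Cc)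
    (h : ∀ d ∈ mesh N, ∀ k : ℤ, (∑ i, if bbin ρ d (pos i) = k then w i else 0) ≤ Cc * ρ ^ (e * d)) :
    RW.KfFrost w pos (6 * Cc * ρ ^ (-(e / N))) e ρ := by
  intro z r hr1 hr2
  have hr0 : 0 < r := lt_of_lt_of_le h0 hr1
  have hNr : (0 : ℝ) < N := by exact_mod_cast hN
  have hlρ : Real.log ρ < 0 := Real.log_neg h0 h1
  obtain ⟨t, ht⟩ : ∃ t : ℝ, t = Real.log r / Real.log ρ := ⟨_, rfl⟩
  have ht0 : 0 ≤ t := by
    rw [ht]
    exact div_nonneg_of_nonpos (Real.log_nonpos hr0.le hr2) hlρ.le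
  have ht1 : t ≤ 1 := by
    rw [ht, div_le_one_of_neg hlρ]
    exact Real.log_le_log h0 hr1
  have hrt : r = ρ ^ t := by
    rw [Real.rpow_def_of_pos h0, ht, mul_div_cancel₀ _ hlρ.ne, Real.exp_log hr0]
  have hk1 : ((⌊t * N⌋₊ : ℕ) : ℝ) ≤ t * N := Nat.floor_le (by positivity)
  have hk2 : t * N < ((⌊t * N⌋₊ : ℕ) : ℝ) + 1 := Nat.lt_floor_add_one _
  have hkN : ⌊t * N⌋₊ ≤ N := by
    have h2 : ((⌊t * N⌋₊ : ℕ) : ℝ) ≤ N := hk1.trans (by nlinarith)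
    exact_mod_cast h2
  obtain ⟨d, hd⟩ : ∃ d : ℝ, d = ((⌊t * N⌋₊ : ℕ) : ℝ) / N := ⟨_, rfl⟩
  have hdm : d ∈ mesh N := ⟨⌊t * N⌋₊, hkN, hd⟩
  have hdt : d ≤ t := by
    rw [hd, div_le_iff₀ hNr]
    exact hk1
  have htd : t ≤ d + 1 / N := by
    rw [hd, ← add_div, le_div_iff₀ hNr]
    exact hk2.le
  have hpd : 0 < ρ ^ (e * d) := Real.rpow_pos_of_pos h0 _
  have key : ρ ^ (e * d) ≤ ρ ^ (-(e / N)) * r ^ e := by
    rw [hrt, ← Real.rpow_mul h0.le, ← Real.rpow_add h0]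
    refine Real.rpow_le_rpow_of_exponent_ge h0 h1.le ?_
    have h2 : e * t ≤ e * (d + 1 / N) := mul_le_mul_of_nonneg_left htd he
    have h3 : e * (d + 1 / N) = e * d + e / N := by ring
    linarith
  have hsum : ∑ i with dist (pos i) z ≤ r, w i ≤ 5 * (Cc * ρ ^ (e * d)) := by
    by_cases hd0 : d ≤ 0
    · have h2 := h d hdm 0
      have e1 : ∀ i, bbin ρ d (pos i) = 0 := fun i => by
        unfold bbin
        rw [if_pos hd0]
      simp only [e1, if_true] at h2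
      have h3 : ∑ i with dist (pos i) z ≤ r, w i ≤ ∑ i, w i :=
        Finset.sum_le_sum_of_subset_of_nonneg (Finset.filter_subset _ _) fun i _ _ => hw i
      have h4 : 0 ≤ Cc * ρ ^ (e * d) := by positivity
      linarith
    · push Not at hd0
      obtain ⟨K, hK5, hK⟩ := rt_five ρ d z r h0 h1 hd0 (by
        rw [hrt]
        exact Real.rpow_le_rpow_of_exponent_ge h0 h1.le hdt)
      have h2 : ∑ i with dist (pos i) z ≤ r, w i ≤ ∑ k ∈ K, ∑ i, if bbin ρ d (pos i) = k then w i else 0 := by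
        rw [Finset.sum_comm, Finset.sum_filter]
        refine Finset.sum_le_sum fun i _ => ?_
        rw [Finset.sum_ite_eq]
        split_ifs with h3 h4 h4
        · exact le_rfl
        · exact absurd (hK (pos i) (by rw [← Real.dist_eq]; exact h3)) h4
        · exact hw i
        · exact le_rfl
      refine le_trans h2 (le_trans (Finset.sum_le_sum fun k _ => h d hdm k) ?_)
      rw [Finset.sum_const, nsmul_eq_mul]
      refine mul_le_mul_of_nonneg_right ?_ (by positivity)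
      exact_mod_cast hK5
  have h5 : Cc * ρ ^ (e * d) ≤ Cc * (ρ ^ (-(e / N)) * r ^ e) := mul_le_mul_of_nonneg_left key hC
  have h6 : 0 ≤ Cc * (ρ ^ (-(e / N)) * r ^ e) := by positivity
  calc ∑ i with dist (pos i) z ≤ r, w i ≤ 5 * (Cc * ρ ^ (e * d)) := hsum
    _ ≤ 6 * (Cc * (ρ ^ (-(e / N)) * r ^ e)) := by linarith
    _ = 6 * Cc * ρ ^ (-(e / N)) * r ^ e := by ring

/-- the Frostman condition is invariant under `v ↦ -(v - c)` -/
theorem rt_frost_affine {ι : Type} [Fintype ι] (w : ι → ℝ) (pos : ι → ℝ) (Cc e ρ c : ℝ)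
    (h : RW.KfFrost w pos Cc e ρ) : RW.KfFrost w (fun i => -(pos i - c)) Cc e ρ := by
  intro z r h1 h2
  have h3 := h (c - z) r h1 h2
  have e1 : ∀ i, dist (-(pos i - c)) z = dist (pos i) (c - z) := by
    intro i
    rw [Real.dist_eq, Real.dist_eq, ← abs_neg]
    congr 1
    ring
  simp_rw [e1]
  exact h3

end Claimed.Agent.R255

/-! ################ former file Rate/ChainC.lean ################ -/
/-!
# Row 255, Sec. 7.3, `rt_chain`: LEAF rt-C (covering numbers of the projections).  Paper-free.   Architect helper163.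
-/

set_option autoImplicit false

namespace Claimed.Agent.R255

open scoped BigOperators
open Classical Finset

/-- a set lying (after one translation `τ`) within `a` of `n` cells of length `δ ≤ ρ` is covered by `n (2 + ⌈2a/ρ⌉)` intervals `[e, e+ρ]`.
For `k ∈ Kc` take the left end points `k δ - a - τ + j ρ`, `j < 2 + ⌈2a/ρ⌉₊`. -/
theorem rt_cover (S : Set ℝ) (Kc : Finset ℤ) (δ ρ a τ : ℝ) (hδ : 0 < δ) (hδρ : δ ≤ ρ) (ha : 0 ≤ a)
    (h : ∀ t ∈ S, ∃ k ∈ Kc, (k : ℝ) * δ - a ≤ t + τ ∧ t + τ ≤ ((k : ℝ) + 1) * δ + a) :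
    ∃ cov : Finset ℝ, cov.card ≤ Kc.card * (2 + ⌈2 * a / ρ⌉₊) ∧ RW.KfCov cov ρ S := by
  have hρ : 0 < ρ := lt_of_lt_of_le hδ hδρ
  refine ⟨(Kc ×ˢ Finset.range (2 + ⌈2 * a / ρ⌉₊)).image
    (fun q : ℤ × ℕ => (q.1 : ℝ) * δ - a - τ + (q.2 : ℝ) * ρ), ?_, ?_⟩
  · refine Finset.card_image_le.trans ?_
    rw [Finset.card_product, Finset.card_range]
  · intro t ht
    obtain ⟨k, hk, h1, h2⟩ := h t ht
    obtain ⟨x, hx⟩ : ∃ x : ℝ, x = t - ((k : ℝ) * δ - a - τ) := ⟨_, rfl⟩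
    have hx0 : 0 ≤ x := by rw [hx]; linarith
    have hx1 : x ≤ δ + 2 * a := by rw [hx]; linarith
    have hq0 : 0 ≤ x / ρ := div_nonneg hx0 hρ.le
    have hj1 : ((⌊x / ρ⌋₊ : ℕ) : ℝ) ≤ x / ρ := Nat.floor_le hq0
    have hj2 : x / ρ < ((⌊x / ρ⌋₊ : ℕ) : ℝ) + 1 := Nat.lt_floor_add_one _
    have hj3 : ⌊x / ρ⌋₊ < 2 + ⌈2 * a / ρ⌉₊ := by
      have h3 : x / ρ ≤ 1 + 2 * a / ρ := by
        rw [div_le_iff₀ hρ, add_mul, div_mul_cancel₀ _ hρ.ne']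
        linarith
      have h4 : 2 * a / ρ ≤ ((⌈2 * a / ρ⌉₊ : ℕ) : ℝ) := Nat.le_ceil _
      have h5 : ((⌊x / ρ⌋₊ : ℕ) : ℝ) < ((2 + ⌈2 * a / ρ⌉₊ : ℕ) : ℝ) := by
        push_cast
        linarith
      exact_mod_cast h5
    refine ⟨(k : ℝ) * δ - a - τ + ((⌊x / ρ⌋₊ : ℕ) : ℝ) * ρ, ?_, ?_, ?_⟩
    · exact Finset.mem_image.2 ⟨(k, ⌊x / ρ⌋₊), Finset.mem_product.2 ⟨hk, Finset.mem_range.2 hj3⟩, rfl⟩
    · have h6 : ((⌊x / ρ⌋₊ : ℕ) : ℝ) * ρ ≤ x := (le_div_iff₀ hρ).1 hj1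
      linarith
    · have h6 : x < (((⌊x / ρ⌋₊ : ℕ) : ℝ) + 1) * ρ := (div_lt_iff₀ hρ).1 hj2
      linarith

/-- number of target bins at one tag: the fibres are disjoint, each of mass `≥ c la θ`, total `≤ la θ` -/
theorem rt_count (C : ChainData) (θ : C.Lb) (G₁ : C.Pt → Prop) (c : ℝ) (hc : 0 < c) (h0 : ∀ p θ, 0 ≤ C.π p θ)
    (hla : 0 < C.la θ)
    (hlo : ∀ p, G₁ p → c * C.la θ ≤ C.ms θ (fun p' => bbin C.ρ 1 (C.tgt p' θ) = bbin C.ρ 1 (C.tgt p θ))) :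
    (((Finset.univ.filter G₁).image (fun p => bbin C.ρ 1 (C.tgt p θ))).card : ℝ) * c ≤ 1 := by
  obtain ⟨K, hK⟩ : ∃ K : Finset ℤ, K = (Finset.univ.filter G₁).image (fun p => bbin C.ρ 1 (C.tgt p θ)) :=
    ⟨_, rfl⟩
  rw [← hK]
  have h1 : ∀ k ∈ K, c * C.la θ ≤ ∑ p', if bbin C.ρ 1 (C.tgt p' θ) = k then C.π p' θ else 0 := by
    intro k hk
    rw [hK, Finset.mem_image] at hk
    obtain ⟨p, hp, rfl⟩ := hk
    refine (hlo p (Finset.mem_filter.1 hp).2).trans (le_of_eq ?_)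
    unfold ChainData.ms
    refine Finset.sum_congr rfl fun p' _ => ?_
    split_ifs <;> rfl
  have h2 : (∑ k ∈ K, ∑ p', if bbin C.ρ 1 (C.tgt p' θ) = k then C.π p' θ else 0) ≤ C.la θ := by
    rw [Finset.sum_comm]
    unfold ChainData.la
    refine Finset.sum_le_sum fun p' _ => ?_
    rw [Finset.sum_ite_eq]
    split_ifs
    · exact le_rfl
    · exact h0 p' θ
  have h3 : (K.card : ℝ) * (c * C.la θ) ≤ C.la θ := by
    refine le_trans ?_ h2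
    rw [← nsmul_eq_mul, ← Finset.sum_const]
    exact Finset.sum_le_sum h1
  have h4 : ((K.card : ℝ) * c) * C.la θ ≤ 1 * C.la θ := by
    rw [one_mul, mul_assoc]
    exact h3
  exact le_of_mul_le_mul_right h4 hla

/-- the projections of the neighbours of one tag.
`kfProj (tSl θ₀ θ₁) (tPt θ₀ p) = tgt p θ₀ + (par θ₁ - par θ₀) src p θ₀ =: t`; by `rel`, `|tgt p θ₁ - t - τ| ≤ A ρ`, `τ = tr θ₀ θ₁ (slc p₀ θ₀)`; `tgt p θ₁` lies in its cell (`rt_cell`, `d = 1`);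
`Kc` = bins of `tgt · θ₁` on `{p | GP p θ₁}`, `Kc.card ≤ ρ^(-(σ+κ))` by `rt_count` and `tgt_lo` (`la θ₁ > 0` by `hpos` if there is a neighbour; otherwise `cov = ∅`); `rt_cover` with `a = A ρ`. -/
theorem rt_tag_cover (C : ChainData) (H : C.Pt → C.Lb → Prop) (A a0 β γ σ κ mH : ℝ) (N : ℕ) (hA : 1 ≤ A)
    (hy : C.Hyp H A a0 β γ σ κ mH N) (θ₀ : C.Lb) (p₀ : C.Pt) (θ₁ : C.Lb) :
    ∃ cov : Finset ℝ, (cov.card : ℝ) ≤ (2 + ⌈2 * A⌉₊ : ℕ) * C.ρ ^ (-(σ + κ)) ∧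
      RW.KfCov cov C.ρ {t | ∃ x, (x, θ₁) ∈ C.tG H κ θ₀ p₀ ∧ t = RW.kfProj (C.tSl θ₀ θ₁) (C.tPt θ₀ x)} := by
  have hρ := hy.ρpos
  have hpw : 0 < C.ρ ^ (σ + κ) := Real.rpow_pos_of_pos hρ _
  by_cases hex : ∃ p, C.GP H κ p θ₁
  · obtain ⟨ps, hps⟩ := hex
    have hla : 0 < C.la θ₁ :=
      lt_of_lt_of_le (hy.hpos ps θ₁ hps.1) (Finset.single_le_sum (f := fun p => C.π p θ₁)
        (fun i _ => hy.nonneg i θ₁) (Finset.mem_univ ps))
    obtain ⟨Kc, hKc⟩ : ∃ K : Finset ℤ, K = (Finset.univ.filter (fun p => C.GP H κ p θ₁)).image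
      (fun p => bbin C.ρ 1 (C.tgt p θ₁)) := ⟨_, rfl⟩
    have hcount : (Kc.card : ℝ) * C.ρ ^ (σ + κ) ≤ 1 := by
      rw [hKc]
      exact rt_count C θ₁ (fun p => C.GP H κ p θ₁) (C.ρ ^ (σ + κ)) hpw hy.nonneg hla
        fun p hp => hy.tgt_lo p θ₁ hp.1
    have hδ : (0 : ℝ) < (2 : ℝ)⁻¹ ^ (tlev C.ρ 1) := by positivity
    have hδρ : (2 : ℝ)⁻¹ ^ (tlev C.ρ 1) ≤ C.ρ := by
      have := (rt_cell C.ρ 1 0 hρ hy.ρlt one_pos).2.1
      rwa [Real.rpow_one] at this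
    obtain ⟨cov, hcard, hcov⟩ := rt_cover
      {t | ∃ x, (x, θ₁) ∈ C.tG H κ θ₀ p₀ ∧ t = RW.kfProj (C.tSl θ₀ θ₁) (C.tPt θ₀ x)} Kc
      ((2 : ℝ)⁻¹ ^ (tlev C.ρ 1)) C.ρ (A * C.ρ) (C.tr θ₀ θ₁ (C.slc p₀ θ₀)) hδ hδρ (by positivity) (by
        rintro t ⟨x, hx, rfl⟩
        unfold ChainData.tG at hx
        rw [Finset.mem_filter] at hx
        obtain ⟨-, -, hs, hg⟩ := hx
        simp only at hs hg
        refine ⟨bbin C.ρ 1 (C.tgt x θ₁), ?_, ?_, ?_⟩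
        · rw [hKc]
          exact Finset.mem_image.2 ⟨x, Finset.mem_filter.2 ⟨Finset.mem_univ _, hg⟩, rfl⟩
        · have hc := (rt_cell C.ρ 1 (C.tgt x θ₁) hρ hy.ρlt one_pos).2.2.1
          have hr := (abs_le.1 (hy.rel x θ₀ θ₁)).2
          rw [hs] at hr
          simp only [RW.kfProj, ChainData.tSl, ChainData.tPt]
          linarith
        · have hc := (rt_cell C.ρ 1 (C.tgt x θ₁) hρ hy.ρlt one_pos).2.2.2
          have hr := (abs_le.1 (hy.rel x θ₀ θ₁)).1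
          rw [hs] at hr
          simp only [RW.kfProj, ChainData.tSl, ChainData.tPt]
          linarith)
    refine ⟨cov, ?_, hcov⟩
    have e1 : 2 * (A * C.ρ) / C.ρ = 2 * A := by field_simp
    rw [e1] at hcard
    have h1 : (cov.card : ℝ) ≤ (Kc.card : ℝ) * ((2 + ⌈2 * A⌉₊ : ℕ) : ℝ) := by exact_mod_cast hcard
    have h2 : (Kc.card : ℝ) ≤ C.ρ ^ (-(σ + κ)) := by
      rw [Real.rpow_neg hρ.le, ← one_div, le_div_iff₀ hpw]
      exact hcount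
    calc (cov.card : ℝ) ≤ (Kc.card : ℝ) * ((2 + ⌈2 * A⌉₊ : ℕ) : ℝ) := h1
      _ ≤ C.ρ ^ (-(σ + κ)) * ((2 + ⌈2 * A⌉₊ : ℕ) : ℝ) := mul_le_mul_of_nonneg_right h2 (Nat.cast_nonneg _)
      _ = _ := mul_comm _ _
  · refine ⟨∅, ?_, ?_⟩
    · rw [Finset.card_empty, Nat.cast_zero]
      have := Real.rpow_pos_of_pos hρ (-(σ + κ))
      positivity
    · rintro t ⟨x, hx, -⟩
      unfold ChainData.tG at hx
      rw [Finset.mem_filter] at hx
      exact absurd ⟨x, hx.2.2.2⟩ hex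

end Claimed.Agent.R255

/-! ################ former file Rate/ChainD.lean ################ -/
/-!
# Row 255, Sec. 7.3, `rt_chain`: LEAF rt-D (the three populations: total mass, Frostman conditions).  Paper-free.   Architect helper163.
-/

set_option autoImplicit false

namespace Claimed.Agent.R255

open scoped BigOperators
open Classical Finset

/-- `ms` with an arbitrary decidability instance -/
theorem rt_ms_eq (C : ChainData) (θ : C.Lb) (S : C.Pt → Prop) [DecidablePred S] :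
    C.ms θ S = ∑ p, if S p then C.π p θ else 0 := by
  unfold ChainData.ms
  refine Finset.sum_congr rfl fun p _ => ?_
  split_ifs <;> rfl

/-- `la θ > 0` at a good pair -/
theorem rt_la_pos (C : ChainData) (H : C.Pt → C.Lb → Prop) (A a0 β γ σ κ mH : ℝ) (N : ℕ)
    (hy : C.Hyp H A a0 β γ σ κ mH N) (p : C.Pt) (θ : C.Lb) (h : C.GP H κ p θ) : 0 < C.la θ ∧ 0 < C.mu p := by
  have h1 : 0 < C.π p θ := hy.hpos p θ h.1
  constructor
  · exact lt_of_lt_of_le h1 (Finset.single_le_sum (f := fun p => C.π p θ) (fun i _ => hy.nonneg i θ) (Finset.mem_univ p))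
  · exact lt_of_lt_of_le h1 (Finset.single_le_sum (f := fun θ => C.π p θ) (fun i _ => hy.nonneg p i) (Finset.mem_univ θ))

theorem rt_la_nonneg (C : ChainData) (h0 : ∀ p θ, 0 ≤ C.π p θ) (θ : C.Lb) : 0 ≤ C.la θ :=
  Finset.sum_nonneg fun p _ => h0 p θ

theorem rt_mu_nonneg (C : ChainData) (h0 : ∀ p θ, 0 ≤ C.π p θ) (p : C.Pt) : 0 ≤ C.mu p :=
  Finset.sum_nonneg fun θ _ => h0 p θ

/-- on `GP`: `mu p ≤ ρ^(-κ) π p θ / la θ` -/
theorem rt_gp_mu_le (C : ChainData) (H : C.Pt → C.Lb → Prop) (A a0 β γ σ κ mH : ℝ) (N : ℕ)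
    (hy : C.Hyp H A a0 β γ σ κ mH N) (p : C.Pt) (θ : C.Lb) (h : C.GP H κ p θ) :
    C.mu p ≤ C.π p θ * (C.ρ ^ (-κ) / C.la θ) := by
  have hla := (rt_la_pos C H A a0 β γ σ κ mH N hy p θ h).1
  have hρ : 0 < C.ρ ^ κ := Real.rpow_pos_of_pos hy.ρpos _
  have h2 := h.2.1
  rw [Real.rpow_neg hy.ρpos.le, ← mul_div_assoc, le_div_iff₀ hla, ← div_eq_mul_inv, le_div_iff₀ hρ]
  calc C.mu p * C.la θ * C.ρ ^ κ = C.ρ ^ κ * (C.mu p * C.la θ) := by ring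
    _ ≤ _ := h2

/-- the point population is a subprobability.  On `GP`: `mu p ≤ ρ^(-κ) π p θ₀ / la θ₀`; sum over the slice: `≤ ρ^(-κ) ms θ₀ (slice) / la θ₀ ≤ ρ^(-κ) ρ^(a0-κ)` (`slc_up` at `p₀`). -/
theorem rt_mu_sum (C : ChainData) (H : C.Pt → C.Lb → Prop) (A a0 β γ σ κ mH : ℝ) (N : ℕ)
    (hy : C.Hyp H A a0 β γ σ κ mH N) (θ₀ : C.Lb) (p₀ : C.Pt) (hp : C.GP H κ p₀ θ₀) :
    (∀ p, 0 ≤ C.tMu H κ a0 θ₀ p₀ p) ∧ ∑ p, C.tMu H κ a0 θ₀ p₀ p ≤ 1 := by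
  have hla := (rt_la_pos C H A a0 β γ σ κ mH N hy p₀ θ₀ hp).1
  have hR : 0 < C.ρ ^ (a0 - 2 * κ) := Real.rpow_pos_of_pos hy.ρpos _
  have hk : 0 < C.ρ ^ (-κ) := Real.rpow_pos_of_pos hy.ρpos _
  have hk2 : 0 < C.ρ ^ (a0 - κ) := Real.rpow_pos_of_pos hy.ρpos _
  constructor
  · intro p
    unfold ChainData.tMu
    split_ifs
    · exact div_nonneg (rt_mu_nonneg C hy.nonneg p) hR.le
    · exact le_rfl
  · have hterm : ∀ p, C.tMu H κ a0 θ₀ p₀ p ≤ (if C.slc p θ₀ = C.slc p₀ θ₀ then C.π p θ₀ else 0)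
        * (C.ρ ^ (-κ) / C.la θ₀ / C.ρ ^ (a0 - 2 * κ)) := by
      intro p
      unfold ChainData.tMu
      by_cases h1 : C.GP H κ p θ₀ ∧ C.slc p θ₀ = C.slc p₀ θ₀
      · rw [if_pos h1, if_pos h1.2, ← mul_div_assoc]
        exact div_le_div_of_nonneg_right (rt_gp_mu_le C H A a0 β γ σ κ mH N hy p θ₀ h1.1) hR.le
      · rw [if_neg h1]
        refine mul_nonneg ?_ (by positivity)
        split_ifs
        · exact hy.nonneg p θ₀
        · exact le_rfl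
    calc ∑ p, C.tMu H κ a0 θ₀ p₀ p
        ≤ ∑ p, (if C.slc p θ₀ = C.slc p₀ θ₀ then C.π p θ₀ else 0)
          * (C.ρ ^ (-κ) / C.la θ₀ / C.ρ ^ (a0 - 2 * κ)) := Finset.sum_le_sum fun p _ => hterm p
      _ = C.ms θ₀ (fun p' => C.slc p' θ₀ = C.slc p₀ θ₀) * (C.ρ ^ (-κ) / C.la θ₀ / C.ρ ^ (a0 - 2 * κ)) := by
          rw [rt_ms_eq, Finset.sum_mul]
      _ ≤ C.ρ ^ (a0 - κ) * C.la θ₀ * (C.ρ ^ (-κ) / C.la θ₀ / C.ρ ^ (a0 - 2 * κ)) :=
          mul_le_mul_of_nonneg_right (hy.slc_up p₀ θ₀ hp.1) (by positivity)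
      _ = 1 := by
          have e : C.ρ ^ (a0 - 2 * κ) = C.ρ ^ (a0 - κ) * C.ρ ^ (-κ) := by
            rw [← Real.rpow_add hy.ρpos]
            congr 1
            ring
          rw [e]
          field_simp

/-- the tag population -/
theorem rt_nu_sum (C : ChainData) (H : C.Pt → C.Lb → Prop) (A a0 β γ σ κ mH : ℝ) (N : ℕ)
    (hy : C.Hyp H A a0 β γ σ κ mH N) : (∀ θ, 0 ≤ C.tNu H κ θ) ∧ ∑ θ, C.tNu H κ θ ≤ 1 := by
  have h0 : ∀ θ, 0 ≤ C.tNu H κ θ := by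
    intro θ
    unfold ChainData.tNu
    split_ifs
    · exact rt_la_nonneg C hy.nonneg θ
    · exact le_rfl
  refine ⟨h0, ?_⟩
  calc ∑ θ, C.tNu H κ θ ≤ ∑ θ, C.la θ := by
        refine Finset.sum_le_sum fun θ _ => ?_
        unfold ChainData.tNu
        split_ifs
        · exact le_rfl
        · exact rt_la_nonneg C hy.nonneg θ
    _ = 1 := by
        unfold ChainData.la
        rw [Finset.sum_comm]
        exact hy.sum_one

/-- Frostman condition of the slopes.  `rt_frost_mesh` with `pos = par`, `Cc = ρ^(-κ)`, `e = γ`: a cell of depth `d` either contains no tag with a good pair (sum `0`) or one, and then `par_up`; then `rt_frost_affine`. -/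
theorem rt_nu_frost (C : ChainData) (H : C.Pt → C.Lb → Prop) (A a0 β γ σ κ mH : ℝ) (N : ℕ) (hN : 0 < N) (hγ : 0 ≤ γ)
    (hy : C.Hyp H A a0 β γ σ κ mH N) (θ₀ : C.Lb) :
    RW.KfFrost (C.tNu H κ) (C.tSl θ₀) (6 * C.ρ ^ (-κ) * C.ρ ^ (-(γ / N))) γ C.ρ := by
  have hnu := rt_nu_sum C H A a0 β γ σ κ mH N hy
  have hk : 0 < C.ρ ^ (-κ) := Real.rpow_pos_of_pos hy.ρpos _
  refine rt_frost_affine (C.tNu H κ) C.par _ γ C.ρ (C.par θ₀) ?_
  refine rt_frost_mesh (C.tNu H κ) C.par hnu.1 C.ρ (C.ρ ^ (-κ)) γ N hN hy.ρpos hy.ρlt hγ hk.le ?_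
  intro d hd k
  by_cases hex : ∃ θ, bbin C.ρ d (C.par θ) = k ∧ ∃ p, C.GP H κ p θ
  · obtain ⟨θs, hθs, p, hp⟩ := hex
    have h1 := hy.par_up p θs hp.1 d hd
    calc (∑ θ, if bbin C.ρ d (C.par θ) = k then C.tNu H κ θ else 0)
        ≤ ∑ θ', if bbin C.ρ d (C.par θ') = bbin C.ρ d (C.par θs) then C.la θ' else 0 := by
          refine Finset.sum_le_sum fun θ _ => ?_
          rw [hθs]
          by_cases h2 : bbin C.ρ d (C.par θ) = k
          · rw [if_pos h2, if_pos h2]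
            unfold ChainData.tNu
            split_ifs
            · exact le_rfl
            · exact rt_la_nonneg C hy.nonneg θ
          · rw [if_neg h2, if_neg h2]
      _ ≤ C.ρ ^ (γ * d - κ) := h1
      _ = C.ρ ^ (-κ) * C.ρ ^ (γ * d) := by
          rw [← Real.rpow_add hy.ρpos]
          congr 1
          ring
  · have hz : (∑ θ, if bbin C.ρ d (C.par θ) = k then C.tNu H κ θ else 0) = 0 := by
      refine Finset.sum_eq_zero fun θ _ => ?_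
      by_cases h2 : bbin C.ρ d (C.par θ) = k
      · rw [if_pos h2]
        unfold ChainData.tNu
        rw [if_neg fun h3 => hex ⟨θ, h2, h3⟩]
      · rw [if_neg h2]
    rw [hz]
    have := Real.rpow_pos_of_pos hy.ρpos (γ * d)
    positivity

/-- Frostman condition of the reference law.  `rt_frost_mesh` with `pos = src · θ₀`, `Cc = 1`, `e = β`: if the cell `k` of depth `d` carries `tLam`-mass, it contains a point whose finest cell contains a good point `p'` of the slice;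
by `rt_nested` `bbin ρ d (src p' θ₀) = k`, and `src_up` at `p'` bounds the whole `(slice, cell)` mass by `ρ^(a0 + β d - κ) la θ₀`. -/
theorem rt_lam_frost (C : ChainData) (H : C.Pt → C.Lb → Prop) (A a0 β γ σ κ mH : ℝ) (N : ℕ) (hN : 0 < N) (hβ : 0 ≤ β)
    (hy : C.Hyp H A a0 β γ σ κ mH N) (θ₀ : C.Lb) (p₀ : C.Pt) (hp : C.GP H κ p₀ θ₀) :
    (∀ p, 0 ≤ C.tLam H κ a0 θ₀ p₀ p) ∧
      RW.KfFrost (C.tLam H κ a0 θ₀ p₀) (fun p => C.src p θ₀) (6 * 1 * C.ρ ^ (-(β / N))) β C.ρ := by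
  have hla := (rt_la_pos C H A a0 β γ σ κ mH N hy p₀ θ₀ hp).1
  have hk2 : 0 < C.ρ ^ (a0 - κ) := Real.rpow_pos_of_pos hy.ρpos _
  have h0 : ∀ p, 0 ≤ C.tLam H κ a0 θ₀ p₀ p := by
    intro p
    unfold ChainData.tLam
    split_ifs
    · exact div_nonneg (hy.nonneg p θ₀) (by positivity)
    · exact le_rfl
  refine ⟨h0, ?_⟩
  refine rt_frost_mesh (C.tLam H κ a0 θ₀ p₀) (fun p => C.src p θ₀) h0 C.ρ 1 β N hN hy.ρpos hy.ρlt hβ zero_le_one ?_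
  intro d hd k
  have hd1 : d ≤ 1 := by
    obtain ⟨j, hj, rfl⟩ := hd
    have hNr : (0 : ℝ) < N := by exact_mod_cast hN
    rw [div_le_one hNr]
    exact_mod_cast hj
  by_cases hex : ∃ p, bbin C.ρ d (C.src p θ₀) = k ∧ (C.slc p θ₀ = C.slc p₀ θ₀ ∧ (∃ p', C.GP H κ p' θ₀ ∧
      C.slc p' θ₀ = C.slc p₀ θ₀ ∧ bbin C.ρ 1 (C.src p' θ₀) = bbin C.ρ 1 (C.src p θ₀)))
  · obtain ⟨p, hpk, -, p', hp', hs', hb'⟩ := hex
    have hk' : bbin C.ρ d (C.src p' θ₀) = k := by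
      rw [← hpk]
      exact rt_nested C.ρ d 1 _ _ hy.ρpos hy.ρlt hd1 hb'
    have h1 := hy.src_up p' θ₀ hp'.1 d hd
    rw [rt_ms_eq, hs', hk'] at h1
    calc (∑ p, if bbin C.ρ d (C.src p θ₀) = k then C.tLam H κ a0 θ₀ p₀ p else 0)
        ≤ ∑ p, (if C.slc p θ₀ = C.slc p₀ θ₀ ∧ bbin C.ρ d (C.src p θ₀) = k then C.π p θ₀ else 0)
            / (C.ρ ^ (a0 - κ) * C.la θ₀) := by
          refine Finset.sum_le_sum fun q _ => ?_
          by_cases h2 : bbin C.ρ d (C.src q θ₀) = k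
          · rw [if_pos h2]
            unfold ChainData.tLam
            by_cases h3 : C.slc q θ₀ = C.slc p₀ θ₀
            · rw [if_pos (⟨h3, h2⟩ : C.slc q θ₀ = C.slc p₀ θ₀ ∧ bbin C.ρ d (C.src q θ₀) = k)]
              split_ifs
              · exact le_rfl
              · exact div_nonneg (hy.nonneg q θ₀) (by positivity)
            · rw [if_neg fun h4 => h3 h4.1, if_neg fun h4 => h3 h4.1, zero_div]
          · rw [if_neg h2, if_neg fun h4 => h2 h4.2, zero_div]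
      _ = (∑ p, if C.slc p θ₀ = C.slc p₀ θ₀ ∧ bbin C.ρ d (C.src p θ₀) = k then C.π p θ₀ else 0)
            / (C.ρ ^ (a0 - κ) * C.la θ₀) := by rw [Finset.sum_div]
      _ ≤ C.ρ ^ (a0 + β * d - κ) * C.la θ₀ / (C.ρ ^ (a0 - κ) * C.la θ₀) :=
          div_le_div_of_nonneg_right h1 (by positivity)
      _ = 1 * C.ρ ^ (β * d) := by
          have e : C.ρ ^ (a0 + β * d - κ) = C.ρ ^ (a0 - κ) * C.ρ ^ (β * d) := by
            rw [← Real.rpow_add hy.ρpos]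
            congr 1
            ring
          rw [e]
          field_simp
  · have hz : (∑ p, if bbin C.ρ d (C.src p θ₀) = k then C.tLam H κ a0 θ₀ p₀ p else 0) = 0 := by
      refine Finset.sum_eq_zero fun q _ => ?_
      by_cases h2 : bbin C.ρ d (C.src q θ₀) = k
      · rw [if_pos h2]
        unfold ChainData.tLam
        rw [if_neg fun h3 => hex ⟨q, h2, h3⟩]
      · rw [if_neg h2]
    rw [hz]
    have := Real.rpow_pos_of_pos hy.ρpos (β * d)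
    positivity

end Claimed.Agent.R255

/-! ################ former file Rate/ChainE.lean ################ -/
/-!
# Row 255, Sec. 7.3, `rt_chain`: LEAF rt-E (the fibre hypothesis `hU` of `RW.ex_W1`).  Paper-free.   Architect helper163.
-/

set_option autoImplicit false

namespace Claimed.Agent.R255

open scoped BigOperators
open Classical Finset

theorem rt_lam_nonneg (C : ChainData) (H : C.Pt → C.Lb → Prop) (κ a0 : ℝ) (h0 : ∀ p θ, 0 ≤ C.π p θ) (hρ : 0 < C.ρ)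
    (θ₀ : C.Lb) (p₀ p : C.Pt) : 0 ≤ C.tLam H κ a0 θ₀ p₀ p := by
  unfold ChainData.tLam
  split_ifs
  · exact div_nonneg (h0 p θ₀) (mul_nonneg (Real.rpow_pos_of_pos hρ _).le (rt_la_nonneg C h0 θ₀))
  · exact le_rfl

/-- one cell: if `p*` is a good point of the slice, the `tMu`-mass of its finest `(src,tgt)` cell is `≤ ρ^(σ-κ)` times the `tLam`-mass of its finest `src` cell.
On `GP`: `mu p ≤ ρ^(-κ) π p θ₀ / la θ₀`; `tgt_up` at `p*`; all slice points of the `src` cell of `p*` carry `tLam = π/(ρ^(a0-κ) la θ₀)`;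
`ρ^(-κ) ρ^(σ-κ) / ρ^(a0-2κ) = ρ^(σ-κ) / ρ^(a0-κ)`. -/
theorem rt_hU_cell (C : ChainData) (H : C.Pt → C.Lb → Prop) (A a0 β γ σ κ mH : ℝ) (N : ℕ)
    (hy : C.Hyp H A a0 β γ σ κ mH N) (θ₀ : C.Lb) (p₀ ps : C.Pt) (hp : C.GP H κ ps θ₀)
    (hs : C.slc ps θ₀ = C.slc p₀ θ₀) :
    (∑ p, if bbin C.ρ 1 (C.src p θ₀) = bbin C.ρ 1 (C.src ps θ₀) ∧ bbin C.ρ 1 (C.tgt p θ₀) = bbin C.ρ 1 (C.tgt ps θ₀)
        then C.tMu H κ a0 θ₀ p₀ p else 0)
      ≤ C.ρ ^ (σ - κ) * ∑ p, if bbin C.ρ 1 (C.src p θ₀) = bbin C.ρ 1 (C.src ps θ₀) then C.tLam H κ a0 θ₀ p₀ p else 0 := by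
  have hla := (rt_la_pos C H A a0 β γ σ κ mH N hy ps θ₀ hp).1
  have hR : 0 < C.ρ ^ (a0 - 2 * κ) := Real.rpow_pos_of_pos hy.ρpos _
  have hk : 0 < C.ρ ^ (-κ) := Real.rpow_pos_of_pos hy.ρpos _
  have hk2 : 0 < C.ρ ^ (a0 - κ) := Real.rpow_pos_of_pos hy.ρpos _
  have hk3 : 0 < C.ρ ^ (σ - κ) := Real.rpow_pos_of_pos hy.ρpos _
  have hup := hy.tgt_up ps θ₀ hp.1
  rw [rt_ms_eq, rt_ms_eq] at hup
  have h1 : (∑ p, if bbin C.ρ 1 (C.src p θ₀) = bbin C.ρ 1 (C.src ps θ₀) ∧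
        bbin C.ρ 1 (C.tgt p θ₀) = bbin C.ρ 1 (C.tgt ps θ₀) then C.tMu H κ a0 θ₀ p₀ p else 0)
      ≤ (∑ p, if C.slc p θ₀ = C.slc ps θ₀ ∧ bbin C.ρ 1 (C.src p θ₀) = bbin C.ρ 1 (C.src ps θ₀) ∧
        bbin C.ρ 1 (C.tgt p θ₀) = bbin C.ρ 1 (C.tgt ps θ₀) then C.π p θ₀ else 0)
        * (C.ρ ^ (-κ) / C.la θ₀ / C.ρ ^ (a0 - 2 * κ)) := by
    rw [Finset.sum_mul]
    refine Finset.sum_le_sum fun p _ => ?_
    have hnn : 0 ≤ (if C.slc p θ₀ = C.slc ps θ₀ ∧ bbin C.ρ 1 (C.src p θ₀) = bbin C.ρ 1 (C.src ps θ₀) ∧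
        bbin C.ρ 1 (C.tgt p θ₀) = bbin C.ρ 1 (C.tgt ps θ₀) then C.π p θ₀ else 0)
        * (C.ρ ^ (-κ) / C.la θ₀ / C.ρ ^ (a0 - 2 * κ)) := by
      refine mul_nonneg ?_ (by positivity)
      split_ifs
      · exact hy.nonneg p θ₀
      · exact le_rfl
    by_cases hc : bbin C.ρ 1 (C.src p θ₀) = bbin C.ρ 1 (C.src ps θ₀) ∧
        bbin C.ρ 1 (C.tgt p θ₀) = bbin C.ρ 1 (C.tgt ps θ₀)
    · rw [if_pos hc]
      by_cases hg : C.GP H κ p θ₀ ∧ C.slc p θ₀ = C.slc p₀ θ₀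
      · rw [if_pos (⟨hg.2.trans hs.symm, hc⟩ : C.slc p θ₀ = C.slc ps θ₀ ∧ _)]
        unfold ChainData.tMu
        rw [if_pos hg, ← mul_div_assoc]
        exact div_le_div_of_nonneg_right (rt_gp_mu_le C H A a0 β γ σ κ mH N hy p θ₀ hg.1) hR.le
      · have : C.tMu H κ a0 θ₀ p₀ p = 0 := by
          unfold ChainData.tMu
          rw [if_neg hg]
        rw [this]
        exact hnn
    · rw [if_neg hc]
      exact hnn
  have h2 : (∑ p, if C.slc p θ₀ = C.slc ps θ₀ ∧ bbin C.ρ 1 (C.src p θ₀) = bbin C.ρ 1 (C.src ps θ₀)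
        then C.π p θ₀ else 0) / (C.ρ ^ (a0 - κ) * C.la θ₀)
      ≤ ∑ p, if bbin C.ρ 1 (C.src p θ₀) = bbin C.ρ 1 (C.src ps θ₀) then C.tLam H κ a0 θ₀ p₀ p else 0 := by
    rw [Finset.sum_div]
    refine Finset.sum_le_sum fun p _ => ?_
    by_cases hc : C.slc p θ₀ = C.slc ps θ₀ ∧ bbin C.ρ 1 (C.src p θ₀) = bbin C.ρ 1 (C.src ps θ₀)
    · rw [if_pos hc, if_pos hc.2]
      unfold ChainData.tLam
      rw [if_pos ⟨hc.1.trans hs, ps, hp, hs, hc.2.symm⟩]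
    · rw [if_neg hc, zero_div]
      split_ifs
      · exact rt_lam_nonneg C H κ a0 hy.nonneg hy.ρpos θ₀ p₀ p
      · exact le_rfl
  have e : C.ρ ^ (-κ) / C.la θ₀ / C.ρ ^ (a0 - 2 * κ) = 1 / (C.ρ ^ (a0 - κ) * C.la θ₀) := by
    have e' : C.ρ ^ (a0 - 2 * κ) = C.ρ ^ (a0 - κ) * C.ρ ^ (-κ) := by
      rw [← Real.rpow_add hy.ρpos]
      congr 1
      ring
    rw [e']
    field_simp
  refine h1.trans ?_
  rw [e]
  refine le_trans (mul_le_mul_of_nonneg_right hup (by positivity)) ?_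
  rw [mul_assoc, mul_one_div]
  exact mul_le_mul_of_nonneg_left h2 hk3.le

/-- the hypothesis `hU`.  Group the points of the square by their finest cells `(k₁,k₂)`; `k₂` takes `≤ 5` values (`rt_five`, `d = 1`, `r = ρ`); `rt_hU_cell`; the `src` cells `k₁` are disjoint and lie in `|src - z.1| ≤ 2ρ` (`rt_cell`). -/
theorem rt_hU (C : ChainData) (H : C.Pt → C.Lb → Prop) (A a0 β γ σ κ mH : ℝ) (N : ℕ)
    (hy : C.Hyp H A a0 β γ σ κ mH N) (θ₀ : C.Lb) (p₀ : C.Pt) (hp : C.GP H κ p₀ θ₀) (z : ℝ × ℝ) :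
    ∑ x with dist (C.tPt θ₀ x) z ≤ C.ρ, C.tMu H κ a0 θ₀ p₀ x
      ≤ 5 * C.ρ ^ (σ - κ) * ∑ j with dist (C.src j θ₀) z.1 ≤ 2 * C.ρ, C.tLam H κ a0 θ₀ p₀ j := by
  have hρ := hy.ρpos
  have hk3 : 0 < C.ρ ^ (σ - κ) := Real.rpow_pos_of_pos hρ _
  have hmu0 := (rt_mu_sum C H A a0 β γ σ κ mH N hy θ₀ p₀ hp).1
  have hlam0 := rt_lam_nonneg C H κ a0 hy.nonneg hρ θ₀ p₀
  obtain ⟨K₂, hK5, hK₂⟩ := rt_five C.ρ 1 z.2 C.ρ hρ hy.ρlt one_pos (by rw [Real.rpow_one])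
  -- the good points of the square
  obtain ⟨s, hs⟩ : ∃ s : Finset C.Pt, s = Finset.univ.filter (fun x => dist (C.tPt θ₀ x) z ≤ C.ρ ∧
      (C.GP H κ x θ₀ ∧ C.slc x θ₀ = C.slc p₀ θ₀)) := ⟨_, rfl⟩
  have hmem : ∀ x, x ∈ s ↔ dist (C.tPt θ₀ x) z ≤ C.ρ ∧ (C.GP H κ x θ₀ ∧ C.slc x θ₀ = C.slc p₀ θ₀) := by
    intro x
    rw [hs, Finset.mem_filter]
    simp
  have hsq : ∀ x, dist (C.tPt θ₀ x) z ≤ C.ρ → |C.src x θ₀ - z.1| ≤ C.ρ ∧ |C.tgt x θ₀ - z.2| ≤ C.ρ := by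
    intro x hx
    rw [Prod.dist_eq, max_le_iff, Real.dist_eq, Real.dist_eq] at hx
    exact hx
  have e1 : ∑ x with dist (C.tPt θ₀ x) z ≤ C.ρ, C.tMu H κ a0 θ₀ p₀ x = ∑ x ∈ s, C.tMu H κ a0 θ₀ p₀ x := by
    symm
    refine Finset.sum_subset ?_ ?_
    · intro x hx
      exact Finset.mem_filter.2 ⟨Finset.mem_univ _, ((hmem x).1 hx).1⟩
    · intro x hx hxs
      unfold ChainData.tMu
      rw [if_neg fun hg => hxs ((hmem x).2 ⟨(Finset.mem_filter.1 hx).2, hg⟩)]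
  obtain ⟨K₁, hK₁⟩ : ∃ K₁ : Finset ℤ, K₁ = s.image (fun x => bbin C.ρ 1 (C.src x θ₀)) := ⟨_, rfl⟩
  obtain ⟨T, hT⟩ : ∃ T : ℤ → ℝ, ∀ k, T k = ∑ p, if bbin C.ρ 1 (C.src p θ₀) = k then C.tLam H κ a0 θ₀ p₀ p else 0 :=
    ⟨_, fun _ => rfl⟩
  have hT0 : ∀ k, 0 ≤ T k := by
    intro k
    rw [hT]
    refine Finset.sum_nonneg fun p _ => ?_
    split_ifs
    · exact hlam0 p
    · exact le_rfl
  have hmaps : ∀ x ∈ s, ((bbin C.ρ 1 (C.src x θ₀), bbin C.ρ 1 (C.tgt x θ₀)) : ℤ × ℤ) ∈ K₁ ×ˢ K₂ := by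
    intro x hx
    refine Finset.mem_product.2 ⟨?_, hK₂ _ (hsq x ((hmem x).1 hx).1).2⟩
    rw [hK₁]
    exact Finset.mem_image_of_mem _ hx
  have hfib : ∀ cc ∈ K₁ ×ˢ K₂, ∑ x ∈ s with ((bbin C.ρ 1 (C.src x θ₀), bbin C.ρ 1 (C.tgt x θ₀)) : ℤ × ℤ) = cc,
      C.tMu H κ a0 θ₀ p₀ x ≤ C.ρ ^ (σ - κ) * T cc.1 := by
    intro cc _
    by_cases hex : ∃ x ∈ s, ((bbin C.ρ 1 (C.src x θ₀), bbin C.ρ 1 (C.tgt x θ₀)) : ℤ × ℤ) = cc
    · obtain ⟨xs, hxs, rfl⟩ := hex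
      have hg := ((hmem xs).1 hxs).2
      refine le_trans ?_ ((rt_hU_cell C H A a0 β γ σ κ mH N hy θ₀ p₀ xs hg.1 hg.2).trans (le_of_eq ?_))
      · rw [Finset.sum_filter]
        refine (Finset.sum_le_sum_of_subset_of_nonneg (Finset.subset_univ s) ?_).trans (le_of_eq ?_)
        · intro x _ _
          split_ifs
          · exact hmu0 x
          · exact le_rfl
        · refine Finset.sum_congr rfl fun x _ => ?_
          simp only [Prod.mk.injEq]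
      · rw [hT]
    · rw [Finset.sum_eq_zero]
      · exact mul_nonneg hk3.le (hT0 _)
      · intro x hx
        exact absurd ⟨x, (Finset.mem_filter.1 hx).1, (Finset.mem_filter.1 hx).2⟩ hex
  have h3 : ∑ k ∈ K₁, T k ≤ ∑ j with dist (C.src j θ₀) z.1 ≤ 2 * C.ρ, C.tLam H κ a0 θ₀ p₀ j := by
    simp only [hT]
    rw [Finset.sum_comm, Finset.sum_filter]
    refine Finset.sum_le_sum fun p _ => ?_
    rw [Finset.sum_ite_eq]
    by_cases hk : bbin C.ρ 1 (C.src p θ₀) ∈ K₁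
    · rw [if_pos hk]
      rw [hK₁, Finset.mem_image] at hk
      obtain ⟨x, hx, hxp⟩ := hk
      have hx1 := (hsq x ((hmem x).1 hx).1).1
      have c1 := rt_cell C.ρ 1 (C.src x θ₀) hρ hy.ρlt one_pos
      have c2 := rt_cell C.ρ 1 (C.src p θ₀) hρ hy.ρlt one_pos
      rw [Real.rpow_one] at c1
      rw [hxp] at c1
      have hd : dist (C.src p θ₀) z.1 ≤ 2 * C.ρ := by
        rw [Real.dist_eq, abs_le]
        have := abs_le.1 hx1
        constructor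
        · nlinarith [c1.2.1, c1.2.2.1, c1.2.2.2, c2.2.2.1, c2.2.2.2, this.1, this.2]
        · nlinarith [c1.2.1, c1.2.2.1, c1.2.2.2, c2.2.2.1, c2.2.2.2, this.1, this.2]
      rw [if_pos hd]
    · rw [if_neg hk]
      split_ifs
      · exact hlam0 p
      · exact le_rfl
  rw [e1, ← Finset.sum_fiberwise_of_maps_to hmaps]
  calc ∑ cc ∈ K₁ ×ˢ K₂, ∑ x ∈ s with ((bbin C.ρ 1 (C.src x θ₀), bbin C.ρ 1 (C.tgt x θ₀)) : ℤ × ℤ) = cc,
        C.tMu H κ a0 θ₀ p₀ x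
      ≤ ∑ cc ∈ K₁ ×ˢ K₂, C.ρ ^ (σ - κ) * T cc.1 := Finset.sum_le_sum hfib
    _ = (K₂.card : ℝ) * (C.ρ ^ (σ - κ) * ∑ k ∈ K₁, T k) := by
        rw [Finset.sum_product]
        simp only [Finset.sum_const, nsmul_eq_mul]
        rw [← Finset.mul_sum, ← Finset.mul_sum]
    _ ≤ 5 * (C.ρ ^ (σ - κ) * ∑ k ∈ K₁, T k) := by
        refine mul_le_mul_of_nonneg_right (by exact_mod_cast hK5) ?_
        exact mul_nonneg hk3.le (Finset.sum_nonneg fun k _ => hT0 k)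
    _ ≤ 5 * (C.ρ ^ (σ - κ) * ∑ j with dist (C.src j θ₀) z.1 ≤ 2 * C.ρ, C.tLam H κ a0 θ₀ p₀ j) := by
        refine mul_le_mul_of_nonneg_left (mul_le_mul_of_nonneg_left h3 hk3.le) (by norm_num)
    _ = _ := by ring

end Claimed.Agent.R255

/-! ################ former file Rate/ChainTop.lean ################ -/
/-!
# Row 255, Sec. 7.3: `rt_chain` = the abstract projection test, GLUE.   Architect helper163.
-/

set_option autoImplicit false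

namespace Claimed.Agent.R255

open scoped BigOperators
open Classical Finset

/-- choice of the first label and of the slice; mass of the graph -/
theorem rt_graph (C : ChainData) (H : C.Pt → C.Lb → Prop) (A a0 β γ σ κ mH : ℝ) (N : ℕ) (hm : 0 < mH)
    (hsmall : C.ρ ^ κ ≤ mH / 4) (hy : C.Hyp H A a0 β γ σ κ mH N) :
    ∃ (θ₀ : C.Lb) (p₀ : C.Pt), C.GP H κ p₀ θ₀ ∧
      C.ρ ^ (5 * κ) * (mH / 2) ^ 2 ≤ ∑ q ∈ C.tG H κ θ₀ p₀, C.tMu H κ a0 θ₀ p₀ q.1 * C.tNu H κ q.2 := by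
  have hρ := hy.ρpos
  have h1 := rt_gp_mass C H κ mH hy.nonneg hy.sum_one hρ hy.hH hy.hratio
  have h2 : mH / 2 ≤ C.pm (C.GP H κ) := by linarith
  obtain ⟨θ₀, h3⟩ := rt_star C (C.GP H κ) (C.ρ ^ (-κ)) (Real.rpow_pos_of_pos hρ _) hy.nonneg hy.sum_one
    (fun p θ h => h.2.2)
  have hmu0 : ∀ p, 0 ≤ C.mu p := fun p => Finset.sum_nonneg fun θ _ => hy.nonneg p θ
  have hla0 : ∀ θ, 0 ≤ C.la θ := fun θ => Finset.sum_nonneg fun p _ => hy.nonneg p θ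
  obtain ⟨f, hf⟩ : ∃ f : C.Pt → ℝ, f = fun p => ∑ θ₁, if C.GP H κ p θ₀ ∧ C.GP H κ p θ₁ then C.mu p * C.la θ₁ else 0 :=
    ⟨_, rfl⟩
  have hfa : ∀ p, f p = ∑ θ₁, if C.GP H κ p θ₀ ∧ C.GP H κ p θ₁ then C.mu p * C.la θ₁ else 0 := fun p => by rw [hf]
  have hf0 : ∀ p, 0 ≤ f p := by
    intro p
    rw [hfa]
    refine Finset.sum_nonneg fun θ _ => ?_
    split_ifs
    · exact mul_nonneg (hmu0 p) (hla0 θ)
    · exact le_rfl
  have hfz : ∀ p, ¬ C.GP H κ p θ₀ → f p = 0 := by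
    intro p hp
    rw [hfa]
    exact Finset.sum_eq_zero fun θ _ => if_neg fun h => hp h.1
  have h4 : (mH / 2) ^ 2 ≤ (C.ρ ^ (-κ)) ^ 2 * ∑ p, f p := by
    refine le_trans (pow_le_pow_left₀ (by positivity) h2 2) ?_
    simp_rw [hfa]
    exact h3
  have hK0 : 0 < (C.ρ ^ (-κ)) ^ 2 := by positivity
  have hpos : 0 < ∑ p, f p := by
    by_contra hcon
    push Not at hcon
    have h5 : (C.ρ ^ (-κ)) ^ 2 * ∑ p, f p ≤ 0 := mul_nonpos_of_nonneg_of_nonpos hK0.le hcon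
    have h6 : 0 < (mH / 2) ^ 2 := by positivity
    linarith
  obtain ⟨p1, -, hp1⟩ := Finset.exists_lt_of_sum_lt (s := Finset.univ) (f := fun _ : C.Pt => (0:ℝ)) (g := f)
    (by simpa using hpos)
  have hG1 : C.GP H κ p1 θ₀ := by
    by_contra hcon
    rw [hfz p1 hcon] at hp1
    exact lt_irrefl _ hp1
  have hla := (rt_la_pos C H A a0 β γ σ κ mH N hy p1 θ₀ hG1).1
  obtain ⟨p₀, hp₀, h5⟩ := rt_slice C θ₀ (fun p => C.GP H κ p θ₀) f (C.ρ ^ (a0 + κ)) (Real.rpow_pos_of_pos hρ _)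
    hy.nonneg hla hf0 hfz hpos (fun p hp => hy.slc_lo p θ₀ hp.1)
  refine ⟨θ₀, p₀, hp₀, ?_⟩
  have hR : 0 < C.ρ ^ (a0 - 2 * κ) := Real.rpow_pos_of_pos hρ _
  have e1 : ∑ q ∈ C.tG H κ θ₀ p₀, C.tMu H κ a0 θ₀ p₀ q.1 * C.tNu H κ q.2 =
      (∑ p, if C.slc p θ₀ = C.slc p₀ θ₀ then f p else 0) / C.ρ ^ (a0 - 2 * κ) := by
    unfold ChainData.tG
    rw [Finset.sum_filter, Fintype.sum_prod_type, Finset.sum_div]
    refine Finset.sum_congr rfl fun p _ => ?_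
    by_cases hs : C.slc p θ₀ = C.slc p₀ θ₀
    · rw [if_pos hs, hfa, Finset.sum_div]
      refine Finset.sum_congr rfl fun θ₁ _ => ?_
      by_cases hg : C.GP H κ p θ₀ ∧ C.GP H κ p θ₁
      · rw [if_pos hg, if_pos ⟨hg.1, hs, hg.2⟩]
        unfold ChainData.tMu ChainData.tNu
        rw [if_pos ⟨hg.1, hs⟩, if_pos ⟨p, hg.2⟩]
        ring
      · rw [if_neg hg, if_neg fun h => hg ⟨h.1, h.2.2⟩, zero_div]
    · rw [if_neg hs, zero_div]
      exact Finset.sum_eq_zero fun θ₁ _ => if_neg fun h => hs h.2.1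
  rw [e1, le_div_iff₀ hR]
  refine le_trans ?_ h5
  have e2 : C.ρ ^ (5 * κ) * (mH / 2) ^ 2 * C.ρ ^ (a0 - 2 * κ) =
      C.ρ ^ (a0 + κ) * ((C.ρ ^ κ) ^ 2 * (mH / 2) ^ 2) := by
    have e3 : C.ρ ^ (5 * κ) * C.ρ ^ (a0 - 2 * κ) = C.ρ ^ (a0 + κ) * (C.ρ ^ κ) ^ 2 := by
      rw [← Real.rpow_add hρ, ← Real.rpow_natCast, ← Real.rpow_mul hρ.le, ← Real.rpow_add hρ]
      congr 1
      push_cast
      ring
    calc C.ρ ^ (5 * κ) * (mH / 2) ^ 2 * C.ρ ^ (a0 - 2 * κ) = (C.ρ ^ (5 * κ) * C.ρ ^ (a0 - 2 * κ)) * (mH / 2) ^ 2 := by ring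
      _ = _ := by rw [e3]; ring
  rw [e2]
  refine mul_le_mul_of_nonneg_left ?_ (Real.rpow_pos_of_pos hρ _).le
  have e4 : (C.ρ ^ κ) ^ 2 * (C.ρ ^ (-κ)) ^ 2 = 1 := by
    rw [← mul_pow, ← Real.rpow_add hρ, add_neg_cancel, Real.rpow_zero, one_pow]
  calc (C.ρ ^ κ) ^ 2 * (mH / 2) ^ 2 ≤ (C.ρ ^ κ) ^ 2 * ((C.ρ ^ (-κ)) ^ 2 * ∑ p, f p) :=
        mul_le_mul_of_nonneg_left h4 (by positivity)
    _ = ((C.ρ ^ κ) ^ 2 * (C.ρ ^ (-κ)) ^ 2) * ∑ p, f p := by ring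
    _ = ∑ p, f p := by rw [e4, one_mul]

/-- small scales: `ρ^e < c` -/
theorem rt_small_scale (e c : ℝ) (he : 0 < e) (hc : 0 < c) : ∃ r : ℝ, 0 < r ∧ ∀ ρ : ℝ, 0 < ρ → ρ < r → ρ ^ e < c := by
  refine ⟨c ^ (1 / e), Real.rpow_pos_of_pos hc _, fun ρ h0 h1 => ?_⟩
  have h2 := Real.rpow_lt_rpow h0.le h1 he
  rwa [← Real.rpow_mul hc.le, one_div, inv_mul_cancel₀ he.ne', Real.rpow_one] at h2

/-- the Frostman condition is monotone in the constant -/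
theorem rt_frost_mono {ι Y : Type} [Fintype ι] [PseudoMetricSpace Y] {w : ι → ℝ} {pos : ι → Y} {C₁ C₂ e ρ : ℝ} (hρ : 0 < ρ)
    (hC : C₁ ≤ C₂) (h : RW.KfFrost w pos C₁ e ρ) : RW.KfFrost w pos C₂ e ρ := fun z r h1 h2 =>
  (h z r h1 h2).trans (mul_le_mul_of_nonneg_right hC (Real.rpow_nonneg (hρ.le.trans h1) _))

/-- **the abstract projection test** -/
theorem rt_chain (β γ σ A : ℝ) (hβ : 0 < β) (hγ : 0 < γ) (hσ0 : 0 ≤ σ) (hσ : σ < min 1 (β + γ)) (hA : 1 ≤ A) :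
    ∃ κ₀ : ℝ, 0 < κ₀ ∧ ∃ N₀ : ℕ, 0 < N₀ ∧ ∀ mH : ℝ, 0 < mH → ∃ ρ₀ : ℝ, 0 < ρ₀ ∧
      ∀ (C : ChainData) (H : C.Pt → C.Lb → Prop) (a0 : ℝ) (N : ℕ), N₀ ≤ N → C.ρ < ρ₀ →
        C.Hyp H A a0 β γ σ κ₀ mH N → False := by
  obtain ⟨χ, hχ, ρ₁, hρ₁, hW⟩ := RW.ex_W1 β γ σ (2 * A) hβ hγ hσ0 hσ (by linarith)
  refine ⟨χ / 20, by positivity, ⌈20 * (β + γ) / χ⌉₊ + 1, Nat.succ_pos _, fun mH hm => ?_⟩
  obtain ⟨r1, hr1, s1⟩ := rt_small_scale (χ / 20) (mH / 4) (by positivity) (by positivity)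
  obtain ⟨r2, hr2, s2⟩ := rt_small_scale (χ / 20) (1 / 6) (by positivity) (by norm_num)
  obtain ⟨r3, hr3, s3⟩ := rt_small_scale (3 * χ / 4) ((mH / 2) ^ 2) (by positivity) (by positivity)
  obtain ⟨r4, hr4, s4⟩ := rt_small_scale (χ / 2) (1 / ((2 + ⌈2 * A⌉₊ : ℕ) : ℝ)) (by positivity) (by positivity)
  refine ⟨min ρ₁ (min r1 (min r2 (min r3 r4))), by positivity, ?_⟩
  intro C H a0 N hN hρlt hy
  have hρ0 := hy.ρpos
  have hρ1 := hy.ρlt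
  have l0 : C.ρ < ρ₁ := lt_of_lt_of_le hρlt (min_le_left _ _)
  have l1 : C.ρ < r1 := lt_of_lt_of_le hρlt ((min_le_right _ _).trans (min_le_left _ _))
  have l2 : C.ρ < r2 := lt_of_lt_of_le hρlt ((min_le_right _ _).trans ((min_le_right _ _).trans (min_le_left _ _)))
  have l3 : C.ρ < r3 := lt_of_lt_of_le hρlt
    ((min_le_right _ _).trans ((min_le_right _ _).trans ((min_le_right _ _).trans (min_le_left _ _))))
  have l4 : C.ρ < r4 := lt_of_lt_of_le hρlt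
    ((min_le_right _ _).trans ((min_le_right _ _).trans ((min_le_right _ _).trans (min_le_right _ _))))
  have b1 := (s1 C.ρ hρ0 l1).le
  have b2 := s2 C.ρ hρ0 l2
  have b3 := (s3 C.ρ hρ0 l3).le
  have b4 := s4 C.ρ hρ0 l4
  have hN0 : 0 < N := lt_of_lt_of_le (Nat.succ_pos _) hN
  have hNr : (0:ℝ) < N := by exact_mod_cast hN0
  have hNb : (β + γ) / N ≤ χ / 20 := by
    have h1 : 20 * (β + γ) / χ ≤ N := by
      refine (Nat.le_ceil _).trans ?_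
      exact_mod_cast (Nat.le_succ _).trans hN
    rw [div_le_iff₀ hχ] at h1
    rw [div_le_iff₀ hNr]
    nlinarith
  have hγN : γ / N ≤ χ / 20 := by
    refine le_trans ?_ hNb
    exact div_le_div_of_nonneg_right (by linarith) hNr.le
  have hβN : β / N ≤ χ / 20 := by
    refine le_trans ?_ hNb
    exact div_le_div_of_nonneg_right (by linarith) hNr.le
  -- the unit `P = ρ^(-χ/20)`
  obtain ⟨P, hP⟩ : ∃ P : ℝ, P = C.ρ ^ (-(χ / 20)) := ⟨_, rfl⟩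
  have hP6 : 6 ≤ P := by
    rw [hP, Real.rpow_neg hρ0.le]
    have h0 : 0 < C.ρ ^ (χ / 20) := Real.rpow_pos_of_pos hρ0 _
    rw [le_inv_comm₀ (by norm_num) h0]
    rw [one_div] at b2
    exact b2.le
  have hP1 : 1 ≤ P := by linarith
  have hP20 : C.ρ ^ (-χ) = P ^ 20 := by
    rw [hP, ← Real.rpow_natCast, ← Real.rpow_mul hρ0.le]
    congr 1
    push_cast
    ring
  have hP3 : P ^ 3 ≤ P ^ 20 := pow_le_pow_right₀ hP1 (by norm_num)
  have hP2 : P ^ 2 ≤ P ^ 20 := pow_le_pow_right₀ hP1 (by norm_num)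
  have hle : ∀ x : ℝ, x ≤ χ / 20 → C.ρ ^ (-x) ≤ P := by
    intro x hx
    rw [hP]
    exact Real.rpow_le_rpow_of_exponent_ge hρ0 hρ1.le (by linarith)
  obtain ⟨θ₀, p₀, hp₀, hG⟩ := rt_graph C H A a0 β γ σ (χ / 20) mH N hm b1 hy
  have hmu := rt_mu_sum C H A a0 β γ σ (χ / 20) mH N hy θ₀ p₀ hp₀
  have hnu := rt_nu_sum C H A a0 β γ σ (χ / 20) mH N hy
  have hnf := rt_nu_frost C H A a0 β γ σ (χ / 20) mH N hN0 hγ.le hy θ₀
  have hlf := rt_lam_frost C H A a0 β γ σ (χ / 20) mH N hN0 hβ.le hy θ₀ p₀ hp₀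
  have hU := rt_hU C H A a0 β γ σ (χ / 20) mH N hy θ₀ p₀ hp₀
  choose cov hcov1 hcov2 using fun θ₁ => rt_tag_cover C H A a0 β γ σ (χ / 20) mH N hA hy θ₀ p₀ θ₁
  have c1 : 6 * C.ρ ^ (-(χ / 20)) * C.ρ ^ (-(γ / N)) ≤ C.ρ ^ (-χ) := by
    rw [hP20, ← hP]
    have h1 := hle _ hγN
    have h2 : 0 ≤ C.ρ ^ (-(γ / N)) := (Real.rpow_pos_of_pos hρ0 _).le
    calc 6 * P * C.ρ ^ (-(γ / N)) ≤ P * P * P := by
          refine mul_le_mul (mul_le_mul_of_nonneg_right hP6 (by linarith)) h1 h2 (by positivity)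
      _ = P ^ 3 := by ring
      _ ≤ P ^ 20 := hP3
  have c2 : 6 * 1 * C.ρ ^ (-(β / N)) ≤ C.ρ ^ (-χ) := by
    rw [hP20]
    have h1 := hle _ hβN
    have h2 : 0 ≤ C.ρ ^ (-(β / N)) := (Real.rpow_pos_of_pos hρ0 _).le
    calc 6 * 1 * C.ρ ^ (-(β / N)) ≤ P * P := by
          refine mul_le_mul (by linarith) h1 h2 (by positivity)
      _ = P ^ 2 := by ring
      _ ≤ P ^ 20 := hP2
  have c3 : 5 * C.ρ ^ (σ - χ / 20) ≤ C.ρ ^ (σ - χ) := by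
    rw [sub_eq_add_neg, sub_eq_add_neg, Real.rpow_add hρ0, Real.rpow_add hρ0, hP20, ← hP]
    have h2 : 0 ≤ C.ρ ^ σ := (Real.rpow_pos_of_pos hρ0 _).le
    have h3 : 5 * P ≤ P ^ 20 := by
      refine le_trans ?_ hP2
      nlinarith
    calc 5 * (C.ρ ^ σ * P) = C.ρ ^ σ * (5 * P) := by ring
      _ ≤ C.ρ ^ σ * P ^ 20 := mul_le_mul_of_nonneg_left h3 h2
  have c4 : C.ρ ^ χ ≤ ∑ q ∈ C.tG H (χ / 20) θ₀ p₀, C.tMu H (χ / 20) a0 θ₀ p₀ q.1 * C.tNu H (χ / 20) q.2 := by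
    refine le_trans ?_ hG
    have h1 : C.ρ ^ χ = C.ρ ^ (5 * (χ / 20)) * C.ρ ^ (3 * χ / 4) := by
      rw [← Real.rpow_add hρ0]
      congr 1
      ring
    rw [h1]
    exact mul_le_mul_of_nonneg_left b3 (Real.rpow_pos_of_pos hρ0 _).le
  have hfin := hW C.ρ hρ0 l0 C.Pt C.Lb C.Pt (C.tMu H (χ / 20) a0 θ₀ p₀) (C.tNu H (χ / 20)) (C.tPt θ₀) (C.tSl θ₀)
    (C.tG H (χ / 20) θ₀ p₀) ⌊((2 + ⌈2 * A⌉₊ : ℕ) : ℝ) * C.ρ ^ (-(σ + χ / 20))⌋₊ (C.tLam H (χ / 20) a0 θ₀ p₀)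
    (fun p => C.src p θ₀)
    ⟨hmu.1, hnu.1, hmu.2, hnu.2,
      fun x => ⟨(hy.bdd x θ₀).1.trans (by linarith), (hy.bdd x θ₀).2.trans (by linarith)⟩,
      fun b => by
        unfold ChainData.tSl
        rw [abs_neg]
        have h1 := abs_le.1 (hy.bddL b)
        have h2 := abs_le.1 (hy.bddL θ₀)
        rw [abs_le]
        constructor <;> linarith [h1.1, h1.2, h2.1, h2.2],
      rt_frost_mono hρ0 c1 hnf, c4, cov, fun b => Nat.le_floor (hcov1 b), hcov2⟩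
    hlf.1 (rt_frost_mono hρ0 c2 hlf.2) (fun z => by
      refine le_trans (hU z) ?_
      have h1 : ∑ j with dist (C.src j θ₀) z.1 ≤ 2 * C.ρ, C.tLam H (χ / 20) a0 θ₀ p₀ j ≤
          ∑ j with dist (C.src j θ₀) z.1 ≤ 2 * A * C.ρ, C.tLam H (χ / 20) a0 θ₀ p₀ j := by
        refine Finset.sum_le_sum_of_subset_of_nonneg ?_ fun i _ _ => hlf.1 i
        intro j hj
        rw [Finset.mem_filter] at hj ⊢
        refine ⟨hj.1, hj.2.trans ?_⟩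
        nlinarith
      have h2 : 0 ≤ ∑ j with dist (C.src j θ₀) z.1 ≤ 2 * C.ρ, C.tLam H (χ / 20) a0 θ₀ p₀ j :=
        Finset.sum_nonneg fun i _ => hlf.1 i
      exact mul_le_mul c3 h1 h2 (Real.rpow_pos_of_pos hρ0 _).le)
  have hQ : 0 < C.ρ ^ (-(σ + χ / 20)) := Real.rpow_pos_of_pos hρ0 _
  have h5 : ((⌊((2 + ⌈2 * A⌉₊ : ℕ) : ℝ) * C.ρ ^ (-(σ + χ / 20))⌋₊ : ℕ) : ℝ) ≤
      ((2 + ⌈2 * A⌉₊ : ℕ) : ℝ) * C.ρ ^ (-(σ + χ / 20)) := Nat.floor_le (by positivity)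
  have h6 : ((2 + ⌈2 * A⌉₊ : ℕ) : ℝ) < C.ρ ^ (-(χ / 2)) := by
    rw [Real.rpow_neg hρ0.le]
    have h0 : 0 < C.ρ ^ (χ / 2) := Real.rpow_pos_of_pos hρ0 _
    rw [lt_inv_comm₀ (by positivity) h0]
    rw [one_div] at b4
    exact b4
  have h7 : ((2 + ⌈2 * A⌉₊ : ℕ) : ℝ) * C.ρ ^ (-(σ + χ / 20)) < C.ρ ^ (-(χ / 2)) * C.ρ ^ (-(σ + χ / 20)) :=
    mul_lt_mul_of_pos_right h6 hQ
  have h8 : C.ρ ^ (-(χ / 2)) * C.ρ ^ (-(σ + χ / 20)) ≤ C.ρ ^ (-σ - χ) := by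
    rw [← Real.rpow_add hρ0]
    exact Real.rpow_le_rpow_of_exponent_ge hρ0 hρ1.le (by linarith)
  linarith

end Claimed.Agent.R255

/-! ################ former file Rate/ChainsDef.lean ################ -/
/-!
# Row 255, Sec. 7.3: FROM THE BLOCK LAWS TO THE RATE RULES  (P7.1 (1))      Architect helper163.

`rt_u2_chains4` (Rate/Chains.lean) : consumer of `BlkSupply` (Rate/Blk.lean), proved from `rt_chain` (ChainTop.lean) and the leaves `rt_hyp_xy_gen`, `rt_hyp_wz`, `BLaw.Tol.swap`.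

* `B.chXY` : test `x → y`  (no slice, source `X`, target `Y_θ = Y + c X`, parameter `c`): `rel` is exact.
* `B.chWZ` : test `w → z`  (slice = finest bins of `(X, Y_θ)`, source `W_θ`, target `Z_θ`, parameter `c`):
     `Z_θ₁ = Z_θ₀ + (c₁-c₀) W_θ₀ + (r₁-r₀) Y_θ₀ + (c₁-c₀)(r₁-r₀) X`   (exact), and `Y_θ₀`, `X` are within `ρ` of the corners of their bins.
* the tests `x → w`, `y → z` are the same tests for `B.swap` (`Y ↔ W`, `c ↔ r`).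
* good event `H` = support ∩ all the events of `Tol` that are used (`≤ 2N+6` events of probability `≥ 1-κ`), so `mH = 1/2`.
* dictionary: `|surC (Q t) lb ω - e L| ≤ κ L` and `0 < π ω`  ⟺  `ρ^(e+κ) fib lb ω ≤ fib (pair (Q t) lb) ω ≤ ρ^(e-κ) fib lb ω`   (`L = log 1/ρ`);
  `fib (pair F lb) (p,θ) = ms θ {p' | F (p',θ) = F (p,θ)}`;  `fib lb (p,θ) = la θ`;  `fib pt (p,θ) = mu p`.
-/

set_option autoImplicit false

namespace Claimed.Agent.R255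

open scoped BigOperators
open Classical Finset

namespace BLaw

variable (B : BLaw)

/-- the test `x → y` -/
noncomputable def chXY : ChainData where
  Pt := B.Pt
  Lb := B.Lb
  Sl := Unit
  π := fun p θ => B.π.p (p, θ)
  ρ := B.ρ
  slc := fun _ _ => ()
  src := fun p _ => B.X p
  tgt := fun p θ => B.qY (p, θ)
  par := B.c
  tr := fun _ _ _ => 0

/-- the test `w → z` -/
noncomputable def chWZ : ChainData where
  Pt := B.Pt
  Lb := B.Lb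
  Sl := ℤ × ℤ
  π := fun p θ => B.π.p (p, θ)
  ρ := B.ρ
  slc := fun p θ => (bbin B.ρ 1 (B.qX (p, θ)), bbin B.ρ 1 (B.qY (p, θ)))
  src := fun p θ => B.qW (p, θ)
  tgt := fun p θ => B.qZ (p, θ)
  par := B.c
  tr := fun θ₀ θ₁ k => (B.r θ₁ - B.r θ₀) * ((k.2 : ℝ) * (2 : ℝ)⁻¹ ^ (tlev B.ρ 1)) +
    (B.c θ₁ - B.c θ₀) * (B.r θ₁ - B.r θ₀) * ((k.1 : ℝ) * (2 : ℝ)⁻¹ ^ (tlev B.ρ 1))

/-- exchange of the two middle coordinates and of the two parameters -/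
def swap : BLaw where
  Pt := B.Pt
  Lb := B.Lb
  π := B.π
  ρ := B.ρ
  X := B.X
  Y := B.W
  W := B.Y
  Z := B.Z
  c := B.r
  r := B.c

end BLaw

end Claimed.Agent.R255

/-! ################ former file Rate/Dict.lean ################ -/
/-!
# Row 255, Sec. 7, CORE: dictionary surprise <-> masses, likelihood tail, union bound.  LEAVES rt-G, rt-H, rt-I (paper-free).  Architect helper163.
-/

set_option autoImplicit false

namespace Claimed.Agent.R255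

open scoped BigOperators
open Classical Finset

/-! ## LEAF rt-G: dictionary -/

/-- the fibre through a point of positive mass has positive mass -/
theorem rt_fib_pos {Ω : Type} [Fintype Ω] (P : FLaw Ω) {α : Type} (F : Ω → α) (ω : Ω) (hω : 0 < P.p ω) : 0 < P.fib F ω := by
  refine lt_of_lt_of_le hω ?_
  unfold FLaw.fib FLaw.pr
  have h := Finset.single_le_sum (s := Finset.univ) (f := fun ω' => if F ω' = F ω then P.p ω' else 0)
    (fun i _ => by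
      split_ifs
      · exact P.nonneg i
      · exact le_rfl) (Finset.mem_univ ω)
  simpa using h

/-- `ρ^e = exp (-(e lg ρ))` -/
theorem rt_rpow_lg (ρ e : ℝ) (h0 : 0 < ρ) : ρ ^ e = Real.exp (-(e * lg ρ)) := by
  unfold lg
  rw [Real.rpow_def_of_pos h0, one_div, Real.log_inv]
  congr 1
  ring

/-- surprise bounds as mass bounds -/
theorem rt_dict {Ω : Type} [Fintype Ω] (P : FLaw Ω) {α β : Type} (F : Ω → α) (G : Ω → β) (ω : Ω) (hω : 0 < P.p ω)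
    (ρ e κ : ℝ) (h0 : 0 < ρ) (h1 : ρ < 1) (h : |P.surC F G ω - e * lg ρ| ≤ κ * lg ρ) :
    ρ ^ (e + κ) * P.fib G ω ≤ P.fib (FLaw.pair F G) ω ∧ P.fib (FLaw.pair F G) ω ≤ ρ ^ (e - κ) * P.fib G ω := by
  have ha := rt_fib_pos P (FLaw.pair F G) ω hω
  have hb := rt_fib_pos P G ω hω
  have hq : 0 < P.fib (FLaw.pair F G) ω / P.fib G ω := div_pos ha hb
  have h' := abs_le.1 h
  unfold FLaw.surC at h'
  constructor
  · rw [← le_div_iff₀ hb, rt_rpow_lg ρ _ h0, ← Real.le_log_iff_exp_le hq]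
    nlinarith [h'.2]
  · rw [← div_le_iff₀ hb, rt_rpow_lg ρ _ h0, ← Real.log_le_iff_le_exp hq]
    nlinarith [h'.1]

/-- one-sided, unconditional -/
theorem rt_dict_sur {Ω : Type} [Fintype Ω] (P : FLaw Ω) {α : Type} (F : Ω → α) (ω : Ω) (hω : 0 < P.p ω)
    (ρ e : ℝ) (h0 : 0 < ρ) (h1 : ρ < 1) (h : e * lg ρ ≤ P.sur F ω) : P.fib F ω ≤ ρ ^ e := by
  have ha := rt_fib_pos P F ω hω
  unfold FLaw.sur at h
  rw [rt_rpow_lg ρ _ h0, ← Real.log_le_iff_le_exp ha]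
  linarith

/-- the fibre mass only depends on the partition -/
theorem rt_fib_congr {Ω : Type} [Fintype Ω] (P : FLaw Ω) {α β : Type} (F : Ω → α) (G : Ω → β)
    (h : ∀ ω ω', F ω = F ω' ↔ G ω = G ω') (ω : Ω) : P.fib F ω = P.fib G ω := by
  unfold FLaw.fib FLaw.pr
  refine Finset.sum_congr rfl fun ω' _ => ?_
  by_cases h1 : F ω' = F ω
  · rw [if_pos h1, if_pos ((h ω' ω).1 h1)]
  · rw [if_neg h1, if_neg fun h2 => h1 ((h ω' ω).2 h2)]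

/-- fibres over the label, as sums over the points -/
theorem rt_fib_lb {Pt Lb : Type} [Fintype Pt] [Fintype Lb] (P : FLaw (Pt × Lb)) {α : Type} (F : Pt × Lb → α) (p : Pt) (θ : Lb) :
    P.fib (FLaw.pair F Prod.snd) (p, θ) = ∑ p', if F (p', θ) = F (p, θ) then P.p (p', θ) else 0 := by
  unfold FLaw.fib FLaw.pr FLaw.pair
  rw [Fintype.sum_prod_type]
  refine Finset.sum_congr rfl fun p' _ => ?_
  rw [Finset.sum_eq_single θ]
  · beta_reduce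
    by_cases h1 : F (p', θ) = F (p, θ)
    · rw [if_pos h1, if_pos (show (F (p', θ), θ) = (F (p, θ), θ) by rw [h1])]
    · rw [if_neg h1, if_neg fun h2 => h1 (Prod.ext_iff.1 h2).1]
  · intro θ' _ hne
    exact if_neg fun h2 => hne (Prod.ext_iff.1 h2).2
  · intro h
    exact absurd (Finset.mem_univ _) h

theorem rt_fib_snd {Pt Lb : Type} [Fintype Pt] [Fintype Lb] (P : FLaw (Pt × Lb)) (p : Pt) (θ : Lb) :
    P.fib Prod.snd (p, θ) = ∑ p', P.p (p', θ) := by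
  unfold FLaw.fib FLaw.pr
  rw [Fintype.sum_prod_type]
  refine Finset.sum_congr rfl fun p' _ => ?_
  rw [Finset.sum_eq_single θ]
  · rw [if_pos rfl]
  · intro θ' _ hne
    exact if_neg hne
  · intro h
    exact absurd (Finset.mem_univ _) h

theorem rt_fib_fst {Pt Lb : Type} [Fintype Pt] [Fintype Lb] (P : FLaw (Pt × Lb)) (p : Pt) (θ : Lb) :
    P.fib Prod.fst (p, θ) = ∑ θ', P.p (p, θ') := by
  unfold FLaw.fib FLaw.pr
  rw [Fintype.sum_prod_type, Finset.sum_eq_single p]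
  · exact Finset.sum_congr rfl fun θ' _ => if_pos rfl
  · intro p' _ hne
    exact Finset.sum_eq_zero fun θ' _ => if_neg hne
  · intro h
    exact absurd (Finset.mem_univ _) h

/-- fibres of a function of the label -/
theorem rt_fib_par {Pt Lb : Type} [Fintype Pt] [Fintype Lb] (P : FLaw (Pt × Lb)) {α : Type} (f : Lb → α) (p : Pt) (θ : Lb) :
    P.fib (fun ω : Pt × Lb => f ω.2) (p, θ) = ∑ θ', if f θ' = f θ then ∑ p', P.p (p', θ') else 0 := by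
  unfold FLaw.fib FLaw.pr
  rw [Fintype.sum_prod_type_right]
  refine Finset.sum_congr rfl fun θ' _ => ?_
  by_cases h1 : f θ' = f θ
  · rw [if_pos h1]
    exact Finset.sum_congr rfl fun p' _ => if_pos h1
  · rw [if_neg h1]
    exact Finset.sum_eq_zero fun p' _ => if_neg h1

/-! ## LEAF rt-H: the likelihood tail (Lemma 2.5) -/

/-- `x log x ≥ -1/e` -/
theorem rt_mul_log_ge {x : ℝ} (hx : 0 < x) : 0 ≤ x * Real.log x + Real.exp (-1) := by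
  have he : 0 < Real.exp (-1) := Real.exp_pos _
  have h1 := Real.log_le_sub_one_of_pos (div_pos he hx)
  rw [Real.log_div he.ne' hx.ne', Real.log_exp] at h1
  have h2 : -Real.log x ≤ Real.exp (-1) / x := by linarith
  have h3 : -Real.log x * x ≤ Real.exp (-1) := (le_div_iff₀ hx).1 h2
  linarith

/-- `π {π > e^v μ ⊗ λ} ≤ (I(P;θ) + 1/e)/v`.  `E (log L)_- ≤ 1/e` because `x log (1/x) ≤ 1/e`, `E log L = I`, Markov.  (If `R255/Ent/Prod.lean` has (2.10), cite it.) -/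
theorem rt_ratio_tail {Pt Lb : Type} [Fintype Pt] [Fintype Lb] (P : FLaw (Pt × Lb)) (v : ℝ) (hv : 0 < v) :
    P.pr (fun ω => Real.exp v * (P.fib Prod.fst ω * P.fib Prod.snd ω) < P.p ω)
      ≤ (P.mi Prod.fst Prod.snd + Real.exp (-1)) / v := by
  have hpair : ∀ ω, P.fib (FLaw.pair Prod.fst Prod.snd) ω = P.p ω := by
    intro ω
    unfold FLaw.fib FLaw.pr FLaw.pair
    rw [Finset.sum_eq_single ω]
    · rw [if_pos rfl]
    · intro ω' _ hne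
      exact if_neg fun h2 => hne (Prod.ext (Prod.ext_iff.1 h2).1 (Prod.ext_iff.1 h2).2)
    · intro h
      exact absurd (Finset.mem_univ _) h
  have hmi : P.mi Prod.fst Prod.snd =
      ∑ ω, P.p ω * (Real.log (P.p ω) - Real.log (P.fib Prod.fst ω) - Real.log (P.fib Prod.snd ω)) := by
    unfold FLaw.mi FLaw.ent FLaw.ev
    simp_rw [hpair]
    rw [← Finset.sum_add_distrib, ← Finset.sum_sub_distrib]
    refine Finset.sum_congr rfl fun ω _ => ?_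
    ring
  have hprod : ∑ ω, P.fib Prod.fst ω * P.fib Prod.snd ω = 1 := by
    rw [Fintype.sum_prod_type]
    simp_rw [rt_fib_fst, rt_fib_snd]
    simp_rw [← Finset.mul_sum]
    rw [← Finset.sum_mul]
    have h1 : ∑ p, ∑ θ', P.p (p, θ') = 1 := by
      rw [← Fintype.sum_prod_type (f := P.p)]
      exact P.sum_one
    have h2 : ∑ θ, ∑ p', P.p (p', θ) = 1 := by
      rw [← Fintype.sum_prod_type_right (f := P.p)]
      exact P.sum_one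
    rw [h1, h2, one_mul]
  have hfib0 : ∀ {α : Type} (F : Pt × Lb → α) (ω), 0 ≤ P.fib F ω := by
    intro α F ω
    unfold FLaw.fib FLaw.pr
    refine Finset.sum_nonneg fun i _ => ?_
    split_ifs
    · exact P.nonneg i
    · exact le_rfl
  have hpt : ∀ ω, v * (if Real.exp v * (P.fib Prod.fst ω * P.fib Prod.snd ω) < P.p ω then P.p ω else 0) ≤
      P.p ω * (Real.log (P.p ω) - Real.log (P.fib Prod.fst ω) - Real.log (P.fib Prod.snd ω)) +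
        Real.exp (-1) * (P.fib Prod.fst ω * P.fib Prod.snd ω) := by
    intro ω
    have hm0 := hfib0 Prod.fst ω
    have hl0 := hfib0 Prod.snd ω
    rcases (P.nonneg ω).lt_or_eq with hp | hp
    · have hm := rt_fib_pos P Prod.fst ω hp
      have hl := rt_fib_pos P Prod.snd ω hp
      have hml : 0 < P.fib Prod.fst ω * P.fib Prod.snd ω := mul_pos hm hl
      obtain ⟨x, hx⟩ : ∃ x, x = P.p ω / (P.fib Prod.fst ω * P.fib Prod.snd ω) := ⟨_, rfl⟩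
      have hx0 : 0 < x := by rw [hx]; exact div_pos hp hml
      have hlog : Real.log (P.p ω) - Real.log (P.fib Prod.fst ω) - Real.log (P.fib Prod.snd ω) = Real.log x := by
        rw [hx, Real.log_div hp.ne' hml.ne', Real.log_mul hm.ne' hl.ne']
        ring
      have hpx : P.p ω = x * (P.fib Prod.fst ω * P.fib Prod.snd ω) := by
        rw [hx]
        field_simp
      have hge := rt_mul_log_ge hx0
      rw [hlog]
      have hR : P.p ω * Real.log x + Real.exp (-1) * (P.fib Prod.fst ω * P.fib Prod.snd ω) =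
          (x * Real.log x + Real.exp (-1)) * (P.fib Prod.fst ω * P.fib Prod.snd ω) := by
        rw [hpx]
        ring
      split_ifs with hT
      · have h1 : Real.exp v < x := by
          rw [hx, lt_div_iff₀ hml]
          exact hT
        have h2 : v < Real.log x := (Real.lt_log_iff_exp_lt hx0).2 h1
        have h3 : v * P.p ω ≤ P.p ω * Real.log x := by nlinarith
        have h4 : 0 ≤ Real.exp (-1) * (P.fib Prod.fst ω * P.fib Prod.snd ω) := by positivity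
        linarith
      · rw [mul_zero, hR]
        exact mul_nonneg hge hml.le
    · rw [← hp]
      have h1 : ¬ Real.exp v * (P.fib Prod.fst ω * P.fib Prod.snd ω) < 0 := by
        have : 0 ≤ Real.exp v * (P.fib Prod.fst ω * P.fib Prod.snd ω) := by positivity
        linarith
      rw [if_neg h1, mul_zero, zero_mul, zero_add]
      positivity
  have hsum := Finset.sum_le_sum fun ω (_ : ω ∈ Finset.univ) => hpt ω
  rw [← Finset.mul_sum, Finset.sum_add_distrib, ← Finset.mul_sum, hprod, mul_one, ← hmi] at hsum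
  rw [le_div_iff₀ hv, mul_comm]
  exact hsum

/-! ## LEAF rt-I: a finite intersection of likely events -/

/-- union bound on the support -/
theorem rt_inter {Ω : Type} [Fintype Ω] (P : FLaw Ω) {ι : Type} (s : Finset ι) (E : ι → Ω → Prop) (κ : ℝ)
    (h : ∀ i ∈ s, P.pr (fun ω => ¬ E i ω) ≤ κ) :
    1 - s.card * κ ≤ P.pr (fun ω => 0 < P.p ω ∧ ∀ i ∈ s, E i ω) := by
  have h1 : (1 : ℝ) ≤ P.pr (fun ω => 0 < P.p ω ∧ ∀ i ∈ s, E i ω)
      + ∑ i ∈ s, P.pr (fun ω => ¬ E i ω) := by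
    rw [← P.sum_one]
    unfold FLaw.pr
    rw [Finset.sum_comm, ← Finset.sum_add_distrib]
    refine Finset.sum_le_sum fun ω _ => ?_
    beta_reduce
    by_cases hg : 0 < P.p ω ∧ ∀ i ∈ s, E i ω
    · rw [if_pos hg]
      exact le_add_of_nonneg_right (Finset.sum_nonneg fun i _ => by
        split_ifs
        exacts [le_refl 0, P.nonneg ω])
    · rw [if_neg hg, zero_add]
      by_cases hp : 0 < P.p ω
      · have : ∃ i ∈ s, ¬ E i ω := by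
          by_contra hcon
          push Not at hcon
          exact hg ⟨hp, hcon⟩
        obtain ⟨i, hi, hEi⟩ := this
        refine le_trans ?_ (Finset.single_le_sum (fun i _ => ?_) hi)
        · rw [if_pos hEi]
        · split_ifs
          exacts [le_refl 0, P.nonneg ω]
      · have h0 : P.p ω = 0 := le_antisymm (not_lt.mp hp) (P.nonneg ω)
        rw [h0]
        exact Finset.sum_nonneg fun i _ => by
          split_ifs
          exacts [le_refl 0, le_refl 0]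
  have h2 : ∑ i ∈ s, P.pr (fun ω => ¬ E i ω) ≤ s.card * κ := by
    calc ∑ i ∈ s, P.pr (fun ω => ¬ E i ω) ≤ ∑ _i ∈ s, κ := Finset.sum_le_sum h
      _ = s.card * κ := by rw [Finset.sum_const, nsmul_eq_mul]
  linarith

end Claimed.Agent.R255

/-! ################ former file Rate/ChainsXY.lean ################ -/
/-!
# Row 255, Sec. 7.3: hypotheses of the test x -> y.  LEAF rt-J.  Architect helper163.  Plan: header of ChainsDef.lean; use Dict.lean as black boxes.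
-/

set_option autoImplicit false

namespace Claimed.Agent.R255

open scoped BigOperators
open Classical Finset

theorem rt_bbin_zero (ρ v : ℝ) : bbin ρ 0 v = 0 := by
  unfold bbin
  rw [if_pos le_rfl]

theorem rt_L_pos (B : BLaw) (h0 : 0 < B.ρ) (h1 : B.ρ < 1) : 0 < B.L := by
  unfold BLaw.L lg
  exact Real.log_pos (by rw [one_div]; exact (one_lt_inv₀ h0).2 h1)

/-- sums of indicator type only depend on the predicate up to equivalence -/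
theorem rt_sum_iff {ι : Type} [Fintype ι] (f : ι → ℝ) (P Q : ι → Prop) [DecidablePred P] [DecidablePred Q]
    (h : ∀ i, P i ↔ Q i) :
    (∑ i, if P i then f i else 0) = ∑ i, if Q i then f i else 0 :=
  Finset.sum_congr rfl fun i _ => if_congr (h i) rfl rfl

/-- total mass of a block law, iterated sum -/
theorem rt_bl_sum_one (B : BLaw) : ∑ p, ∑ θ, B.π.p (p, θ) = 1 := by
  rw [← Fintype.sum_prod_type (f := B.π.p)]
  exact B.π.sum_one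

/-- probability of an event as an iterated sum -/
theorem rt_bl_pr (B : BLaw) (E : B.Pt × B.Lb → Prop) :
    B.π.pr E = ∑ p, ∑ θ, if E (p, θ) then B.π.p (p, θ) else 0 := by
  unfold FLaw.pr
  rw [Fintype.sum_prod_type]

/-- the dictionary in sum form -/
theorem rt_bl_dict (B : BLaw) {α : Type} (F : B.Pt × B.Lb → α) (p : B.Pt) (θ : B.Lb) (hω : 0 < B.π.p (p, θ)) (e κ : ℝ)
    (h0 : 0 < B.ρ) (h1 : B.ρ < 1) (h : |B.π.surC F B.lb (p, θ) - e * B.L| ≤ κ * B.L) :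
    B.ρ ^ (e + κ) * (∑ p', B.π.p (p', θ)) ≤ (∑ p', if F (p', θ) = F (p, θ) then B.π.p (p', θ) else 0) ∧
      (∑ p', if F (p', θ) = F (p, θ) then B.π.p (p', θ) else 0) ≤ B.ρ ^ (e - κ) * (∑ p', B.π.p (p', θ)) := by
  have h2 := rt_dict B.π F Prod.snd (p, θ) hω B.ρ e κ h0 h1 h
  rwa [rt_fib_lb, rt_fib_snd] at h2

/-- the time event in sum form -/
theorem rt_bl_time (B : BLaw) (p : B.Pt) (θ : B.Lb) (hω : 0 < B.π.p (p, θ)) (d e : ℝ)
    (h0 : 0 < B.ρ) (h1 : B.ρ < 1) (h : e * B.L ≤ B.π.sur (B.cb d) (p, θ)) :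
    (∑ θ', if bbin B.ρ d (B.c θ') = bbin B.ρ d (B.c θ) then ∑ p', B.π.p (p', θ') else 0) ≤ B.ρ ^ e := by
  have h2 := rt_dict_sur B.π (B.cb d) (p, θ) hω B.ρ e h0 h1 h
  have h3 := rt_fib_par B.π (fun θ => bbin B.ρ d (B.c θ)) p θ
  have h4 : B.π.fib (B.cb d) (p, θ) = B.π.fib (fun ω : B.Pt × B.Lb => bbin B.ρ d (B.c ω.2)) (p, θ) := rfl
  rw [h4, h3] at h2
  convert h2

/-- the likelihood tail in sum form -/
theorem rt_bl_ratio (B : BLaw) (κ κ₀ : ℝ) (h0 : 0 < B.ρ) (h1 : B.ρ < 1) (hκ₀ : 0 < κ₀)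
    (info : B.π.mi B.pt B.lb ≤ κ * B.L) (hinfo : (κ * B.L + Real.exp (-1)) / (κ₀ * B.L) ≤ 1 / 8) :
    (∑ p, ∑ θ, if B.ρ ^ (-κ₀) * ((∑ θ', B.π.p (p, θ')) * (∑ p', B.π.p (p', θ))) < B.π.p (p, θ) then B.π.p (p, θ) else 0)
      ≤ 1 / 2 / 4 := by
  have hL := rt_L_pos B h0 h1
  have h2 := rt_ratio_tail B.π (κ₀ * B.L) (mul_pos hκ₀ hL)
  rw [rt_bl_pr] at h2
  simp_rw [rt_fib_fst, rt_fib_snd] at h2
  have e1 : Real.exp (κ₀ * B.L) = B.ρ ^ (-κ₀) := by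
    rw [rt_rpow_lg _ _ h0]
    congr 1
    unfold BLaw.L
    ring
  rw [e1] at h2
  refine le_trans h2 ?_
  have h3 : (B.π.mi Prod.fst Prod.snd + Real.exp (-1)) / (κ₀ * B.L) ≤ (κ * B.L + Real.exp (-1)) / (κ₀ * B.L) :=
    div_le_div_of_nonneg_right (by
      have : B.π.mi Prod.fst Prod.snd ≤ κ * B.L := info
      linarith) (mul_pos hκ₀ hL).le
  linarith

/-- powers of `ρ < 1` are antitone in the exponent -/
theorem rt_rpow_anti (B : BLaw) (h0 : 0 < B.ρ) (h1 : B.ρ < 1) {a b : ℝ} (h : a ≤ b) : B.ρ ^ b ≤ B.ρ ^ a :=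
  Real.rpow_le_rpow_of_exponent_ge h0 h1.le h

/-- the events used by the test `x → y` -/
def rtEvXY (B : BLaw) (x g s κ : ℝ) (N : ℕ) : Option (Option (Bool × Fin (N + 1))) → B.Pt × B.Lb → Prop
  | none, ω => |B.π.surC (B.Q ⟨1, 1, 0, 0⟩) B.lb ω - (x + g) * B.L| ≤ κ * B.L
  | some none, ω => |B.π.surC (B.Q ⟨0, 1, 0, 0⟩) B.lb ω - g * B.L| ≤ κ * B.L
  | some (some (false, k)), ω =>
      |B.π.surC (B.Q ⟨((k : ℕ) : ℝ) / (N : ℝ), 0, 0, 0⟩) B.lb ω - (x * (((k : ℕ) : ℝ) / (N : ℝ))) * B.L| ≤ κ * B.L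
  | some (some (true, k)), ω => (s * (((k : ℕ) : ℝ) / (N : ℝ)) - κ) * B.L ≤ B.π.sur (B.cb (((k : ℕ) : ℝ) / (N : ℝ))) ω

/-- number of events -/
theorem rt_ev_card (N : ℕ) : ((Finset.univ : Finset (Option (Option (Bool × Fin (N + 1))))).card : ℝ) = 2 * (N : ℝ) + 4 := by
  rw [Finset.card_univ, Fintype.card_option, Fintype.card_option, Fintype.card_prod, Fintype.card_bool, Fintype.card_fin]
  push_cast
  ring

/-- the dictionary for the chain `x → y` -/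
theorem rt_xy_dict (B : BLaw) {α : Type} (F : B.Pt × B.Lb → α) (p : B.Pt) (θ : B.Lb) (hω : 0 < B.π.p (p, θ)) (e κ : ℝ)
    (h0 : 0 < B.ρ) (h1 : B.ρ < 1) (h : |B.π.surC F B.lb (p, θ) - e * B.L| ≤ κ * B.L)
    (S : B.Pt → Prop) (hS : ∀ p', S p' ↔ F (p', θ) = F (p, θ)) :
    B.ρ ^ (e + κ) * B.chXY.la θ ≤ B.chXY.ms θ S ∧ B.chXY.ms θ S ≤ B.ρ ^ (e - κ) * B.chXY.la θ := by
  have e1 : B.chXY.ms θ S = ∑ p', if F (p', θ) = F (p, θ) then B.π.p (p', θ) else 0 :=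
    Finset.sum_congr rfl fun p' _ => if_congr (hS p') rfl rfl
  rw [e1]
  exact rt_bl_dict B F p θ hω e κ h0 h1 h

theorem rt_xy_ms_true (B : BLaw) (θ : B.Lb) (S : B.Pt → Prop) (hS : ∀ p', S p') : B.chXY.ms θ S = B.chXY.la θ :=
  Finset.sum_congr rfl fun p' _ => if_pos (hS p')

/-- the hypotheses of the test `x → y` from the events of `Tol`.
`g` = exponent of the target; `hX`, `hXY`, `hY` are the three families of events that are used. -/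
theorem rt_hyp_xy_gen (B : BLaw) (x g s κ κ₀ A : ℝ) (N : ℕ) (hN : 0 < N) (hA : 1 ≤ A) (h0 : 0 < B.ρ) (h1 : B.ρ < 1)
    (hκ : 0 < κ) (h2 : 2 * κ ≤ κ₀)
    (bddP : ∀ p, |B.X p| ≤ A ∧ |B.Y p| ≤ A ∧ |B.W p| ≤ A ∧ |B.Z p| ≤ A) (bddL : ∀ θ, |B.c θ| ≤ A ∧ |B.r θ| ≤ A)
    (info : B.π.mi B.pt B.lb ≤ κ * B.L) (hinfo : (κ * B.L + Real.exp (-1)) / (κ₀ * B.L) ≤ 1 / 8)
    (hcount : (2 * (N : ℝ) + 6) * κ ≤ 1 / 2)
    (hX : ∀ d ∈ mesh N, B.π.pr (fun ω => κ * B.L < |B.π.surC (B.Q ⟨d, 0, 0, 0⟩) B.lb ω - (x * d) * B.L|) ≤ κ)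
    (hXY : B.π.pr (fun ω => κ * B.L < |B.π.surC (B.Q ⟨1, 1, 0, 0⟩) B.lb ω - (x + g) * B.L|) ≤ κ)
    (hY : B.π.pr (fun ω => κ * B.L < |B.π.surC (B.Q ⟨0, 1, 0, 0⟩) B.lb ω - g * B.L|) ≤ κ)
    (time : ∀ d ∈ mesh N, B.π.pr (fun ω => B.π.sur (B.cb d) ω < (s * d - κ) * B.L) ≤ κ) :
    ∃ H, B.chXY.Hyp H (6 * A ^ 3) 0 x s g κ₀ (1 / 2) N := by
  have hL := rt_L_pos B h0 h1
  have hκ₀ : 0 < κ₀ := by linarith
  have hA3 : A ≤ A ^ 3 := by nlinarith [pow_le_pow_left₀ zero_le_one hA 2]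
  have hA2 : A ^ 2 ≤ A ^ 3 := by nlinarith [pow_le_pow_left₀ zero_le_one hA 2]
  have hE : ∀ i ∈ (Finset.univ : Finset (Option (Option (Bool × Fin (N + 1))))),
      B.π.pr (fun ω => ¬ rtEvXY B x g s κ N i ω) ≤ κ := by
    intro i _
    match i with
    | none => simpa only [rtEvXY, not_le] using hXY
    | some none => simpa only [rtEvXY, not_le] using hY
    | some (some (false, k)) => simpa only [rtEvXY, not_le] using hX _ ⟨k, Nat.lt_succ_iff.1 k.2, rfl⟩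
    | some (some (true, k)) => simpa only [rtEvXY, not_le] using time _ ⟨k, Nat.lt_succ_iff.1 k.2, rfl⟩
  have hI := rt_inter B.π Finset.univ (rtEvXY B x g s κ N) κ hE
  rw [rt_ev_card, rt_bl_pr] at hI
  have hla0 : ∀ θ, 0 ≤ ∑ p', B.π.p (p', θ) := fun θ => Finset.sum_nonneg fun p' _ => B.π.nonneg _
  have evXY : ∀ p θ, (∀ i ∈ (Finset.univ : Finset (Option (Option (Bool × Fin (N + 1))))), rtEvXY B x g s κ N i (p, θ)) →
      |B.π.surC (B.Q ⟨1, 1, 0, 0⟩) B.lb (p, θ) - (x + g) * B.L| ≤ κ * B.L := fun p θ h => h none (Finset.mem_univ _)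
  have evY : ∀ p θ, (∀ i ∈ (Finset.univ : Finset (Option (Option (Bool × Fin (N + 1))))), rtEvXY B x g s κ N i (p, θ)) →
      |B.π.surC (B.Q ⟨0, 1, 0, 0⟩) B.lb (p, θ) - g * B.L| ≤ κ * B.L := fun p θ h => h (some none) (Finset.mem_univ _)
  have evX : ∀ p θ, (∀ i ∈ (Finset.univ : Finset (Option (Option (Bool × Fin (N + 1))))), rtEvXY B x g s κ N i (p, θ)) →
      ∀ d ∈ mesh N, |B.π.surC (B.Q ⟨d, 0, 0, 0⟩) B.lb (p, θ) - (x * d) * B.L| ≤ κ * B.L := by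
    intro p θ h d hd
    obtain ⟨k, hk, rfl⟩ := hd
    exact h (some (some (false, ⟨k, Nat.lt_succ_of_le hk⟩))) (Finset.mem_univ _)
  have evT : ∀ p θ, (∀ i ∈ (Finset.univ : Finset (Option (Option (Bool × Fin (N + 1))))), rtEvXY B x g s κ N i (p, θ)) →
      ∀ d ∈ mesh N, (s * d - κ) * B.L ≤ B.π.sur (B.cb d) (p, θ) := by
    intro p θ h d hd
    obtain ⟨k, hk, rfl⟩ := hd
    exact h (some (some (true, ⟨k, Nat.lt_succ_of_le hk⟩))) (Finset.mem_univ _)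
  have one_mem : (1 : ℝ) ∈ mesh N := ⟨N, le_rfl, by rw [div_self]; exact_mod_cast hN.ne'⟩
  have qd : ∀ (d : ℝ) (p p' : B.Pt) (θ : B.Lb),
      B.Q ⟨d, 0, 0, 0⟩ (p', θ) = B.Q ⟨d, 0, 0, 0⟩ (p, θ) ↔ bbin B.ρ d (B.X p') = bbin B.ρ d (B.X p) := by
    intro d p p' θ
    unfold BLaw.Q BLaw.qX
    simp only [rt_bbin_zero, Prod.mk.injEq, and_true]
  have q11 : ∀ (p p' : B.Pt) (θ : B.Lb),
      B.Q ⟨1, 1, 0, 0⟩ (p', θ) = B.Q ⟨1, 1, 0, 0⟩ (p, θ) ↔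
        (bbin B.ρ 1 (B.X p') = bbin B.ρ 1 (B.X p) ∧ bbin B.ρ 1 (B.qY (p', θ)) = bbin B.ρ 1 (B.qY (p, θ))) := by
    intro p p' θ
    unfold BLaw.Q BLaw.qX
    simp only [rt_bbin_zero, Prod.mk.injEq, and_true]
  have q01 : ∀ (p p' : B.Pt) (θ : B.Lb),
      B.Q ⟨0, 1, 0, 0⟩ (p', θ) = B.Q ⟨0, 1, 0, 0⟩ (p, θ) ↔ bbin B.ρ 1 (B.qY (p', θ)) = bbin B.ρ 1 (B.qY (p, θ)) := by
    intro p p' θ
    unfold BLaw.Q
    simp only [rt_bbin_zero, Prod.mk.injEq, and_true, true_and]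
  refine ⟨fun p θ => 0 < B.π.p (p, θ) ∧ ∀ i ∈ (Finset.univ : Finset (Option (Option (Bool × Fin (N + 1))))),
    rtEvXY B x g s κ N i (p, θ), ?_⟩
  refine
    { ρpos := h0
      ρlt := h1
      nonneg := fun p θ => B.π.nonneg _
      sum_one := rt_bl_sum_one B
      bdd := ?_
      bddL := ?_
      rel := ?_
      hH := ?_
      hpos := fun p θ h => h.1
      hratio := rt_bl_ratio B κ κ₀ h0 h1 hκ₀ info hinfo
      slc_up := ?_
      slc_lo := ?_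
      src_up := ?_
      tgt_up := ?_
      tgt_lo := ?_
      par_up := ?_ }
  · intro p θ
    obtain ⟨b1, b2, -, -⟩ := bddP p
    have b3 := (bddL θ).1
    refine ⟨b1.trans (by linarith), ?_⟩
    show |B.Y p + B.c θ * B.X p| ≤ 6 * A ^ 3
    have h3 : |B.c θ * B.X p| ≤ A * A := by
      rw [abs_mul]
      exact mul_le_mul b3 b1 (abs_nonneg _) (by linarith)
    have h4 := abs_add_le (B.Y p) (B.c θ * B.X p)
    nlinarith
  · intro θ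
    exact (bddL θ).1.trans (by linarith)
  · intro p θ₀ θ₁
    show |(B.Y p + B.c θ₁ * B.X p) - (B.Y p + B.c θ₀ * B.X p) - (B.c θ₁ - B.c θ₀) * B.X p - 0| ≤ 6 * A ^ 3 * B.ρ
    have e1 : (B.Y p + B.c θ₁ * B.X p) - (B.Y p + B.c θ₀ * B.X p) - (B.c θ₁ - B.c θ₀) * B.X p - 0 = 0 := by ring
    rw [e1, abs_zero]
    positivity
  · refine le_trans ?_ hI
    nlinarith
  · intro p θ _
    refine le_trans (le_of_eq (rt_xy_ms_true B θ _ (fun p' => rfl))) ?_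
    have h3 : 1 ≤ B.ρ ^ ((0:ℝ) - κ₀) := by
      have := rt_rpow_anti B h0 h1 (show (0:ℝ) - κ₀ ≤ 0 by linarith)
      rwa [Real.rpow_zero] at this
    exact le_mul_of_one_le_left (hla0 θ) h3
  · intro p θ _
    refine le_trans ?_ (le_of_eq (rt_xy_ms_true B θ _ (fun p' => rfl)).symm)
    have h3 : B.ρ ^ ((0:ℝ) + κ₀) ≤ 1 := by
      have := rt_rpow_anti B h0 h1 (show (0:ℝ) ≤ 0 + κ₀ by linarith)
      rwa [Real.rpow_zero] at this
    exact mul_le_of_le_one_left (hla0 θ) h3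
  · intro p θ hH d hd
    refine le_trans (rt_xy_dict B (B.Q ⟨d, 0, 0, 0⟩) p θ hH.1 (x * d) κ h0 h1 (evX p θ hH.2 d hd) _ (fun p' => ?_)).2
      (mul_le_mul_of_nonneg_right (rt_rpow_anti B h0 h1 (by linarith)) (hla0 θ))
    exact ⟨fun h => (qd d p p' θ).2 h.2, fun h => ⟨rfl, (qd d p p' θ).1 h⟩⟩
  · intro p θ hH
    have h3 := (rt_xy_dict B (B.Q ⟨1, 1, 0, 0⟩) p θ hH.1 (x + g) κ h0 h1 (evXY p θ hH.2)
      (fun p' => B.chXY.slc p' θ = B.chXY.slc p θ ∧ bbin B.chXY.ρ 1 (B.chXY.src p' θ) = bbin B.chXY.ρ 1 (B.chXY.src p θ) ∧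
        bbin B.chXY.ρ 1 (B.chXY.tgt p' θ) = bbin B.chXY.ρ 1 (B.chXY.tgt p θ)) (fun p' => ⟨fun h => (q11 p p' θ).2 h.2, fun h => ⟨rfl, (q11 p p' θ).1 h⟩⟩)).2
    have h4 := (rt_xy_dict B (B.Q ⟨1, 0, 0, 0⟩) p θ hH.1 (x * 1) κ h0 h1 (evX p θ hH.2 1 one_mem)
      (fun p' => B.chXY.slc p' θ = B.chXY.slc p θ ∧ bbin B.chXY.ρ 1 (B.chXY.src p' θ) = bbin B.chXY.ρ 1 (B.chXY.src p θ))
      (fun p' => ⟨fun h => (qd 1 p p' θ).2 h.2, fun h => ⟨rfl, (qd 1 p p' θ).1 h⟩⟩)).1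
    refine le_trans h3 ?_
    have h5 : B.ρ ^ (x + g - κ) = B.ρ ^ (g - 2 * κ) * B.ρ ^ (x * 1 + κ) := by
      rw [← Real.rpow_add h0]
      congr 1
      ring
    rw [h5, mul_assoc]
    have h6 : 0 ≤ B.ρ ^ (g - 2 * κ) := (Real.rpow_pos_of_pos h0 _).le
    refine le_trans (mul_le_mul_of_nonneg_left h4 h6) ?_
    refine mul_le_mul_of_nonneg_right (rt_rpow_anti B h0 h1 (by linarith)) ?_
    refine Finset.sum_nonneg fun p' _ => ?_
    split_ifs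
    · exact B.π.nonneg _
    · exact le_rfl
  · intro p θ hH
    refine le_trans (mul_le_mul_of_nonneg_right (rt_rpow_anti B h0 h1 (by linarith)) (hla0 θ))
      (rt_xy_dict B (B.Q ⟨0, 1, 0, 0⟩) p θ hH.1 g κ h0 h1 (evY p θ hH.2) _ (fun p' => ?_)).1
    exact (q01 p p' θ).symm
  · intro p θ hH d hd
    have h3 := rt_bl_time B p θ hH.1 d (s * d - κ) h0 h1 (evT p θ hH.2 d hd)
    exact le_trans h3 (rt_rpow_anti B h0 h1 (by linarith))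

end Claimed.Agent.R255

/-! ################ former file Rate/ChainsWZ.lean ################ -/
/-!
# Row 255, Sec. 7.3: hypotheses of the test w -> z.  LEAF rt-K.  Architect helper163.  Plan: header of ChainsDef.lean; use Dict.lean as black boxes.
-/

set_option autoImplicit false

namespace Claimed.Agent.R255

open scoped BigOperators
open Classical Finset

/-- the events used by the test `w → z` -/
def rtEvWZ (B : BLaw) (x y w z s κ : ℝ) (N : ℕ) : Option (Option (Bool × Fin (N + 1))) → B.Pt × B.Lb → Prop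
  | none, ω => |B.π.surC (B.Q ⟨1, 1, 1, 1⟩) B.lb ω - (x * 1 + y * 1 + w * 1 + z * 1) * B.L| ≤ κ * B.L
  | some none, ω => |B.π.surC (B.Q ⟨0, 0, 0, 1⟩) B.lb ω - (x * 0 + y * 0 + w * 0 + z * 1) * B.L| ≤ κ * B.L
  | some (some (false, k)), ω =>
      |B.π.surC (B.Q ⟨1, 1, ((k : ℕ) : ℝ) / (N : ℝ), 0⟩) B.lb ω -
        (x * 1 + y * 1 + w * (((k : ℕ) : ℝ) / (N : ℝ)) + z * 0) * B.L| ≤ κ * B.L
  | some (some (true, k)), ω => (s * (((k : ℕ) : ℝ) / (N : ℝ)) - κ) * B.L ≤ B.π.sur (B.cb (((k : ℕ) : ℝ) / (N : ℝ))) ω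

/-- the dictionary for the chain `w → z` -/
theorem rt_wz_dict (B : BLaw) {α : Type} (F : B.Pt × B.Lb → α) (p : B.Pt) (θ : B.Lb) (hω : 0 < B.π.p (p, θ)) (e κ : ℝ)
    (h0 : 0 < B.ρ) (h1 : B.ρ < 1) (h : |B.π.surC F B.lb (p, θ) - e * B.L| ≤ κ * B.L)
    (S : B.Pt → Prop) (hS : ∀ p', S p' ↔ F (p', θ) = F (p, θ)) :
    B.ρ ^ (e + κ) * B.chWZ.la θ ≤ B.chWZ.ms θ S ∧ B.chWZ.ms θ S ≤ B.ρ ^ (e - κ) * B.chWZ.la θ := by
  have e1 : B.chWZ.ms θ S = ∑ p', if F (p', θ) = F (p, θ) then B.π.p (p', θ) else 0 :=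
    Finset.sum_congr rfl fun p' _ => if_congr (hS p') rfl rfl
  rw [e1]
  exact rt_bl_dict B F p θ hω e κ h0 h1 h

/-- distance of a real number to the corner of its finest cell -/
theorem rt_corner (ρ v : ℝ) (h0 : 0 < ρ) (h1 : ρ < 1) : |v - (bbin ρ 1 v : ℝ) * (2 : ℝ)⁻¹ ^ (tlev ρ 1)| ≤ ρ := by
  obtain ⟨-, c2, c3, c4⟩ := rt_cell ρ 1 v h0 h1 one_pos
  rw [Real.rpow_one] at c2
  rw [abs_le]
  constructor <;> nlinarith

/-- the exact shear relation with the corners of the slice -/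
theorem rt_wz_rel (B : BLaw) (A : ℝ) (hA : 1 ≤ A) (h0 : 0 < B.ρ) (h1 : B.ρ < 1)
    (bddL : ∀ θ, |B.c θ| ≤ A ∧ |B.r θ| ≤ A) (p : B.Pt) (θ₀ θ₁ : B.Lb) :
    |B.qZ (p, θ₁) - B.qZ (p, θ₀) - (B.c θ₁ - B.c θ₀) * B.qW (p, θ₀) -
      ((B.r θ₁ - B.r θ₀) * ((bbin B.ρ 1 (B.qY (p, θ₀)) : ℝ) * (2 : ℝ)⁻¹ ^ (tlev B.ρ 1)) +
        (B.c θ₁ - B.c θ₀) * (B.r θ₁ - B.r θ₀) * ((bbin B.ρ 1 (B.qX (p, θ₀)) : ℝ) * (2 : ℝ)⁻¹ ^ (tlev B.ρ 1)))| ≤
      6 * A ^ 3 * B.ρ := by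
  have k1 := rt_corner B.ρ (B.qY (p, θ₀)) h0 h1
  have k2 := rt_corner B.ρ (B.qX (p, θ₀)) h0 h1
  obtain ⟨u1, hu1⟩ : ∃ u, u = (bbin B.ρ 1 (B.qY (p, θ₀)) : ℝ) * (2 : ℝ)⁻¹ ^ (tlev B.ρ 1) := ⟨_, rfl⟩
  obtain ⟨u2, hu2⟩ : ∃ u, u = (bbin B.ρ 1 (B.qX (p, θ₀)) : ℝ) * (2 : ℝ)⁻¹ ^ (tlev B.ρ 1) := ⟨_, rfl⟩
  rw [← hu1] at k1 ⊢
  rw [← hu2] at k2 ⊢
  have e1 : B.qZ (p, θ₁) - B.qZ (p, θ₀) - (B.c θ₁ - B.c θ₀) * B.qW (p, θ₀) -
      ((B.r θ₁ - B.r θ₀) * u1 + (B.c θ₁ - B.c θ₀) * (B.r θ₁ - B.r θ₀) * u2) =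
      (B.r θ₁ - B.r θ₀) * (B.qY (p, θ₀) - u1) + (B.c θ₁ - B.c θ₀) * (B.r θ₁ - B.r θ₀) * (B.qX (p, θ₀) - u2) := by
    unfold BLaw.qZ BLaw.qW BLaw.qY BLaw.qX
    ring
  rw [e1]
  have hr : |B.r θ₁ - B.r θ₀| ≤ 2 * A := by
    have a1 := abs_le.1 (bddL θ₁).2
    have a2 := abs_le.1 (bddL θ₀).2
    rw [abs_le]
    constructor <;> linarith [a1.1, a1.2, a2.1, a2.2]
  have hc : |B.c θ₁ - B.c θ₀| ≤ 2 * A := by
    have a1 := abs_le.1 (bddL θ₁).1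
    have a2 := abs_le.1 (bddL θ₀).1
    rw [abs_le]
    constructor <;> linarith [a1.1, a1.2, a2.1, a2.2]
  have t1 : |(B.r θ₁ - B.r θ₀) * (B.qY (p, θ₀) - u1)| ≤ 2 * A * B.ρ := by
    rw [abs_mul]
    exact mul_le_mul hr k1 (abs_nonneg _) (by linarith)
  have t2 : |(B.c θ₁ - B.c θ₀) * (B.r θ₁ - B.r θ₀) * (B.qX (p, θ₀) - u2)| ≤ 2 * A * (2 * A) * B.ρ := by
    rw [abs_mul, abs_mul]
    exact mul_le_mul (mul_le_mul hc hr (abs_nonneg _) (by linarith)) k2 (abs_nonneg _) (by positivity)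
  have t3 := abs_add_le ((B.r θ₁ - B.r θ₀) * (B.qY (p, θ₀) - u1))
    ((B.c θ₁ - B.c θ₀) * (B.r θ₁ - B.r θ₀) * (B.qX (p, θ₀) - u2))
  have hA2 : A ^ 2 ≤ A ^ 3 := by nlinarith [pow_le_pow_left₀ zero_le_one hA 2]
  have hA3 : A ≤ A ^ 3 := by nlinarith [pow_le_pow_left₀ zero_le_one hA 2]
  have t4 : 2 * A * B.ρ + 2 * A * (2 * A) * B.ρ ≤ 6 * A ^ 3 * B.ρ := by
    have : 2 * A + 2 * A * (2 * A) ≤ 6 * A ^ 3 := by nlinarith
    nlinarith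
  linarith

/-- the hypotheses of the test `w → z` -/
theorem rt_hyp_wz (B : BLaw) (m x y w z s σ κ κ₀ A : ℝ) (N : ℕ) (hN : 0 < N) (hA : 1 ≤ A) (hm : m ≠ 1)
    (hκ : 0 < κ) (h2 : 2 * κ ≤ κ₀) (hT : B.Tol m x y w z s σ κ A N)
    (hinfo : (κ * B.L + Real.exp (-1)) / (κ₀ * B.L) ≤ 1 / 8) (hcount : (2 * (N : ℝ) + 6) * κ ≤ 1 / 2) :
    ∃ H, B.chWZ.Hyp H (6 * A ^ 3) (x + y) w s z κ₀ (1 / 2) N := by
  have h0 := hT.ρpos
  have h1 := hT.ρlt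
  have hL := rt_L_pos B h0 h1
  have hκ₀ : 0 < κ₀ := by linarith
  have hA3 : A ≤ A ^ 3 := by nlinarith [pow_le_pow_left₀ zero_le_one hA 2]
  have hA2 : A ^ 2 ≤ A ^ 3 := by nlinarith [pow_le_pow_left₀ zero_le_one hA 2]
  have one_mem : (1 : ℝ) ∈ mesh N := ⟨N, le_rfl, by rw [div_self]; exact_mod_cast hN.ne'⟩
  have zero_mem : (0 : ℝ) ∈ mesh N := ⟨0, Nat.zero_le _, by simp⟩
  have hE : ∀ i ∈ (Finset.univ : Finset (Option (Option (Bool × Fin (N + 1))))),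
      B.π.pr (fun ω => ¬ rtEvWZ B x y w z s κ N i ω) ≤ κ := by
    intro i _
    match i with
    | none =>
      simpa only [rtEvWZ, not_le] using hT.coord ⟨1, 1, 1, 1⟩ one_mem one_mem one_mem one_mem (fun h => absurd h hm)
    | some none =>
      simpa only [rtEvWZ, not_le] using hT.coord ⟨0, 0, 0, 1⟩ zero_mem zero_mem zero_mem one_mem (fun h => absurd h hm)
    | some (some (false, k)) =>
      simpa only [rtEvWZ, not_le] using hT.coord ⟨1, 1, ((k : ℕ) : ℝ) / (N : ℝ), 0⟩ one_mem one_mem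
        ⟨k, Nat.lt_succ_iff.1 k.2, rfl⟩ zero_mem (fun h => absurd h hm)
    | some (some (true, k)) => simpa only [rtEvWZ, not_le] using hT.time _ ⟨k, Nat.lt_succ_iff.1 k.2, rfl⟩
  have hI := rt_inter B.π Finset.univ (rtEvWZ B x y w z s κ N) κ hE
  rw [rt_ev_card, rt_bl_pr] at hI
  have hla0 : ∀ θ, 0 ≤ ∑ p', B.π.p (p', θ) := fun θ => Finset.sum_nonneg fun p' _ => B.π.nonneg _
  have ev1 : ∀ p θ, (∀ i ∈ (Finset.univ : Finset (Option (Option (Bool × Fin (N + 1))))), rtEvWZ B x y w z s κ N i (p, θ)) →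
      |B.π.surC (B.Q ⟨1, 1, 1, 1⟩) B.lb (p, θ) - (x * 1 + y * 1 + w * 1 + z * 1) * B.L| ≤ κ * B.L :=
    fun p θ h => h none (Finset.mem_univ _)
  have evZ : ∀ p θ, (∀ i ∈ (Finset.univ : Finset (Option (Option (Bool × Fin (N + 1))))), rtEvWZ B x y w z s κ N i (p, θ)) →
      |B.π.surC (B.Q ⟨0, 0, 0, 1⟩) B.lb (p, θ) - (x * 0 + y * 0 + w * 0 + z * 1) * B.L| ≤ κ * B.L :=
    fun p θ h => h (some none) (Finset.mem_univ _)
  have evW : ∀ p θ, (∀ i ∈ (Finset.univ : Finset (Option (Option (Bool × Fin (N + 1))))), rtEvWZ B x y w z s κ N i (p, θ)) →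
      ∀ d ∈ mesh N, |B.π.surC (B.Q ⟨1, 1, d, 0⟩) B.lb (p, θ) - (x * 1 + y * 1 + w * d + z * 0) * B.L| ≤ κ * B.L := by
    intro p θ h d hd
    obtain ⟨k, hk, rfl⟩ := hd
    exact h (some (some (false, ⟨k, Nat.lt_succ_of_le hk⟩))) (Finset.mem_univ _)
  have evT : ∀ p θ, (∀ i ∈ (Finset.univ : Finset (Option (Option (Bool × Fin (N + 1))))), rtEvWZ B x y w z s κ N i (p, θ)) →
      ∀ d ∈ mesh N, (s * d - κ) * B.L ≤ B.π.sur (B.cb d) (p, θ) := by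
    intro p θ h d hd
    obtain ⟨k, hk, rfl⟩ := hd
    exact h (some (some (true, ⟨k, Nat.lt_succ_of_le hk⟩))) (Finset.mem_univ _)
  have qd : ∀ (d : ℝ) (p p' : B.Pt) (θ : B.Lb),
      B.Q ⟨1, 1, d, 0⟩ (p', θ) = B.Q ⟨1, 1, d, 0⟩ (p, θ) ↔
        ((bbin B.ρ 1 (B.qX (p', θ)), bbin B.ρ 1 (B.qY (p', θ))) = (bbin B.ρ 1 (B.qX (p, θ)), bbin B.ρ 1 (B.qY (p, θ))) ∧
          bbin B.ρ d (B.qW (p', θ)) = bbin B.ρ d (B.qW (p, θ))) := by
    intro d p p' θ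
    unfold BLaw.Q
    simp only [rt_bbin_zero, Prod.mk.injEq, and_true, and_assoc]
  have q0 : ∀ (p p' : B.Pt) (θ : B.Lb),
      B.Q ⟨1, 1, 0, 0⟩ (p', θ) = B.Q ⟨1, 1, 0, 0⟩ (p, θ) ↔
        (bbin B.ρ 1 (B.qX (p', θ)), bbin B.ρ 1 (B.qY (p', θ))) = (bbin B.ρ 1 (B.qX (p, θ)), bbin B.ρ 1 (B.qY (p, θ))) := by
    intro p p' θ
    unfold BLaw.Q
    simp only [rt_bbin_zero, Prod.mk.injEq, and_true]
  have q1 : ∀ (p p' : B.Pt) (θ : B.Lb),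
      B.Q ⟨1, 1, 1, 1⟩ (p', θ) = B.Q ⟨1, 1, 1, 1⟩ (p, θ) ↔
        ((bbin B.ρ 1 (B.qX (p', θ)), bbin B.ρ 1 (B.qY (p', θ))) = (bbin B.ρ 1 (B.qX (p, θ)), bbin B.ρ 1 (B.qY (p, θ))) ∧
          bbin B.ρ 1 (B.qW (p', θ)) = bbin B.ρ 1 (B.qW (p, θ)) ∧ bbin B.ρ 1 (B.qZ (p', θ)) = bbin B.ρ 1 (B.qZ (p, θ))) := by
    intro p p' θ
    unfold BLaw.Q
    simp only [Prod.mk.injEq, and_assoc]
  have qz : ∀ (p p' : B.Pt) (θ : B.Lb),
      B.Q ⟨0, 0, 0, 1⟩ (p', θ) = B.Q ⟨0, 0, 0, 1⟩ (p, θ) ↔ bbin B.ρ 1 (B.qZ (p', θ)) = bbin B.ρ 1 (B.qZ (p, θ)) := by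
    intro p p' θ
    unfold BLaw.Q
    simp only [rt_bbin_zero, Prod.mk.injEq, true_and]
  refine ⟨fun p θ => 0 < B.π.p (p, θ) ∧ ∀ i ∈ (Finset.univ : Finset (Option (Option (Bool × Fin (N + 1))))),
    rtEvWZ B x y w z s κ N i (p, θ), ?_⟩
  refine
    { ρpos := h0
      ρlt := h1
      nonneg := fun p θ => B.π.nonneg _
      sum_one := rt_bl_sum_one B
      bdd := ?_
      bddL := ?_
      rel := fun p θ₀ θ₁ => rt_wz_rel B A hA h0 h1 hT.bddL p θ₀ θ₁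
      hH := ?_
      hpos := fun p θ h => h.1
      hratio := rt_bl_ratio B κ κ₀ h0 h1 hκ₀ hT.info hinfo
      slc_up := ?_
      slc_lo := ?_
      src_up := ?_
      tgt_up := ?_
      tgt_lo := ?_
      par_up := ?_ }
  · intro p θ
    obtain ⟨b1, b2, b3, b4⟩ := hT.bddP p
    obtain ⟨c1, c2⟩ := hT.bddL θ
    have hA0 : 0 ≤ A := by linarith
    have m1 : |B.r θ * B.X p| ≤ A * A := by
      rw [abs_mul]
      exact mul_le_mul c2 b1 (abs_nonneg _) hA0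
    have m2 : |B.c θ * B.W p| ≤ A * A := by
      rw [abs_mul]
      exact mul_le_mul c1 b3 (abs_nonneg _) hA0
    have m3 : |B.r θ * B.Y p| ≤ A * A := by
      rw [abs_mul]
      exact mul_le_mul c2 b2 (abs_nonneg _) hA0
    have m4 : |B.c θ * B.r θ * B.X p| ≤ A * A * A := by
      rw [abs_mul, abs_mul]
      exact mul_le_mul (mul_le_mul c1 c2 (abs_nonneg _) hA0) b1 (abs_nonneg _) (by positivity)
    constructor
    · show |B.W p + B.r θ * B.X p| ≤ 6 * A ^ 3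
      have h4 := abs_add_le (B.W p) (B.r θ * B.X p)
      nlinarith
    · show |B.Z p + B.c θ * B.W p + B.r θ * B.Y p + B.c θ * B.r θ * B.X p| ≤ 6 * A ^ 3
      have h4 := abs_add_le (B.Z p + B.c θ * B.W p + B.r θ * B.Y p) (B.c θ * B.r θ * B.X p)
      have h5 := abs_add_le (B.Z p + B.c θ * B.W p) (B.r θ * B.Y p)
      have h6 := abs_add_le (B.Z p) (B.c θ * B.W p)
      nlinarith
  · intro θ
    exact (hT.bddL θ).1.trans (by linarith)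
  · refine le_trans ?_ hI
    nlinarith
  · intro p θ hH
    refine le_trans (rt_wz_dict B (B.Q ⟨1, 1, 0, 0⟩) p θ hH.1 (x * 1 + y * 1 + w * 0 + z * 0) κ h0 h1
      (evW p θ hH.2 0 zero_mem) _ (fun p' => ?_)).2
      (mul_le_mul_of_nonneg_right (rt_rpow_anti B h0 h1 (by linarith)) (hla0 θ))
    exact (q0 p p' θ).symm
  · intro p θ hH
    refine le_trans (mul_le_mul_of_nonneg_right (rt_rpow_anti B h0 h1 (by linarith)) (hla0 θ))
      (rt_wz_dict B (B.Q ⟨1, 1, 0, 0⟩) p θ hH.1 (x * 1 + y * 1 + w * 0 + z * 0) κ h0 h1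
      (evW p θ hH.2 0 zero_mem) _ (fun p' => ?_)).1
    exact (q0 p p' θ).symm
  · intro p θ hH d hd
    refine le_trans (rt_wz_dict B (B.Q ⟨1, 1, d, 0⟩) p θ hH.1 (x * 1 + y * 1 + w * d + z * 0) κ h0 h1
      (evW p θ hH.2 d hd) _ (fun p' => ?_)).2
      (mul_le_mul_of_nonneg_right (rt_rpow_anti B h0 h1 (by linarith)) (hla0 θ))
    exact (qd d p p' θ).symm
  · intro p θ hH
    have h3 := (rt_wz_dict B (B.Q ⟨1, 1, 1, 1⟩) p θ hH.1 (x * 1 + y * 1 + w * 1 + z * 1) κ h0 h1 (ev1 p θ hH.2)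
      (fun p' => B.chWZ.slc p' θ = B.chWZ.slc p θ ∧ bbin B.chWZ.ρ 1 (B.chWZ.src p' θ) = bbin B.chWZ.ρ 1 (B.chWZ.src p θ) ∧
        bbin B.chWZ.ρ 1 (B.chWZ.tgt p' θ) = bbin B.chWZ.ρ 1 (B.chWZ.tgt p θ)) (fun p' => (q1 p p' θ).symm)).2
    have h4 := (rt_wz_dict B (B.Q ⟨1, 1, 1, 0⟩) p θ hH.1 (x * 1 + y * 1 + w * 1 + z * 0) κ h0 h1 (evW p θ hH.2 1 one_mem)
      (fun p' => B.chWZ.slc p' θ = B.chWZ.slc p θ ∧ bbin B.chWZ.ρ 1 (B.chWZ.src p' θ) = bbin B.chWZ.ρ 1 (B.chWZ.src p θ))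
      (fun p' => (qd 1 p p' θ).symm)).1
    refine le_trans h3 ?_
    have h5 : B.ρ ^ (x * 1 + y * 1 + w * 1 + z * 1 - κ) = B.ρ ^ (z - 2 * κ) * B.ρ ^ (x * 1 + y * 1 + w * 1 + z * 0 + κ) := by
      rw [← Real.rpow_add h0]
      congr 1
      ring
    rw [h5, mul_assoc]
    have h6 : 0 ≤ B.ρ ^ (z - 2 * κ) := (Real.rpow_pos_of_pos h0 _).le
    refine le_trans (mul_le_mul_of_nonneg_left h4 h6) ?_
    refine mul_le_mul_of_nonneg_right (rt_rpow_anti B h0 h1 (by linarith)) ?_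
    refine Finset.sum_nonneg fun p' _ => ?_
    split_ifs
    · exact B.π.nonneg _
    · exact le_rfl
  · intro p θ hH
    refine le_trans (mul_le_mul_of_nonneg_right (rt_rpow_anti B h0 h1 (by linarith)) (hla0 θ))
      (rt_wz_dict B (B.Q ⟨0, 0, 0, 1⟩) p θ hH.1 (x * 0 + y * 0 + w * 0 + z * 1) κ h0 h1 (evZ p θ hH.2) _ (fun p' => ?_)).1
    exact (qz p p' θ).symm
  · intro p θ hH d hd
    have h3 := rt_bl_time B p θ hH.1 d (s * d - κ) h0 h1 (evT p θ hH.2 d hd)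
    exact le_trans h3 (rt_rpow_anti B h0 h1 (by linarith))

end Claimed.Agent.R255

/-! ################ former file Rate/ChainsSwap.lean ################ -/
/-!
# Row 255, Sec. 7.3: the swap symmetry.  LEAF rt-L.  Architect helper163.
-/

set_option autoImplicit false

namespace Claimed.Agent.R255

open scoped BigOperators
open Classical Finset

/-- `Tol` is symmetric under the swap (distinct clocks) -/
theorem BLaw.Tol.swap (B : BLaw) (m x y w z s σ κ A : ℝ) (N : ℕ) (hm : m ≠ 1) (hT : B.Tol m x y w z s σ κ A N) :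
    B.swap.Tol m x w y z σ s κ A N := by
  refine ⟨hT.ρpos, hT.ρlt, fun p => ⟨(hT.bddP p).1, (hT.bddP p).2.2.1, (hT.bddP p).2.1, (hT.bddP p).2.2.2⟩,
    fun θ => ⟨(hT.bddL θ).2, (hT.bddL θ).1⟩, hT.info, ?_, hT.normal, hT.time, fun h => absurd h hm⟩
  intro t hX hY hW hZ _
  have h := hT.coord ⟨t.X, t.W, t.Y, t.Z⟩ hX hW hY hZ (fun h => absurd h hm)
  change B.π.pr (fun ω => κ * B.L < |B.π.surC (fun ω : B.Pt × B.Lb =>
      (bbin B.ρ t.X (B.qX ω), bbin B.ρ t.Y (B.qW ω), bbin B.ρ t.W (B.qY ω),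
        bbin B.ρ t.Z (B.Z ω.1 + B.r ω.2 * B.Y ω.1 + B.c ω.2 * B.W ω.1 + B.r ω.2 * B.c ω.2 * B.X ω.1)))
      B.lb ω - (x * t.X + w * t.Y + y * t.W + z * t.Z) * B.L|) ≤ κ
  have hZq : ∀ ω : B.Pt × B.Lb,
      B.Z ω.1 + B.r ω.2 * B.Y ω.1 + B.c ω.2 * B.W ω.1 + B.r ω.2 * B.c ω.2 * B.X ω.1 = B.qZ ω := by
    intro ω
    unfold BLaw.qZ
    ring
  simp only [hZq]
  have hfib : ∀ ω, B.π.fib (FLaw.pair (fun ω : B.Pt × B.Lb =>
      (bbin B.ρ t.X (B.qX ω), bbin B.ρ t.Y (B.qW ω), bbin B.ρ t.W (B.qY ω), bbin B.ρ t.Z (B.qZ ω))) B.lb) ω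
      = B.π.fib (FLaw.pair (B.Q ⟨t.X, t.W, t.Y, t.Z⟩) B.lb) ω := by
    intro ω
    refine rt_fib_congr B.π _ _ (fun ω₁ ω₂ => ?_) ω
    simp only [FLaw.pair, BLaw.Q, Prod.mk.injEq]
    tauto
  have hsur : ∀ ω, B.π.surC (fun ω : B.Pt × B.Lb =>
      (bbin B.ρ t.X (B.qX ω), bbin B.ρ t.Y (B.qW ω), bbin B.ρ t.W (B.qY ω), bbin B.ρ t.Z (B.qZ ω))) B.lb ω
      = B.π.surC (B.Q ⟨t.X, t.W, t.Y, t.Z⟩) B.lb ω := by
    intro ω
    unfold FLaw.surC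
    rw [hfib]
  simp only [hsur]
  rw [show x * t.X + w * t.Y + y * t.W + z * t.Z = x * t.X + y * t.W + w * t.Y + z * t.Z by ring]
  exact h

theorem BlkSupply.swap (m x y w z s σ A : ℝ) (hm : m ≠ 1) (h : BlkSupply m x y w z s σ A) :
    BlkSupply m x w y z σ s A := by
  intro κ hκ N hN ρ₁ hρ
  obtain ⟨B, h1, h2⟩ := h κ hκ N hN ρ₁ hρ
  exact ⟨B.swap, h1, BLaw.Tol.swap B m x y w z s σ κ A N hm h2⟩

end Claimed.Agent.R255

/-! ################ former file Rate/Chains.lean ################ -/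
/-!
# Row 255, Sec. 7.3, unit U2: P7.1 (1) from `BlkSupply`.  GLUE.  Architect helper163.
Each rule by contradiction: `rt_chain` gives `κ₀, N₀, ρ₀(1/2)`; `rt_choose κ₀ N₀` gives `κ, ρ₂`; `hB κ N₀ (min ρ₀ ρ₂)` gives `B`; `rt_hyp_*` gives `Hyp`.
`Rate/Contracts.lean : rt_chains4` cites `rt_u2_chains4`.
-/

set_option autoImplicit false

namespace Claimed.Agent.R255

open scoped BigOperators
open Classical Finset

/-- LEAF rt-N.  Choice of the tolerance: for given `κ₀ > 0`, `N` there are `κ > 0`, `ρ₂ > 0` with all the numerical side conditions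
(`κ = min (κ₀/16) (1/(2(2N+6)))`; `lg ρ = log (1/ρ) → ∞`: need `e⁻¹/(κ₀ lg ρ) ≤ 1/16`). -/
theorem rt_choose (κ₀ : ℝ) (hκ₀ : 0 < κ₀) (N : ℕ) :
    ∃ κ : ℝ, 0 < κ ∧ 2 * κ ≤ κ₀ ∧ (2 * (N : ℝ) + 6) * κ ≤ 1 / 2 ∧ ∃ ρ₂ : ℝ, 0 < ρ₂ ∧ ρ₂ < 1 ∧
      ∀ ρ : ℝ, 0 < ρ → ρ < ρ₂ → (κ * lg ρ + Real.exp (-1)) / (κ₀ * lg ρ) ≤ 1 / 8 := by
  have hN : (0 : ℝ) < 2 * (N : ℝ) + 6 := by positivity
  refine ⟨min (κ₀ / 16) (1 / (2 * (2 * (N : ℝ) + 6))), lt_min (by positivity) (by positivity), ?_, ?_,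
    Real.exp (-(16 / κ₀ + 1)), Real.exp_pos _, ?_, ?_⟩
  · have := min_le_left (κ₀ / 16) (1 / (2 * (2 * (N : ℝ) + 6)))
    linarith
  · have := min_le_right (κ₀ / 16) (1 / (2 * (2 * (N : ℝ) + 6)))
    calc (2 * (N : ℝ) + 6) * min (κ₀ / 16) (1 / (2 * (2 * (N : ℝ) + 6)))
        ≤ (2 * (N : ℝ) + 6) * (1 / (2 * (2 * (N : ℝ) + 6))) := mul_le_mul_of_nonneg_left this hN.le
      _ = 1 / 2 := by field_simp
  · rw [Real.exp_lt_one_iff]
    have : 0 < 16 / κ₀ := by positivity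
    linarith
  · intro ρ hρ hlt
    have hL : 16 / κ₀ + 1 < lg ρ := by
      unfold lg
      rw [one_div, Real.log_inv]
      have := Real.log_lt_log hρ hlt
      rw [Real.log_exp] at this
      linarith
    have h16 : 0 < 16 / κ₀ := by positivity
    have hLpos : 0 < lg ρ := by linarith
    have hk := min_le_left (κ₀ / 16) (1 / (2 * (2 * (N : ℝ) + 6)))
    have he : Real.exp (-1) ≤ 1 := by
      rw [Real.exp_le_one_iff]; norm_num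
    rw [div_le_iff₀ (by positivity)]
    have h3 : 16 < κ₀ * lg ρ := by
      have : κ₀ * (16 / κ₀ + 1) < κ₀ * lg ρ := mul_lt_mul_of_pos_left hL hκ₀
      have e : κ₀ * (16 / κ₀ + 1) = 16 + κ₀ := by field_simp
      linarith
    have h4 : min (κ₀ / 16) (1 / (2 * (2 * (N : ℝ) + 6))) * lg ρ ≤ κ₀ / 16 * lg ρ :=
      mul_le_mul_of_nonneg_right hk hLpos.le
    nlinarith

theorem rt_mesh_zero (N : ℕ) : (0 : ℝ) ∈ mesh N := ⟨0, Nat.zero_le _, by simp⟩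

theorem rt_mesh_one (N : ℕ) (hN : 0 < N) : (1 : ℝ) ∈ mesh N :=
  ⟨N, le_rfl, by rw [div_self]; exact_mod_cast hN.ne'⟩

/-- the rule `x → y` -/
theorem rt_rule_xy (m x y w z s σ A : ℝ) (hm : m ≠ 1) (hA : 1 ≤ A) (hs : 0 < s) (hy : 0 ≤ y)
    (hB : BlkSupply m x y w z s σ A) (hx : 0 < x) : min 1 (x + s) ≤ y := by
  by_contra hlt
  push Not at hlt
  have hA6 : (1 : ℝ) ≤ 6 * A ^ 3 := by nlinarith [pow_le_pow_left₀ zero_le_one hA 3]
  obtain ⟨κ₀, hκ₀, N₀, hN₀, hch⟩ := rt_chain x s y (6 * A ^ 3) hx hs hy hlt hA6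
  obtain ⟨ρ₀, hρ₀, hch⟩ := hch (1 / 2) (by norm_num)
  obtain ⟨κ, hκ, h2, hcount, ρ₂, hρ₂, -, hinfo⟩ := rt_choose κ₀ hκ₀ N₀
  obtain ⟨B, hBρ, hT⟩ := hB κ hκ N₀ hN₀ (min ρ₀ ρ₂) (lt_min hρ₀ hρ₂)
  have z0 := rt_mesh_zero N₀
  have o1 := rt_mesh_one N₀ hN₀
  have hX : ∀ d ∈ mesh N₀,
      B.π.pr (fun ω => κ * B.L < |B.π.surC (B.Q ⟨d, 0, 0, 0⟩) B.lb ω - (x * d) * B.L|) ≤ κ := by
    intro d hd
    have := hT.coord ⟨d, 0, 0, 0⟩ hd z0 z0 z0 (fun h => absurd h hm)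
    simpa using this
  have hXY : B.π.pr (fun ω => κ * B.L < |B.π.surC (B.Q ⟨1, 1, 0, 0⟩) B.lb ω - (x + y) * B.L|) ≤ κ := by
    have := hT.coord ⟨1, 1, 0, 0⟩ o1 o1 z0 z0 (fun h => absurd h hm)
    simpa using this
  have hY : B.π.pr (fun ω => κ * B.L < |B.π.surC (B.Q ⟨0, 1, 0, 0⟩) B.lb ω - y * B.L|) ≤ κ := by
    have := hT.coord ⟨0, 1, 0, 0⟩ z0 o1 z0 z0 (fun h => absurd h hm)
    simpa using this
  obtain ⟨H, hH⟩ := rt_hyp_xy_gen B x y s κ κ₀ A N₀ hN₀ hA hT.ρpos hT.ρlt hκ h2 hT.bddP hT.bddL hT.info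
    (hinfo B.ρ hT.ρpos (lt_of_lt_of_le hBρ (min_le_right _ _))) hcount hX hXY hY hT.time
  exact hch B.chXY H 0 N₀ le_rfl (lt_of_lt_of_le hBρ (min_le_left _ _)) hH

/-- the rule `w → z` -/
theorem rt_rule_wz (m x y w z s σ A : ℝ) (hm : m ≠ 1) (hA : 1 ≤ A) (hs : 0 < s) (hz : 0 ≤ z)
    (hB : BlkSupply m x y w z s σ A) (hw : 0 < w) : min 1 (w + s) ≤ z := by
  by_contra hlt
  push Not at hlt
  have hA6 : (1 : ℝ) ≤ 6 * A ^ 3 := by nlinarith [pow_le_pow_left₀ zero_le_one hA 3]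
  obtain ⟨κ₀, hκ₀, N₀, hN₀, hch⟩ := rt_chain w s z (6 * A ^ 3) hw hs hz hlt hA6
  obtain ⟨ρ₀, hρ₀, hch⟩ := hch (1 / 2) (by norm_num)
  obtain ⟨κ, hκ, h2, hcount, ρ₂, hρ₂, -, hinfo⟩ := rt_choose κ₀ hκ₀ N₀
  obtain ⟨B, hBρ, hT⟩ := hB κ hκ N₀ hN₀ (min ρ₀ ρ₂) (lt_min hρ₀ hρ₂)
  obtain ⟨H, hH⟩ := rt_hyp_wz B m x y w z s σ κ κ₀ A N₀ hN₀ hA hm hκ h2 hT
    (hinfo B.ρ hT.ρpos (lt_of_lt_of_le hBρ (min_le_right _ _))) hcount
  exact hch B.chWZ H (x + y) N₀ le_rfl (lt_of_lt_of_le hBρ (min_le_left _ _)) hH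

/-- **Proposition 7.1 (1)** from the block laws -/
theorem rt_rules_distinct (m x y w z s σ A : ℝ) (hm : m ≠ 1) (hA : 1 ≤ A) (hs : 0 < s) (hσ : 0 < σ)
    (hy : 0 ≤ y) (hw : 0 ≤ w) (hz : 0 ≤ z) (hB : BlkSupply m x y w z s σ A) :
    (0 < x → min 1 (x + s) ≤ y) ∧ (0 < w → min 1 (w + s) ≤ z) ∧ (0 < x → min 1 (x + σ) ≤ w) ∧
      (0 < y → min 1 (y + σ) ≤ z) :=
  ⟨rt_rule_xy m x y w z s σ A hm hA hs hy hB, rt_rule_wz m x y w z s σ A hm hA hs hz hB,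
    rt_rule_xy m x w y z σ s A hm hA hσ hw (hB.swap m x y w z s σ A hm),
    rt_rule_wz m x w y z σ s A hm hA hσ hz (hB.swap m x y w z s σ A hm)⟩

/-- statement of `Contracts.rt_chains4` -/
theorem rt_u2_chains4 (m x y w z s σ A : ℝ) (hm1 : m ≠ 1) (hA : 1 ≤ A) (hs : 0 < s) (hσ : 0 < σ)
    (cap : 0 ≤ x ∧ x ≤ 1 ∧ 0 ≤ y ∧ y ≤ 1 ∧ 0 ≤ w ∧ w ≤ 1 ∧ 0 ≤ z ∧ z ≤ 1) (H : BlkSupply m x y w z s σ A) :
    (0 < x → min 1 (x + s) ≤ y) ∧ (0 < w → min 1 (w + s) ≤ z) ∧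
      (0 < x → min 1 (x + σ) ≤ w) ∧ (0 < y → min 1 (y + σ) ≤ z) :=
  rt_rules_distinct m x y w z s σ A hm1 hA hs hσ cap.2.2.1 cap.2.2.2.2.1 cap.2.2.2.2.2.2.1 H

end Claimed.Agent.R255
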