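-- KEEP
import Claimed.Agent.RW.Export
import Claimed.Agent.R255.Base.Seq

/-!
# Row 255 (BR paper), Section 7 (rate transfer), file 1: the FINITE BLOCK interface      (chief S7: helper191)

Section 7 is cut in two halves which meet in ONE finite object, the block `RtBlk`:
* EXTRACTION (units U1a EXTRACT + U1b CORE3, see `Rate/Contracts.lean`): at a trace point of the matched process there are blocks of every tolerance `η` at arbitrarily small scales `ρ`.  (The graph blocks are used for the TIED case `m = 1`; the four chains at distinct clocks go through `Rate/Chain*.lean` of helper163.)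
* TESTS (units U2-U6): for rates violating Proposition 7.1 there is `η > 0` such that NO block of tolerance `η` exists at small scales.  PAPER-FREE finite combinatorics + the exports `ex_K, ex_F, ex_W1, ex_W2` of team RW.

A block is a weighted bipartite graph, NOT a law: points `p : P` (weights `μ`, the rounded pre-label data `(X,Y,W,Z)`, normalised to a bounded box), labels `t : Th` (weights `lam`, normalised parameter increments `(c,r)`), incidence relation `G`.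
In the frame of the label `t` the coordinates are the shears (7.5)   `X`, `Yf = Y + cX`, `Wf = W + rX`, `Zf = Z + cW + rY + crX`   (frames compose by adding `(c,r)`: `rtblk_frame_*`).
All measures are UNNORMALISED sub-probabilities: every upper bound survives every restriction; only masses have to be tracked (pigeonhole, Cauchy-Schwarz).  This replaces stars, cores, named/actual marginals, Thm 2.7, Cor 2.8, L2.6 of the paper.
Properties (`K = ρ^(-η)`):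
 (G1) every label of positive weight has `μ(G_t) ≥ ρ^η`, and `lam(Th) ≥ ρ^η`;
 (G2) BOX BOUND in every frame: `μ{p ∈ G_t : coordinates in a box of half-sides r_j ∈ [ρ,1]} ≤ K ∏ r_j^(a_j)`;
 (G3) COVERING at every scale `r' ∈ [ρ,1]`: the `j`-th coordinate of `G_t` in the frame `t` is covered by `K r'^(-a_j)` intervals of half-length `r'`;
 (G4) `c` is Frostman `s`, `r` is Frostman `σ`; in the tied case `m = 1` the planar law of `(c,r)` is hereditarily Frostman `s` on the dyadic tree.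
(G2)+(G3) say that the coordinates are "AD regular and independent": typical cells have mass `≈ ρ^(a_j)`, which is what replaces the products with actual marginals.
Definitions are FROZEN (ask helper191).
-/

set_option autoImplicit false

namespace Claimed.Agent.R255

open Finset Classical
open Claimed.Agent.RW (KfFrost)

/-- the data of a finite point-parameter block -/
structure RtBlk where
  P : Type
  Th : Type
  finP : Fintype P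
  finTh : Fintype Th
  μ : P → ℝ
  lam : Th → ℝ
  X : P → ℝ
  Y : P → ℝ
  W : P → ℝ
  Z : P → ℝ
  c : Th → ℝ
  r : Th → ℝ
  G : P → Th → Prop

attribute [instance] RtBlk.finP RtBlk.finTh

/-- `S ⊆ ℝ` is covered by at most `N` intervals of half-length `r'` -/
def RtCov (S : Set ℝ) (r' N : ℝ) : Prop :=
  ∃ cov : Finset ℝ, (cov.card : ℝ) ≤ N ∧ ∀ t ∈ S, ∃ e ∈ cov, |t - e| ≤ r'

/-- `S ⊆ ℝ²` is covered by at most `N` squares of half-side `r'` -/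
def RtCov2 (S : Set (ℝ × ℝ)) (r' N : ℝ) : Prop :=
  ∃ cov : Finset (ℝ × ℝ), (cov.card : ℝ) ≤ N ∧ ∀ t ∈ S, ∃ e ∈ cov, |t.1 - e.1| ≤ r' ∧ |t.2 - e.2| ≤ r'

/-- the dyadic square of level `k` -/
noncomputable def rtCell (k : ℕ) (v : ℝ × ℝ) : ℤ × ℤ := (⌊v.1 * 2 ^ k⌋, ⌊v.2 * 2 ^ k⌋)

/-- hereditary Frostman condition on the dyadic tree, down to the scale `ρ` -/
def RtTreeHer {ι : Type} [Fintype ι] (w : ι → ℝ) (pos : ι → ℝ × ℝ) (C s ρ : ℝ) : Prop :=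
  ∀ (k k' : ℕ), k ≤ k' → ρ ≤ (1 / 2 : ℝ) ^ k' → ∀ i₀ : ι,
    ∑ i with rtCell k' (pos i) = rtCell k' (pos i₀), w i ≤
      C * ((1 / 2 : ℝ) ^ (k' - k)) ^ s * ∑ i with rtCell k (pos i) = rtCell k (pos i₀), w i

/-- every strip of half-width `wd` has mass at most `κ` -/
def RtNoStrip {ι : Type} [Fintype ι] (w : ι → ℝ) (pos : ι → ℝ × ℝ) (wd κ : ℝ) : Prop :=
  ∀ (p₀ : ℝ × ℝ) (φ : ℝ), ∑ i with |ip (pos i - p₀) (nrm φ)| ≤ wd, w i ≤ κ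

/-- thin cones: from every pin `i₀` the directions of its `𝒢`-neighbours are Frostman `t` -/
def RtThin {ι : Type} [Fintype ι] (w : ι → ℝ) (pos : ι → ℝ × ℝ) (𝒢 : ι → ι → Prop) (C t ρ : ℝ) : Prop :=
  ∀ (i₀ : ι) (φ wd : ℝ), ρ ≤ wd → wd ≤ 1 →
    ∑ i with 𝒢 i₀ i ∧ |ip (pos i - pos i₀) (nrm φ)| ≤ wd * dist (pos i) (pos i₀), w i ≤ C * wd ^ t

namespace RtBlk

variable (b : RtBlk)

/-- the parameter point of a label -/
def pos (t : b.Th) : ℝ × ℝ := (b.c t, b.r t)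

def Yf (t : b.Th) (p : b.P) : ℝ := b.Y p + b.c t * b.X p

def Wf (t : b.Th) (p : b.P) : ℝ := b.W p + b.r t * b.X p

def Zf (t : b.Th) (p : b.P) : ℝ := b.Z p + b.c t * b.W p + b.r t * b.Y p + b.c t * b.r t * b.X p

theorem frame_Y (t₀ t₁ : b.Th) (p : b.P) : b.Yf t₁ p = b.Yf t₀ p + (b.c t₁ - b.c t₀) * b.X p := by
  unfold Yf; ring

theorem frame_W (t₀ t₁ : b.Th) (p : b.P) : b.Wf t₁ p = b.Wf t₀ p + (b.r t₁ - b.r t₀) * b.X p := by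
  unfold Wf; ring

theorem frame_Z (t₀ t₁ : b.Th) (p : b.P) :
    b.Zf t₁ p = b.Zf t₀ p + (b.c t₁ - b.c t₀) * b.Wf t₀ p + (b.r t₁ - b.r t₀) * b.Yf t₀ p
      + (b.c t₁ - b.c t₀) * (b.r t₁ - b.r t₀) * b.X p := by
  unfold Zf Wf Yf; ring

/-- sub-probabilities, bounded box, (G1), and the Frostman bounds of the two parameter marginals -/
structure Base (ρ η A s σ : ℝ) : Prop where
  μ0 : ∀ p, 0 ≤ b.μ p
  lam0 : ∀ t, 0 ≤ b.lam t
  μ1 : ∑ p, b.μ p ≤ 1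
  lam1 : ∑ t, b.lam t ≤ 1
  bdP : ∀ p, |b.X p| ≤ A ∧ |b.Y p| ≤ A ∧ |b.W p| ≤ A ∧ |b.Z p| ≤ A
  bdT : ∀ t, |b.c t| ≤ A ∧ |b.r t| ≤ A
  mass : ρ ^ η ≤ ∑ t, b.lam t
  nbr : ∀ t, 0 < b.lam t → ρ ^ η ≤ ∑ p with b.G p t, b.μ p
  frC : KfFrost b.lam b.c (ρ ^ (-η)) s ρ
  frR : KfFrost b.lam b.r (ρ ^ (-η)) σ ρ

/-- block at distinct clocks (`m ≠ 1`), rates `x y w z` -/
structure Is4 (ρ η A x y w z s σ : ℝ) : Prop extends b.Base ρ η A s σ where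
  box : ∀ (t : b.Th) (x₀ y₀ w₀ z₀ r₁ r₂ r₃ r₄ : ℝ), ρ ≤ r₁ → r₁ ≤ 1 → ρ ≤ r₂ → r₂ ≤ 1 → ρ ≤ r₃ → r₃ ≤ 1 →
    ρ ≤ r₄ → r₄ ≤ 1 →
    ∑ p with b.G p t ∧ |b.X p - x₀| ≤ r₁ ∧ |b.Yf t p - y₀| ≤ r₂ ∧ |b.Wf t p - w₀| ≤ r₃ ∧ |b.Zf t p - z₀| ≤ r₄,
      b.μ p ≤ ρ ^ (-η) * (r₁ ^ x * r₂ ^ y * r₃ ^ w * r₄ ^ z)
  covX : ∀ (t : b.Th) (r' : ℝ), ρ ≤ r' → r' ≤ 1 → RtCov {v | ∃ p, b.G p t ∧ v = b.X p} r' (ρ ^ (-η) * r' ^ (-x))
  covY : ∀ (t : b.Th) (r' : ℝ), ρ ≤ r' → r' ≤ 1 → RtCov {v | ∃ p, b.G p t ∧ v = b.Yf t p} r' (ρ ^ (-η) * r' ^ (-y))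
  covW : ∀ (t : b.Th) (r' : ℝ), ρ ≤ r' → r' ≤ 1 → RtCov {v | ∃ p, b.G p t ∧ v = b.Wf t p} r' (ρ ^ (-η) * r' ^ (-w))
  covZ : ∀ (t : b.Th) (r' : ℝ), ρ ≤ r' → r' ≤ 1 → RtCov {v | ∃ p, b.G p t ∧ v = b.Zf t p} r' (ρ ^ (-η) * r' ^ (-z))

/-- block at tied clocks (`m = 1`) WITHOUT the hereditary condition: rates `x q z`, the middle datum is `U = (Y,W)` -/
structure Is3w (ρ η A x q z s σ : ℝ) : Prop extends b.Base ρ η A s σ where
  box : ∀ (t : b.Th) (x₀ y₀ w₀ z₀ r₁ r₂ r₃ : ℝ), ρ ≤ r₁ → r₁ ≤ 1 → ρ ≤ r₂ → r₂ ≤ 1 → ρ ≤ r₃ → r₃ ≤ 1 →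
    ∑ p with b.G p t ∧ |b.X p - x₀| ≤ r₁ ∧ |b.Yf t p - y₀| ≤ r₂ ∧ |b.Wf t p - w₀| ≤ r₂ ∧ |b.Zf t p - z₀| ≤ r₃,
      b.μ p ≤ ρ ^ (-η) * (r₁ ^ x * r₂ ^ q * r₃ ^ z)
  covX : ∀ (t : b.Th) (r' : ℝ), ρ ≤ r' → r' ≤ 1 → RtCov {v | ∃ p, b.G p t ∧ v = b.X p} r' (ρ ^ (-η) * r' ^ (-x))
  covU : ∀ (t : b.Th) (r' : ℝ), ρ ≤ r' → r' ≤ 1 →
    RtCov2 {v | ∃ p, b.G p t ∧ v = (b.Yf t p, b.Wf t p)} r' (ρ ^ (-η) * r' ^ (-q))
  covZ : ∀ (t : b.Th) (r' : ℝ), ρ ≤ r' → r' ≤ 1 → RtCov {v | ∃ p, b.G p t ∧ v = b.Zf t p} r' (ρ ^ (-η) * r' ^ (-z))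

/-- block at tied clocks -/
structure Is3 (ρ η A x q z s σ : ℝ) : Prop extends b.Is3w ρ η A x q z s σ where
  her : RtTreeHer b.lam b.pos (ρ ^ (-η)) s ρ

/-- all labels of positive weight lie in one strip of half-width `wd` -/
def InStrip (wd : ℝ) : Prop :=
  ∃ (p₀ : ℝ × ℝ) (φ : ℝ), ∀ t, 0 < b.lam t → |ip (b.pos t - p₀) (nrm φ)| ≤ wd

end RtBlk

/-- there are blocks of every tolerance at arbitrarily small scales -/
def RtHas4 (x y w z s σ : ℝ) : Prop :=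
  ∃ A : ℝ, 1 ≤ A ∧ ∀ η ρ₁ : ℝ, 0 < η → 0 < ρ₁ → ∃ ρ : ℝ, 0 < ρ ∧ ρ < ρ₁ ∧ ∃ b : RtBlk, b.Is4 ρ η A x y w z s σ

def RtHas3 (x q z s σ : ℝ) : Prop :=
  ∃ A : ℝ, 1 ≤ A ∧ ∀ η ρ₁ : ℝ, 0 < η → 0 < ρ₁ → ∃ ρ : ℝ, 0 < ρ ∧ ρ < ρ₁ ∧ ∃ b : RtBlk, b.Is3 ρ η A x q z s σ

end Claimed.Agent.R255
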