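-- KEEP
import Claimed.Agent.R255.Rate.Blk
import Claimed.Agent.R255.Rate.Gr
import Claimed.Agent.R255.Ent.Prod

/-!
# Row 255 (BR paper), Sec. 7, unit U1b CORE3 (`rt_core3`), file 1: definitions      (architect helper50; chief S7: helper191)

`BlkSupply 1 x q 0 z s σ A  ⟹  RtHas3 x q z s σ`.   PAPER-FREE finite probability.  Plan: origin/helper191:notes/S7/plan.md, sec. CORE3.
The proof is cut at ONE pointwise interface, `Rc3Trim`:
* STEP 1 (`Core3Trim.lean`, probability): a block law `B` with `B.Tol 1 x q 0 z s σ κ A N` has a graph `G ⊆ Pt × Lb` and a set of labels `E` on which ALL surprise events hold POINTWISE, in the form of plain inequalities between finite sums (`Rc3Trim`).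
* STEP 2 (`Core3Box.lean`, `Core3Her.lean`, deterministic): `Rc3Trim` gives every field of `RtBlk.Is3` for the block `rc3_blk B G E`, with EXPLICIT constants `C₀ ρ^(-e)`.
* STEP 3 (`Core3.lean`): choice of `N, κ, ν`, smallness of `ρ`, absorption `C₀ ρ^(-e) ≤ ρ^(-η)`.
Notation: `ρ = B.ρ`, `d k = k/N` mesh depth, `μ₀, λ₀` the two marginals of `π`, `ρ^(-ν) = e^v` the likelihood tolerance, `δ` the floor of the parameter tree.
Definitions are FROZEN (ask helper50).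
-/

set_option autoImplicit false

namespace Claimed.Agent.R255

open Finset Classical

/-- the mesh depth `k/N` -/
noncomputable def rc3_d (N k : ℕ) : ℝ := (k : ℝ) / (N : ℝ)

/-- the point marginal -/
noncomputable def rc3_mu0 (B : BLaw) (p : B.Pt) : ℝ := ∑ t, B.π.p (p, t)

/-- the label marginal -/
noncomputable def rc3_lam0 (B : BLaw) (t : B.Lb) : ℝ := ∑ p, B.π.p (p, t)

/-- the depths `(i, j, j, l)/N` -/
noncomputable def rc3_dep (N i j l : ℕ) : Dep := ⟨rc3_d N i, rc3_d N j, rc3_d N j, rc3_d N l⟩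

/-- the atom of the parameter tree, as a function of the label -/
noncomputable def rc3_th (B : BLaw) (d : ℝ) (t : B.Lb) : ℤ × ℤ := (bbin B.ρ d (B.c t), bbin B.ρ d (B.r t))

/-- THE POINTWISE INTERFACE: graph `G`, retained labels `E`. -/
structure Rc3Trim (B : BLaw) (N : ℕ) (x q z s σ κ ν δ : ℝ) (G : B.Pt → B.Lb → Prop) (E : B.Lb → Prop) : Prop where
  pos : ∀ p t, G p t → 0 < B.π.p (p, t)
  /-- two-sided likelihood ratio -/
  up : ∀ p t, G p t → B.π.p (p, t) ≤ B.ρ ^ (-ν) * (rc3_mu0 B p * rc3_lam0 B t)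
  lo : ∀ p t, G p t → rc3_mu0 B p * rc3_lam0 B t ≤ B.ρ ^ (-ν) * B.π.p (p, t)
  /-- the cell of `(p,t)` in the frame `t` at the depths `(i,j,j,l)/N` has conditional mass `ρ^(x i/N + q j/N + z l/N ± κ)` -/
  cellU : ∀ p t, G p t → ∀ i j l : ℕ, i ≤ N → j ≤ N → l ≤ N →
    ∑ p' with B.Q (rc3_dep N i j l) (p', t) = B.Q (rc3_dep N i j l) (p, t), B.π.p (p', t)
      ≤ B.ρ ^ (x * rc3_d N i + q * rc3_d N j + z * rc3_d N l - κ) * rc3_lam0 B t
  cellL : ∀ p t, G p t → ∀ i j l : ℕ, i ≤ N → j ≤ N → l ≤ N →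
    B.ρ ^ (x * rc3_d N i + q * rc3_d N j + z * rc3_d N l + κ) * rc3_lam0 B t
      ≤ ∑ p' with B.Q (rc3_dep N i j l) (p', t) = B.Q (rc3_dep N i j l) (p, t), B.π.p (p', t)
  time : ∀ p t, G p t → ∀ i : ℕ, i ≤ N →
    ∑ t' with bbin B.ρ (rc3_d N i) (B.c t') = bbin B.ρ (rc3_d N i) (B.c t), rc3_lam0 B t'
      ≤ B.ρ ^ (s * rc3_d N i - κ)
  normal : ∀ p t, G p t → ∀ i : ℕ, i ≤ N →
    ∑ t' with bbin B.ρ (rc3_d N i) (B.r t') = bbin B.ρ (rc3_d N i) (B.r t), rc3_lam0 B t'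
      ≤ B.ρ ^ (σ * rc3_d N i - κ)
  joint : ∀ p t, G p t → ∀ i j : ℕ, i ≤ j → j ≤ N →
    ∑ t' with rc3_th B (rc3_d N j) t' = rc3_th B (rc3_d N j) t ∧ rc3_th B (rc3_d N i) t' = rc3_th B (rc3_d N i) t,
        rc3_lam0 B t'
      ≤ B.ρ ^ (s * (rc3_d N j - rc3_d N i) - κ)
        * ∑ t' with rc3_th B (rc3_d N i) t' = rc3_th B (rc3_d N i) t, rc3_lam0 B t'
  /-- good labels -/
  half : ∀ t, E t → rc3_lam0 B t ≤ 2 * ∑ p with G p t, B.π.p (p, t)
  /-- floors on the mesh atoms of the parameter tree -/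
  floor : ∀ t, E t → 0 < rc3_lam0 B t → ∀ i : ℕ, i ≤ N →
    δ * ∑ t' with rc3_th B (rc3_d N i) t' = rc3_th B (rc3_d N i) t, rc3_lam0 B t'
      ≤ ∑ t' with E t' ∧ rc3_th B (rc3_d N i) t' = rc3_th B (rc3_d N i) t, rc3_lam0 B t'
  mass : 1 / 2 ≤ ∑ t with E t, rc3_lam0 B t

/-- THE BLOCK -/
noncomputable def rc3_blk (B : BLaw) (G : B.Pt → B.Lb → Prop) (E : B.Lb → Prop) : RtBlk where
  P := B.Pt
  Th := B.Lb
  finP := B.finP
  finTh := B.finL
  μ := rc3_mu0 B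
  lam := fun t => if E t then rc3_lam0 B t else 0
  X := B.X
  Y := B.Y
  W := B.W
  Z := B.Z
  c := B.c
  r := B.r
  G := fun p t => G p t ∧ E t

theorem rc3_defs_cite : True := by
  have := @rc3_d.eq_1
  have := @rc3_mu0.eq_1
  have := @rc3_lam0.eq_1
  have := @rc3_dep.eq_1
  have := @rc3_th.eq_1
  have := @rc3_blk.eq_1
  trivial

end Claimed.Agent.R255
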