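-- KEEP
import Claimed.Agent.R255.Rate.Core3Defs

/-!
# Row 255 (BR paper), Sec. 7, unit U1b CORE3, file 2: tools      (architect helper50)

PAPER-FREE, Mathlib only.  [A] powers of `ρ`, mesh depths;  [B] dyadic bins `bbin`;  [C] two counting lemmas for finite sums;  [D] the marginals of a block law, monotonicity of the target predicates.
Statements FROZEN (ask helper50); provers edit only bodies, helpers directly above their use (prefix `rc3_`).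
-/

set_option autoImplicit false

namespace Claimed.Agent.R255

open Finset Classical
open Claimed.Agent.RW (KfFrost)

/-! ## [A] powers of `ρ`, mesh depths -/

theorem rc3_lg_pos (ρ : ℝ) (h0 : 0 < ρ) (h1 : ρ < 1) : 0 < lg ρ := by
  unfold lg
  exact Real.log_pos (by rw [lt_div_iff₀ h0]; linarith)

/-- `ρ^y = exp (- y L)` -/
theorem rc3_rpow_exp (ρ y : ℝ) (h0 : 0 < ρ) : ρ ^ y = Real.exp (-(y * lg ρ)) := by
  unfold lg
  rw [Real.rpow_def_of_pos h0, one_div, Real.log_inv]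
  congr 1
  ring

theorem rc3_rpow_anti (ρ a b : ℝ) (h0 : 0 < ρ) (h1 : ρ < 1) (h : a ≤ b) : ρ ^ b ≤ ρ ^ a :=
  Real.rpow_le_rpow_of_exponent_ge h0 h1.le h

theorem rc3_one_le_rpow (ρ a : ℝ) (h0 : 0 < ρ) (h1 : ρ < 1) (h : 0 ≤ a) : 1 ≤ ρ ^ (-a) := by
  have := rc3_rpow_anti ρ (-a) 0 h0 h1 (by linarith)
  rwa [Real.rpow_zero] at this

theorem rc3_d_zero (N : ℕ) : rc3_d N 0 = 0 := by
  simp [rc3_d]

theorem rc3_d_nonneg (N k : ℕ) : 0 ≤ rc3_d N k := by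
  unfold rc3_d
  positivity

theorem rc3_d_pos (N k : ℕ) (hN : 0 < N) (hk : 0 < k) : 0 < rc3_d N k := by
  unfold rc3_d
  positivity

theorem rc3_d_mono (N i j : ℕ) (h : i ≤ j) : rc3_d N i ≤ rc3_d N j := by
  unfold rc3_d
  gcongr

theorem rc3_d_mesh (N k : ℕ) (hk : k ≤ N) : rc3_d N k ∈ mesh N :=
  ⟨k, hk, rfl⟩

/-- the mesh depth just above the radius `r` (coarser cell): `i = ⌊N log r / log ρ⌋` -/
theorem rc3_mesh_floor (ρ r : ℝ) (N : ℕ) (hN : 0 < N) (h0 : 0 < ρ) (h1 : ρ < 1) (hr : ρ ≤ r) (hr1 : r ≤ 1) :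
    ∃ i : ℕ, i ≤ N ∧ r ≤ ρ ^ rc3_d N i ∧ ρ ^ (rc3_d N i + 1 / (N : ℝ)) ≤ r := by
  have hr0 : 0 < r := lt_of_lt_of_le h0 hr
  have hNr : (0 : ℝ) < N := by exact_mod_cast hN
  have hlρ : Real.log ρ < 0 := Real.log_neg h0 h1
  obtain ⟨y, hy⟩ : ∃ y, y = Real.logb ρ r := ⟨_, rfl⟩
  have hry : ρ ^ y = r := by rw [hy]; exact Real.rpow_logb h0 h1.ne hr0
  have hy0 : 0 ≤ y := by
    rw [hy]
    exact div_nonneg_of_nonpos (Real.log_nonpos hr0.le hr1) hlρ.le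
  have hy1 : y ≤ 1 := by
    rw [hy]
    exact (div_le_one_of_neg hlρ).2 (Real.log_le_log h0 hr)
  have hNy : 0 ≤ (N : ℝ) * y := mul_nonneg hNr.le hy0
  refine ⟨⌊(N : ℝ) * y⌋₊, ?_, ?_, ?_⟩
  · have : ((⌊(N : ℝ) * y⌋₊ : ℕ) : ℝ) ≤ N := (Nat.floor_le hNy).trans (by nlinarith)
    exact_mod_cast this
  · rw [← hry]
    refine rc3_rpow_anti ρ _ _ h0 h1 ?_
    unfold rc3_d
    rw [div_le_iff₀ hNr]
    linarith [Nat.floor_le hNy]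
  · rw [← hry]
    refine rc3_rpow_anti ρ _ _ h0 h1 ?_
    unfold rc3_d
    rw [← add_div, le_div_iff₀ hNr]
    linarith [(Nat.lt_floor_add_one ((N : ℝ) * y)).le]

/-- the POSITIVE mesh depth just below the radius `r` (finer cell) -/
theorem rc3_mesh_ceil (ρ r : ℝ) (N : ℕ) (hN : 0 < N) (h0 : 0 < ρ) (h1 : ρ < 1) (hr : ρ ≤ r) (hr1 : r ≤ 1) :
    ∃ i : ℕ, 1 ≤ i ∧ i ≤ N ∧ ρ ^ rc3_d N i ≤ r ∧ r ≤ ρ ^ (rc3_d N i - 1 / (N : ℝ)) := by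
  have hNr : (0 : ℝ) < N := by exact_mod_cast hN
  obtain ⟨i, hi, h2, h3⟩ := rc3_mesh_floor ρ r N hN h0 h1 hr hr1
  rcases hi.lt_or_eq with hlt | heq
  · have e : rc3_d N (i + 1) = rc3_d N i + 1 / (N : ℝ) := by
      unfold rc3_d
      push_cast
      ring
    refine ⟨i + 1, by omega, hlt, by rw [e]; exact h3, ?_⟩
    rw [e, add_sub_cancel_right]
    exact h2
  · subst heq
    have e : rc3_d i i = 1 := by
      unfold rc3_d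
      exact div_self hNr.ne'
    refine ⟨i, hN, le_rfl, by rw [e, Real.rpow_one]; exact hr, h2.trans ?_⟩
    refine rc3_rpow_anti ρ _ _ h0 h1 ?_
    have : 0 ≤ 1 / (i : ℝ) := by positivity
    linarith

/-- from `ρ^(d + 1/N) ≤ r`: `ρ^(a d) ≤ ρ^(-a/N) r^a` -/
theorem rc3_pow_floor (ρ r d a : ℝ) (N : ℕ) (h0 : 0 < ρ) (ha : 0 ≤ a) (h : ρ ^ (d + 1 / (N : ℝ)) ≤ r) :
    ρ ^ (a * d) ≤ ρ ^ (-(a / (N : ℝ))) * r ^ a := by
  have h2 : (ρ ^ (d + 1 / (N : ℝ))) ^ a ≤ r ^ a := Real.rpow_le_rpow (Real.rpow_nonneg h0.le _) h ha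
  rw [← Real.rpow_mul h0.le] at h2
  calc ρ ^ (a * d) = ρ ^ (-(a / (N : ℝ))) * ρ ^ ((d + 1 / (N : ℝ)) * a) := by
        rw [← Real.rpow_add h0]
        congr 1
        ring
    _ ≤ _ := mul_le_mul_of_nonneg_left h2 (Real.rpow_nonneg h0.le _)

/-- from `r ≤ ρ^(d - 1/N)`: `ρ^(-a d) ≤ ρ^(-a/N) r^(-a)` -/
theorem rc3_pow_ceil (ρ r d a : ℝ) (N : ℕ) (h0 : 0 < ρ) (hr : 0 < r) (ha : 0 ≤ a) (h : r ≤ ρ ^ (d - 1 / (N : ℝ))) :
    ρ ^ (-(a * d)) ≤ ρ ^ (-(a / (N : ℝ))) * r ^ (-a) := by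
  have h2 : (ρ ^ (d - 1 / (N : ℝ))) ^ (-a) ≤ r ^ (-a) := Real.rpow_le_rpow_of_nonpos hr h (by linarith)
  rw [← Real.rpow_mul h0.le] at h2
  calc ρ ^ (-(a * d)) = ρ ^ (-(a / (N : ℝ))) * ρ ^ ((d - 1 / (N : ℝ)) * -a) := by
        rw [← Real.rpow_add h0]
        congr 1
        ring
    _ ≤ _ := mul_le_mul_of_nonneg_left h2 (Real.rpow_nonneg h0.le _)

/-! ## [B] dyadic bins -/

theorem rc3_bbin_zero (ρ v : ℝ) : bbin ρ 0 v = 0 := by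
  simp [bbin]

theorem rc3_bbin_pos (ρ d v : ℝ) (hd : 0 < d) : bbin ρ d v = ⌊v * 2 ^ tlev ρ d⌋ := by
  simp [bbin, not_le.2 hd, tcell]

theorem rc3_logb_pos (ρ : ℝ) (h0 : 0 < ρ) (h1 : ρ < 1) : 0 < Real.logb 2 (1 / ρ) :=
  Real.logb_pos (by norm_num) (by rw [lt_div_iff₀ h0]; linarith)

/-- `2 ^ (u log₂ (1/ρ)) = ρ ^ (-u)` -/
theorem rc3_two_rpow (ρ u : ℝ) (h0 : 0 < ρ) : (2 : ℝ) ^ (u * Real.logb 2 (1 / ρ)) = ρ ^ (-u) := by
  rw [mul_comm, Real.rpow_mul (by norm_num), Real.rpow_logb (by norm_num) (by norm_num) (by positivity),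
    one_div, Real.inv_rpow h0.le, Real.rpow_neg h0.le]

/-- `ρ^(-d) ≤ 2^lev ≤ 2 ρ^(-d)` -/
theorem rc3_lev_ge (ρ d : ℝ) (h0 : 0 < ρ) : ρ ^ (-d) ≤ (2 : ℝ) ^ tlev ρ d := by
  rw [← rc3_two_rpow ρ d h0, ← Real.rpow_natCast]
  exact Real.rpow_le_rpow_of_exponent_le (by norm_num) (Nat.le_ceil _)

theorem rc3_lev_le (ρ d : ℝ) (h0 : 0 < ρ) (h1 : ρ < 1) (hd : 0 ≤ d) : (2 : ℝ) ^ tlev ρ d ≤ 2 * ρ ^ (-d) := by
  rw [← rc3_two_rpow ρ d h0, ← Real.rpow_natCast]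
  have h : ((tlev ρ d : ℕ) : ℝ) ≤ d * Real.logb 2 (1 / ρ) + 1 :=
    (Nat.ceil_lt_add_one (mul_nonneg hd (rc3_logb_pos ρ h0 h1).le)).le
  calc (2 : ℝ) ^ ((tlev ρ d : ℕ) : ℝ) ≤ (2 : ℝ) ^ (d * Real.logb 2 (1 / ρ) + 1) :=
        Real.rpow_le_rpow_of_exponent_le (by norm_num) h
    _ = 2 * (2 : ℝ) ^ (d * Real.logb 2 (1 / ρ)) := by
        rw [Real.rpow_add (by norm_num), Real.rpow_one]; ring

/-- an interval of half-length `r ≤ ρ^d` meets at most `6` bins of depth `d` -/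
theorem rc3_bins (ρ d z r : ℝ) (h0 : 0 < ρ) (h1 : ρ < 1) (hd : 0 ≤ d) (hr : r ≤ ρ ^ d) :
    ∃ S : Finset ℤ, S.card ≤ 6 ∧ ∀ v : ℝ, |v - z| ≤ r → bbin ρ d v ∈ S := by
  rcases hd.eq_or_lt with rfl | hd0
  · exact ⟨{0}, by simp, fun v _ => by simp [rc3_bbin_zero]⟩
  obtain ⟨M, hM⟩ : ∃ M : ℝ, M = 2 ^ tlev ρ d := ⟨_, rfl⟩
  have hM0 : 0 < M := by rw [hM]; positivity
  have hrM : r * M ≤ 2 := by
    have h2 : M ≤ 2 * ρ ^ (-d) := hM ▸ rc3_lev_le ρ d h0 h1 hd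
    have h3 : ρ ^ d * ρ ^ (-d) = 1 := by rw [← Real.rpow_add h0, add_neg_cancel, Real.rpow_zero]
    have h4 : 0 < ρ ^ d := Real.rpow_pos_of_pos h0 d
    calc r * M ≤ ρ ^ d * M := mul_le_mul_of_nonneg_right hr hM0.le
      _ ≤ ρ ^ d * (2 * ρ ^ (-d)) := mul_le_mul_of_nonneg_left h2 h4.le
      _ = 2 := by rw [mul_left_comm, h3, mul_one]
  refine ⟨Finset.Icc ⌊(z - r) * M⌋ ⌊(z + r) * M⌋, ?_, fun v hv => ?_⟩
  · rw [Int.card_Icc, Int.toNat_le]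
    have h5 : ((⌊(z + r) * M⌋ : ℤ) : ℝ) ≤ (z + r) * M := Int.floor_le _
    have h6 : (z - r) * M < (⌊(z - r) * M⌋ : ℤ) + 1 := Int.lt_floor_add_one _
    have h7 : ((⌊(z + r) * M⌋ : ℤ) : ℝ) - (⌊(z - r) * M⌋ : ℤ) < 5 := by nlinarith
    have h8 : ⌊(z + r) * M⌋ - ⌊(z - r) * M⌋ < 5 := by exact_mod_cast h7
    push_cast
    omega
  · rw [rc3_bbin_pos ρ d v hd0, ← hM, Finset.mem_Icc]
    rw [abs_le] at hv
    exact ⟨Int.floor_le_floor (mul_le_mul_of_nonneg_right (by linarith) hM0.le),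
      Int.floor_le_floor (mul_le_mul_of_nonneg_right (by linarith) hM0.le)⟩

/-- a bin of positive depth `d` has length `≤ ρ^d` -/
theorem rc3_bbin_near (ρ d v : ℝ) (h0 : 0 < ρ) (hd : 0 < d) :
    |v - (bbin ρ d v : ℝ) / 2 ^ tlev ρ d| ≤ ρ ^ d := by
  rw [rc3_bbin_pos ρ d v hd]
  obtain ⟨M, hM⟩ : ∃ M : ℝ, M = 2 ^ tlev ρ d := ⟨_, rfl⟩
  rw [← hM]
  have hM0 : 0 < M := by rw [hM]; positivity
  have h4 : 0 < ρ ^ d := Real.rpow_pos_of_pos h0 d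
  have h2 : 1 ≤ ρ ^ d * M := by
    have h3 : ρ ^ d * ρ ^ (-d) = 1 := by rw [← Real.rpow_add h0, add_neg_cancel, Real.rpow_zero]
    rw [← h3]
    exact mul_le_mul_of_nonneg_left (hM ▸ rc3_lev_ge ρ d h0) h4.le
  have h5 : ((⌊v * M⌋ : ℤ) : ℝ) ≤ v * M := Int.floor_le _
  have h6 : v * M < (⌊v * M⌋ : ℤ) + 1 := Int.lt_floor_add_one _
  have e : v - ((⌊v * M⌋ : ℤ) : ℝ) / M = (v * M - (⌊v * M⌋ : ℤ)) / M := by
    field_simp
  rw [e, abs_of_nonneg (div_nonneg (by linarith) hM0.le), div_le_iff₀ hM0]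
  linarith

/-- dyadic cells are nested -/
theorem rc3_floor_nest (k k' : ℕ) (h : k ≤ k') (v v' : ℝ) (e : ⌊v * 2 ^ k'⌋ = ⌊v' * 2 ^ k'⌋) :
    ⌊v * 2 ^ k⌋ = ⌊v' * 2 ^ k⌋ := by
  have key : ∀ x : ℝ, ⌊x * 2 ^ k⌋ = ⌊x * 2 ^ k'⌋ / ((2 ^ (k' - k) : ℕ) : ℤ) := by
    intro x
    have e1 : x * (2 : ℝ) ^ k = x * 2 ^ k' / ((2 ^ (k' - k) : ℕ) : ℝ) := by
      have : (2 : ℝ) ^ k' = 2 ^ (k' - k) * 2 ^ k := by rw [← pow_add, Nat.sub_add_cancel h]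
      rw [this]
      push_cast
      field_simp
    rw [e1, Int.floor_div_natCast]
  rw [key v, key v', e]

theorem rc3_rtCell_nest (k k' : ℕ) (h : k ≤ k') (v v' : ℝ × ℝ) (e : rtCell k' v = rtCell k' v') :
    rtCell k v = rtCell k v' := by
  unfold rtCell at e ⊢
  rw [Prod.mk.injEq] at e ⊢
  exact ⟨rc3_floor_nest k k' h _ _ e.1, rc3_floor_nest k k' h _ _ e.2⟩

theorem rc3_lev_mono (ρ a b : ℝ) (h0 : 0 < ρ) (h1 : ρ < 1) (h : a ≤ b) : tlev ρ a ≤ tlev ρ b :=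
  Nat.ceil_mono (mul_le_mul_of_nonneg_right h (rc3_logb_pos ρ h0 h1).le)

theorem rc3_bbin_nest (ρ a b v v' : ℝ) (h0 : 0 < ρ) (h1 : ρ < 1) (hab : a ≤ b) (e : bbin ρ b v = bbin ρ b v') :
    bbin ρ a v = bbin ρ a v' := by
  rcases le_or_gt a 0 with ha | ha
  · simp [bbin, ha]
  · rw [rc3_bbin_pos ρ b v (ha.trans_le hab), rc3_bbin_pos ρ b v' (ha.trans_le hab)] at e
    rw [rc3_bbin_pos ρ a v ha, rc3_bbin_pos ρ a v' ha]
    exact rc3_floor_nest _ _ (rc3_lev_mono ρ a b h0 h1 hab) _ _ e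

/-- the two mesh depths between the dyadic levels `k ≤ k'`:  with `Λ = log₂ (1/ρ)`, `ja = max 1 ⌈k N / Λ⌉`, `jb = ⌊k' N / Λ⌋`;
`d jb - d ja ≥ (k' - k)/Λ - 2/N` and `(1/2) = ρ^(1/Λ)`. -/
theorem rc3_levels (ρ : ℝ) (N : ℕ) (hN : 0 < N) (h0 : 0 < ρ) (h1 : ρ < 1) (k k' : ℕ) (hk : k ≤ k')
    (hρ : ρ ≤ (1 / 2 : ℝ) ^ k') :
    ∃ ja jb : ℕ, 1 ≤ ja ∧ ja ≤ N ∧ jb ≤ N ∧ k ≤ tlev ρ (rc3_d N ja) ∧ tlev ρ (rc3_d N jb) ≤ k' ∧
      ∀ s : ℝ, 0 ≤ s →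
        ρ ^ (s * (rc3_d N jb - rc3_d N ja)) ≤ ρ ^ (-(2 * s / (N : ℝ))) * ((1 / 2 : ℝ) ^ (k' - k)) ^ s := by
  have hNr : (0 : ℝ) < N := by exact_mod_cast hN
  obtain ⟨Λ, hΛ⟩ : ∃ Λ : ℝ, Λ = Real.logb 2 (1 / ρ) := ⟨_, rfl⟩
  have hΛ0 : 0 < Λ := hΛ ▸ rc3_logb_pos ρ h0 h1
  have hkk : (k : ℝ) ≤ k' := by exact_mod_cast hk
  -- `k' ≤ Λ`
  have hk'Λ : (k' : ℝ) ≤ Λ := by
    rw [hΛ, Real.le_logb_iff_rpow_le (by norm_num) (by positivity), Real.rpow_natCast, le_div_iff₀ h0]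
    have h2 : (2 : ℝ) ^ k' * (1 / 2 : ℝ) ^ k' = 1 := by rw [← mul_pow]; norm_num
    calc (2 : ℝ) ^ k' * ρ ≤ (2 : ℝ) ^ k' * (1 / 2 : ℝ) ^ k' := mul_le_mul_of_nonneg_left hρ (by positivity)
      _ = 1 := h2
  have hA0 : 0 ≤ (k : ℝ) * N / Λ := by positivity
  have hB0 : 0 ≤ (k' : ℝ) * N / Λ := by positivity
  have hBN : (k' : ℝ) * N / Λ ≤ N := by
    rw [div_le_iff₀ hΛ0]
    nlinarith
  have hAN : (k : ℝ) * N / Λ ≤ N := le_trans (by gcongr) hBN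
  obtain ⟨ja, hja⟩ : ∃ ja : ℕ, ja = max 1 ⌈(k : ℝ) * N / Λ⌉₊ := ⟨_, rfl⟩
  obtain ⟨jb, hjb⟩ : ∃ jb : ℕ, jb = ⌊(k' : ℝ) * N / Λ⌋₊ := ⟨_, rfl⟩
  have hja1 : (k : ℝ) * N / Λ ≤ ja := by
    rw [hja]
    exact (Nat.le_ceil _).trans (by exact_mod_cast le_max_right _ _)
  have hja2 : (ja : ℝ) ≤ (k : ℝ) * N / Λ + 1 := by
    rw [hja]
    push_cast
    exact max_le (by linarith) (Nat.ceil_lt_add_one hA0).le
  have hjb1 : (jb : ℝ) ≤ (k' : ℝ) * N / Λ := by rw [hjb]; exact Nat.floor_le hB0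
  have hjb2 : (k' : ℝ) * N / Λ ≤ (jb : ℝ) + 1 := by rw [hjb]; exact (Nat.lt_floor_add_one _).le
  refine ⟨ja, jb, by rw [hja]; exact le_max_left _ _, ?_, ?_, ?_, ?_, ?_⟩
  · rw [hja]
    exact max_le hN (Nat.ceil_le.2 hAN)
  · have : (jb : ℝ) ≤ N := hjb1.trans hBN
    exact_mod_cast this
  · unfold tlev
    rw [← hΛ]
    have : (k : ℝ) ≤ rc3_d N ja * Λ := by
      unfold rc3_d
      rw [div_mul_eq_mul_div, le_div_iff₀ hNr]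
      rw [div_le_iff₀ hΛ0] at hja1
      exact hja1
    exact_mod_cast this.trans (Nat.le_ceil _)
  · unfold tlev
    rw [← hΛ, Nat.ceil_le]
    unfold rc3_d
    rw [div_mul_eq_mul_div, div_le_iff₀ hNr]
    rw [le_div_iff₀ hΛ0] at hjb1
    exact hjb1
  · intro s hs
    have hdd : ((k' : ℝ) - k) / Λ - 2 / N ≤ rc3_d N jb - rc3_d N ja := by
      unfold rc3_d
      have e1 : (k' : ℝ) / Λ - 1 / N ≤ (jb : ℝ) / N := by
        rw [le_div_iff₀ hNr, sub_mul, div_mul_cancel₀ _ hNr.ne', div_mul_eq_mul_div]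
        linarith
      have e2 : (ja : ℝ) / N ≤ (k : ℝ) / Λ + 1 / N := by
        rw [div_le_iff₀ hNr, add_mul, div_mul_cancel₀ _ hNr.ne', div_mul_eq_mul_div]
        exact hja2
      rw [sub_div]
      have : (2 : ℝ) / N = 1 / N + 1 / N := by ring
      linarith
    have hhalf : ((1 / 2 : ℝ) ^ (k' - k)) ^ s = ρ ^ (s * (((k' : ℝ) - k) / Λ)) := by
      have e3 := rc3_two_rpow ρ (-(s * (((k' : ℝ) - k) / Λ))) h0
      rw [neg_neg, ← hΛ] at e3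
      rw [← e3, ← Real.rpow_natCast, ← Real.rpow_mul (by norm_num), Nat.cast_sub hk, one_div,
        Real.inv_rpow (by norm_num), ← Real.rpow_neg (by norm_num)]
      congr 1
      field_simp
    rw [hhalf, ← Real.rpow_add h0]
    refine rc3_rpow_anti ρ _ _ h0 h1 ?_
    have := mul_le_mul_of_nonneg_left hdd hs
    calc -(2 * s / (N : ℝ)) + s * (((k' : ℝ) - k) / Λ) = s * (((k' : ℝ) - k) / Λ - 2 / N) := by ring
      _ ≤ _ := this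

/-! ## [C] counting -/

/-- disjoint classes of mass `≥ m` in a population of mass `≤ W` -/
theorem rc3_count {ι α : Type} [Fintype ι] (β : ι → α) (w : ι → ℝ) (hw : ∀ i, 0 ≤ w i) (S : Finset ι) (m W : ℝ)
    (hm : 0 < m) (hW : ∑ i, w i ≤ W) (h : ∀ i ∈ S, m ≤ ∑ i' with β i' = β i, w i') :
    ((S.image β).card : ℝ) ≤ W / m := by
  have h1 : ∑ b ∈ S.image β, ∑ i' with β i' = b, w i' ≤ ∑ i, w i := by
    have h2 : ∑ b ∈ S.image β, ∑ i' with β i' = b, w i' = ∑ i' with β i' ∈ S.image β, w i' :=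
      Finset.sum_fiberwise_eq_sum_filter _ _ _ _
    rw [h2]
    exact Finset.sum_le_sum_of_subset_of_nonneg (Finset.filter_subset _ _) fun i _ _ => hw i
  have h3 : ((S.image β).card : ℝ) * m ≤ ∑ b ∈ S.image β, ∑ i' with β i' = b, w i' := by
    rw [← nsmul_eq_mul, ← Finset.sum_const]
    refine Finset.sum_le_sum fun b hb => ?_
    obtain ⟨i, hi, rfl⟩ := Finset.mem_image.1 hb
    exact h i hi
  rw [le_div_iff₀ hm]
  linarith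

/-- a population that meets few classes, each of mass `≤ M` -/
theorem rc3_sum_cells {ι α : Type} (w : ι → ℝ) (S : Finset ι) (β : ι → α) (T : Finset α)
    (hT : ∀ i ∈ S, β i ∈ T) (M : ℝ) (hM0 : 0 ≤ M) (hM : ∀ i ∈ S, ∑ i' ∈ S with β i' = β i, w i' ≤ M) :
    ∑ i ∈ S, w i ≤ T.card * M := by
  rw [← Finset.sum_fiberwise_of_maps_to hT]
  calc ∑ b ∈ T, ∑ i ∈ S with β i = b, w i ≤ ∑ _b ∈ T, M := by
        refine Finset.sum_le_sum fun b _ => ?_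
        by_cases hb : ∃ i ∈ S, β i = b
        · obtain ⟨i, hi, rfl⟩ := hb
          exact hM i hi
        · rw [Finset.filter_false_of_mem (fun i hi h => hb ⟨i, hi, h⟩), Finset.sum_empty]
          exact hM0
    _ = T.card * M := by rw [Finset.sum_const, nsmul_eq_mul]

/-- covering by the left end points of the bins -/
theorem rc3_cov1 {ι : Type} (ρ d : ℝ) (h0 : 0 < ρ) (hd : 0 < d) (S : Finset ι) (f : ι → ℝ) (Nb r' : ℝ)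
    (hc : ((S.image fun i => bbin ρ d (f i)).card : ℝ) ≤ Nb) (hr : ρ ^ d ≤ r') :
    RtCov {v | ∃ i ∈ S, v = f i} r' Nb := by
  refine ⟨(S.image fun i => bbin ρ d (f i)).image fun b : ℤ => (b : ℝ) / 2 ^ tlev ρ d, ?_, ?_⟩
  · refine le_trans ?_ hc
    exact_mod_cast Finset.card_image_le
  · rintro v ⟨i, hi, rfl⟩
    refine ⟨(bbin ρ d (f i) : ℝ) / 2 ^ tlev ρ d, ?_, (rc3_bbin_near ρ d (f i) h0 hd).trans hr⟩
    exact Finset.mem_image_of_mem _ (Finset.mem_image_of_mem _ hi)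

theorem rc3_cov2 {ι : Type} (ρ d : ℝ) (h0 : 0 < ρ) (hd : 0 < d) (S : Finset ι) (f g : ι → ℝ) (Nb r' : ℝ)
    (hc : ((S.image fun i => (bbin ρ d (f i), bbin ρ d (g i))).card : ℝ) ≤ Nb) (hr : ρ ^ d ≤ r') :
    RtCov2 {v | ∃ i ∈ S, v = (f i, g i)} r' Nb := by
  refine ⟨(S.image fun i => (bbin ρ d (f i), bbin ρ d (g i))).image
    fun b : ℤ × ℤ => ((b.1 : ℝ) / 2 ^ tlev ρ d, (b.2 : ℝ) / 2 ^ tlev ρ d), ?_, ?_⟩
  · refine le_trans ?_ hc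
    exact_mod_cast Finset.card_image_le
  · rintro v ⟨i, hi, rfl⟩
    refine ⟨((bbin ρ d (f i) : ℝ) / 2 ^ tlev ρ d, (bbin ρ d (g i) : ℝ) / 2 ^ tlev ρ d), ?_,
      (rc3_bbin_near ρ d (f i) h0 hd).trans hr, (rc3_bbin_near ρ d (g i) h0 hd).trans hr⟩
    exact Finset.mem_image.2 ⟨(bbin ρ d (f i), bbin ρ d (g i)), Finset.mem_image_of_mem _ hi, rfl⟩

/-! ## [D] marginals; monotonicity of the target predicates -/

theorem rc3_mu0_nonneg (B : BLaw) (p : B.Pt) : 0 ≤ rc3_mu0 B p := by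
  exact Finset.sum_nonneg fun t _ => B.π.nonneg _

theorem rc3_lam0_nonneg (B : BLaw) (t : B.Lb) : 0 ≤ rc3_lam0 B t := by
  exact Finset.sum_nonneg fun p _ => B.π.nonneg _

theorem rc3_mu0_sum (B : BLaw) : ∑ p, rc3_mu0 B p = 1 := by
  unfold rc3_mu0
  rw [← Fintype.sum_prod_type']
  exact B.π.sum_one

theorem rc3_lam0_sum (B : BLaw) : ∑ t, rc3_lam0 B t = 1 := by
  unfold rc3_lam0
  rw [Finset.sum_comm, ← Fintype.sum_prod_type']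
  exact B.π.sum_one

theorem rc3_le_lam0 (B : BLaw) (p : B.Pt) (t : B.Lb) : B.π.p (p, t) ≤ rc3_lam0 B t := by
  exact Finset.single_le_sum (f := fun p => B.π.p (p, t)) (fun p _ => B.π.nonneg _) (Finset.mem_univ p)

theorem rc3_cov_mono {S : Set ℝ} {r' N N' : ℝ} (h : RtCov S r' N) (hN : N ≤ N') : RtCov S r' N' := by
  obtain ⟨cov, h1, h2⟩ := h
  exact ⟨cov, h1.trans hN, h2⟩

theorem rc3_cov2_mono {S : Set (ℝ × ℝ)} {r' N N' : ℝ} (h : RtCov2 S r' N) (hN : N ≤ N') : RtCov2 S r' N' := by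
  obtain ⟨cov, h1, h2⟩ := h
  exact ⟨cov, h1.trans hN, h2⟩

theorem rc3_frost_mono {ι : Type} [Fintype ι] {w : ι → ℝ} {pos : ι → ℝ} {C C' e ρ : ℝ} (h0 : 0 < ρ)
    (h : KfFrost w pos C e ρ) (hC : C ≤ C') : KfFrost w pos C' e ρ := by
  intro z r hr hr1
  exact (h z r hr hr1).trans (mul_le_mul_of_nonneg_right hC (Real.rpow_nonneg (h0.le.trans hr) _))

theorem rc3_her_mono {ι : Type} [Fintype ι] {w : ι → ℝ} {pos : ι → ℝ × ℝ} {C C' s ρ : ℝ} (hw : ∀ i, 0 ≤ w i)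
    (h : RtTreeHer w pos C s ρ) (hC : C ≤ C') : RtTreeHer w pos C' s ρ := by
  intro k k' hk hρ i₀
  refine (h k k' hk hρ i₀).trans ?_
  refine mul_le_mul_of_nonneg_right (mul_le_mul_of_nonneg_right hC (Real.rpow_nonneg (by positivity) _)) ?_
  exact Finset.sum_nonneg fun i _ => hw i

/-- absorption of the constants -/
theorem rc3_absorb (ρ C₀ e η : ℝ) (h0 : 0 < ρ) (h1 : ρ < 1) (hC : C₀ ≤ ρ ^ (-(η / 2))) (he : e ≤ η / 2) :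
    C₀ * ρ ^ (-e) ≤ ρ ^ (-η) := by
  calc C₀ * ρ ^ (-e) ≤ ρ ^ (-(η / 2)) * ρ ^ (-(η / 2)) :=
        mul_le_mul hC (rc3_rpow_anti ρ _ _ h0 h1 (by linarith)) (Real.rpow_nonneg h0.le _)
          (Real.rpow_nonneg h0.le _)
    _ = ρ ^ (-η) := by
        rw [← Real.rpow_add h0]
        congr 1
        ring

end Claimed.Agent.R255
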