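-- KEEP
import Claimed.Agent.R255.Rate.Core3Num

/-!
# Row 255 (BR paper), Sec. 7, unit U1b CORE3, file 4: STEP 2, the fields of `RtBlk.Is3` from `Rc3Trim`      (architect helper50)

PAPER-FREE, deterministic: finite sums + the tools of `Core3Num.lean`.   `b = rc3_blk B G E`:  `b.μ = μ₀`, `b.lam = λ₀ 1_E`, `b.G p t = G p t ∧ E t`; `b.Yf t p = B.qY (p,t)` etc. by `rfl`.
[A] first consequences, (G1).   [B] (G2) box.   [C] (G3) coverings.   [D] (G4) Frostman.   [E] hereditary condition.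
Statements FROZEN (ask helper50); provers edit only bodies, helpers directly above their use (prefix `rc3_`).
-/

set_option autoImplicit false

namespace Claimed.Agent.R255

open Finset Classical
open Claimed.Agent.RW (KfFrost)

variable {B : BLaw} {N : ℕ} {x q z s σ κ ν δ : ℝ} {G : B.Pt → B.Lb → Prop} {E : B.Lb → Prop}

/-! ## [A] first consequences, (G1) -/

theorem rc3_lam0_pos (T : Rc3Trim B N x q z s σ κ ν δ G E) {p : B.Pt} {t : B.Lb} (h : G p t) : 0 < rc3_lam0 B t :=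
  (T.pos p t h).trans_le (rc3_le_lam0 B p t)

/-- a retained label of positive mass has a neighbour (`half`) -/
theorem rc3_exists_G (T : Rc3Trim B N x q z s σ κ ν δ G E) {t : B.Lb} (hE : E t) (hl : 0 < rc3_lam0 B t) :
    ∃ p, G p t := by
  by_contra hne
  push Not at hne
  have h := T.half t hE
  have e : (univ.filter fun p => G p t) = ∅ := by
    ext p
    simp [hne p]
  rw [e, sum_empty, mul_zero] at h
  linarith

theorem rc3_blk_lam_eq (t : B.Lb) : (rc3_blk B G E).lam t = if E t then rc3_lam0 B t else 0 := rfl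

theorem rc3_blk_lam_pos {t : B.Lb} (h : 0 < (rc3_blk B G E).lam t) : E t ∧ 0 < rc3_lam0 B t := by
  rw [rc3_blk_lam_eq] at h
  by_cases hE : E t
  · rw [if_pos hE] at h
    exact ⟨hE, h⟩
  · rw [if_neg hE] at h
    exact absurd h (lt_irrefl _)

theorem rc3_blk_lam_nonneg (t : B.Lb) : 0 ≤ (rc3_blk B G E).lam t := by
  rw [rc3_blk_lam_eq]
  split_ifs
  · exact rc3_lam0_nonneg B t
  · exact le_rfl

theorem rc3_blk_lam_le (t : B.Lb) : (rc3_blk B G E).lam t ≤ rc3_lam0 B t := by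
  rw [rc3_blk_lam_eq]
  split_ifs
  · exact le_rfl
  · exact rc3_lam0_nonneg B t

theorem rc3_blk_lam_sum : ∑ t, (rc3_blk B G E).lam t = ∑ t with E t, rc3_lam0 B t := by
  rw [sum_filter]
  rfl

/-- (G1): `λ₀(t) ≤ 2 ∑_{G_t} π(p,t) ≤ 2 ρ^(-ν) λ₀(t) μ₀(G_t)` -/
theorem rc3_nbr (T : Rc3Trim B N x q z s σ κ ν δ G E) (h0 : 0 < B.ρ) (t : (rc3_blk B G E).Th)
    (ht : 0 < (rc3_blk B G E).lam t) :
    B.ρ ^ ν / 2 ≤ ∑ p with (rc3_blk B G E).G p t, (rc3_blk B G E).μ p := by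
  obtain ⟨hE, hl⟩ := rc3_blk_lam_pos (B := B) (G := G) (E := E) (t := t) ht
  have e : (∑ p with (rc3_blk B G E).G p t, (rc3_blk B G E).μ p) = ∑ p : B.Pt with G p t, rc3_mu0 B p := by
    refine sum_congr ?_ fun _ _ => rfl
    ext p
    constructor
    · intro h
      exact mem_filter.2 ⟨mem_univ _, (mem_filter.1 h).2.1⟩
    · intro h
      exact mem_filter.2 ⟨mem_univ _, (mem_filter.1 h).2, hE⟩
  rw [e]
  have h1 := T.half t hE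
  have h2 : ∑ p with G p t, B.π.p (p, t) ≤ ∑ p with G p t, B.ρ ^ (-ν) * (rc3_mu0 B p * rc3_lam0 B t) :=
    sum_le_sum fun p hp => T.up p t (mem_filter.1 hp).2
  have h3 : ∑ p with G p t, B.ρ ^ (-ν) * (rc3_mu0 B p * rc3_lam0 B t)
      = B.ρ ^ (-ν) * rc3_lam0 B t * ∑ p with G p t, rc3_mu0 B p := by
    rw [mul_sum]
    refine sum_congr rfl fun p _ => ?_
    ring
  rw [h3] at h2
  have h4 : rc3_lam0 B t * 1 ≤ rc3_lam0 B t * (2 * (B.ρ ^ (-ν) * ∑ p with G p t, rc3_mu0 B p)) := by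
    calc rc3_lam0 B t * 1 = rc3_lam0 B t := mul_one _
      _ ≤ 2 * ∑ p with G p t, B.π.p (p, t) := h1
      _ ≤ 2 * (B.ρ ^ (-ν) * rc3_lam0 B t * ∑ p with G p t, rc3_mu0 B p) := by linarith
      _ = _ := by ring
  have h5 := le_of_mul_le_mul_left h4 hl
  have hp : 0 < B.ρ ^ ν := Real.rpow_pos_of_pos h0 ν
  have h6 : B.ρ ^ ν * B.ρ ^ (-ν) = 1 := by
    rw [← Real.rpow_add h0, add_neg_cancel, Real.rpow_zero]
  have h7 : B.ρ ^ ν * 1 ≤ B.ρ ^ ν * (2 * (B.ρ ^ (-ν) * ∑ p with G p t, rc3_mu0 B p)) := mul_le_mul_of_nonneg_left h5 hp.le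
  have h8 : B.ρ ^ ν * (2 * (B.ρ ^ (-ν) * ∑ p with G p t, rc3_mu0 B p)) = 2 * ((B.ρ ^ ν * B.ρ ^ (-ν)) * ∑ p with G p t, rc3_mu0 B p) := by
    ring
  rw [h8, h6] at h7
  linarith

/-! ## [B] (G2) -/

/-- one cell: `μ₀{p' ∈ G_t : Q(p',t) = Q(p,t)} ≤ ρ^(-ν) π(cell | t) ≤ ρ^(-ν) ρ^(a - κ)`  (`lo`, `cellU`) -/
theorem rc3_cell_mu (T : Rc3Trim B N x q z s σ κ ν δ G E) (h0 : 0 < B.ρ) {p : B.Pt} {t : B.Lb} (h : G p t)
    (i j l : ℕ) (hi : i ≤ N) (hj : j ≤ N) (hl : l ≤ N) :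
    ∑ p' with G p' t ∧ B.Q (rc3_dep N i j l) (p', t) = B.Q (rc3_dep N i j l) (p, t), rc3_mu0 B p'
      ≤ B.ρ ^ (-ν) * B.ρ ^ (x * rc3_d N i + q * rc3_d N j + z * rc3_d N l - κ) := by
  have hlam := rc3_lam0_pos T h
  have hν : 0 < B.ρ ^ (-ν) := Real.rpow_pos_of_pos h0 _
  have h1 : (∑ p' with G p' t ∧ B.Q (rc3_dep N i j l) (p', t) = B.Q (rc3_dep N i j l) (p, t), rc3_mu0 B p') * rc3_lam0 B t
      ≤ B.ρ ^ (-ν) * ∑ p' with G p' t ∧ B.Q (rc3_dep N i j l) (p', t) = B.Q (rc3_dep N i j l) (p, t), B.π.p (p', t) := by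
    rw [sum_mul, mul_sum]
    exact sum_le_sum fun p' hp' => T.lo p' t (mem_filter.1 hp').2.1
  have h2 : ∑ p' with G p' t ∧ B.Q (rc3_dep N i j l) (p', t) = B.Q (rc3_dep N i j l) (p, t), B.π.p (p', t)
      ≤ ∑ p' with B.Q (rc3_dep N i j l) (p', t) = B.Q (rc3_dep N i j l) (p, t), B.π.p (p', t) := by
    refine sum_le_sum_of_subset_of_nonneg ?_ fun p' _ _ => B.π.nonneg _
    intro p' hp'
    rw [mem_filter] at hp' ⊢
    exact ⟨hp'.1, hp'.2.2⟩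
  have h3 := T.cellU p t h i j l hi hj hl
  have h4 : (∑ p' with G p' t ∧ B.Q (rc3_dep N i j l) (p', t) = B.Q (rc3_dep N i j l) (p, t), rc3_mu0 B p') * rc3_lam0 B t
      ≤ (B.ρ ^ (-ν) * B.ρ ^ (x * rc3_d N i + q * rc3_d N j + z * rc3_d N l - κ)) * rc3_lam0 B t := by
    calc _ ≤ B.ρ ^ (-ν) * ∑ p' with G p' t ∧ B.Q (rc3_dep N i j l) (p', t) = B.Q (rc3_dep N i j l) (p, t), B.π.p (p', t) := h1
      _ ≤ B.ρ ^ (-ν) * (B.ρ ^ (x * rc3_d N i + q * rc3_d N j + z * rc3_d N l - κ) * rc3_lam0 B t) :=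
          mul_le_mul_of_nonneg_left (h2.trans h3) hν.le
      _ = _ := by ring
  exact le_of_mul_le_mul_right h4 hlam

/-- `mem_filter` for an arbitrary decidability instance -/
theorem rc3_mem_filter {α : Type} {s : Finset α} {p : α → Prop} {inst : DecidablePred p} {a : α} :
    a ∈ @Finset.filter α p inst s ↔ a ∈ s ∧ p a := Finset.mem_filter

/-- (G2): `rc3_mesh_floor` for the three radii, `rc3_bins` for the four coordinates, `rc3_sum_cells` with `β p = B.Q (dep) (p,t)`, `T = S₁ ×ˢ S₂ ×ˢ S₃ ×ˢ S₄` (`card ≤ 6^4 = 1296`), `rc3_cell_mu`, `rc3_pow_floor`. -/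
theorem rc3_box (T : Rc3Trim B N x q z s σ κ ν δ G E) (h0 : 0 < B.ρ) (h1 : B.ρ < 1) (hN : 0 < N) (hx : 0 ≤ x)
    (hq : 0 ≤ q) (hz : 0 ≤ z) (t : (rc3_blk B G E).Th) (x₀ y₀ w₀ z₀ r₁ r₂ r₃ : ℝ) (h₁ : B.ρ ≤ r₁) (h₁' : r₁ ≤ 1)
    (h₂ : B.ρ ≤ r₂) (h₂' : r₂ ≤ 1) (h₃ : B.ρ ≤ r₃) (h₃' : r₃ ≤ 1) :
    ∑ p with (rc3_blk B G E).G p t ∧ |(rc3_blk B G E).X p - x₀| ≤ r₁ ∧ |(rc3_blk B G E).Yf t p - y₀| ≤ r₂ ∧
        |(rc3_blk B G E).Wf t p - w₀| ≤ r₂ ∧ |(rc3_blk B G E).Zf t p - z₀| ≤ r₃, (rc3_blk B G E).μ p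
      ≤ 1296 * B.ρ ^ (-(ν + κ + (x + q + z) / (N : ℝ))) * (r₁ ^ x * r₂ ^ q * r₃ ^ z) := by
  obtain ⟨i, hi, hi1, hi2⟩ := rc3_mesh_floor B.ρ r₁ N hN h0 h1 h₁ h₁'
  obtain ⟨j, hj, hj1, hj2⟩ := rc3_mesh_floor B.ρ r₂ N hN h0 h1 h₂ h₂'
  obtain ⟨l, hl, hl1, hl2⟩ := rc3_mesh_floor B.ρ r₃ N hN h0 h1 h₃ h₃'
  obtain ⟨S₁, c₁, m₁⟩ := rc3_bins B.ρ (rc3_d N i) x₀ r₁ h0 h1 (rc3_d_nonneg N i) hi1
  obtain ⟨S₂, c₂, m₂⟩ := rc3_bins B.ρ (rc3_d N j) y₀ r₂ h0 h1 (rc3_d_nonneg N j) hj1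
  obtain ⟨S₃, c₃, m₃⟩ := rc3_bins B.ρ (rc3_d N j) w₀ r₂ h0 h1 (rc3_d_nonneg N j) hj1
  obtain ⟨S₄, c₄, m₄⟩ := rc3_bins B.ρ (rc3_d N l) z₀ r₃ h0 h1 (rc3_d_nonneg N l) hl1
  have hMpos : 0 ≤ B.ρ ^ (-ν) * B.ρ ^ (x * rc3_d N i + q * rc3_d N j + z * rc3_d N l - κ) :=
    mul_nonneg (Real.rpow_pos_of_pos h0 _).le (Real.rpow_pos_of_pos h0 _).le
  have key := rc3_sum_cells (rc3_blk B G E).μ
    (univ.filter fun p => (rc3_blk B G E).G p t ∧ |(rc3_blk B G E).X p - x₀| ≤ r₁ ∧ |(rc3_blk B G E).Yf t p - y₀| ≤ r₂ ∧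
        |(rc3_blk B G E).Wf t p - w₀| ≤ r₂ ∧ |(rc3_blk B G E).Zf t p - z₀| ≤ r₃)
    (fun p => B.Q (rc3_dep N i j l) (p, t)) (S₁ ×ˢ (S₂ ×ˢ (S₃ ×ˢ S₄))) ?_
    (B.ρ ^ (-ν) * B.ρ ^ (x * rc3_d N i + q * rc3_d N j + z * rc3_d N l - κ)) hMpos ?_
  · refine key.trans ?_
    have hcard : (((S₁ ×ˢ (S₂ ×ˢ (S₃ ×ˢ S₄))).card : ℕ) : ℝ) ≤ 1296 := by
      rw [card_product, card_product, card_product]
      have : S₁.card * (S₂.card * (S₃.card * S₄.card)) ≤ 6 * (6 * (6 * 6)) :=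
        Nat.mul_le_mul c₁ (Nat.mul_le_mul c₂ (Nat.mul_le_mul c₃ c₄))
      exact_mod_cast this
    have p₁ := rc3_pow_floor B.ρ r₁ (rc3_d N i) x N h0 hx hi2
    have p₂ := rc3_pow_floor B.ρ r₂ (rc3_d N j) q N h0 hq hj2
    have p₃ := rc3_pow_floor B.ρ r₃ (rc3_d N l) z N h0 hz hl2
    have hr₁ : 0 < r₁ := h0.trans_le h₁
    have hr₂ : 0 < r₂ := h0.trans_le h₂
    have hr₃ : 0 < r₃ := h0.trans_le h₃
    have e1 : B.ρ ^ (x * rc3_d N i + q * rc3_d N j + z * rc3_d N l - κ)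
        = B.ρ ^ (x * rc3_d N i) * B.ρ ^ (q * rc3_d N j) * B.ρ ^ (z * rc3_d N l) * B.ρ ^ (-κ) := by
      rw [← Real.rpow_add h0, ← Real.rpow_add h0, ← Real.rpow_add h0]
      congr 1
    have e2 : B.ρ ^ (-(ν + κ + (x + q + z) / (N : ℝ)))
        = B.ρ ^ (-ν) * (B.ρ ^ (-(x / (N : ℝ))) * B.ρ ^ (-(q / (N : ℝ))) * B.ρ ^ (-(z / (N : ℝ))) * B.ρ ^ (-κ)) := by
      rw [← Real.rpow_add h0, ← Real.rpow_add h0, ← Real.rpow_add h0, ← Real.rpow_add h0]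
      congr 1
      ring
    have hprod : B.ρ ^ (x * rc3_d N i) * B.ρ ^ (q * rc3_d N j) * B.ρ ^ (z * rc3_d N l)
        ≤ (B.ρ ^ (-(x / (N : ℝ))) * r₁ ^ x) * (B.ρ ^ (-(q / (N : ℝ))) * r₂ ^ q) * (B.ρ ^ (-(z / (N : ℝ))) * r₃ ^ z) := by
      have a1 : 0 ≤ B.ρ ^ (x * rc3_d N i) := (Real.rpow_pos_of_pos h0 _).le
      have a2 : 0 ≤ B.ρ ^ (q * rc3_d N j) := (Real.rpow_pos_of_pos h0 _).le
      have a3 : 0 ≤ B.ρ ^ (z * rc3_d N l) := (Real.rpow_pos_of_pos h0 _).le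
      exact mul_le_mul (mul_le_mul p₁ p₂ a2 (a1.trans p₁)) p₃ a3 (mul_nonneg (a1.trans p₁) (a2.trans p₂))
    have hν : 0 ≤ B.ρ ^ (-ν) := (Real.rpow_pos_of_pos h0 _).le
    have hκ : 0 ≤ B.ρ ^ (-κ) := (Real.rpow_pos_of_pos h0 _).le
    calc (((S₁ ×ˢ (S₂ ×ˢ (S₃ ×ˢ S₄))).card : ℕ) : ℝ) * (B.ρ ^ (-ν) * B.ρ ^ (x * rc3_d N i + q * rc3_d N j + z * rc3_d N l - κ))
        ≤ 1296 * (B.ρ ^ (-ν) * B.ρ ^ (x * rc3_d N i + q * rc3_d N j + z * rc3_d N l - κ)) :=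
          mul_le_mul_of_nonneg_right hcard hMpos
      _ = 1296 * (B.ρ ^ (-ν) * ((B.ρ ^ (x * rc3_d N i) * B.ρ ^ (q * rc3_d N j) * B.ρ ^ (z * rc3_d N l)) * B.ρ ^ (-κ))) := by rw [e1]
      _ ≤ 1296 * (B.ρ ^ (-ν) * (((B.ρ ^ (-(x / (N : ℝ))) * r₁ ^ x) * (B.ρ ^ (-(q / (N : ℝ))) * r₂ ^ q)
            * (B.ρ ^ (-(z / (N : ℝ))) * r₃ ^ z)) * B.ρ ^ (-κ))) := by
          refine mul_le_mul_of_nonneg_left ?_ (by norm_num)
          exact mul_le_mul_of_nonneg_left (mul_le_mul_of_nonneg_right hprod hκ) hν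
      _ = 1296 * B.ρ ^ (-(ν + κ + (x + q + z) / (N : ℝ))) * (r₁ ^ x * r₂ ^ q * r₃ ^ z) := by
          rw [e2]; ring
  · intro p hp
    obtain ⟨-, -, b₁, b₂, b₃, b₄⟩ := mem_filter.1 hp
    exact mem_product.2 ⟨m₁ _ b₁, mem_product.2 ⟨m₂ _ b₂, mem_product.2 ⟨m₃ _ b₃, m₄ _ b₄⟩⟩⟩
  · intro p hp
    have hG : G p t := (mem_filter.1 hp).2.1.1
    refine le_trans ?_ (rc3_cell_mu T h0 hG i j l hi hj hl)
    refine sum_le_sum_of_subset_of_nonneg ?_ fun p' _ _ => rc3_mu0_nonneg B p'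
    intro p' hp'
    obtain ⟨hp1, hp2⟩ := rc3_mem_filter.1 hp'
    exact mem_filter.2 ⟨mem_univ _, (mem_filter.1 hp1).2.1.1, hp2⟩

/-! ## [C] (G3) -/

/-- number of cells of `G_t` at the depths `(i,j,j,l)/N`  (`rc3_count` with `w p = π(p,t)`, `W = λ₀(t)`, `m = ρ^(a+κ) λ₀(t)`, `cellL`) -/
theorem rc3_cells_card (T : Rc3Trim B N x q z s σ κ ν δ G E) (h0 : 0 < B.ρ) (t : B.Lb) (i j l : ℕ) (hi : i ≤ N)
    (hj : j ≤ N) (hl : l ≤ N) :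
    (((univ.filter fun p => G p t ∧ E t).image fun p => B.Q (rc3_dep N i j l) (p, t)).card : ℝ)
      ≤ B.ρ ^ (-(x * rc3_d N i + q * rc3_d N j + z * rc3_d N l + κ)) := by
  by_cases hne : ∃ p, G p t
  · obtain ⟨p₀, hp₀⟩ := hne
    have hl0 : 0 < rc3_lam0 B t := rc3_lam0_pos T hp₀
    have hpos : 0 < B.ρ ^ (x * rc3_d N i + q * rc3_d N j + z * rc3_d N l + κ) := Real.rpow_pos_of_pos h0 _
    have h := rc3_count (fun p => B.Q (rc3_dep N i j l) (p, t)) (fun p => B.π.p (p, t)) (fun p => B.π.nonneg _)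
      (univ.filter fun p => G p t ∧ E t)
      (B.ρ ^ (x * rc3_d N i + q * rc3_d N j + z * rc3_d N l + κ) * rc3_lam0 B t) (rc3_lam0 B t)
      (mul_pos hpos hl0) (le_of_eq rfl)
      (fun p hp => by convert T.cellL p t (Finset.mem_filter.1 hp).2.1 i j l hi hj hl)
    have h' : (((univ.filter fun p => G p t ∧ E t).image fun p => B.Q (rc3_dep N i j l) (p, t)).card : ℝ) ≤
        rc3_lam0 B t / (B.ρ ^ (x * rc3_d N i + q * rc3_d N j + z * rc3_d N l + κ) * rc3_lam0 B t) := by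
      convert h
    refine h'.trans (le_of_eq ?_)
    rw [Real.rpow_neg h0.le]
    field_simp
  · have he : (univ.filter fun p => G p t ∧ E t) = ∅ := by
      rw [Finset.filter_eq_empty_iff]
      intro p _ hp
      exact hne ⟨p, hp.1⟩
    rw [he, Finset.image_empty, Finset.card_empty, Nat.cast_zero]
    exact (Real.rpow_pos_of_pos h0 _).le

/-- the constant of the coverings -/
theorem rc3_cov_const (h0 : 0 < B.ρ) (e d r' : ℝ) (hr : 0 < r') (he : 0 ≤ e) (h : r' ≤ B.ρ ^ (d - 1 / (N : ℝ))) :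
    B.ρ ^ (-(e * d + κ)) ≤ B.ρ ^ (-(κ + e / (N : ℝ))) * r' ^ (-e) := by
  have h1 := rc3_pow_ceil B.ρ r' d e N h0 hr he h
  have e1 : B.ρ ^ (-(e * d + κ)) = B.ρ ^ (-κ) * B.ρ ^ (-(e * d)) := by
    rw [← Real.rpow_add h0]
    congr 1
    ring
  have e2 : B.ρ ^ (-(κ + e / (N : ℝ))) = B.ρ ^ (-κ) * B.ρ ^ (-(e / (N : ℝ))) := by
    rw [← Real.rpow_add h0]
    congr 1
    ring
  rw [e1, e2, mul_assoc]
  exact mul_le_mul_of_nonneg_left h1 (Real.rpow_pos_of_pos h0 _).le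

/-- (G3) for `X`: `rc3_mesh_ceil`, `rc3_cells_card` at `(i,0,0)` (the other three bins are trivial: `rc3_bbin_zero`), `rc3_cov1`, `rc3_pow_ceil`. -/
theorem rc3_covX (T : Rc3Trim B N x q z s σ κ ν δ G E) (h0 : 0 < B.ρ) (h1 : B.ρ < 1) (hN : 0 < N) (hx : 0 ≤ x)
    (t : (rc3_blk B G E).Th) (r' : ℝ) (hr : B.ρ ≤ r') (hr1 : r' ≤ 1) :
    RtCov {v | ∃ p, (rc3_blk B G E).G p t ∧ v = (rc3_blk B G E).X p} r'
      (B.ρ ^ (-(κ + x / (N : ℝ))) * r' ^ (-x)) := by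
  obtain ⟨i, hi1, hiN, hlo, hup⟩ := rc3_mesh_ceil B.ρ r' N hN h0 h1 hr hr1
  have hc := rc3_cells_card T h0 t i 0 0 hiN (Nat.zero_le _) (Nat.zero_le _)
  rw [rc3_d_zero, mul_zero, mul_zero, add_zero, add_zero] at hc
  have hcard : (((univ.filter fun p => G p t ∧ E t).image fun p => bbin B.ρ (rc3_d N i) (B.X p)).card : ℝ)
      ≤ B.ρ ^ (-(x * rc3_d N i + κ)) := by
    refine le_trans (Nat.cast_le.2 ?_) hc
    have e : ((univ.filter fun p => G p t ∧ E t).image fun p => bbin B.ρ (rc3_d N i) (B.X p)) =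
        ((univ.filter fun p => G p t ∧ E t).image fun p => B.Q (rc3_dep N i 0 0) (p, t)).image Prod.fst := by
      rw [Finset.image_image]
      rfl
    rw [e]
    exact Finset.card_image_le
  have h := rc3_cov1 B.ρ (rc3_d N i) h0 (rc3_d_pos N i hN hi1) (univ.filter fun p => G p t ∧ E t) B.X _ r' hcard hlo
  have hs : {v | ∃ p, (rc3_blk B G E).G p t ∧ v = (rc3_blk B G E).X p} =
      {v | ∃ p ∈ (univ.filter fun p => G p t ∧ E t), v = B.X p} := by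
    ext v
    simp only [Set.mem_ofPred_eq, Finset.mem_filter, Finset.mem_univ, true_and]
    rfl
  rw [hs]
  exact rc3_cov_mono h (rc3_cov_const h0 x _ r' (lt_of_lt_of_le h0 hr) hx hup)

theorem rc3_covU (T : Rc3Trim B N x q z s σ κ ν δ G E) (h0 : 0 < B.ρ) (h1 : B.ρ < 1) (hN : 0 < N) (hq : 0 ≤ q)
    (t : (rc3_blk B G E).Th) (r' : ℝ) (hr : B.ρ ≤ r') (hr1 : r' ≤ 1) :
    RtCov2 {v | ∃ p, (rc3_blk B G E).G p t ∧ v = ((rc3_blk B G E).Yf t p, (rc3_blk B G E).Wf t p)} r'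
      (B.ρ ^ (-(κ + q / (N : ℝ))) * r' ^ (-q)) := by
  obtain ⟨j, hj1, hjN, hlo, hup⟩ := rc3_mesh_ceil B.ρ r' N hN h0 h1 hr hr1
  have hc := rc3_cells_card T h0 t 0 j 0 (Nat.zero_le _) hjN (Nat.zero_le _)
  rw [rc3_d_zero, mul_zero, mul_zero, add_zero, zero_add] at hc
  have hcard : (((univ.filter fun p => G p t ∧ E t).image fun p =>
      (bbin B.ρ (rc3_d N j) (B.qY (p, t)), bbin B.ρ (rc3_d N j) (B.qW (p, t)))).card : ℝ)
      ≤ B.ρ ^ (-(q * rc3_d N j + κ)) := by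
    refine le_trans (Nat.cast_le.2 ?_) hc
    have e : ((univ.filter fun p => G p t ∧ E t).image fun p =>
        (bbin B.ρ (rc3_d N j) (B.qY (p, t)), bbin B.ρ (rc3_d N j) (B.qW (p, t)))) =
        ((univ.filter fun p => G p t ∧ E t).image fun p => B.Q (rc3_dep N 0 j 0) (p, t)).image
          (fun a => (a.2.1, a.2.2.1)) := by
      rw [Finset.image_image]
      rfl
    rw [e]
    exact Finset.card_image_le
  have h := rc3_cov2 B.ρ (rc3_d N j) h0 (rc3_d_pos N j hN hj1) (univ.filter fun p => G p t ∧ E t)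
    (fun p => B.qY (p, t)) (fun p => B.qW (p, t)) _ r' hcard hlo
  have hs : {v | ∃ p, (rc3_blk B G E).G p t ∧ v = ((rc3_blk B G E).Yf t p, (rc3_blk B G E).Wf t p)} =
      {v | ∃ p ∈ (univ.filter fun p => G p t ∧ E t), v = (B.qY (p, t), B.qW (p, t))} := by
    ext v
    simp only [Set.mem_ofPred_eq, Finset.mem_filter, Finset.mem_univ, true_and]
    rfl
  rw [hs]
  exact rc3_cov2_mono h (rc3_cov_const h0 q _ r' (lt_of_lt_of_le h0 hr) hq hup)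

theorem rc3_covZ (T : Rc3Trim B N x q z s σ κ ν δ G E) (h0 : 0 < B.ρ) (h1 : B.ρ < 1) (hN : 0 < N) (hz : 0 ≤ z)
    (t : (rc3_blk B G E).Th) (r' : ℝ) (hr : B.ρ ≤ r') (hr1 : r' ≤ 1) :
    RtCov {v | ∃ p, (rc3_blk B G E).G p t ∧ v = (rc3_blk B G E).Zf t p} r'
      (B.ρ ^ (-(κ + z / (N : ℝ))) * r' ^ (-z)) := by
  obtain ⟨l, hl1, hlN, hlo, hup⟩ := rc3_mesh_ceil B.ρ r' N hN h0 h1 hr hr1
  have hc := rc3_cells_card T h0 t 0 0 l (Nat.zero_le _) (Nat.zero_le _) hlN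
  rw [rc3_d_zero, mul_zero, mul_zero, add_zero, zero_add] at hc
  have hcard : (((univ.filter fun p => G p t ∧ E t).image fun p => bbin B.ρ (rc3_d N l) (B.qZ (p, t))).card : ℝ)
      ≤ B.ρ ^ (-(z * rc3_d N l + κ)) := by
    refine le_trans (Nat.cast_le.2 ?_) hc
    have e : ((univ.filter fun p => G p t ∧ E t).image fun p => bbin B.ρ (rc3_d N l) (B.qZ (p, t))) =
        ((univ.filter fun p => G p t ∧ E t).image fun p => B.Q (rc3_dep N 0 0 l) (p, t)).image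
          (fun a => a.2.2.2) := by
      rw [Finset.image_image]
      rfl
    rw [e]
    exact Finset.card_image_le
  have h := rc3_cov1 B.ρ (rc3_d N l) h0 (rc3_d_pos N l hN hl1) (univ.filter fun p => G p t ∧ E t)
    (fun p => B.qZ (p, t)) _ r' hcard hlo
  have hs : {v | ∃ p, (rc3_blk B G E).G p t ∧ v = (rc3_blk B G E).Zf t p} =
      {v | ∃ p ∈ (univ.filter fun p => G p t ∧ E t), v = B.qZ (p, t)} := by
    ext v
    simp only [Set.mem_ofPred_eq, Finset.mem_filter, Finset.mem_univ, true_and]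
    rfl
  rw [hs]
  exact rc3_cov_mono h (rc3_cov_const h0 z _ r' (lt_of_lt_of_le h0 hr) hz hup)

/-! ## [D] (G4) -/

/-- comparison of two filtered sums (any decidability instances): only the positive terms of the left side matter -/
theorem rc3_sum_with_le {ι : Type} (S S' : Finset ι) (P Q : ι → Prop) {dP : DecidablePred P}
    {dQ : DecidablePred Q} (w w' : ι → ℝ) (hw' : ∀ i, 0 ≤ w' i)
    (h : ∀ i ∈ S, P i → 0 < w i → i ∈ S' ∧ Q i ∧ w i ≤ w' i) :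
    ∑ i ∈ S.filter P, w i ≤ ∑ i ∈ S'.filter Q, w' i := by
  have h1 : ∑ i ∈ S.filter P, w i ≤ ∑ i ∈ (S.filter P).filter (fun i => 0 < w i), w i := by
    rw [← Finset.sum_filter_add_sum_filter_not (S.filter P) (fun i => 0 < w i)]
    have h2 : ∑ i ∈ (S.filter P).filter (fun i => ¬ 0 < w i), w i ≤ 0 :=
      Finset.sum_nonpos fun i hi => not_lt.1 (Finset.mem_filter.1 hi).2
    linarith
  refine h1.trans ?_
  have h3 : ∑ i ∈ (S.filter P).filter (fun i => 0 < w i), w i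
      ≤ ∑ i ∈ (S.filter P).filter (fun i => 0 < w i), w' i := by
    refine Finset.sum_le_sum fun i hi => ?_
    obtain ⟨hi1, hi2⟩ := Finset.mem_filter.1 hi
    obtain ⟨hi3, hi4⟩ := Finset.mem_filter.1 hi1
    exact (h i hi3 hi4 hi2).2.2
  refine h3.trans ?_
  refine Finset.sum_le_sum_of_subset_of_nonneg ?_ fun i _ _ => hw' i
  intro i hi
  obtain ⟨hi1, hi2⟩ := Finset.mem_filter.1 hi
  obtain ⟨hi3, hi4⟩ := Finset.mem_filter.1 hi1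
  exact Finset.mem_filter.2 ⟨(h i hi3 hi4 hi2).1, (h i hi3 hi4 hi2).2.1⟩

/-- Frostman bound of one coordinate `f` of the label from the bounds of its mesh cells: `rc3_mesh_floor`, `rc3_bins`, `rc3_sum_cells` on `S = {t : |f t - z| ≤ r, E t, 0 < λ₀ t}`, `rc3_pow_floor`. -/
theorem rc3_frost (h0 : 0 < B.ρ) (h1 : B.ρ < 1) (hN : 0 < N) (f : B.Lb → ℝ) (e : ℝ) (he : 0 ≤ e)
    (hcell : ∀ t, E t → 0 < rc3_lam0 B t → ∀ i : ℕ, i ≤ N →
      ∑ t' with bbin B.ρ (rc3_d N i) (f t') = bbin B.ρ (rc3_d N i) (f t), rc3_lam0 B t'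
        ≤ B.ρ ^ (e * rc3_d N i - κ)) :
    KfFrost (rc3_blk B G E).lam f (6 * B.ρ ^ (-(κ + e / (N : ℝ)))) e B.ρ := by
  intro z₀ r hr hr1
  change ∑ t : B.Lb with dist (f t) z₀ ≤ r, (if E t then rc3_lam0 B t else 0) ≤ _
  obtain ⟨i, hi, hri, hir⟩ := rc3_mesh_floor B.ρ r N hN h0 h1 hr hr1
  obtain ⟨S, hS6, hS⟩ := rc3_bins B.ρ (rc3_d N i) z₀ r h0 h1 (rc3_d_nonneg N i) hri
  have hM0 : 0 ≤ B.ρ ^ (e * rc3_d N i - κ) := (Real.rpow_pos_of_pos h0 _).le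
  have h2 := rc3_sum_cells (rc3_lam0 B)
    (univ.filter fun t : B.Lb => dist (f t) z₀ ≤ r ∧ E t ∧ 0 < rc3_lam0 B t)
    (fun t => bbin B.ρ (rc3_d N i) (f t)) S
    (fun t ht => hS (f t) (by rw [← Real.dist_eq]; exact (Finset.mem_filter.1 ht).2.1))
    (B.ρ ^ (e * rc3_d N i - κ)) hM0
    (fun t ht => by
      obtain ⟨-, -, hE, hl⟩ := Finset.mem_filter.1 ht
      refine le_trans ?_ (hcell t hE hl i hi)
      exact rc3_sum_with_le _ _ _ _ _ _ (rc3_lam0_nonneg B)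
        fun t' _ ht' _ => ⟨Finset.mem_univ _, ht', le_rfl⟩)
  have h2' : ∑ t : B.Lb with dist (f t) z₀ ≤ r, (if E t then rc3_lam0 B t else 0)
      ≤ ∑ t : B.Lb with dist (f t) z₀ ≤ r ∧ E t ∧ 0 < rc3_lam0 B t, rc3_lam0 B t := by
    refine rc3_sum_with_le _ _ _ _ _ _ (rc3_lam0_nonneg B) fun t _ ht hpos => ?_
    by_cases hE : E t
    · rw [if_pos hE] at hpos ⊢
      exact ⟨Finset.mem_univ _, ⟨ht, hE, hpos⟩, le_rfl⟩
    · rw [if_neg hE] at hpos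
      exact absurd hpos (lt_irrefl 0)
  refine h2'.trans (h2.trans ?_)
  have h3 : (S.card : ℝ) ≤ 6 := by exact_mod_cast hS6
  have h4 := rc3_pow_floor B.ρ r (rc3_d N i) e N h0 he hir
  have h5 : B.ρ ^ (e * rc3_d N i - κ) = B.ρ ^ (-κ) * B.ρ ^ (e * rc3_d N i) := by
    rw [← Real.rpow_add h0]
    congr 1
    ring
  have h6 : B.ρ ^ (-(κ + e / (N : ℝ))) = B.ρ ^ (-κ) * B.ρ ^ (-(e / (N : ℝ))) := by
    rw [← Real.rpow_add h0]
    congr 1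
    ring
  calc (S.card : ℝ) * B.ρ ^ (e * rc3_d N i - κ) ≤ 6 * B.ρ ^ (e * rc3_d N i - κ) :=
        mul_le_mul_of_nonneg_right h3 hM0
    _ = 6 * (B.ρ ^ (-κ) * B.ρ ^ (e * rc3_d N i)) := by rw [h5]
    _ ≤ 6 * (B.ρ ^ (-κ) * (B.ρ ^ (-(e / (N : ℝ))) * r ^ e)) := by
        refine mul_le_mul_of_nonneg_left ?_ (by norm_num)
        exact mul_le_mul_of_nonneg_left h4 (Real.rpow_pos_of_pos h0 _).le
    _ = 6 * B.ρ ^ (-(κ + e / (N : ℝ))) * r ^ e := by rw [h6]; ring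

theorem rc3_frC (T : Rc3Trim B N x q z s σ κ ν δ G E) (h0 : 0 < B.ρ) (h1 : B.ρ < 1) (hN : 0 < N) (hs : 0 ≤ s) :
    KfFrost (rc3_blk B G E).lam (rc3_blk B G E).c (6 * B.ρ ^ (-(κ + s / (N : ℝ)))) s B.ρ := by
  refine rc3_frost h0 h1 hN B.c s hs fun t hE hl i hi => ?_
  obtain ⟨p, hp⟩ := rc3_exists_G T hE hl
  exact T.time p t hp i hi

theorem rc3_frR (T : Rc3Trim B N x q z s σ κ ν δ G E) (h0 : 0 < B.ρ) (h1 : B.ρ < 1) (hN : 0 < N) (hσ : 0 ≤ σ) :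
    KfFrost (rc3_blk B G E).lam (rc3_blk B G E).r (6 * B.ρ ^ (-(κ + σ / (N : ℝ)))) σ B.ρ := by
  refine rc3_frost h0 h1 hN B.r σ hσ fun t hE hl i hi => ?_
  obtain ⟨p, hp⟩ := rc3_exists_G T hE hl
  exact T.normal p t hp i hi

/-! ## [E] the hereditary condition -/

/-- the atom of positive depth is a dyadic square -/
theorem rc3_th_eq (B : BLaw) (d : ℝ) (hd : 0 < d) (t : B.Lb) : rc3_th B d t = rtCell (tlev B.ρ d) (B.c t, B.r t) := by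
  unfold rc3_th rtCell
  rw [rc3_bbin_pos _ _ _ hd, rc3_bbin_pos _ _ _ hd]

/-- the atoms of the parameter tree are nested -/
theorem rc3_th_nest (B : BLaw) (h0 : 0 < B.ρ) (h1 : B.ρ < 1) (a b : ℝ) (hab : a ≤ b) (t t' : B.Lb)
    (e : rc3_th B b t = rc3_th B b t') : rc3_th B a t = rc3_th B a t' := by
  unfold rc3_th at e ⊢
  rw [Prod.mk.injEq] at e ⊢
  exact ⟨rc3_bbin_nest _ _ _ _ _ h0 h1 hab e.1, rc3_bbin_nest _ _ _ _ _ h0 h1 hab e.2⟩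

/-- two mesh atoms `ja < jb` through a retained label `t₁` of positive mass:  `λ₀(atom_jb) ≤ ρ^(s (d jb - d ja) - κ) δ⁻¹ (λ₀ 1_E)(atom_ja)`  (`rc3_exists_G`, `joint` + nesting `rc3_bbin_nest`, `floor`) -/
theorem rc3_two_atoms (T : Rc3Trim B N x q z s σ κ ν δ G E) (h0 : 0 < B.ρ) (h1 : B.ρ < 1) (hδ : 0 < δ) {t₁ : B.Lb}
    (hE : E t₁) (hl : 0 < rc3_lam0 B t₁) (ja jb : ℕ) (hab : ja ≤ jb) (hb : jb ≤ N) :
    ∑ t' with rc3_th B (rc3_d N jb) t' = rc3_th B (rc3_d N jb) t₁, rc3_lam0 B t'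
      ≤ B.ρ ^ (s * (rc3_d N jb - rc3_d N ja) - κ) * δ⁻¹
        * ∑ t' with E t' ∧ rc3_th B (rc3_d N ja) t' = rc3_th B (rc3_d N ja) t₁, rc3_lam0 B t' := by
  obtain ⟨p, hp⟩ := rc3_exists_G T hE hl
  have hj := T.joint p t₁ hp ja jb hab hb
  have hf := T.floor t₁ hE hl ja (hab.trans hb)
  refine le_trans ?_ (hj.trans ?_)
  · exact rc3_sum_with_le _ _ _ _ _ _ (rc3_lam0_nonneg B) fun t' _ ht' _ =>
      ⟨Finset.mem_univ _, ⟨ht', rc3_th_nest B h0 h1 _ _ (rc3_d_mono N ja jb hab) _ _ ht'⟩, le_rfl⟩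
  · rw [mul_assoc]
    refine mul_le_mul_of_nonneg_left ?_ (Real.rpow_pos_of_pos h0 _).le
    rw [le_inv_mul_iff₀ hδ]
    exact hf

/-- `rc3_levels`.  Case `jb ≤ ja`: nesting of `rtCell` and `1 ≤ ρ^(s (d jb - d ja))`.  Case `ja < jb`: if the left side is `0` trivial; else take `t₁` in `cell_k'` with `E t₁`, `0 < λ₀ t₁`;
`cell_k' ⊆ atom_jb(t₁)` (`tlev (d jb) ≤ k'`), `atom_ja(t₁) ⊆ cell_k` (`k ≤ tlev (d ja)`), `rc3_two_atoms`. -/
theorem rc3_her (T : Rc3Trim B N x q z s σ κ ν δ G E) (h0 : 0 < B.ρ) (h1 : B.ρ < 1) (hN : 0 < N) (hs : 0 ≤ s)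
    (hκ : 0 ≤ κ) (hδ : 0 < δ) (hδ1 : δ ≤ 1) :
    RtTreeHer (rc3_blk B G E).lam (rc3_blk B G E).pos (δ⁻¹ * B.ρ ^ (-(κ + 2 * s / (N : ℝ)))) s B.ρ := by
  intro k k' hk hρ i₀
  change ∑ t : B.Lb with rtCell k' (B.c t, B.r t) = rtCell k' (B.c i₀, B.r i₀), (if E t then rc3_lam0 B t else 0)
    ≤ δ⁻¹ * B.ρ ^ (-(κ + 2 * s / (N : ℝ))) * ((1 / 2 : ℝ) ^ (k' - k)) ^ s *
      ∑ t : B.Lb with rtCell k (B.c t, B.r t) = rtCell k (B.c i₀, B.r i₀), (if E t then rc3_lam0 B t else 0)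
  have hw0 : ∀ t : B.Lb, 0 ≤ (if E t then rc3_lam0 B t else 0) := fun t => by
    split_ifs
    · exact rc3_lam0_nonneg B t
    · exact le_rfl
  obtain ⟨ja, jb, hja1, hjaN, hjbN, hka, hkb, hpow⟩ := rc3_levels B.ρ N hN h0 h1 k k' hk hρ
  have hpw := hpow s hs
  set H : ℝ := ((1 / 2 : ℝ) ^ (k' - k)) ^ s with hH
  have hH0 : 0 ≤ H := Real.rpow_nonneg (by positivity) _
  have hsplit : B.ρ ^ (-(κ + 2 * s / (N : ℝ))) = B.ρ ^ (-κ) * B.ρ ^ (-(2 * s / (N : ℝ))) := by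
    rw [← Real.rpow_add h0]
    congr 1
    ring
  have hκ1 : 1 ≤ B.ρ ^ (-κ) := rc3_one_le_rpow B.ρ κ h0 h1 hκ
  have hδi : 1 ≤ δ⁻¹ := (one_le_inv₀ hδ).2 hδ1
  have hR0 : 0 ≤ ∑ t : B.Lb with rtCell k (B.c t, B.r t) = rtCell k (B.c i₀, B.r i₀),
      (if E t then rc3_lam0 B t else 0) := Finset.sum_nonneg fun t _ => hw0 t
  have hC0 : 0 ≤ δ⁻¹ * B.ρ ^ (-(κ + 2 * s / (N : ℝ))) * H :=
    mul_nonneg (mul_nonneg (inv_pos.2 hδ).le (Real.rpow_pos_of_pos h0 _).le) hH0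
  rcases le_or_gt jb ja with hba | hab
  · -- nesting only
    have h2 : 1 ≤ B.ρ ^ (s * (rc3_d N jb - rc3_d N ja)) := by
      have h3 := rc3_one_le_rpow B.ρ (s * (rc3_d N ja - rc3_d N jb)) h0 h1
        (mul_nonneg hs (sub_nonneg.2 (rc3_d_mono N jb ja hba)))
      have h4 : -(s * (rc3_d N ja - rc3_d N jb)) = s * (rc3_d N jb - rc3_d N ja) := by ring
      rwa [h4] at h3
    have h5 : 1 ≤ δ⁻¹ * B.ρ ^ (-(κ + 2 * s / (N : ℝ))) * H := by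
      rw [hsplit]
      have h6 : 1 ≤ B.ρ ^ (-(2 * s / (N : ℝ))) * H := h2.trans hpw
      calc (1 : ℝ) = 1 * 1 * 1 := by ring
        _ ≤ δ⁻¹ * B.ρ ^ (-κ) * (B.ρ ^ (-(2 * s / (N : ℝ))) * H) := by
            refine mul_le_mul (mul_le_mul hδi hκ1 zero_le_one (inv_pos.2 hδ).le) h6 zero_le_one ?_
            exact mul_nonneg (inv_pos.2 hδ).le (Real.rpow_pos_of_pos h0 _).le
        _ = δ⁻¹ * (B.ρ ^ (-κ) * B.ρ ^ (-(2 * s / (N : ℝ)))) * H := by ring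
    refine le_trans ?_ (le_mul_of_one_le_left hR0 h5)
    exact rc3_sum_with_le _ _ _ _ _ _ hw0 fun t _ ht _ =>
      ⟨Finset.mem_univ _, rc3_rtCell_nest k k' hk _ _ ht, le_rfl⟩
  · have hda : 0 < rc3_d N ja := rc3_d_pos N ja hN (by omega)
    have hdb : 0 < rc3_d N jb := rc3_d_pos N jb hN (by omega)
    by_cases hex : ∃ t₁ : B.Lb, rtCell k' (B.c t₁, B.r t₁) = rtCell k' (B.c i₀, B.r i₀) ∧
        E t₁ ∧ 0 < rc3_lam0 B t₁
    · obtain ⟨t₁, hc1, hE1, hl1⟩ := hex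
      have h2 := rc3_two_atoms T h0 h1 hδ hE1 hl1 ja jb hab.le hjbN
      -- the left side
      have hL : ∑ t : B.Lb with rtCell k' (B.c t, B.r t) = rtCell k' (B.c i₀, B.r i₀),
          (if E t then rc3_lam0 B t else 0)
          ≤ ∑ t' with rc3_th B (rc3_d N jb) t' = rc3_th B (rc3_d N jb) t₁, rc3_lam0 B t' := by
        refine rc3_sum_with_le _ _ _ _ _ _ (rc3_lam0_nonneg B) fun t _ ht _ => ⟨Finset.mem_univ _, ?_, ?_⟩
        · rw [rc3_th_eq B _ hdb, rc3_th_eq B _ hdb]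
          exact rc3_rtCell_nest _ k' hkb _ _ (ht.trans hc1.symm)
        · split_ifs
          · exact le_rfl
          · exact rc3_lam0_nonneg B t
      -- the right side
      have hR : ∑ t' with E t' ∧ rc3_th B (rc3_d N ja) t' = rc3_th B (rc3_d N ja) t₁, rc3_lam0 B t'
          ≤ ∑ t : B.Lb with rtCell k (B.c t, B.r t) = rtCell k (B.c i₀, B.r i₀),
            (if E t then rc3_lam0 B t else 0) := by
        refine rc3_sum_with_le _ _ _ _ _ _ hw0 fun t _ ht _ => ⟨Finset.mem_univ _, ?_, ?_⟩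
        · have h3 := ht.2
          rw [rc3_th_eq B _ hda, rc3_th_eq B _ hda] at h3
          exact (rc3_rtCell_nest k _ hka _ _ h3).trans (rc3_rtCell_nest k k' hk _ _ hc1)
        · rw [if_pos ht.1]
      have hco : B.ρ ^ (s * (rc3_d N jb - rc3_d N ja) - κ) * δ⁻¹
          ≤ δ⁻¹ * B.ρ ^ (-(κ + 2 * s / (N : ℝ))) * H := by
        have h7 : B.ρ ^ (s * (rc3_d N jb - rc3_d N ja) - κ)
            = B.ρ ^ (-κ) * B.ρ ^ (s * (rc3_d N jb - rc3_d N ja)) := by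
          rw [← Real.rpow_add h0]
          congr 1
          ring
        rw [h7, hsplit]
        calc B.ρ ^ (-κ) * B.ρ ^ (s * (rc3_d N jb - rc3_d N ja)) * δ⁻¹
            ≤ B.ρ ^ (-κ) * (B.ρ ^ (-(2 * s / (N : ℝ))) * H) * δ⁻¹ := by
              refine mul_le_mul_of_nonneg_right ?_ (inv_pos.2 hδ).le
              exact mul_le_mul_of_nonneg_left hpw (Real.rpow_pos_of_pos h0 _).le
          _ = δ⁻¹ * (B.ρ ^ (-κ) * B.ρ ^ (-(2 * s / (N : ℝ)))) * H := by ring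
      have hS0 : 0 ≤ ∑ t' with E t' ∧ rc3_th B (rc3_d N ja) t' = rc3_th B (rc3_d N ja) t₁, rc3_lam0 B t' :=
        Finset.sum_nonneg fun t _ => rc3_lam0_nonneg B t
      exact hL.trans (h2.trans (mul_le_mul hco hR hS0 hC0))
    · refine le_trans ?_ (mul_nonneg hC0 hR0)
      refine Finset.sum_nonpos fun t ht => ?_
      by_cases hE : E t
      · rw [if_pos hE]
        by_contra hcon
        exact hex ⟨t, (Finset.mem_filter.1 ht).2, hE, not_le.1 hcon⟩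
      · rw [if_neg hE]

end Claimed.Agent.R255
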