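-- KEEP
import Claimed.Agent.R255.Rate.Core3Num

/-!
# Row 255 (BR paper), Sec. 7, unit U1b CORE3, file 3: STEP 1, from `Tol` to the pointwise interface `Rc3Trim`      (architect helper50)

PAPER-FREE finite probability; library `R255/Ent/Basic.lean`, `R255/Ent/Prod.lean` (`ent_pr_exists_le`, `ent_pr_or_le`, `ent_pr_not`, `ent_exp_neg_surC`, `ent_fib_pos`, `ent_zero_info_mi`, `ent_core_exists`, `ent_wt_isW`).
[A] bridge: fibres of the law `π` on `Pt × Lb` as plain sums.   [B] surprise ⟹ inequalities between masses (`ρ^y = exp(-y L)`: `rc3_rpow_exp`).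
[C] the bad event and its probability (union bound).   [D] the fields of `Rc3Trim` off the bad event.   [E] good labels, floors (`ent_core_exists` for the label law).   [F] `rc3_trim`.
Statements FROZEN (ask helper50); provers edit only bodies, helpers directly above their use (prefix `rc3_`).
-/

set_option autoImplicit false

namespace Claimed.Agent.R255

open Finset Classical
open FLaw

/-! ## [A] bridge -/

theorem rc3_fib_lb (B : BLaw) (ω : B.Pt × B.Lb) : B.π.fib B.lb ω = rc3_lam0 B ω.2 := by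
  unfold FLaw.fib FLaw.pr rc3_lam0 BLaw.lb
  rw [Fintype.sum_prod_type]
  refine Finset.sum_congr rfl fun p _ => ?_
  simp only
  rw [Finset.sum_ite_eq' Finset.univ ω.2 (fun t => B.π.p (p, t))]
  simp

theorem rc3_fib_pt (B : BLaw) (ω : B.Pt × B.Lb) : B.π.fib B.pt ω = rc3_mu0 B ω.1 := by
  unfold FLaw.fib FLaw.pr rc3_mu0 BLaw.pt
  rw [Fintype.sum_prod_type_right]
  refine Finset.sum_congr rfl fun t _ => ?_
  simp only
  rw [Finset.sum_ite_eq' Finset.univ ω.1 (fun p => B.π.p (p, t))]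
  simp

theorem rc3_fib_id (B : BLaw) (ω : B.Pt × B.Lb) : B.π.fib (pair B.pt B.lb) ω = B.π.p ω := by
  unfold FLaw.fib FLaw.pr FLaw.pair BLaw.pt BLaw.lb
  simp only [Prod.mk.eta]
  rw [Finset.sum_ite_eq' Finset.univ ω (fun ω' => B.π.p ω')]
  simp

/-- an observation together with the label -/
theorem rc3_fib_pair_lb (B : BLaw) {α : Type} (F : B.Pt × B.Lb → α) (p : B.Pt) (t : B.Lb) :
    B.π.fib (pair F B.lb) (p, t) = ∑ p' with F (p', t) = F (p, t), B.π.p (p', t) := by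
  unfold FLaw.fib FLaw.pr FLaw.pair BLaw.lb
  rw [Fintype.sum_prod_type, Finset.sum_filter]
  refine Finset.sum_congr rfl fun p' _ => ?_
  simp only [Prod.mk.injEq]
  rw [Finset.sum_eq_single t]
  · simp
  · intro t' _ ht'
    rw [if_neg (fun h => ht' h.2)]
  · intro h
    exact absurd (Finset.mem_univ t) h

/-- an observation of the label only -/
theorem rc3_fib_label (B : BLaw) {α : Type} (f : B.Lb → α) (ω : B.Pt × B.Lb) :
    B.π.fib (fun ω' => f ω'.2) ω = ∑ t' with f t' = f ω.2, rc3_lam0 B t' := by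
  unfold FLaw.fib FLaw.pr rc3_lam0
  rw [Fintype.sum_prod_type_right, Finset.sum_filter]
  refine Finset.sum_congr rfl fun t' _ => ?_
  simp only
  split_ifs
  · rfl
  · simp

/-- events as sums -/
theorem rc3_pr_sum (B : BLaw) (Ev : B.Pt × B.Lb → Prop) : B.π.pr Ev = ∑ ω with Ev ω, B.π.p ω := by
  unfold FLaw.pr
  rw [Finset.sum_filter]

/-! ## [B] surprise and masses -/

section sur
variable {Ω : Type} [Fintype Ω] {α β : Type}

theorem rc3_surC_lower (π : FLaw Ω) (X : Ω → α) (Y : Ω → β) (ω : Ω) (hω : π.p ω ≠ 0) (ρ a : ℝ) (h0 : 0 < ρ)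
    (h : a * lg ρ ≤ π.surC X Y ω) : π.fib (pair X Y) ω ≤ ρ ^ a * π.fib Y ω := by
  have hY := ent_fib_pos π Y hω
  rw [← div_le_iff₀ hY, ← ent_exp_neg_surC π X Y hω, rc3_rpow_exp ρ a h0]
  exact Real.exp_le_exp.2 (neg_le_neg h)

theorem rc3_surC_upper (π : FLaw Ω) (X : Ω → α) (Y : Ω → β) (ω : Ω) (hω : π.p ω ≠ 0) (ρ a : ℝ) (h0 : 0 < ρ)
    (h : π.surC X Y ω ≤ a * lg ρ) : ρ ^ a * π.fib Y ω ≤ π.fib (pair X Y) ω := by
  have hY := ent_fib_pos π Y hω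
  rw [← le_div_iff₀ hY, ← ent_exp_neg_surC π X Y hω, rc3_rpow_exp ρ a h0]
  exact Real.exp_le_exp.2 (neg_le_neg h)

theorem rc3_sur_lower (π : FLaw Ω) (X : Ω → α) (ω : Ω) (hω : π.p ω ≠ 0) (ρ a : ℝ) (h0 : 0 < ρ)
    (h : a * lg ρ ≤ π.sur X ω) : π.fib X ω ≤ ρ ^ a := by
  have hX := ent_fib_pos π X hω
  rw [rc3_rpow_exp ρ a h0, ← Real.exp_log hX]
  refine Real.exp_le_exp.2 ?_
  unfold FLaw.sur at h
  linarith

end sur

/-! ## [C] the bad event -/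

/-- at least one of the surprise events of `Tol` on the mesh, or one of the two likelihood bounds, fails at `ω` -/
def rc3_Bad (B : BLaw) (N : ℕ) (x q z s σ κ ν : ℝ) (ω : B.Pt × B.Lb) : Prop :=
  (∃ a ∈ range (N + 1) ×ˢ range (N + 1) ×ˢ range (N + 1),
      κ * B.L < |B.π.surC (B.Q (rc3_dep N a.1 a.2.1 a.2.2)) B.lb ω
        - (x * rc3_d N a.1 + q * rc3_d N a.2.1 + 0 * rc3_d N a.2.1 + z * rc3_d N a.2.2) * B.L|)
  ∨ (∃ i ∈ range (N + 1), B.π.sur (B.cb (rc3_d N i)) ω < (s * rc3_d N i - κ) * B.L)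
  ∨ (∃ i ∈ range (N + 1), B.π.sur (B.rb (rc3_d N i)) ω < (σ * rc3_d N i - κ) * B.L)
  ∨ (∃ a ∈ range (N + 1) ×ˢ range (N + 1), a.1 ≤ a.2 ∧
      B.π.surC (B.Th (rc3_d N a.2)) (B.Th (rc3_d N a.1)) ω < (s * (rc3_d N a.2 - rc3_d N a.1) - κ) * B.L)
  ∨ ¬ (B.π.fib (pair B.pt B.lb) ω ≤ Real.exp (ν * B.L) * (B.π.fib B.pt ω * B.π.fib B.lb ω))
  ∨ B.π.p ω < Real.exp (-(ν * B.L)) * (rc3_mu0 B ω.1 * rc3_lam0 B ω.2)

/-- the graph -/
def rc3_G (B : BLaw) (N : ℕ) (x q z s σ κ ν : ℝ) (p : B.Pt) (t : B.Lb) : Prop :=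
  B.π.p (p, t) ≠ 0 ∧ ¬ rc3_Bad B N x q z s σ κ ν (p, t)

theorem rc3_trim_cite : True := by
  have := @rc3_Bad.eq_1
  have := @rc3_G.eq_1
  trivial

/-- lower likelihood bound: `π{π < e^(-v) μ₀ ⊗ λ₀} ≤ e^(-v)` -/
theorem rc3_pr_lo (B : BLaw) (v : ℝ) :
    B.π.pr (fun ω => B.π.p ω < Real.exp (-v) * (rc3_mu0 B ω.1 * rc3_lam0 B ω.2)) ≤ Real.exp (-v) := by
  rw [rc3_pr_sum]
  have hnn : ∀ ω : B.Pt × B.Lb, 0 ≤ Real.exp (-v) * (rc3_mu0 B ω.1 * rc3_lam0 B ω.2) := fun ω =>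
    mul_nonneg (Real.exp_pos _).le (mul_nonneg (rc3_mu0_nonneg B _) (rc3_lam0_nonneg B _))
  have e1 : ∑ ω : B.Pt × B.Lb, Real.exp (-v) * (rc3_mu0 B ω.1 * rc3_lam0 B ω.2) = Real.exp (-v) := by
    rw [Fintype.sum_prod_type]
    simp only [← Finset.mul_sum, rc3_lam0_sum, rc3_mu0_sum, mul_one]
  calc _ ≤ ∑ ω : B.Pt × B.Lb with B.π.p ω < Real.exp (-v) * (rc3_mu0 B ω.1 * rc3_lam0 B ω.2),
        Real.exp (-v) * (rc3_mu0 B ω.1 * rc3_lam0 B ω.2) :=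
        Finset.sum_le_sum fun ω hω => (Finset.mem_filter.1 hω).2.le
    _ ≤ ∑ ω : B.Pt × B.Lb, Real.exp (-v) * (rc3_mu0 B ω.1 * rc3_lam0 B ω.2) :=
        Finset.sum_le_sum_of_subset_of_nonneg (Finset.filter_subset _ _) fun ω _ _ => hnn ω
    _ = Real.exp (-v) := e1

/-- upper likelihood bound (`ent_zero_info_mi`, `Tol.info`) -/
theorem rc3_pr_up (B : BLaw) (N : ℕ) (x q z s σ κ ν A : ℝ) (hν : 0 < ν) (T : B.Tol 1 x q 0 z s σ κ A N) :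
    B.π.pr (fun ω => ¬ (B.π.fib (pair B.pt B.lb) ω ≤ Real.exp (ν * B.L) * (B.π.fib B.pt ω * B.π.fib B.lb ω)))
      ≤ (κ * B.L + Real.exp (-1)) / (ν * B.L) := by
  have hL : 0 < B.L := rc3_lg_pos B.ρ T.ρpos T.ρlt
  have hv : 0 < ν * B.L := mul_pos hν hL
  have h1 := ent_zero_info_mi B.π B.pt B.lb hv
  rw [ent_pr_not]
  have h2 : (B.π.mi B.pt B.lb + Real.exp (-1)) / (ν * B.L) ≤ (κ * B.L + Real.exp (-1)) / (ν * B.L) :=
    div_le_div_of_nonneg_right (by linarith [T.info]) hv.le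
  linarith

/-- the union bound -/
theorem rc3_bad_le (B : BLaw) (N : ℕ) (x q z s σ κ ν A : ℝ) (hκ : 0 < κ) (hν : 0 < ν)
    (T : B.Tol 1 x q 0 z s σ κ A N) :
    B.π.pr (rc3_Bad B N x q z s σ κ ν)
      ≤ (((N : ℝ) + 1) ^ 3 + ((N : ℝ) + 1) ^ 2 + 2 * ((N : ℝ) + 1)) * κ
        + (κ * B.L + Real.exp (-1)) / (ν * B.L) + B.ρ ^ ν := by
  have hr : ∀ k, k ∈ range (N + 1) → k ≤ N := fun k hk => Nat.lt_succ_iff.1 (Finset.mem_range.1 hk)
  have b1 : B.π.pr (fun ω => ∃ a ∈ range (N + 1) ×ˢ range (N + 1) ×ˢ range (N + 1),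
      κ * B.L < |B.π.surC (B.Q (rc3_dep N a.1 a.2.1 a.2.2)) B.lb ω
        - (x * rc3_d N a.1 + q * rc3_d N a.2.1 + 0 * rc3_d N a.2.1 + z * rc3_d N a.2.2) * B.L|)
      ≤ ((N : ℝ) + 1) ^ 3 * κ := by
    refine (ent_pr_exists_le B.π _ _).trans ?_
    refine (Finset.sum_le_card_nsmul _ _ κ fun a ha => ?_).trans (le_of_eq ?_)
    · obtain ⟨ha1, ha2⟩ := Finset.mem_product.1 ha
      obtain ⟨ha2, ha3⟩ := Finset.mem_product.1 ha2
      exact T.coord (rc3_dep N a.1 a.2.1 a.2.2) (rc3_d_mesh N _ (hr _ ha1)) (rc3_d_mesh N _ (hr _ ha2))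
        (rc3_d_mesh N _ (hr _ ha2)) (rc3_d_mesh N _ (hr _ ha3)) fun _ => rfl
    · rw [Finset.card_product, Finset.card_product, Finset.card_range, nsmul_eq_mul]
      push_cast
      ring
  have b2 : B.π.pr (fun ω => ∃ i ∈ range (N + 1), B.π.sur (B.cb (rc3_d N i)) ω < (s * rc3_d N i - κ) * B.L)
      ≤ ((N : ℝ) + 1) * κ := by
    refine (ent_pr_exists_le B.π _ _).trans ?_
    refine (Finset.sum_le_card_nsmul _ _ κ fun i hi => ?_).trans (le_of_eq ?_)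
    · exact T.time _ (rc3_d_mesh N _ (hr _ hi))
    · rw [Finset.card_range, nsmul_eq_mul]
      push_cast
      ring
  have b3 : B.π.pr (fun ω => ∃ i ∈ range (N + 1), B.π.sur (B.rb (rc3_d N i)) ω < (σ * rc3_d N i - κ) * B.L)
      ≤ ((N : ℝ) + 1) * κ := by
    refine (ent_pr_exists_le B.π _ _).trans ?_
    refine (Finset.sum_le_card_nsmul _ _ κ fun i hi => ?_).trans (le_of_eq ?_)
    · exact T.normal _ (rc3_d_mesh N _ (hr _ hi))
    · rw [Finset.card_range, nsmul_eq_mul]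
      push_cast
      ring
  have b4 : B.π.pr (fun ω => ∃ a ∈ range (N + 1) ×ˢ range (N + 1), a.1 ≤ a.2 ∧
      B.π.surC (B.Th (rc3_d N a.2)) (B.Th (rc3_d N a.1)) ω < (s * (rc3_d N a.2 - rc3_d N a.1) - κ) * B.L)
      ≤ ((N : ℝ) + 1) ^ 2 * κ := by
    refine (ent_pr_exists_le B.π _ _).trans ?_
    refine (Finset.sum_le_card_nsmul _ _ κ fun a ha => ?_).trans (le_of_eq ?_)
    · obtain ⟨ha1, ha2⟩ := Finset.mem_product.1 ha
      by_cases hle : a.1 ≤ a.2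
      · exact (ent_pr_mono B.π fun ω _ h => h.2).trans
          (T.joint rfl _ (rc3_d_mesh N _ (hr _ ha1)) _ (rc3_d_mesh N _ (hr _ ha2)) (rc3_d_mono N _ _ hle))
      · rw [ent_pr_eq_zero B.π fun ω _ h => hle h.1]
        exact hκ.le
    · rw [Finset.card_product, Finset.card_range, nsmul_eq_mul]
      push_cast
      ring
  have b5 := rc3_pr_up B N x q z s σ κ ν A hν T
  have b6 : B.π.pr (fun ω => B.π.p ω < Real.exp (-(ν * B.L)) * (rc3_mu0 B ω.1 * rc3_lam0 B ω.2)) ≤ B.ρ ^ ν := by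
    rw [rc3_rpow_exp B.ρ ν T.ρpos]
    exact rc3_pr_lo B (ν * B.L)
  have u1 := ent_pr_or_le B.π (fun ω => ∃ a ∈ range (N + 1) ×ˢ range (N + 1) ×ˢ range (N + 1),
      κ * B.L < |B.π.surC (B.Q (rc3_dep N a.1 a.2.1 a.2.2)) B.lb ω
        - (x * rc3_d N a.1 + q * rc3_d N a.2.1 + 0 * rc3_d N a.2.1 + z * rc3_d N a.2.2) * B.L|)
    (fun ω => (∃ i ∈ range (N + 1), B.π.sur (B.cb (rc3_d N i)) ω < (s * rc3_d N i - κ) * B.L)
      ∨ (∃ i ∈ range (N + 1), B.π.sur (B.rb (rc3_d N i)) ω < (σ * rc3_d N i - κ) * B.L)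
      ∨ (∃ a ∈ range (N + 1) ×ˢ range (N + 1), a.1 ≤ a.2 ∧
          B.π.surC (B.Th (rc3_d N a.2)) (B.Th (rc3_d N a.1)) ω < (s * (rc3_d N a.2 - rc3_d N a.1) - κ) * B.L)
      ∨ ¬ (B.π.fib (pair B.pt B.lb) ω ≤ Real.exp (ν * B.L) * (B.π.fib B.pt ω * B.π.fib B.lb ω))
      ∨ B.π.p ω < Real.exp (-(ν * B.L)) * (rc3_mu0 B ω.1 * rc3_lam0 B ω.2))
  have u2 := ent_pr_or_le B.π
    (fun ω => ∃ i ∈ range (N + 1), B.π.sur (B.cb (rc3_d N i)) ω < (s * rc3_d N i - κ) * B.L)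
    (fun ω => (∃ i ∈ range (N + 1), B.π.sur (B.rb (rc3_d N i)) ω < (σ * rc3_d N i - κ) * B.L)
      ∨ (∃ a ∈ range (N + 1) ×ˢ range (N + 1), a.1 ≤ a.2 ∧
          B.π.surC (B.Th (rc3_d N a.2)) (B.Th (rc3_d N a.1)) ω < (s * (rc3_d N a.2 - rc3_d N a.1) - κ) * B.L)
      ∨ ¬ (B.π.fib (pair B.pt B.lb) ω ≤ Real.exp (ν * B.L) * (B.π.fib B.pt ω * B.π.fib B.lb ω))
      ∨ B.π.p ω < Real.exp (-(ν * B.L)) * (rc3_mu0 B ω.1 * rc3_lam0 B ω.2))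
  have u3 := ent_pr_or_le B.π
    (fun ω => ∃ i ∈ range (N + 1), B.π.sur (B.rb (rc3_d N i)) ω < (σ * rc3_d N i - κ) * B.L)
    (fun ω => (∃ a ∈ range (N + 1) ×ˢ range (N + 1), a.1 ≤ a.2 ∧
          B.π.surC (B.Th (rc3_d N a.2)) (B.Th (rc3_d N a.1)) ω < (s * (rc3_d N a.2 - rc3_d N a.1) - κ) * B.L)
      ∨ ¬ (B.π.fib (pair B.pt B.lb) ω ≤ Real.exp (ν * B.L) * (B.π.fib B.pt ω * B.π.fib B.lb ω))
      ∨ B.π.p ω < Real.exp (-(ν * B.L)) * (rc3_mu0 B ω.1 * rc3_lam0 B ω.2))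
  have u4 := ent_pr_or_le B.π
    (fun ω => ∃ a ∈ range (N + 1) ×ˢ range (N + 1), a.1 ≤ a.2 ∧
          B.π.surC (B.Th (rc3_d N a.2)) (B.Th (rc3_d N a.1)) ω < (s * (rc3_d N a.2 - rc3_d N a.1) - κ) * B.L)
    (fun ω => ¬ (B.π.fib (pair B.pt B.lb) ω ≤ Real.exp (ν * B.L) * (B.π.fib B.pt ω * B.π.fib B.lb ω))
      ∨ B.π.p ω < Real.exp (-(ν * B.L)) * (rc3_mu0 B ω.1 * rc3_lam0 B ω.2))
  have u5 := ent_pr_or_le B.π
    (fun ω => ¬ (B.π.fib (pair B.pt B.lb) ω ≤ Real.exp (ν * B.L) * (B.π.fib B.pt ω * B.π.fib B.lb ω)))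
    (fun ω => B.π.p ω < Real.exp (-(ν * B.L)) * (rc3_mu0 B ω.1 * rc3_lam0 B ω.2))
  have u0 : B.π.pr (rc3_Bad B N x q z s σ κ ν) = B.π.pr (fun ω =>
      (∃ a ∈ range (N + 1) ×ˢ range (N + 1) ×ˢ range (N + 1),
      κ * B.L < |B.π.surC (B.Q (rc3_dep N a.1 a.2.1 a.2.2)) B.lb ω
        - (x * rc3_d N a.1 + q * rc3_d N a.2.1 + 0 * rc3_d N a.2.1 + z * rc3_d N a.2.2) * B.L|)
      ∨ (∃ i ∈ range (N + 1), B.π.sur (B.cb (rc3_d N i)) ω < (s * rc3_d N i - κ) * B.L)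
      ∨ (∃ i ∈ range (N + 1), B.π.sur (B.rb (rc3_d N i)) ω < (σ * rc3_d N i - κ) * B.L)
      ∨ (∃ a ∈ range (N + 1) ×ˢ range (N + 1), a.1 ≤ a.2 ∧
          B.π.surC (B.Th (rc3_d N a.2)) (B.Th (rc3_d N a.1)) ω < (s * (rc3_d N a.2 - rc3_d N a.1) - κ) * B.L)
      ∨ ¬ (B.π.fib (pair B.pt B.lb) ω ≤ Real.exp (ν * B.L) * (B.π.fib B.pt ω * B.π.fib B.lb ω))
      ∨ B.π.p ω < Real.exp (-(ν * B.L)) * (rc3_mu0 B ω.1 * rc3_lam0 B ω.2)) := rfl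
  rw [u0]
  nlinarith

/-! ## [D] the fields off the bad event -/

section fields
variable {B : BLaw} {N : ℕ} {x q z s σ κ ν : ℝ} {p : B.Pt} {t : B.Lb}

theorem rc3_G_pos (h : rc3_G B N x q z s σ κ ν p t) : 0 < B.π.p (p, t) := by
  exact lt_of_le_of_ne (B.π.nonneg _) (Ne.symm h.1)

theorem rc3_G_up (h0 : 0 < B.ρ) (h : rc3_G B N x q z s σ κ ν p t) :
    B.π.p (p, t) ≤ B.ρ ^ (-ν) * (rc3_mu0 B p * rc3_lam0 B t) := by
  have h5 : B.π.fib (pair B.pt B.lb) (p, t) ≤ Real.exp (ν * B.L) * (B.π.fib B.pt (p, t) * B.π.fib B.lb (p, t)) := by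
    by_contra hc
    exact h.2 (Or.inr (Or.inr (Or.inr (Or.inr (Or.inl hc)))))
  rw [rc3_fib_id, rc3_fib_pt, rc3_fib_lb] at h5
  rw [rc3_rpow_exp B.ρ (-ν) h0]
  have e : -(-ν * lg B.ρ) = ν * B.L := by
    show -(-ν * lg B.ρ) = ν * lg B.ρ
    ring
  rw [e]
  exact h5

theorem rc3_G_lo (h0 : 0 < B.ρ) (h : rc3_G B N x q z s σ κ ν p t) :
    rc3_mu0 B p * rc3_lam0 B t ≤ B.ρ ^ (-ν) * B.π.p (p, t) := by
  have h6 : Real.exp (-(ν * B.L)) * (rc3_mu0 B p * rc3_lam0 B t) ≤ B.π.p (p, t) := by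
    by_contra hc
    exact h.2 (Or.inr (Or.inr (Or.inr (Or.inr (Or.inr (not_le.1 hc))))))
  rw [rc3_rpow_exp B.ρ (-ν) h0]
  have e : -(-ν * lg B.ρ) = ν * B.L := by
    show -(-ν * lg B.ρ) = ν * lg B.ρ
    ring
  rw [e]
  have h7 := mul_le_mul_of_nonneg_left h6 (Real.exp_pos (ν * B.L)).le
  rw [← mul_assoc, ← Real.exp_add, add_neg_cancel, Real.exp_zero, one_mul] at h7
  exact h7

theorem rc3_sum_inst {ι : Type} [Fintype ι] (P Q : ι → Prop) (i1 : DecidablePred P) (i2 : DecidablePred Q)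
    (h : ∀ a, P a ↔ Q a) (f : ι → ℝ) :
    ∑ a ∈ @Finset.filter ι P i1 Finset.univ, f a = ∑ a ∈ @Finset.filter ι Q i2 Finset.univ, f a := by
  refine Finset.sum_congr ?_ fun _ _ => rfl
  ext a
  rw [Finset.mem_filter, Finset.mem_filter, h a]

theorem rc3_G_cell_abs (h : rc3_G B N x q z s σ κ ν p t) (i j l : ℕ) (hi : i ≤ N) (hj : j ≤ N)
    (hl : l ≤ N) :
    |B.π.surC (B.Q (rc3_dep N i j l)) B.lb (p, t)
        - (x * rc3_d N i + q * rc3_d N j + 0 * rc3_d N j + z * rc3_d N l) * B.L| ≤ κ * B.L := by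
  by_contra hc
  refine h.2 (Or.inl ⟨(i, j, l), ?_, not_le.1 hc⟩)
  exact Finset.mem_product.2 ⟨Finset.mem_range.2 (Nat.lt_succ_iff.2 hi),
    Finset.mem_product.2 ⟨Finset.mem_range.2 (Nat.lt_succ_iff.2 hj), Finset.mem_range.2 (Nat.lt_succ_iff.2 hl)⟩⟩

theorem rc3_G_cellU (h0 : 0 < B.ρ) (h : rc3_G B N x q z s σ κ ν p t) (i j l : ℕ) (hi : i ≤ N) (hj : j ≤ N)
    (hl : l ≤ N) :
    ∑ p' with B.Q (rc3_dep N i j l) (p', t) = B.Q (rc3_dep N i j l) (p, t), B.π.p (p', t)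
      ≤ B.ρ ^ (x * rc3_d N i + q * rc3_d N j + z * rc3_d N l - κ) * rc3_lam0 B t := by
  have h1 := abs_le.1 (rc3_G_cell_abs h i j l hi hj hl)
  have h2 := rc3_surC_lower B.π (B.Q (rc3_dep N i j l)) B.lb (p, t) h.1 B.ρ
    (x * rc3_d N i + q * rc3_d N j + z * rc3_d N l - κ) h0 (by
      have : lg B.ρ = B.L := rfl
      rw [this]
      nlinarith [h1.1])
  rw [rc3_fib_pair_lb, rc3_fib_lb] at h2
  exact (rc3_sum_inst _ _ _ _ (fun _ => Iff.rfl) _).trans_le h2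

theorem rc3_G_cellL (h0 : 0 < B.ρ) (h : rc3_G B N x q z s σ κ ν p t) (i j l : ℕ) (hi : i ≤ N) (hj : j ≤ N)
    (hl : l ≤ N) :
    B.ρ ^ (x * rc3_d N i + q * rc3_d N j + z * rc3_d N l + κ) * rc3_lam0 B t
      ≤ ∑ p' with B.Q (rc3_dep N i j l) (p', t) = B.Q (rc3_dep N i j l) (p, t), B.π.p (p', t) := by
  have h1 := abs_le.1 (rc3_G_cell_abs h i j l hi hj hl)
  have h2 := rc3_surC_upper B.π (B.Q (rc3_dep N i j l)) B.lb (p, t) h.1 B.ρ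
    (x * rc3_d N i + q * rc3_d N j + z * rc3_d N l + κ) h0 (by
      have : lg B.ρ = B.L := rfl
      rw [this]
      nlinarith [h1.2])
  rw [rc3_fib_pair_lb, rc3_fib_lb] at h2
  exact h2.trans_eq (rc3_sum_inst _ _ _ _ (fun _ => Iff.rfl) _)

theorem rc3_G_time (h0 : 0 < B.ρ) (h : rc3_G B N x q z s σ κ ν p t) (i : ℕ) (hi : i ≤ N) :
    ∑ t' with bbin B.ρ (rc3_d N i) (B.c t') = bbin B.ρ (rc3_d N i) (B.c t), rc3_lam0 B t'
      ≤ B.ρ ^ (s * rc3_d N i - κ) := by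
  have h2 : (s * rc3_d N i - κ) * lg B.ρ ≤ B.π.sur (B.cb (rc3_d N i)) (p, t) := by
    by_contra hc
    exact h.2 (Or.inr (Or.inl ⟨i, Finset.mem_range.2 (Nat.lt_succ_iff.2 hi), not_le.1 hc⟩))
  have h3 := rc3_sur_lower B.π (B.cb (rc3_d N i)) (p, t) h.1 B.ρ _ h0 h2
  have h4 := rc3_fib_label B (fun t' => bbin B.ρ (rc3_d N i) (B.c t')) (p, t)
  exact ((rc3_sum_inst _ _ _ _ (fun _ => Iff.rfl) _).trans h4.symm).trans_le h3

theorem rc3_G_normal (h0 : 0 < B.ρ) (h : rc3_G B N x q z s σ κ ν p t) (i : ℕ) (hi : i ≤ N) :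
    ∑ t' with bbin B.ρ (rc3_d N i) (B.r t') = bbin B.ρ (rc3_d N i) (B.r t), rc3_lam0 B t'
      ≤ B.ρ ^ (σ * rc3_d N i - κ) := by
  have h2 : (σ * rc3_d N i - κ) * lg B.ρ ≤ B.π.sur (B.rb (rc3_d N i)) (p, t) := by
    by_contra hc
    exact h.2 (Or.inr (Or.inr (Or.inl ⟨i, Finset.mem_range.2 (Nat.lt_succ_iff.2 hi), not_le.1 hc⟩)))
  have h3 := rc3_sur_lower B.π (B.rb (rc3_d N i)) (p, t) h.1 B.ρ _ h0 h2
  have h4 := rc3_fib_label B (fun t' => bbin B.ρ (rc3_d N i) (B.r t')) (p, t)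
  exact ((rc3_sum_inst _ _ _ _ (fun _ => Iff.rfl) _).trans h4.symm).trans_le h3

theorem rc3_G_joint (h0 : 0 < B.ρ) (h : rc3_G B N x q z s σ κ ν p t) (i j : ℕ) (hij : i ≤ j) (hj : j ≤ N) :
    ∑ t' with rc3_th B (rc3_d N j) t' = rc3_th B (rc3_d N j) t ∧ rc3_th B (rc3_d N i) t' = rc3_th B (rc3_d N i) t,
        rc3_lam0 B t'
      ≤ B.ρ ^ (s * (rc3_d N j - rc3_d N i) - κ)
        * ∑ t' with rc3_th B (rc3_d N i) t' = rc3_th B (rc3_d N i) t, rc3_lam0 B t' := by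
  have h2 : (s * (rc3_d N j - rc3_d N i) - κ) * lg B.ρ
      ≤ B.π.surC (B.Th (rc3_d N j)) (B.Th (rc3_d N i)) (p, t) := by
    by_contra hc
    refine h.2 (Or.inr (Or.inr (Or.inr (Or.inl ⟨(i, j), ?_, hij, not_le.1 hc⟩))))
    exact Finset.mem_product.2 ⟨Finset.mem_range.2 (Nat.lt_succ_iff.2 (hij.trans hj)),
      Finset.mem_range.2 (Nat.lt_succ_iff.2 hj)⟩
  have h3 := rc3_surC_lower B.π (B.Th (rc3_d N j)) (B.Th (rc3_d N i)) (p, t) h.1 B.ρ _ h0 h2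
  have h4 : B.π.fib (B.Th (rc3_d N i)) (p, t)
      = ∑ t' with rc3_th B (rc3_d N i) t' = rc3_th B (rc3_d N i) t, rc3_lam0 B t' :=
    (rc3_fib_label B (fun t' => rc3_th B (rc3_d N i) t') (p, t)).trans
      (rc3_sum_inst _ _ _ _ (fun _ => Iff.rfl) _)
  have h5 : B.π.fib (pair (B.Th (rc3_d N j)) (B.Th (rc3_d N i))) (p, t)
      = ∑ t' with rc3_th B (rc3_d N j) t' = rc3_th B (rc3_d N j) t ∧
          rc3_th B (rc3_d N i) t' = rc3_th B (rc3_d N i) t, rc3_lam0 B t' :=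
    (rc3_fib_label B (fun t' => (rc3_th B (rc3_d N j) t', rc3_th B (rc3_d N i) t')) (p, t)).trans
      (rc3_sum_inst _ _ _ _ (fun _ => Prod.mk.injEq _ _ _ _ ▸ Iff.rfl) _)
  rw [h4, h5] at h3
  exact h3

end fields

/-! ## [E] good labels and floors -/

/-- the label law -/
noncomputable def rc3_lamLaw (B : BLaw) : FLaw B.Lb := ⟨rc3_lam0 B, rc3_lam0_nonneg B, rc3_lam0_sum B⟩

/-- good labels: `T₁ = {t : λ₀(t) ≤ 2 π(G_t × {t})}` has `λ₀(T₁ᶜ) ≤ 2 π(Gᶜ)` -/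
theorem rc3_good_labels (B : BLaw) (G : B.Pt → B.Lb → Prop) (b : ℝ)
    (hb : ∑ ω : B.Pt × B.Lb with ¬ G ω.1 ω.2, B.π.p ω ≤ b) :
    1 - 2 * b ≤ ∑ t with rc3_lam0 B t ≤ 2 * ∑ p with G p t, B.π.p (p, t), rc3_lam0 B t := by
  have hsplit : ∀ t, rc3_lam0 B t = ∑ p with G p t, B.π.p (p, t) + ∑ p with ¬ G p t, B.π.p (p, t) := fun t => by
    unfold rc3_lam0
    exact (Finset.sum_filter_add_sum_filter_not _ _ _).symm
  have hbad : ∑ ω : B.Pt × B.Lb with ¬ G ω.1 ω.2, B.π.p ω = ∑ t, ∑ p with ¬ G p t, B.π.p (p, t) := by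
    rw [Finset.sum_filter, Fintype.sum_prod_type_right]
    refine Finset.sum_congr rfl fun t _ => ?_
    rw [Finset.sum_filter]
  have h1 := Finset.sum_filter_add_sum_filter_not (Finset.univ : Finset B.Lb)
    (fun t => rc3_lam0 B t ≤ 2 * ∑ p with G p t, B.π.p (p, t)) (rc3_lam0 B)
  have h2 : ∑ t with ¬ (rc3_lam0 B t ≤ 2 * ∑ p with G p t, B.π.p (p, t)), rc3_lam0 B t
      ≤ ∑ t, 2 * ∑ p with ¬ G p t, B.π.p (p, t) := by
    rw [Finset.sum_filter]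
    refine Finset.sum_le_sum fun t _ => ?_
    by_cases h : rc3_lam0 B t ≤ 2 * ∑ p with G p t, B.π.p (p, t)
    · rw [if_neg (not_not.2 h)]
      exact mul_nonneg zero_le_two (Finset.sum_nonneg fun p _ => B.π.nonneg _)
    · rw [if_pos h]
      have h3 := hsplit t
      rw [not_le] at h
      linarith
  rw [rc3_lam0_sum] at h1
  rw [← Finset.mul_sum, ← hbad] at h2
  linarith

/-- `ent_core_exists` for `rc3_lamLaw B`, `ι = Fin (N+1)`, `F i = rc3_th B (i/N)`, `μ i` = the law of `F i`, `η = 1/(4(N+1))`, `E₀ = T₁`. -/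
theorem rc3_labels (B : BLaw) (N : ℕ) (G : B.Pt → B.Lb → Prop) (b : ℝ)
    (hb : ∑ ω : B.Pt × B.Lb with ¬ G ω.1 ω.2, B.π.p ω ≤ b) (hb8 : b ≤ 1 / 8) :
    ∃ E : B.Lb → Prop, (∀ t, E t → rc3_lam0 B t ≤ 2 * ∑ p with G p t, B.π.p (p, t)) ∧
      (∀ t, E t → 0 < rc3_lam0 B t → ∀ i : ℕ, i ≤ N →
        1 / (4 * ((N : ℝ) + 1)) * ∑ t' with rc3_th B (rc3_d N i) t' = rc3_th B (rc3_d N i) t, rc3_lam0 B t'
          ≤ ∑ t' with E t' ∧ rc3_th B (rc3_d N i) t' = rc3_th B (rc3_d N i) t, rc3_lam0 B t') ∧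
      1 / 2 ≤ ∑ t with E t, rc3_lam0 B t := by
  have hpr : ∀ Ev : B.Lb → Prop, (rc3_lamLaw B).pr Ev = ∑ t with Ev t, rc3_lam0 B t := fun Ev => by
    rw [Finset.sum_filter]
    rfl
  have hN : (0 : ℝ) < (N : ℝ) + 1 := by positivity
  obtain ⟨E, hsub, hmass, hcore⟩ := ent_core_exists (ι := Fin (N + 1)) (α := fun _ => ℤ × ℤ) (rc3_lamLaw B)
    (fun t => rc3_lam0 B t ≤ 2 * ∑ p with G p t, B.π.p (p, t))
    (fun i => rc3_th B (rc3_d N i)) (fun i => (rc3_lamLaw B).wt (rc3_th B (rc3_d N i)))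
    (fun i => ent_wt_isW _ _) (η := 1 / (4 * ((N : ℝ) + 1))) (by positivity)
  refine ⟨E, hsub, fun t hE hpos i hi => ?_, ?_⟩
  · have h := hcore ⟨i, Nat.lt_succ_of_le hi⟩ t hE (ne_of_gt hpos)
    rw [hpr] at h
    have h2 : (rc3_lamLaw B).wt (rc3_th B (rc3_d N i)) (rc3_th B (rc3_d N i) t)
        = ∑ t' with rc3_th B (rc3_d N i) t' = rc3_th B (rc3_d N i) t, rc3_lam0 B t' := by
      refine (hpr (fun t' => rc3_th B (rc3_d N i) t' = rc3_th B (rc3_d N i) t)).trans ?_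
      congr
    simp only at h
    rw [h2] at h
    exact h
  · rw [hpr, hpr, Fintype.card_fin] at hmass
    have h1 := rc3_good_labels B G b hb
    have h2 : ((N + 1 : ℕ) : ℝ) * (1 / (4 * ((N : ℝ) + 1))) = 1 / 4 := by
      push_cast
      field_simp
    rw [h2] at hmass
    linarith

/-! ## [F] STEP 1 -/

theorem rc3_trim (B : BLaw) (N : ℕ) (x q z s σ κ ν A : ℝ) (hκ : 0 < κ) (hν : 0 < ν)
    (T : B.Tol 1 x q 0 z s σ κ A N)
    (hbad : (((N : ℝ) + 1) ^ 3 + ((N : ℝ) + 1) ^ 2 + 2 * ((N : ℝ) + 1)) * κ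
      + (κ * B.L + Real.exp (-1)) / (ν * B.L) + B.ρ ^ ν ≤ 1 / 8) :
    ∃ (G : B.Pt → B.Lb → Prop) (E : B.Lb → Prop), Rc3Trim B N x q z s σ κ ν (1 / (4 * ((N : ℝ) + 1))) G E := by
  have h0 := T.ρpos
  have hb : ∑ ω : B.Pt × B.Lb with ¬ rc3_G B N x q z s σ κ ν ω.1 ω.2, B.π.p ω
      ≤ B.π.pr (rc3_Bad B N x q z s σ κ ν) := by
    rw [rc3_pr_sum]
    rw [Finset.sum_filter, Finset.sum_filter]
    refine Finset.sum_le_sum fun ω _ => ?_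
    by_cases hB : rc3_Bad B N x q z s σ κ ν ω
    · rw [if_pos hB]
      split_ifs
      · exact B.π.nonneg ω
      · exact le_rfl
    · rw [if_neg hB]
      by_cases hp : B.π.p ω = 0
      · rw [hp]; simp
      · rw [if_neg (not_not.2 ⟨hp, hB⟩)]
  obtain ⟨E, hE1, hE2, hE3⟩ := rc3_labels B N (rc3_G B N x q z s σ κ ν) _ hb
    ((rc3_bad_le B N x q z s σ κ ν A hκ hν T).trans hbad)
  exact ⟨rc3_G B N x q z s σ κ ν, E,
    { pos := fun p t h => rc3_G_pos h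
      up := fun p t h => rc3_G_up h0 h
      lo := fun p t h => rc3_G_lo h0 h
      cellU := fun p t h => rc3_G_cellU h0 h
      cellL := fun p t h => rc3_G_cellL h0 h
      time := fun p t h => rc3_G_time h0 h
      normal := fun p t h => rc3_G_normal h0 h
      joint := fun p t h => rc3_G_joint h0 h
      half := hE1
      floor := hE2
      mass := hE3 }⟩

end Claimed.Agent.R255
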