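-- KEEP
import Claimed.Agent.R255.Rate.Core3Trim
import Claimed.Agent.R255.Rate.Core3Box

/-!
# Row 255 (BR paper), Sec. 7, unit U1b CORE3, file 5: STEP 3 and the exit `rc3_core3` (= contract `rt_core3`)      (architect helper50)
-/

set_option autoImplicit false

namespace Claimed.Agent.R255

open Finset Classical
open Claimed.Agent.RW (KfFrost)

/-- all fields of `Is3`, constants absorbed -/
theorem rc3_is3 {B : BLaw} {N : ℕ} {x q z s σ κ ν δ : ℝ} {G : B.Pt → B.Lb → Prop} {E : B.Lb → Prop}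
    (T : Rc3Trim B N x q z s σ κ ν δ G E) (A η C₀ : ℝ) (h0 : 0 < B.ρ) (h1 : B.ρ < 1) (hN : 0 < N) (hx : 0 ≤ x)
    (hq : 0 ≤ q) (hz : 0 ≤ z) (hs : 0 ≤ s) (hσ : 0 ≤ σ) (hκ : 0 ≤ κ) (hν : 0 ≤ ν) (hδ : 0 < δ) (hδ1 : δ ≤ 1)
    (bddP : ∀ p, |B.X p| ≤ A ∧ |B.Y p| ≤ A ∧ |B.W p| ≤ A ∧ |B.Z p| ≤ A) (bddL : ∀ θ, |B.c θ| ≤ A ∧ |B.r θ| ≤ A)
    (hC : C₀ ≤ B.ρ ^ (-(η / 2))) (hC1 : 1296 ≤ C₀) (hC2 : δ⁻¹ ≤ C₀)
    (e1 : ν + κ + (x + q + z) / (N : ℝ) ≤ η / 2) (e2 : κ + σ / (N : ℝ) ≤ η / 2)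
    (e3 : κ + 2 * s / (N : ℝ) ≤ η / 2) :
    (rc3_blk B G E).Is3 B.ρ η A x q z s σ := by
  have hN' : (0 : ℝ) < N := by exact_mod_cast hN
  have hxN : 0 ≤ x / (N : ℝ) := div_nonneg hx hN'.le
  have hqN : 0 ≤ q / (N : ℝ) := div_nonneg hq hN'.le
  have hzN : 0 ≤ z / (N : ℝ) := div_nonneg hz hN'.le
  have hsN : 0 ≤ s / (N : ℝ) := div_nonneg hs hN'.le
  have hsum : (x + q + z) / (N : ℝ) = x / (N : ℝ) + q / (N : ℝ) + z / (N : ℝ) := by ring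
  have h2s : 2 * s / (N : ℝ) = 2 * (s / (N : ℝ)) := by ring
  have hη : 0 ≤ η := by linarith
  have ab : ∀ C e : ℝ, C ≤ C₀ → e ≤ η / 2 → C * B.ρ ^ (-e) ≤ B.ρ ^ (-η) := fun C e a1 a2 =>
    rc3_absorb _ _ _ _ h0 h1 (a1.trans hC) a2
  have ab1 : ∀ e : ℝ, e ≤ η / 2 → B.ρ ^ (-e) ≤ B.ρ ^ (-η) := fun e a2 => by
    have := ab 1 e (by linarith) a2
    rwa [one_mul] at this
  have hhalf : B.ρ ^ (η / 2) ≤ 1 / 2 := by
    have a1 : (2 : ℝ) ≤ B.ρ ^ (-(η / 2)) := le_trans (by linarith) hC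
    rw [Real.rpow_neg h0.le] at a1
    have a2 : 0 < B.ρ ^ (η / 2) := Real.rpow_pos_of_pos h0 _
    rw [le_div_iff₀ (by norm_num : (0 : ℝ) < 2)]
    have a3 := mul_le_mul_of_nonneg_left a1 a2.le
    rw [mul_inv_cancel₀ a2.ne'] at a3
    linarith
  have hsplit : B.ρ ^ η = B.ρ ^ (η / 2) * B.ρ ^ (η / 2) := by
    rw [← Real.rpow_add h0]
    congr 1
    ring
  have hle1 : B.ρ ^ (η / 2) ≤ 1 := Real.rpow_le_one h0.le h1.le (by linarith)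
  have hpos2 : 0 < B.ρ ^ (η / 2) := Real.rpow_pos_of_pos h0 _
  have rp : ∀ (r a : ℝ), B.ρ ≤ r → 0 ≤ r ^ a := fun r a hr => Real.rpow_nonneg (h0.le.trans hr) a
  exact
    { μ0 := rc3_mu0_nonneg B
      lam0 := rc3_blk_lam_nonneg
      μ1 := (rc3_mu0_sum B).le
      lam1 := by
        rw [← rc3_lam0_sum B]
        exact Finset.sum_le_sum fun t _ => rc3_blk_lam_le t
      bdP := bddP
      bdT := bddL
      mass := by
        rw [rc3_blk_lam_sum]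
        refine le_trans ?_ T.mass
        rw [hsplit]
        calc B.ρ ^ (η / 2) * B.ρ ^ (η / 2) ≤ 1 * (1 / 2) := mul_le_mul hle1 hhalf hpos2.le (by norm_num)
          _ = 1 / 2 := one_mul _
      nbr := fun t ht => by
        refine le_trans ?_ (rc3_nbr T h0 t ht)
        rw [hsplit]
        have a1 : B.ρ ^ (η / 2) ≤ B.ρ ^ ν := rc3_rpow_anti _ _ _ h0 h1 (by linarith)
        calc B.ρ ^ (η / 2) * B.ρ ^ (η / 2) ≤ B.ρ ^ ν * (1 / 2) := mul_le_mul a1 hhalf hpos2.le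
              (Real.rpow_nonneg h0.le _)
          _ = B.ρ ^ ν / 2 := by ring
      frC := rc3_frost_mono h0 (rc3_frC T h0 h1 hN hs) (ab 6 _ (by linarith) (by linarith))
      frR := rc3_frost_mono h0 (rc3_frR T h0 h1 hN hσ) (ab 6 _ (by linarith) e2)
      box := fun t x₀ y₀ w₀ z₀ r₁ r₂ r₃ a1 a2 a3 a4 a5 a6 =>
        (rc3_box T h0 h1 hN hx hq hz t x₀ y₀ w₀ z₀ r₁ r₂ r₃ a1 a2 a3 a4 a5 a6).trans
          (mul_le_mul_of_nonneg_right (ab 1296 _ hC1 e1)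
            (mul_nonneg (mul_nonneg (rp _ _ a1) (rp _ _ a3)) (rp _ _ a5)))
      covX := fun t r' a1 a2 => rc3_cov_mono (rc3_covX T h0 h1 hN hx t r' a1 a2)
        (mul_le_mul_of_nonneg_right (ab1 _ (by linarith)) (rp _ _ a1))
      covU := fun t r' a1 a2 => rc3_cov2_mono (rc3_covU T h0 h1 hN hq t r' a1 a2)
        (mul_le_mul_of_nonneg_right (ab1 _ (by linarith)) (rp _ _ a1))
      covZ := fun t r' a1 a2 => rc3_cov_mono (rc3_covZ T h0 h1 hN hz t r' a1 a2)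
        (mul_le_mul_of_nonneg_right (ab1 _ (by linarith)) (rp _ _ a1))
      her := rc3_her_mono rc3_blk_lam_nonneg (rc3_her T h0 h1 hN hs hκ hδ hδ1) (ab _ _ hC2 e3) }

/-- the choice of the parameters -/
theorem rc3_params (σ η ρ₁ : ℝ) (hσ : 0 < σ) (hη : 0 < η) (hρ₁ : 0 < ρ₁) :
    ∃ (N : ℕ) (κ ν ρ₂ : ℝ), 0 < N ∧ 0 < κ ∧ 0 < ν ∧ 0 < ρ₂ ∧ ρ₂ ≤ ρ₁ ∧
      ν + κ + 4 / (N : ℝ) ≤ η / 2 ∧ κ + σ / (N : ℝ) ≤ η / 2 ∧
      ∀ ρ : ℝ, 0 < ρ → ρ < ρ₂ →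
        max 1296 (4 * ((N : ℝ) + 1)) ≤ ρ ^ (-(η / 2)) ∧
        (((N : ℝ) + 1) ^ 3 + ((N : ℝ) + 1) ^ 2 + 2 * ((N : ℝ) + 1)) * κ
          + (κ * lg ρ + Real.exp (-1)) / (ν * lg ρ) + ρ ^ ν ≤ 1 / 8 := by
  obtain ⟨N, hNdef⟩ : ∃ N : ℕ, N = ⌈(32 + 8 * σ) / η⌉₊ + 1 := ⟨_, rfl⟩
  have hNpos : 0 < N := by omega
  have hN' : (0 : ℝ) < N := by exact_mod_cast hNpos
  have hNge : (32 + 8 * σ) / η ≤ (N : ℝ) := by
    rw [hNdef]
    push_cast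
    have := Nat.le_ceil ((32 + 8 * σ) / η)
    linarith
  have hNη : 32 + 8 * σ ≤ (N : ℝ) * η := by rwa [div_le_iff₀ hη] at hNge
  have h4N : 4 / (N : ℝ) ≤ η / 8 := by
    rw [div_le_iff₀ hN']
    nlinarith
  have hσN : σ / (N : ℝ) ≤ η / 8 := by
    rw [div_le_iff₀ hN']
    nlinarith
  obtain ⟨cnt, hcnt⟩ : ∃ cnt : ℝ, cnt = ((N : ℝ) + 1) ^ 3 + ((N : ℝ) + 1) ^ 2 + 2 * ((N : ℝ) + 1) := ⟨_, rfl⟩
  have hcpos : 0 < cnt := by rw [hcnt]; positivity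
  obtain ⟨C₀, hC₀⟩ : ∃ C₀ : ℝ, C₀ = max 1296 (4 * ((N : ℝ) + 1)) := ⟨_, rfl⟩
  have hC1 : 1 ≤ C₀ := by rw [hC₀]; exact le_trans (by norm_num) (le_max_left _ _)
  have hCpos : 0 < C₀ := by linarith
  have hlogC : 0 ≤ Real.log C₀ := Real.log_nonneg hC1
  have hlog32 : 0 ≤ Real.log 32 := Real.log_nonneg (by norm_num)
  obtain ⟨ν, hν⟩ : ∃ ν : ℝ, ν = η / 8 := ⟨_, rfl⟩
  have hνpos : 0 < ν := by rw [hν]; positivity
  obtain ⟨κ, hκ⟩ : ∃ κ : ℝ, κ = min (η / 256) (1 / (32 * cnt)) := ⟨_, rfl⟩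
  have hκpos : 0 < κ := by rw [hκ]; exact lt_min (by positivity) (by positivity)
  have hκ1 : κ ≤ η / 256 := by rw [hκ]; exact min_le_left _ _
  have hκ2 : cnt * κ ≤ 1 / 32 := by
    have : κ ≤ 1 / (32 * cnt) := by rw [hκ]; exact min_le_right _ _
    calc cnt * κ ≤ cnt * (1 / (32 * cnt)) := mul_le_mul_of_nonneg_left this hcpos.le
      _ = 1 / 32 := by field_simp
  obtain ⟨L₀, hL₀⟩ : ∃ L₀ : ℝ, L₀ = 2 * Real.log C₀ / η + Real.log 32 / ν + 32 / ν := ⟨_, rfl⟩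
  have t1 : 0 ≤ 2 * Real.log C₀ / η := by positivity
  have t2 : 0 ≤ Real.log 32 / ν := by positivity
  have t3 : 0 < 32 / ν := by positivity
  refine ⟨N, κ, ν, min ρ₁ (Real.exp (-L₀)), hNpos, hκpos, hνpos, lt_min hρ₁ (Real.exp_pos _), min_le_left _ _,
    by rw [hν]; linarith, by linarith, ?_⟩
  intro ρ h0 hρ
  have hρ2 : ρ < Real.exp (-L₀) := lt_of_lt_of_le hρ (min_le_right _ _)
  have hL : L₀ < lg ρ := by
    unfold lg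
    rw [one_div, Real.log_inv]
    have := (Real.log_lt_iff_lt_exp h0).2 hρ2
    linarith
  have hLpos : 0 < lg ρ := by linarith
  have hνL : 32 ≤ ν * lg ρ := by
    have : 32 / ν ≤ lg ρ := by linarith
    rw [div_le_iff₀ hνpos] at this
    linarith
  have hνL2 : Real.log 32 ≤ ν * lg ρ := by
    have : Real.log 32 / ν ≤ lg ρ := by linarith
    rw [div_le_iff₀ hνpos] at this
    linarith
  have hηL : Real.log C₀ ≤ η / 2 * lg ρ := by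
    have : 2 * Real.log C₀ / η ≤ lg ρ := by linarith
    rw [div_le_iff₀ hη] at this
    linarith
  constructor
  · rw [← hC₀, rc3_rpow_exp ρ _ h0]
    calc C₀ = Real.exp (Real.log C₀) := (Real.exp_log hCpos).symm
      _ ≤ _ := Real.exp_le_exp.2 (by linarith)
  · rw [← hcnt]
    have a1 : (κ * lg ρ + Real.exp (-1)) / (ν * lg ρ) ≤ 1 / 32 + 1 / 32 := by
      rw [div_le_iff₀ (by positivity)]
      have e1 : Real.exp (-1) ≤ 1 := Real.exp_le_one_iff.2 (by norm_num)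
      have e2 : κ * lg ρ ≤ 1 / 32 * (ν * lg ρ) := by
        have : κ ≤ 1 / 32 * ν := by rw [hν]; linarith
        calc κ * lg ρ ≤ 1 / 32 * ν * lg ρ := mul_le_mul_of_nonneg_right this hLpos.le
          _ = _ := by ring
      linarith
    have a2 : ρ ^ ν ≤ 1 / 32 := by
      rw [rc3_rpow_exp ρ _ h0]
      calc Real.exp (-(ν * lg ρ)) ≤ Real.exp (-Real.log 32) := Real.exp_le_exp.2 (by linarith)
        _ = 1 / 32 := by rw [Real.exp_neg, Real.exp_log (by norm_num)]; norm_num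
    linarith

/-- **CORE3** -/
theorem rc3_core3 (x q z s σ A : ℝ) (hA : 1 ≤ A) (hs : 0 < s) (hs1 : s ≤ 1) (hσ : 0 < σ)
    (cap : 0 ≤ x ∧ x ≤ 1 ∧ 0 ≤ q ∧ q ≤ 2 ∧ 0 ≤ z ∧ z ≤ 1) (H : BlkSupply 1 x q 0 z s σ A) : RtHas3 x q z s σ := by
  obtain ⟨hx, hx1, hq, hq2, hz, hz1⟩ := cap
  refine ⟨A, hA, fun η ρ₁ hη hρ₁ => ?_⟩
  obtain ⟨N, κ, ν, ρ₂, hN, hκ, hν, hρ₂, h21, e1, e2, hsm⟩ := rc3_params σ η ρ₁ hσ hη hρ₁
  obtain ⟨B, hBρ, T⟩ := H κ hκ N hN ρ₂ hρ₂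
  obtain ⟨hC, hbad⟩ := hsm B.ρ T.ρpos hBρ
  obtain ⟨G, E, Tr⟩ := rc3_trim B N x q z s σ κ ν A hκ hν T hbad
  have hN' : (0 : ℝ) < N := by exact_mod_cast hN
  refine ⟨B.ρ, T.ρpos, hBρ.trans_le h21, rc3_blk B G E, ?_⟩
  refine rc3_is3 Tr A η (max 1296 (4 * ((N : ℝ) + 1))) T.ρpos T.ρlt hN hx hq hz hs.le hσ.le hκ.le hν.le
    (by positivity) ?_ T.bddP T.bddL hC (le_max_left _ _) ?_ ?_ e2 ?_
  · rw [div_le_one (by positivity)]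
    linarith
  · rw [one_div, inv_inv]
    exact le_max_right _ _
  · have : (x + q + z) / (N : ℝ) ≤ 4 / (N : ℝ) := div_le_div_of_nonneg_right (by linarith) hN'.le
    linarith
  · have : 2 * s / (N : ℝ) ≤ 4 / (N : ℝ) := div_le_div_of_nonneg_right (by linarith) hN'.le
    linarith

end Claimed.Agent.R255
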