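-- KEEP
import Claimed.Agent.R255.Ent.Basic

/-!
# Row 255 (BR paper), Sec. 7, unit U1a EXTRACT (architect helper34), file 1: FINITE PROBABILITY TOOLS      prefix `rx_`

PAPER-FREE.  Everything is stated on `R255/Base/Law.lean` + `R255/Ent/Basic.lean` (cite any statement of Basic, also a sorried one).
* §A  calculus of bounded ambiguity `P.NVal (fun _ => True) B A N` ("`B` takes at most `N` values over each value of `A`") and of `P.Amb A B N` (both directions);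
* §B  transfer of entropies and of SURPRISES between observations which determine one another up to bounded ambiguity (paper: "bounded ambiguity transfers the entropy identities"; for surprises: `ent_surC_swap` + `ent_surC_tail`);
* §C  dropping a conditioning variable in a lower bound of a surprise (`rx_surC_drop`: the passage from bins conditional on `T` to pair-measurable bins);
* §D  selection of one base cell by Markov (`rx_cell_select`);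
* §E  push-forward of the conditional law on a cell (`rx_push_*`), canonical representatives `rxRep`.
LEAVES: L-RX-FIN-A (§A), L-RX-FIN-B (§B, §C), L-RX-FIN-C (§D, §E).  Edit only bodies; helper lemmas directly above, prefix `rx_`.  Wrong statement => helper34 at once.
-/

set_option autoImplicit false

namespace Claimed.Agent.R255

open scoped BigOperators
open Classical
open FLaw

variable {Ω : Type} [Fintype Ω] {α β γ δ : Type}

/-- the two observations determine one another up to `N` values -/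
def FLaw.Amb (P : FLaw Ω) (A : Ω → α) (B : Ω → β) (N : ℝ) : Prop :=
  P.NVal (fun _ => True) B A N ∧ P.NVal (fun _ => True) A B N

/-! ## A. bounded ambiguity -/

theorem rx_nval_nonneg (P : FLaw Ω) {E : Ω → Prop} {B : Ω → β} {A : Ω → α} {N : ℝ} (h : P.NVal E B A N) : 0 ≤ N := by
  obtain ⟨ω, -⟩ := ent_exists_supp P
  obtain ⟨S, hS, -⟩ := h ω
  exact (Nat.cast_nonneg _).trans hS

theorem rx_nval_one_le (P : FLaw Ω) {B : Ω → β} {A : Ω → α} {N : ℝ} (h : P.NVal (fun _ => True) B A N) : 1 ≤ N := by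
  obtain ⟨ω, hω⟩ := ent_exists_supp P
  obtain ⟨S, hS, hm⟩ := h ω
  have h1 : 0 < S.card := Finset.card_pos.2 ⟨_, hm ω hω trivial rfl⟩
  have h2 : (1 : ℝ) ≤ S.card := by exact_mod_cast h1
  exact h2.trans hS

theorem rx_nval_mono (P : FLaw Ω) {E : Ω → Prop} {B : Ω → β} {A : Ω → α} {N N' : ℝ} (h : P.NVal E B A N)
    (hN : N ≤ N') : P.NVal E B A N' := by
  intro ω₀
  obtain ⟨S, hS, hm⟩ := h ω₀
  exact ⟨S, hS.trans hN, hm⟩

/-- `B` is a.e. a function of `A` -/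
theorem rx_nval_fun (P : FLaw Ω) (B : Ω → β) (A : Ω → α)
    (h : ∀ ω ω', P.p ω ≠ 0 → P.p ω' ≠ 0 → A ω = A ω' → B ω = B ω') : P.NVal (fun _ => True) B A 1 := by
  intro ω₀
  by_cases hex : ∃ ω₁, P.p ω₁ ≠ 0 ∧ A ω₁ = A ω₀
  · obtain ⟨ω₁, h1, h2⟩ := hex
    exact ⟨{B ω₁}, by simp, fun ω hω _ hA => Finset.mem_singleton.2 (h ω ω₁ hω h1 (hA.trans h2.symm))⟩
  · exact ⟨∅, by simp, fun ω hω _ hA => absurd ⟨ω, hω, hA⟩ hex⟩

/-- integer observations which are `M`-close over each value of `A` -/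
theorem rx_nval_int (P : FLaw Ω) (B : Ω → ℤ) (A : Ω → α) (M : ℕ)
    (h : ∀ ω ω', P.p ω ≠ 0 → P.p ω' ≠ 0 → A ω = A ω' → |B ω - B ω'| ≤ (M : ℤ)) :
    P.NVal (fun _ => True) B A (2 * M + 1) := by
  intro ω₀
  by_cases hex : ∃ ω₁, P.p ω₁ ≠ 0 ∧ A ω₁ = A ω₀
  · obtain ⟨ω₁, h1, h2⟩ := hex
    refine ⟨Finset.Icc (B ω₁ - M) (B ω₁ + M), ?_, fun ω hω _ hA => ?_⟩
    · rw [Int.card_Icc]
      have : (B ω₁ + M + 1 - (B ω₁ - M)).toNat = 2 * M + 1 := by omega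
      rw [this]
      push_cast
      exact le_rfl
    · have := abs_le.1 (h ω ω₁ hω h1 (hA.trans h2.symm))
      rw [Finset.mem_Icc]
      constructor <;> linarith [this.1, this.2]
  · refine ⟨∅, ?_, fun ω hω _ hA => absurd ⟨ω, hω, hA⟩ hex⟩
    simp only [Finset.card_empty, Nat.cast_zero]
    positivity

theorem rx_nval_pair (P : FLaw Ω) (B₁ : Ω → β) (B₂ : Ω → γ) (A : Ω → α) {N₁ N₂ : ℝ}
    (h₁ : P.NVal (fun _ => True) B₁ A N₁) (h₂ : P.NVal (fun _ => True) B₂ A N₂) :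
    P.NVal (fun _ => True) (pair B₁ B₂) A (N₁ * N₂) := by
  intro ω₀
  obtain ⟨S₁, hS₁, hm₁⟩ := h₁ ω₀
  obtain ⟨S₂, hS₂, hm₂⟩ := h₂ ω₀
  refine ⟨S₁ ×ˢ S₂, ?_, fun ω hω _ hA => Finset.mem_product.2 ⟨hm₁ ω hω trivial hA, hm₂ ω hω trivial hA⟩⟩
  rw [Finset.card_product, Nat.cast_mul]
  exact mul_le_mul hS₁ hS₂ (Nat.cast_nonneg _) (rx_nval_nonneg P h₁)

/-- a finer conditioning -/
theorem rx_nval_anti (P : FLaw Ω) (B : Ω → β) (A : Ω → α) (A' : Ω → γ) {N : ℝ} (h : P.NVal (fun _ => True) B A N)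
    (hA : ∀ ω ω', P.p ω ≠ 0 → P.p ω' ≠ 0 → A' ω = A' ω' → A ω = A ω') : P.NVal (fun _ => True) B A' N := by
  intro ω₀
  by_cases hex : ∃ ω₁, P.p ω₁ ≠ 0 ∧ A' ω₁ = A' ω₀
  · obtain ⟨ω₁, h1, h2⟩ := hex
    obtain ⟨S, hS, hm⟩ := h ω₁
    exact ⟨S, hS, fun ω hω _ hA' => hm ω hω trivial (hA ω ω₁ hω h1 (hA'.trans h2.symm))⟩
  · exact ⟨∅, by simpa using rx_nval_nonneg P h, fun ω hω _ hA' => absurd ⟨ω, hω, hA'⟩ hex⟩

/-- `B'` is a.e. a function of `(B, A)` -/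
theorem rx_nval_comp (P : FLaw Ω) (B : Ω → β) (B' : Ω → δ) (A : Ω → α) {N : ℝ} (h : P.NVal (fun _ => True) B A N)
    (hB : ∀ ω ω', P.p ω ≠ 0 → P.p ω' ≠ 0 → A ω = A ω' → B ω = B ω' → B' ω = B' ω') :
    P.NVal (fun _ => True) B' A N := by
  intro ω₀
  obtain ⟨S, hS, hm⟩ := h ω₀
  set F : Finset Ω := Finset.univ.filter fun ω => P.p ω ≠ 0 ∧ A ω = A ω₀ with hF
  refine ⟨F.image B', le_trans ?_ hS, fun ω hω _ hA => Finset.mem_image_of_mem _ (by simp [hF, hω, hA])⟩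
  have hch : ∀ b ∈ F.image B', ∃ ω, (P.p ω ≠ 0 ∧ A ω = A ω₀) ∧ B' ω = b := by
    intro b hb
    obtain ⟨ω, hω, rfl⟩ := Finset.mem_image.1 hb
    exact ⟨ω, by simpa [hF] using hω, rfl⟩
  have hle : (F.image B').card ≤ S.card := by
    refine Finset.card_le_card_of_injOn
      (fun b => if hb : ∃ ω, (P.p ω ≠ 0 ∧ A ω = A ω₀) ∧ B' ω = b then B hb.choose else B ω₀) ?_ ?_
    · intro b hb
      have hb' := hch b hb
      simp only [dif_pos hb']
      exact hm _ hb'.choose_spec.1.1 trivial hb'.choose_spec.1.2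
    · intro b hb c hc hbc
      have hb' := hch b hb
      have hc' := hch c hc
      simp only [dif_pos hb', dif_pos hc'] at hbc
      rw [← hb'.choose_spec.2, ← hc'.choose_spec.2]
      exact hB _ _ hb'.choose_spec.1.1 hc'.choose_spec.1.1
        (hb'.choose_spec.1.2.trans hc'.choose_spec.1.2.symm) hbc
  exact_mod_cast hle

/-- closeness of tuples of integers -/
def rxCl2 (M : ℕ) (a b : ℤ × ℤ) : Prop := |a.1 - b.1| ≤ (M : ℤ) ∧ |a.2 - b.2| ≤ (M : ℤ)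

def rxCl4 (M : ℕ) (a b : ℤ × ℤ × ℤ × ℤ) : Prop :=
  |a.1 - b.1| ≤ (M : ℤ) ∧ |a.2.1 - b.2.1| ≤ (M : ℤ) ∧ |a.2.2.1 - b.2.2.1| ≤ (M : ℤ) ∧ |a.2.2.2 - b.2.2.2| ≤ (M : ℤ)

def rxCl6 (M : ℕ) (a b : ℤ × ℤ × ℤ × ℤ × ℤ × ℤ) : Prop :=
  |a.1 - b.1| ≤ (M : ℤ) ∧ |a.2.1 - b.2.1| ≤ (M : ℤ) ∧ |a.2.2.1 - b.2.2.1| ≤ (M : ℤ) ∧
    |a.2.2.2.1 - b.2.2.2.1| ≤ (M : ℤ) ∧ |a.2.2.2.2.1 - b.2.2.2.2.1| ≤ (M : ℤ) ∧ |a.2.2.2.2.2 - b.2.2.2.2.2| ≤ (M : ℤ)

theorem rx_nval_cl2 (P : FLaw Ω) (B : Ω → ℤ × ℤ) (A : Ω → α) (M : ℕ)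
    (h : ∀ ω ω', P.p ω ≠ 0 → P.p ω' ≠ 0 → A ω = A ω' → rxCl2 M (B ω) (B ω')) :
    P.NVal (fun _ => True) B A ((2 * M + 1) ^ 2) := by
  have h1 := rx_nval_int P (fun ω => (B ω).1) A M fun ω ω' a b c => (h ω ω' a b c).1
  have h2 := rx_nval_int P (fun ω => (B ω).2) A M fun ω ω' a b c => (h ω ω' a b c).2
  have := rx_nval_pair P _ _ A h1 h2
  rw [sq]
  exact this

theorem rx_nval_cl4 (P : FLaw Ω) (B : Ω → ℤ × ℤ × ℤ × ℤ) (A : Ω → α) (M : ℕ)
    (h : ∀ ω ω', P.p ω ≠ 0 → P.p ω' ≠ 0 → A ω = A ω' → rxCl4 M (B ω) (B ω')) :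
    P.NVal (fun _ => True) B A ((2 * M + 1) ^ 4) := by
  have h1 := rx_nval_int P (fun ω => (B ω).1) A M fun ω ω' a b c => (h ω ω' a b c).1
  have h2 := rx_nval_int P (fun ω => (B ω).2.1) A M fun ω ω' a b c => (h ω ω' a b c).2.1
  have h3 := rx_nval_int P (fun ω => (B ω).2.2.1) A M fun ω ω' a b c => (h ω ω' a b c).2.2.1
  have h4 := rx_nval_int P (fun ω => (B ω).2.2.2) A M fun ω ω' a b c => (h ω ω' a b c).2.2.2
  have := rx_nval_pair P _ _ A h1 (rx_nval_pair P _ _ A h2 (rx_nval_pair P _ _ A h3 h4))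
  have e : ((2 * M + 1 : ℝ)) ^ 4 = (2 * M + 1) * ((2 * M + 1) * ((2 * M + 1) * (2 * M + 1))) := by ring
  rw [e]
  exact this

theorem rx_nval_cl6 (P : FLaw Ω) (B : Ω → ℤ × ℤ × ℤ × ℤ × ℤ × ℤ) (A : Ω → α) (M : ℕ)
    (h : ∀ ω ω', P.p ω ≠ 0 → P.p ω' ≠ 0 → A ω = A ω' → rxCl6 M (B ω) (B ω')) :
    P.NVal (fun _ => True) B A ((2 * M + 1) ^ 6) := by
  have h1 := rx_nval_int P (fun ω => (B ω).1) A M fun ω ω' a b c => (h ω ω' a b c).1
  have h2 := rx_nval_int P (fun ω => (B ω).2.1) A M fun ω ω' a b c => (h ω ω' a b c).2.1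
  have h3 := rx_nval_int P (fun ω => (B ω).2.2.1) A M fun ω ω' a b c => (h ω ω' a b c).2.2.1
  have h4 := rx_nval_int P (fun ω => (B ω).2.2.2.1) A M fun ω ω' a b c => (h ω ω' a b c).2.2.2.1
  have h5 := rx_nval_int P (fun ω => (B ω).2.2.2.2.1) A M fun ω ω' a b c => (h ω ω' a b c).2.2.2.2.1
  have h6 := rx_nval_int P (fun ω => (B ω).2.2.2.2.2) A M fun ω ω' a b c => (h ω ω' a b c).2.2.2.2.2
  have := rx_nval_pair P _ _ A h1 (rx_nval_pair P _ _ A h2 (rx_nval_pair P _ _ A h3 (rx_nval_pair P _ _ A h4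
    (rx_nval_pair P _ _ A h5 h6))))
  have e : ((2 * M + 1 : ℝ)) ^ 6 = (2 * M + 1) * ((2 * M + 1) * ((2 * M + 1) * ((2 * M + 1) *
      ((2 * M + 1) * (2 * M + 1))))) := by ring
  rw [e]
  exact this

theorem rx_amb_symm (P : FLaw Ω) {A : Ω → α} {B : Ω → β} {N : ℝ} (h : P.Amb A B N) : P.Amb B A N := ⟨h.2, h.1⟩

theorem rx_amb_mono (P : FLaw Ω) {A : Ω → α} {B : Ω → β} {N N' : ℝ} (h : P.Amb A B N) (hN : N ≤ N') : P.Amb A B N' :=
  ⟨rx_nval_mono P h.1 hN, rx_nval_mono P h.2 hN⟩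

theorem rx_amb_refl (P : FLaw Ω) (A : Ω → α) : P.Amb A A 1 :=
  ⟨rx_nval_fun P A A fun _ _ _ _ h => h, rx_nval_fun P A A fun _ _ _ _ h => h⟩

/-! ## B. transfer of entropies and surprises -/

theorem rx_ent_le_of_nval (P : FLaw Ω) (A : Ω → α) (B : Ω → β) {N : ℝ} (h : P.NVal (fun _ => True) B A N) :
    P.ent B ≤ P.ent A + Real.log N := by
  have h1 := ent_le_pair_left P B A
  have h2 := ent_pair_eq P B A
  have h3 := ent_entC_le_log_nval P B A h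
  linarith

/-- adjoining an observation of bounded ambiguity -/
theorem rx_ent_pair_le_of_nval (P : FLaw Ω) (A : Ω → α) (B : Ω → β) {N : ℝ} (h : P.NVal (fun _ => True) B A N) :
    P.ent (pair B A) ≤ P.ent A + Real.log N := by
  have h2 := ent_pair_eq P B A
  have h3 := ent_entC_le_log_nval P B A h
  linarith

theorem rx_ent_amb (P : FLaw Ω) (A : Ω → α) (B : Ω → β) {N : ℝ} (h : P.Amb A B N) :
    |P.ent A - P.ent B| ≤ Real.log N := by
  have h1 := rx_ent_le_of_nval P A B h.1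
  have h2 := rx_ent_le_of_nval P B A h.2
  rw [abs_le]
  constructor <;> linarith

/-- `H(A|C) ≥ H(B|C) - H(B|A,C)` with bounded ambiguity of `B` over `(A, C)` -/
theorem rx_entC_ge_of_nval (P : FLaw Ω) (A : Ω → α) (B : Ω → β) (C : Ω → γ) {N : ℝ}
    (h : P.NVal (fun _ => True) B (pair A C) N) : P.entC B C - Real.log N ≤ P.entC A C := by
  have h1 : P.entC B C ≤ P.entC (pair A B) C :=
    ent_entC_mono P (pair A B) B C fun ω ω' _ _ hx _ => congrArg Prod.snd hx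
  have h2 := ent_entC_chain P A B C
  have h3 := ent_entC_le_log_nval P B (pair A C) h
  linarith

/-- unconditional surprises of equivalent observations.  `-log fib A + log fib B = surC A B - surC B A` a.e. (`ent_surC_eq_sub`, `ent_fib_pair`), both terms are `≥ 0`, tails by `ent_surC_tail`. -/
theorem rx_sur_amb (P : FLaw Ω) (A : Ω → α) (B : Ω → β) {N : ℝ} (h : P.Amb A B N) (τ : ℝ) :
    P.pr (fun ω => Real.log N + τ < |Real.log (P.fib A ω) - Real.log (P.fib B ω)|) ≤ 2 * Real.exp (-τ) := by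
  have hN : 0 < N := lt_of_lt_of_le one_pos (rx_nval_one_le P h.1)
  have t1 := ent_surC_tail P B A hN h.1 τ
  have t2 := ent_surC_tail P A B hN h.2 τ
  have key : P.pr (fun ω => Real.log N + τ < |Real.log (P.fib A ω) - Real.log (P.fib B ω)|) ≤
      P.pr (fun ω => Real.log N + τ < P.surC B A ω ∨ Real.log N + τ < P.surC A B ω) := by
    refine ent_pr_mono P fun ω hω hlt => ?_
    have e1 := ent_surC_eq_sub P B A hω
    have e2 := ent_surC_eq_sub P A B hω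
    have e3 : P.fib (pair B A) ω = P.fib (pair A B) ω := by
      rw [ent_fib_pair, ent_fib_pair]
      exact ent_pr_congr P fun _ _ => and_comm
    rw [e3] at e1
    have n1 := ent_surC_nonneg P B A hω
    have n2 := ent_surC_nonneg P A B hω
    have e4 : Real.log (P.fib A ω) - Real.log (P.fib B ω) = P.surC B A ω - P.surC A B ω := by linarith
    rw [e4] at hlt
    rcases abs_cases (P.surC B A ω - P.surC A B ω) with ⟨h1, -⟩ | ⟨h1, -⟩
    · left; linarith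
    · right; linarith
  have := ent_pr_or_le P (fun ω => Real.log N + τ < P.surC B A ω) (fun ω => Real.log N + τ < P.surC A B ω)
  linarith

/-- conditional surprises: `surC X Y = log fib Y - log fib (X,Y)`, twice `rx_sur_amb`, union bound. -/
theorem rx_surC_amb (P : FLaw Ω) (X : Ω → α) (Y : Ω → β) (X' : Ω → γ) (Y' : Ω → δ) {N : ℝ}
    (h₁ : P.Amb (pair X Y) (pair X' Y') N) (h₂ : P.Amb Y Y' N) (τ : ℝ) :
    P.pr (fun ω => 2 * (Real.log N + τ) < |P.surC X Y ω - P.surC X' Y' ω|) ≤ 4 * Real.exp (-τ) := by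
  have t1 := rx_sur_amb P _ _ h₁ τ
  have t2 := rx_sur_amb P _ _ h₂ τ
  have key : P.pr (fun ω => 2 * (Real.log N + τ) < |P.surC X Y ω - P.surC X' Y' ω|) ≤
      P.pr (fun ω => Real.log N + τ < |Real.log (P.fib (pair X Y) ω) - Real.log (P.fib (pair X' Y') ω)| ∨
        Real.log N + τ < |Real.log (P.fib Y ω) - Real.log (P.fib Y' ω)|) := by
    refine ent_pr_mono P fun ω hω hlt => ?_
    rw [ent_surC_eq_sub P X Y hω, ent_surC_eq_sub P X' Y' hω] at hlt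
    by_contra hcon
    push Not at hcon
    obtain ⟨c1, c2⟩ := hcon
    have e : Real.log (P.fib Y ω) - Real.log (P.fib (pair X Y) ω) -
        (Real.log (P.fib Y' ω) - Real.log (P.fib (pair X' Y') ω)) =
        (Real.log (P.fib Y ω) - Real.log (P.fib Y' ω)) -
          (Real.log (P.fib (pair X Y) ω) - Real.log (P.fib (pair X' Y') ω)) := by ring
    rw [e] at hlt
    have := abs_sub (Real.log (P.fib Y ω) - Real.log (P.fib Y' ω))
      (Real.log (P.fib (pair X Y) ω) - Real.log (P.fib (pair X' Y') ω))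
    linarith
  have := ent_pr_or_le P
    (fun ω => Real.log N + τ < |Real.log (P.fib (pair X Y) ω) - Real.log (P.fib (pair X' Y') ω)|)
    (fun ω => Real.log N + τ < |Real.log (P.fib Y ω) - Real.log (P.fib Y' ω)|)
  linarith

/-! ## C. dropping a conditioning variable -/

/-- If `P(B | A, T) ≤ e^(-a)` outside mass `η` then `P(B | A) ≤ e^(-(a-t))` outside mass `η / (1 - e^(-t))`.
PROOF.  `C := pair B A`, `Bad := {surC B (A,T) < a}`, `U := {surC B A < a - t}`.  For `ω₀ ∈ U` in the support: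
`pr (¬Bad ∧ C = C ω₀) = ∑_τ pr (¬Bad ∧ C = C ω₀ ∧ T = τ) ≤ ∑_τ e^(-a) pr (A = A ω₀ ∧ T = τ) = e^(-a) fib A ω₀ < e^(-t) fib C ω₀`
(`ent_pr_sum_values` with `X := T`, `S := univ.image T`; each summand is `0` or the fibre of `(B,(A,T))` through a good point, `ent_exp_neg_surC`).
Hence `(cfib C ω₀).pr Bad ≥ 1 - e^(-t)` on `U`; conclude by `ent_pr_tower P C Bad` and `ent_ev_mono`. -/
theorem rx_surC_drop (P : FLaw Ω) (B : Ω → β) (A : Ω → α) (T : Ω → γ) {a t η : ℝ} (ht : 0 < t)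
    (h : P.pr (fun ω => P.surC B (pair A T) ω < a) ≤ η) :
    P.pr (fun ω => P.surC B A ω < a - t) ≤ η / (1 - Real.exp (-t)) := by
  have hc : 0 < 1 - Real.exp (-t) := by
    have : Real.exp (-t) < 1 := Real.exp_lt_one_iff.2 (by linarith)
    linarith
  rw [le_div_iff₀ hc]
  have key : ∀ ω₀, P.p ω₀ ≠ 0 → P.surC B A ω₀ < a - t →
      1 - Real.exp (-t) ≤ (P.cfib (pair B A) ω₀).pr (fun ω => P.surC B (pair A T) ω < a) := by
    intro ω₀ hp hU
    have hfC : 0 < P.fib (pair B A) ω₀ := ent_fib_pos P _ hp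
    have hfA : 0 < P.fib A ω₀ := ent_fib_pos P _ hp
    rw [ent_cfib_pr P _ hfC, le_div_iff₀ hfC]
    -- the good part of the cell
    have s1 := ent_pr_sum_values P (fun ω => pair B A ω = pair B A ω₀ ∧ ¬ P.surC B (pair A T) ω < a) T
      (Finset.univ.image T) fun ω _ _ => Finset.mem_image_of_mem _ (Finset.mem_univ ω)
    have s2 := ent_pr_sum_values P (fun ω => A ω = A ω₀) T
      (Finset.univ.image T) fun ω _ _ => Finset.mem_image_of_mem _ (Finset.mem_univ ω)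
    have s3 : ∀ τ ∈ Finset.univ.image T,
        P.pr (fun ω => (pair B A ω = pair B A ω₀ ∧ ¬ P.surC B (pair A T) ω < a) ∧ T ω = τ) ≤
          Real.exp (-a) * P.pr (fun ω => A ω = A ω₀ ∧ T ω = τ) := by
      intro τ _
      by_cases hex : ∃ ω₁, P.p ω₁ ≠ 0 ∧ (pair B A ω₁ = pair B A ω₀ ∧ ¬ P.surC B (pair A T) ω₁ < a) ∧ T ω₁ = τ
      · obtain ⟨ω₁, h1, ⟨h2, h3⟩, h4⟩ := hex
        have hB1 : B ω₁ = B ω₀ := congrArg Prod.fst h2
        have hA1 : A ω₁ = A ω₀ := congrArg Prod.snd h2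
        have e1 := ent_exp_neg_surC P B (pair A T) h1
        have hfAT : 0 < P.fib (pair A T) ω₁ := ent_fib_pos P _ h1
        rw [eq_div_iff hfAT.ne'] at e1
        have e2 : P.fib (pair A T) ω₁ = P.pr (fun ω => A ω = A ω₀ ∧ T ω = τ) := by
          rw [ent_fib_pair, hA1, h4]
        have e3 : P.pr (fun ω => (pair B A ω = pair B A ω₀ ∧ ¬ P.surC B (pair A T) ω < a) ∧ T ω = τ) ≤
            P.fib (pair B (pair A T)) ω₁ := by
          refine ent_pr_mono P fun ω _ hω => ?_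
          obtain ⟨⟨g1, -⟩, g2⟩ := hω
          have gB : B ω = B ω₀ := congrArg Prod.fst g1
          have gA : A ω = A ω₀ := congrArg Prod.snd g1
          show (B ω, (A ω, T ω)) = (B ω₁, (A ω₁, T ω₁))
          rw [gB, gA, g2, hB1, hA1, h4]
        have e4 : Real.exp (- P.surC B (pair A T) ω₁) ≤ Real.exp (-a) := Real.exp_le_exp.2 (by linarith [not_lt.1 h3])
        calc _ ≤ P.fib (pair B (pair A T)) ω₁ := e3
          _ = Real.exp (- P.surC B (pair A T) ω₁) * P.fib (pair A T) ω₁ := e1.symm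
          _ ≤ Real.exp (-a) * P.fib (pair A T) ω₁ := mul_le_mul_of_nonneg_right e4 hfAT.le
          _ = _ := by rw [e2]
      · rw [ent_pr_eq_zero P fun ω hω hE => hex ⟨ω, hω, hE⟩]
        exact mul_nonneg (Real.exp_pos _).le (ent_pr_nonneg P _)
    have s4 : P.pr (fun ω => pair B A ω = pair B A ω₀ ∧ ¬ P.surC B (pair A T) ω < a) ≤
        Real.exp (-a) * P.fib A ω₀ := by
      rw [s1]
      refine (Finset.sum_le_sum s3).trans ?_
      rw [← Finset.mul_sum, ← s2]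
      exact le_rfl
    -- the point lies in `U`
    have u1 := ent_exp_neg_surC P B A hp
    rw [eq_div_iff hfA.ne'] at u1
    have u2 : Real.exp (-(a - t)) ≤ Real.exp (- P.surC B A ω₀) := Real.exp_le_exp.2 (by linarith)
    have u3 : Real.exp (-a) * P.fib A ω₀ ≤ Real.exp (-t) * P.fib (pair B A) ω₀ := by
      rw [← u1, ← mul_assoc]
      refine mul_le_mul_of_nonneg_right ?_ hfA.le
      calc Real.exp (-a) = Real.exp (-t) * Real.exp (-(a - t)) := by rw [← Real.exp_add]; congr 1; ring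
        _ ≤ _ := mul_le_mul_of_nonneg_left u2 (Real.exp_pos _).le
    have sp := ent_pr_split P (fun ω => pair B A ω = pair B A ω₀) (fun ω => P.surC B (pair A T) ω < a)
    have sp' : P.fib (pair B A) ω₀ = P.pr (fun ω => pair B A ω = pair B A ω₀) := rfl
    have cm : P.pr (fun ω => P.surC B (pair A T) ω < a ∧ pair B A ω = pair B A ω₀) =
        P.pr (fun ω => pair B A ω = pair B A ω₀ ∧ P.surC B (pair A T) ω < a) :=
      ent_pr_congr P fun _ _ => and_comm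
    rw [cm]
    nlinarith
  calc P.pr (fun ω => P.surC B A ω < a - t) * (1 - Real.exp (-t))
      = P.ev (fun ω => (1 - Real.exp (-t)) * (if P.surC B A ω < a - t then 1 else 0)) := by
        rw [ent_ev_mul_left, ← ent_pr_eq_ev, mul_comm]
    _ ≤ P.ev (fun ω => (P.cfib (pair B A) ω).pr (fun ω => P.surC B (pair A T) ω < a)) := by
        refine ent_ev_mono P fun ω hω => ?_
        by_cases hU : P.surC B A ω < a - t
        · rw [if_pos hU, mul_one]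
          exact key ω hω hU
        · rw [if_neg hU, mul_zero]
          exact ent_pr_nonneg _ _
    _ = P.pr (fun ω => P.surC B (pair A T) ω < a) := (ent_pr_tower P _ _).symm
    _ ≤ η := h

/-! ## D. selection of a cell -/

theorem rx_exists_le_ev (P : FLaw Ω) (g : Ω → ℝ) : ∃ ω, P.p ω ≠ 0 ∧ g ω ≤ P.ev g := by
  by_contra hcon
  push Not at hcon
  obtain ⟨ω₁, h₁⟩ := ent_exists_supp P
  have h1 : 0 < P.ev (fun ω => g ω - P.ev g) := by
    refine Finset.sum_pos' (fun ω _ => ?_) ⟨ω₁, Finset.mem_univ _, ?_⟩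
    · by_cases hp : P.p ω = 0
      · rw [hp, zero_mul]
      · exact mul_nonneg (P.nonneg ω) (sub_nonneg.2 (hcon ω hp).le)
    · exact mul_pos (lt_of_le_of_ne (P.nonneg ω₁) (Ne.symm h₁)) (sub_pos.2 (hcon ω₁ h₁))
  rw [ent_ev_sub, ent_ev_const, sub_self] at h1
  exact lt_irrefl _ h1

/-- finitely many bad events of mass `≤ δ` and one nonnegative functional of mean `≤ D`: one cell is good for all of them, with the loss `card + 1`.
PROOF.  `g ω := ∑ k ∈ s, (P.cfib C ω).pr (Bad k) / δ + G ω / D` has mean `≤ card + 1` (`ent_pr_tower`); `rx_exists_le_ev`; all terms are `≥ 0`. -/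
theorem rx_cell_select (P : FLaw Ω) (C : Ω → γ) {ι : Type} (s : Finset ι) (Bad : ι → Ω → Prop) {δ' D : ℝ} (hδ : 0 < δ')
    (hD : 0 < D) (hBad : ∀ k ∈ s, P.pr (Bad k) ≤ δ') (G : Ω → ℝ) (hG : ∀ ω, 0 ≤ G ω) (hGD : P.ev G ≤ D) :
    ∃ ω₀, P.p ω₀ ≠ 0 ∧ (∀ k ∈ s, (P.cfib C ω₀).pr (Bad k) ≤ (s.card + 1) * δ') ∧ G ω₀ ≤ (s.card + 1) * D := by
  obtain ⟨ω₀, h₀, hle⟩ := rx_exists_le_ev P
    (fun ω => ∑ k ∈ s, δ'⁻¹ * (P.cfib C ω).pr (Bad k) + D⁻¹ * G ω)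
  have hev : P.ev (fun ω => ∑ k ∈ s, δ'⁻¹ * (P.cfib C ω).pr (Bad k) + D⁻¹ * G ω) ≤ s.card + 1 := by
    rw [ent_ev_add, ent_ev_sum, ent_ev_mul_left]
    refine add_le_add ?_ ?_
    · have : ∀ k ∈ s, P.ev (fun ω => δ'⁻¹ * (P.cfib C ω).pr (Bad k)) ≤ 1 := by
        intro k hk
        rw [ent_ev_mul_left, ← ent_pr_tower, inv_mul_le_iff₀ hδ, mul_one]
        exact hBad k hk
      calc ∑ k ∈ s, P.ev (fun ω => δ'⁻¹ * (P.cfib C ω).pr (Bad k)) ≤ ∑ _k ∈ s, (1 : ℝ) :=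
            Finset.sum_le_sum this
        _ = s.card := by simp
    · rw [inv_mul_le_iff₀ hD, mul_one]
      exact hGD
  have hle' := hle.trans hev
  have hterm : ∀ k ∈ s, 0 ≤ δ'⁻¹ * (P.cfib C ω₀).pr (Bad k) := fun k _ =>
    mul_nonneg (inv_nonneg.2 hδ.le) (ent_pr_nonneg _ _)
  have hGt : 0 ≤ D⁻¹ * G ω₀ := mul_nonneg (inv_nonneg.2 hD.le) (hG ω₀)
  have hsum : 0 ≤ ∑ k ∈ s, δ'⁻¹ * (P.cfib C ω₀).pr (Bad k) := Finset.sum_nonneg hterm
  refine ⟨ω₀, h₀, fun k hk => ?_, ?_⟩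
  · have h1 : δ'⁻¹ * (P.cfib C ω₀).pr (Bad k) ≤ s.card + 1 :=
      (Finset.single_le_sum hterm hk).trans (by linarith)
    rwa [inv_mul_le_iff₀ hδ, mul_comm] at h1
  · have h1 : D⁻¹ * G ω₀ ≤ s.card + 1 := by linarith
    rwa [inv_mul_le_iff₀ hD, mul_comm] at h1

/-! ## E. the conditional law on a cell and its push-forward -/

/-- a canonical representative of the fibre of `X` through `ω` -/
noncomputable def rxRep (X : Ω → α) (ω : Ω) : Ω := @Classical.epsilon Ω ⟨ω⟩ (fun ω' => X ω' = X ω)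

theorem rx_rep_spec (X : Ω → α) (ω : Ω) : X (rxRep X ω) = X ω := by
  exact Classical.epsilon_spec (p := fun ω' => X ω' = X ω) ⟨ω, rfl⟩

theorem rx_rep_congr (X : Ω → α) {ω ω' : Ω} (h : X ω = X ω') : rxRep X ω = rxRep X ω' := by
  unfold rxRep
  rw [h]

theorem rx_rep_eq_iff (X : Ω → α) (ω ω' : Ω) : rxRep X ω = rxRep X ω' ↔ X ω = X ω' := by
  exact ⟨fun h => by rw [← rx_rep_spec X ω, h, rx_rep_spec X ω'], rx_rep_congr X⟩

theorem rx_cfib_supp (P : FLaw Ω) (C : Ω → γ) {ω₀ ω : Ω} (h₀ : P.p ω₀ ≠ 0) :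
    (P.cfib C ω₀).p ω ≠ 0 ↔ C ω = C ω₀ ∧ P.p ω ≠ 0 := by
  exact ent_cnd_supp P (fun ω => C ω = C ω₀) (ent_fib_pos P C h₀)

/-- conditional surprise inside a cell -/
theorem rx_cfib_surC (P : FLaw Ω) (C : Ω → γ) (X : Ω → α) (Y : Ω → β) {ω₀ ω : Ω} (h₀ : P.p ω₀ ≠ 0) (hω : C ω = C ω₀)
    (h : P.p ω ≠ 0) : (P.cfib C ω₀).surC X Y ω = P.surC X (pair Y C) ω := by
  rw [← ent_surC_cfib P (pair Y C) X C (fun ω₁ ω₂ h12 => (Prod.ext_iff.1 h12).2) hω h]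
  refine ent_surC_congr _ X X Y (pair Y C) ω (fun ω' hω' => ?_) fun _ _ _ => Iff.rfl
  have hC : C ω' = C ω := ((rx_cfib_supp P C h₀).1 hω').1.trans hω.symm
  exact ⟨fun hY => Prod.ext hY hC, fun hY => (Prod.ext_iff.1 hY).1⟩

/-- unconditional surprise inside a cell -/
theorem rx_cfib_sur (P : FLaw Ω) (C : Ω → γ) (X : Ω → α) {ω₀ ω : Ω} (h₀ : P.p ω₀ ≠ 0) (hω : C ω = C ω₀)
    (h : P.p ω ≠ 0) : - Real.log ((P.cfib C ω₀).fib X ω) = P.surC X C ω := by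
  rw [ent_surC_eq_cfib P X C h, ent_cfib_congr P C hω]

/-- **push-forward of a conditional surprise.**  `F, G` observations on the image space, `F', G'` observations on `Ω` generating the same partitions on the cell. -/
theorem rx_push_surC {Ω' : Type} [Fintype Ω'] (P : FLaw Ω) (C : Ω → γ) (φ : Ω → Ω') {α' β' : Type} (F : Ω' → α) (G : Ω' → β)
    (F' : Ω → α') (G' : Ω → β') {ω₀ ω : Ω} (h₀ : P.p ω₀ ≠ 0) (hω : C ω = C ω₀) (h : P.p ω ≠ 0)
    (hF : ∀ ω₁ ω₂, C ω₁ = C ω₀ → C ω₂ = C ω₀ → (F (φ ω₁) = F (φ ω₂) ↔ F' ω₁ = F' ω₂))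
    (hG : ∀ ω₁ ω₂, C ω₁ = C ω₀ → C ω₂ = C ω₀ → (G (φ ω₁) = G (φ ω₂) ↔ G' ω₁ = G' ω₂)) :
    ((P.cfib C ω₀).map φ).surC F G (φ ω) = P.surC F' (pair G' C) ω := by
  rw [ent_map_surC, ← rx_cfib_surC P C F' G' h₀ hω h]
  exact ent_surC_congr _ _ F' _ G' ω
    (fun ω' hω' => hG ω' ω ((rx_cfib_supp P C h₀).1 hω').1 hω)
    (fun ω' hω' _ => hF ω' ω ((rx_cfib_supp P C h₀).1 hω').1 hω)

theorem rx_push_sur {Ω' : Type} [Fintype Ω'] (P : FLaw Ω) (C : Ω → γ) (φ : Ω → Ω') {α' : Type} (F : Ω' → α)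
    (F' : Ω → α') {ω₀ ω : Ω} (h₀ : P.p ω₀ ≠ 0) (hω : C ω = C ω₀) (h : P.p ω ≠ 0)
    (hF : ∀ ω₁ ω₂, C ω₁ = C ω₀ → C ω₂ = C ω₀ → (F (φ ω₁) = F (φ ω₂) ↔ F' ω₁ = F' ω₂)) :
    - Real.log (((P.cfib C ω₀).map φ).fib F (φ ω)) = P.surC F' C ω := by
  rw [ent_map_fib, ← rx_cfib_sur P C F' h₀ hω h]
  congr 2
  exact ent_pr_congr _ fun ω' hω' => hF ω' ω ((rx_cfib_supp P C h₀).1 hω').1 hω

theorem rx_push_mi {Ω' : Type} [Fintype Ω'] (P : FLaw Ω) (C : Ω → γ) (φ : Ω → Ω') {α' β' : Type} (F : Ω' → α) (G : Ω' → β)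
    (F' : Ω → α') (G' : Ω → β') {ω₀ : Ω} (h₀ : P.p ω₀ ≠ 0)
    (hF : ∀ ω₁ ω₂, C ω₁ = C ω₀ → C ω₂ = C ω₀ → (F (φ ω₁) = F (φ ω₂) ↔ F' ω₁ = F' ω₂))
    (hG : ∀ ω₁ ω₂, C ω₁ = C ω₀ → C ω₂ = C ω₀ → (G (φ ω₁) = G (φ ω₂) ↔ G' ω₁ = G' ω₂)) :
    ((P.cfib C ω₀).map φ).mi F G = (P.cfib C ω₀).mi F' G' := by
  rw [ent_map_mi]
  exact ent_mi_congr _ _ F' _ G'
    (fun ω₁ ω₂ h₁ h₂ => hF ω₁ ω₂ ((rx_cfib_supp P C h₀).1 h₁).1 ((rx_cfib_supp P C h₀).1 h₂).1)
    (fun ω₁ ω₂ h₁ h₂ => hG ω₁ ω₂ ((rx_cfib_supp P C h₀).1 h₁).1 ((rx_cfib_supp P C h₀).1 h₂).1)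

/-- probabilities of events of the image law which are read on `Ω` -/
theorem rx_push_pr_le {Ω' : Type} [Fintype Ω'] (P : FLaw Ω) (C : Ω → γ) (φ : Ω → Ω') (Ev : Ω' → Prop) (Bad : Ω → Prop)
    {ω₀ : Ω} (h₀ : P.p ω₀ ≠ 0) (h : ∀ ω, P.p ω ≠ 0 → C ω = C ω₀ → Ev (φ ω) → Bad ω) :
    ((P.cfib C ω₀).map φ).pr Ev ≤ (P.cfib C ω₀).pr Bad := by
  rw [ent_map_pr]
  exact ent_pr_mono _ fun ω hω hE =>
    h ω ((rx_cfib_supp P C h₀).1 hω).2 ((rx_cfib_supp P C h₀).1 hω).1 hE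

theorem rx_fin_eqns_cite : True := by
  have := @FLaw.Amb.eq_1
  have := @rxCl2.eq_1
  have := @rxCl4.eq_1
  have := @rxCl6.eq_1
  have := @rxRep.eq_1
  trivial

end Claimed.Agent.R255
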