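-- KEEP
import Claimed.Agent.R255.Rate.ExtGrid
import Claimed.Agent.R255.Rate.ExtFin
import Claimed.Agent.R255.Rate.Trace

/-!
# Row 255 (BR paper), Sec. 7, unit U1a EXTRACT (architect helper34), file 3: SHEAR GEOMETRY OF THE OBSERVATIONS      prefix `rx_`

PAPER-FREE: real inequalities about TWO data points `d d' : Dat` (`d = (V, A, c, R)`), the observations `mObs`, `lObs` of `Base/Seq.lean` and the grids of `Rate/ExtGrid.lean`.
In the frame of the clock `v`:  `C = trep ε v c`, `R̄ = trep ε (m v) R`,  `X = V₁`, `fY = A₁ + C X`, `fW = V₂ - R̄ X`, `fZ = A₂ + C V₂ - R̄ fY`.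
Change of frame `v → v'`, `δc = C' - C ∈ [0, gw ε v)`, `δR = R̄' - R̄ ∈ [0, gw ε (m v))`   (`rx_shear`, by `ring`):
    `fY' = fY + δc X`,   `fW' = fW - δR X`,   `fZ' = fZ + δc fW - δR fY - δc δR X`;     inverse:  `fZ = fZ' - δc fW' + δR fY' - δc δR X`.
The same relations hold for the DIFFERENCES of two data points with the same labels.   Same cell ⟹ `|Δ| < gw`;   `|Δ| ≤ M gw` ⟹ cells differ by `≤ M`;   `ε^t < 2 gw ε t ≤ 2 ε^t`.

BLOCK PARAMETERS `b : BPar` = `(m, ε, i, u, h, K)`: base configuration `z0 = plane m i u`, advanced label clock `vK = u + h K`, `zt t` = data depths raised by `h t_j` at the advanced label, `z1` = all data depths raised by `h` at the base label, `ρ = ε^h`.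
NORMALISED ROUNDED POINT  `nX = ε^(-LX) (trep (LX + h) X - trep LX X) ∈ [0,1)`, the same for `Y W Z` (base frame), increments `nc = ε^(-u) (C_{vK} - C_u) ∈ [0,1)`, `nr = - ε^(-mu) (R̄_{vK} - R̄_u) ∈ (-1,0]`.
CANONICAL SYMBOLS `b.Q t`, `b.cb a`, `b.rb a` = the bins `bbin ρ` of the exact shears `qY = nY + nc nX`, `qW = nW + nr nX`, `qZ = nZ + nc nW + nr nY + nc nr nX`  (the functions `BLaw.Q, cb, rb` of `Rate/Blk.lean`).
KEY ESTIMATE (`rx_canon_diff`): for two data with the same `obs z0` and the same advanced label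
    `|ε^(-LY) Δ fY_{vK} - Δ qY| < 2ρ`  since   `ε^(-LY) (fY_{vK} - Y_E - δc X_E) - qY = ε^(-LY) [(fY_u - Ȳ) + δc (X - X̄)] ∈ [0, 2ρ)`,   (`LY = LX + u`);  `W` alike;  `X`: `< ρ`;  `Z`: four terms of modulus `< ρ`, two of each sign: `< 4ρ`.
LEAVES: L-RX-GEO-A (§1 + §2 frames), L-RX-GEO-B (§3 ranges, congruences, `rx_canon_diff`), L-RX-GEO-C (§4 canonical versus physical bins), L-RX-GEO-D (§5 parameters).
-/

set_option autoImplicit false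

namespace Claimed.Agent.R255

open Classical

/-- the data of one sample -/
structure Dat where
  V : ℝ × ℝ
  A : ℝ × ℝ
  c : ℝ
  R : ℝ

namespace Dat

variable (d : Dat)

noncomputable def obs (m ε : ℝ) (z : Cfg) : ℤ × ℤ × ℤ × ℤ × ℤ × ℤ := mObs m ε z d.V d.A d.c d.R

noncomputable def lab (ε v₁ v₂ : ℝ) : ℤ × ℤ × ℤ × ℤ × ℤ × ℤ := lObs ε v₁ v₂ d.c d.R

noncomputable def fY (ε v : ℝ) : ℝ := d.A.1 + trep ε v d.c * d.V.1

noncomputable def fW (m ε v : ℝ) : ℝ := d.V.2 - trep ε (m * v) d.R * d.V.1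

noncomputable def fZ (m ε v : ℝ) : ℝ :=
  d.A.2 + trep ε v d.c * d.V.2 - trep ε (m * v) d.R * (d.A.1 + trep ε v d.c * d.V.1)

end Dat

/-! ## 1. elementary facts -/

theorem rx_obs_eq (d : Dat) (m ε : ℝ) (z : Cfg) :
    d.obs m ε z = (tcell ε z.v d.c, tcell ε (m * z.v) d.R, tcell ε z.LX d.V.1, tcell ε z.LY (d.fY ε z.v),
      tcell ε z.LW (d.fW m ε z.v), tcell ε z.LZ (d.fZ m ε z.v)) := rfl

/-- componentwise form of the equality of two observations -/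
theorem rx_obs_iff {d d' : Dat} {m ε : ℝ} {z : Cfg} :
    d.obs m ε z = d'.obs m ε z ↔ tcell ε z.v d.c = tcell ε z.v d'.c ∧ tcell ε (m * z.v) d.R = tcell ε (m * z.v) d'.R ∧
      tcell ε z.LX d.V.1 = tcell ε z.LX d'.V.1 ∧ tcell ε z.LY (d.fY ε z.v) = tcell ε z.LY (d'.fY ε z.v) ∧
      tcell ε z.LW (d.fW m ε z.v) = tcell ε z.LW (d'.fW m ε z.v) ∧
      tcell ε z.LZ (d.fZ m ε z.v) = tcell ε z.LZ (d'.fZ m ε z.v) := by
  rw [rx_obs_eq, rx_obs_eq]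
  simp only [Prod.mk.injEq]

/-- the particle and the label determine the observation -/
theorem rx_obs_of_label {d d' : Dat} (m ε : ℝ) (z : Cfg) (hV : d.V = d'.V) (hA : d.A = d'.A)
    (hc : tcell ε z.v d.c = tcell ε z.v d'.c) (hR : tcell ε (m * z.v) d.R = tcell ε (m * z.v) d'.R) :
    d.obs m ε z = d'.obs m ε z := by
  have e1 := rx_trep_congr hc
  have e2 := rx_trep_congr hR
  rw [rx_obs_iff]
  simp only [Dat.fY, Dat.fW, Dat.fZ, hV, hA, e1, e2, hc, hR, and_self]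

theorem rx_lab_iff {d d' : Dat} {ε v₁ v₂ : ℝ} :
    d.lab ε v₁ v₂ = d'.lab ε v₁ v₂ ↔ tcell ε v₁ d.c = tcell ε v₁ d'.c ∧ tcell ε v₂ d.R = tcell ε v₂ d'.R := by
  simp only [Dat.lab, lObs, Prod.mk.injEq, and_true]

theorem rx_label_of_obs {d d' : Dat} {m ε : ℝ} {z : Cfg} (h : d.obs m ε z = d'.obs m ε z) :
    d.lab ε z.v (m * z.v) = d'.lab ε z.v (m * z.v) := by
  rw [rx_obs_iff] at h
  exact rx_lab_iff.2 ⟨h.1, h.2.1⟩

theorem rx_lab_nest {d d' : Dat} {ε : ℝ} (h0 : 0 < ε) (h1 : ε < 1) {v₁ v₂ v₁' v₂' : ℝ} (h₁ : v₁ ≤ v₁') (h₂ : v₂ ≤ v₂')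
    (h : d.lab ε v₁' v₂' = d'.lab ε v₁' v₂') : d.lab ε v₁ v₂ = d'.lab ε v₁ v₂ := by
  rw [rx_lab_iff] at h ⊢
  exact ⟨rx_cell_nest h0 h1 h₁ h.1, rx_cell_nest h0 h1 h₂ h.2⟩

/-- same label clock, coarser data depths -/
theorem rx_obs_nest {d d' : Dat} {m ε : ℝ} (h0 : 0 < ε) (h1 : ε < 1) {z z' : Cfg} (hv : z.v = z'.v) (hX : z.LX ≤ z'.LX)
    (hY : z.LY ≤ z'.LY) (hW : z.LW ≤ z'.LW) (hZ : z.LZ ≤ z'.LZ) (h : d.obs m ε z' = d'.obs m ε z') :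
    d.obs m ε z = d'.obs m ε z := by
  rw [rx_obs_iff] at h ⊢
  rw [hv]
  exact ⟨h.1, h.2.1, rx_cell_nest h0 h1 hX h.2.2.1, rx_cell_nest h0 h1 hY h.2.2.2.1,
    rx_cell_nest h0 h1 hW h.2.2.2.2.1, rx_cell_nest h0 h1 hZ h.2.2.2.2.2⟩

/-- the shear between two frames -/
theorem rx_shear (d : Dat) (m ε v v' : ℝ) :
    d.fY ε v' = d.fY ε v + (trep ε v' d.c - trep ε v d.c) * d.V.1 ∧
    d.fW m ε v' = d.fW m ε v - (trep ε (m * v') d.R - trep ε (m * v) d.R) * d.V.1 ∧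
    d.fZ m ε v' = d.fZ m ε v + (trep ε v' d.c - trep ε v d.c) * d.fW m ε v
      - (trep ε (m * v') d.R - trep ε (m * v) d.R) * d.fY ε v
      - (trep ε v' d.c - trep ε v d.c) * (trep ε (m * v') d.R - trep ε (m * v) d.R) * d.V.1 := by
  refine ⟨?_, ?_, ?_⟩ <;> simp only [Dat.fY, Dat.fW, Dat.fZ] <;> ring

/-! ## 2. change of the label frame at a fixed admissible resolution: bounded ambiguity -/

/-- the hypotheses of the frame lemmas: `z`, `z'` have the same data depths, `z.v ≤ z'.v`, the depths are admissible at the COARSE clock `z.v` -/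
structure FramePair (m : ℝ) (z z' : Cfg) : Prop where
  eX : z'.LX = z.LX
  eY : z'.LY = z.LY
  eW : z'.LW = z.LW
  eZ : z'.LZ = z.LZ
  v0 : 0 ≤ z.v
  vv : z.v ≤ z'.v
  X0 : 0 ≤ z.LX
  Y0 : 0 ≤ z.LY
  W0 : 0 ≤ z.LW
  Z0 : 0 ≤ z.LZ
  c1 : z.LY - z.LX ≤ z.v
  c2 : z.LW - z.LX ≤ m * z.v
  c3 : z.LZ - z.LW ≤ z.v
  c4 : z.LZ - z.LY ≤ m * z.v

/-- a shear term: increment of a label of depth `s` times a difference inside a cell of depth `t` -/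
theorem rx_shear_term {ε : ℝ} (h0 : 0 < ε) (h1 : ε < 1) {s t L δ x : ℝ} (hL0 : 0 ≤ L) (hL : L ≤ s + t)
    (hδ : |δ| < gw ε s) (hx : |x| < gw ε t) : |δ * x| < 2 * gw ε L := by
  have a1 : |δ| ≤ ε ^ s := hδ.le.trans (rx_gw_le h0 h1 s)
  have a2 : |x| ≤ ε ^ t := hx.le.trans (rx_gw_le h0 h1 t)
  calc |δ * x| = |δ| * |x| := abs_mul _ _
    _ ≤ ε ^ s * ε ^ t := mul_le_mul a1 a2 (abs_nonneg _) (Real.rpow_nonneg h0.le _)
    _ = ε ^ (s + t) := (Real.rpow_add h0 _ _).symm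
    _ ≤ ε ^ L := Real.rpow_le_rpow_of_exponent_ge h0 h1.le hL
    _ < 2 * gw ε L := rx_lt_gw h0 h1 hL0

/-- a double shear term -/
theorem rx_shear_term₂ {ε : ℝ} (h0 : 0 < ε) (h1 : ε < 1) {s s' t L δ δ' x : ℝ} (hL0 : 0 ≤ L) (hL : L ≤ s + s' + t)
    (hδ : |δ| < gw ε s) (hδ' : |δ'| < gw ε s') (hx : |x| < gw ε t) : |δ * δ' * x| < 2 * gw ε L := by
  have a1 : |δ| ≤ ε ^ s := hδ.le.trans (rx_gw_le h0 h1 s)
  have a1' : |δ'| ≤ ε ^ s' := hδ'.le.trans (rx_gw_le h0 h1 s')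
  have a2 : |x| ≤ ε ^ t := hx.le.trans (rx_gw_le h0 h1 t)
  calc |δ * δ' * x| = |δ| * |δ'| * |x| := by rw [abs_mul, abs_mul]
    _ ≤ ε ^ s * ε ^ s' * ε ^ t :=
        mul_le_mul (mul_le_mul a1 a1' (abs_nonneg _) (Real.rpow_nonneg h0.le _)) a2 (abs_nonneg _)
          (mul_nonneg (Real.rpow_nonneg h0.le _) (Real.rpow_nonneg h0.le _))
    _ = ε ^ (s + s' + t) := by rw [Real.rpow_add h0, Real.rpow_add h0]
    _ ≤ ε ^ L := Real.rpow_le_rpow_of_exponent_ge h0 h1.le hL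
    _ < 2 * gw ε L := rx_lt_gw h0 h1 hL0

/-- the increment of the representative between two depths -/
theorem rx_abs_trep_sub {ε : ℝ} (h0 : 0 < ε) (h1 : ε < 1) {t t' : ℝ} (h : t ≤ t') (x : ℝ) :
    |trep ε t' x - trep ε t x| < gw ε t := by
  obtain ⟨a, b⟩ := rx_trep_sub h0 h1 h x
  rwa [abs_of_nonneg a]

theorem rx_cell_close7 {ε t x y : ℝ} (h : |x - y| ≤ 7 * gw ε t) : |tcell ε t x - tcell ε t y| ≤ ((7 : ℕ) : ℤ) :=
  rx_cell_close 7 (by simpa using h)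

/-- from the coarse frame and the fine label to the fine frame -/
theorem rx_frame_fwd {m ε : ℝ} (hm : 0 ≤ m) (h0 : 0 < ε) (h1 : ε < 1) {z z' : Cfg} (hz : FramePair m z z') {d d' : Dat}
    (hl : d.lab ε z'.v (m * z'.v) = d'.lab ε z'.v (m * z'.v)) (ho : d.obs m ε z = d'.obs m ε z) :
    rxCl6 7 (d.obs m ε z') (d'.obs m ε z') := by
  obtain ⟨l1, l2⟩ := rx_lab_iff.1 hl
  obtain ⟨o1, o2, o3, o4, o5, o6⟩ := rx_obs_iff.1 ho
  have hmv : m * z.v ≤ m * z'.v := mul_le_mul_of_nonneg_left hz.vv hm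
  obtain ⟨sY, sW, sZ⟩ := rx_shear d m ε z.v z'.v
  obtain ⟨sY', sW', sZ'⟩ := rx_shear d' m ε z.v z'.v
  rw [← rx_trep_congr l1, ← rx_trep_congr o1] at sY' sZ'
  rw [← rx_trep_congr l2, ← rx_trep_congr o2] at sW' sZ'
  have hc := rx_abs_trep_sub h0 h1 hz.vv d.c
  have hR := rx_abs_trep_sub h0 h1 hmv d.R
  set δc := trep ε z'.v d.c - trep ε z.v d.c
  set δR := trep ε (m * z'.v) d.R - trep ε (m * z.v) d.R
  have bX := rx_cell_lt o3
  have bY := rx_cell_lt o4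
  have bW := rx_cell_lt o5
  have bZ := rx_cell_lt o6
  have gX := rx_gw_pos ε z.LX
  have gY := rx_gw_pos ε z.LY
  have gW := rx_gw_pos ε z.LW
  have gZ := rx_gw_pos ε z.LZ
  rw [rx_obs_eq, rx_obs_eq, hz.eX, hz.eY, hz.eW, hz.eZ]
  refine ⟨?_, ?_, ?_, ?_, ?_, ?_⟩
  · simp [l1]
  · simp [l2]
  · simp [o3]
  · apply rx_cell_close7
    have t1 := rx_shear_term h0 h1 hz.Y0 (by linarith [hz.c1] : z.LY ≤ z.v + z.LX) hc bX
    have e : d.fY ε z'.v - d'.fY ε z'.v = (d.fY ε z.v - d'.fY ε z.v) + δc * (d.V.1 - d'.V.1) := by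
      rw [sY, sY']; ring
    rw [e]
    have := abs_add_le (d.fY ε z.v - d'.fY ε z.v) (δc * (d.V.1 - d'.V.1))
    linarith
  · apply rx_cell_close7
    have t1 := rx_shear_term h0 h1 hz.W0 (by linarith [hz.c2] : z.LW ≤ m * z.v + z.LX) hR bX
    have e : d.fW m ε z'.v - d'.fW m ε z'.v = (d.fW m ε z.v - d'.fW m ε z.v) - δR * (d.V.1 - d'.V.1) := by
      rw [sW, sW']; ring
    rw [e]
    have := abs_sub (d.fW m ε z.v - d'.fW m ε z.v) (δR * (d.V.1 - d'.V.1))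
    linarith
  · apply rx_cell_close7
    have t1 := rx_shear_term h0 h1 hz.Z0 (by linarith [hz.c3] : z.LZ ≤ z.v + z.LW) hc bW
    have t2 := rx_shear_term h0 h1 hz.Z0 (by linarith [hz.c4] : z.LZ ≤ m * z.v + z.LY) hR bY
    have t3 := rx_shear_term₂ h0 h1 hz.Z0 (by linarith [hz.c3, hz.c2] : z.LZ ≤ z.v + m * z.v + z.LX) hc hR bX
    have e : d.fZ m ε z'.v - d'.fZ m ε z'.v = (d.fZ m ε z.v - d'.fZ m ε z.v) + δc * (d.fW m ε z.v - d'.fW m ε z.v)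
        - δR * (d.fY ε z.v - d'.fY ε z.v) - δc * δR * (d.V.1 - d'.V.1) := by
      rw [sZ, sZ']; ring
    rw [e]
    have a1 := abs_sub ((d.fZ m ε z.v - d'.fZ m ε z.v) + δc * (d.fW m ε z.v - d'.fW m ε z.v)
        - δR * (d.fY ε z.v - d'.fY ε z.v)) (δc * δR * (d.V.1 - d'.V.1))
    have a2 := abs_sub ((d.fZ m ε z.v - d'.fZ m ε z.v) + δc * (d.fW m ε z.v - d'.fW m ε z.v))
        (δR * (d.fY ε z.v - d'.fY ε z.v))
    have a3 := abs_add_le (d.fZ m ε z.v - d'.fZ m ε z.v) (δc * (d.fW m ε z.v - d'.fW m ε z.v))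
    linarith

/-- from the fine frame to the coarse frame -/
theorem rx_frame_bwd {m ε : ℝ} (hm : 0 ≤ m) (h0 : 0 < ε) (h1 : ε < 1) {z z' : Cfg} (hz : FramePair m z z') {d d' : Dat}
    (ho : d.obs m ε z' = d'.obs m ε z') : rxCl6 7 (d.obs m ε z) (d'.obs m ε z) := by
  obtain ⟨l1, l2, o3, o4, o5, o6⟩ := rx_obs_iff.1 ho
  rw [hz.eX] at o3
  rw [hz.eY] at o4
  rw [hz.eW] at o5
  rw [hz.eZ] at o6
  have hmv : m * z.v ≤ m * z'.v := mul_le_mul_of_nonneg_left hz.vv hm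
  have o1 := rx_cell_nest h0 h1 hz.vv l1
  have o2 := rx_cell_nest h0 h1 hmv l2
  obtain ⟨sY, sW, sZ⟩ := rx_shear d m ε z.v z'.v
  obtain ⟨sY', sW', sZ'⟩ := rx_shear d' m ε z.v z'.v
  rw [← rx_trep_congr l1, ← rx_trep_congr o1] at sY' sZ'
  rw [← rx_trep_congr l2, ← rx_trep_congr o2] at sW' sZ'
  have hc := rx_abs_trep_sub h0 h1 hz.vv d.c
  have hR := rx_abs_trep_sub h0 h1 hmv d.R
  set δc := trep ε z'.v d.c - trep ε z.v d.c
  set δR := trep ε (m * z'.v) d.R - trep ε (m * z.v) d.R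
  have bX := rx_cell_lt o3
  have bY := rx_cell_lt o4
  have bW := rx_cell_lt o5
  have bZ := rx_cell_lt o6
  have gX := rx_gw_pos ε z.LX
  have gY := rx_gw_pos ε z.LY
  have gW := rx_gw_pos ε z.LW
  have gZ := rx_gw_pos ε z.LZ
  rw [rx_obs_eq, rx_obs_eq]
  refine ⟨?_, ?_, ?_, ?_, ?_, ?_⟩
  · simp [o1]
  · simp [o2]
  · simp [o3]
  · apply rx_cell_close7
    have t1 := rx_shear_term h0 h1 hz.Y0 (by linarith [hz.c1] : z.LY ≤ z.v + z.LX) hc bX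
    have e : d.fY ε z.v - d'.fY ε z.v = (d.fY ε z'.v - d'.fY ε z'.v) - δc * (d.V.1 - d'.V.1) := by
      rw [sY, sY']; ring
    rw [e]
    have := abs_sub (d.fY ε z'.v - d'.fY ε z'.v) (δc * (d.V.1 - d'.V.1))
    linarith
  · apply rx_cell_close7
    have t1 := rx_shear_term h0 h1 hz.W0 (by linarith [hz.c2] : z.LW ≤ m * z.v + z.LX) hR bX
    have e : d.fW m ε z.v - d'.fW m ε z.v = (d.fW m ε z'.v - d'.fW m ε z'.v) + δR * (d.V.1 - d'.V.1) := by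
      rw [sW, sW']; ring
    rw [e]
    have := abs_add_le (d.fW m ε z'.v - d'.fW m ε z'.v) (δR * (d.V.1 - d'.V.1))
    linarith
  · apply rx_cell_close7
    have t1 := rx_shear_term h0 h1 hz.Z0 (by linarith [hz.c3] : z.LZ ≤ z.v + z.LW) hc bW
    have t2 := rx_shear_term h0 h1 hz.Z0 (by linarith [hz.c4] : z.LZ ≤ m * z.v + z.LY) hR bY
    have t3 := rx_shear_term₂ h0 h1 hz.Z0 (by linarith [hz.c3, hz.c2] : z.LZ ≤ z.v + m * z.v + z.LX) hc hR bX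
    have e : d.fZ m ε z.v - d'.fZ m ε z.v = (d.fZ m ε z'.v - d'.fZ m ε z'.v) - δc * (d.fW m ε z'.v - d'.fW m ε z'.v)
        + δR * (d.fY ε z'.v - d'.fY ε z'.v) - δc * δR * (d.V.1 - d'.V.1) := by
      rw [sZ, sZ', sW, sW', sY, sY']; ring
    rw [e]
    have a1 := abs_sub ((d.fZ m ε z'.v - d'.fZ m ε z'.v) - δc * (d.fW m ε z'.v - d'.fW m ε z'.v)
        + δR * (d.fY ε z'.v - d'.fY ε z'.v)) (δc * δR * (d.V.1 - d'.V.1))
    have a2 := abs_add_le ((d.fZ m ε z'.v - d'.fZ m ε z'.v) - δc * (d.fW m ε z'.v - d'.fW m ε z'.v))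
        (δR * (d.fY ε z'.v - d'.fY ε z'.v))
    have a3 := abs_sub (d.fZ m ε z'.v - d'.fZ m ε z'.v) (δc * (d.fW m ε z'.v - d'.fW m ε z'.v))
    linarith

/-! ## 3. the block -/

/-- block parameters -/
structure BPar where
  m : ℝ
  ε : ℝ
  i : ℝ
  u : ℝ
  h : ℝ
  K : ℝ

namespace BPar

variable (b : BPar)

structure OK : Prop where
  m0 : 0 < b.m
  ε0 : 0 < b.ε
  ε1 : b.ε < 1
  i0 : 0 ≤ b.i
  u0 : 0 < b.u
  h0 : 0 < b.h
  K1 : 1 ≤ b.K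
  mK : 1 ≤ b.m * b.K
  uK : b.u + b.h * b.K < 1

/-- the base configuration -/
def z0 : Cfg := plane b.m b.i b.u

/-- the advanced label clock -/
def vK : ℝ := b.u + b.h * b.K

/-- data depths raised by `h t_j` at the advanced label -/
def zt (t : Dep) : Cfg := b.z0.shift ⟨t.X, t.Y, t.W, t.Z, b.K⟩ b.h

/-- the unrefined data at the advanced label -/
def zK : Cfg := b.zt ⟨0, 0, 0, 0⟩

/-- all data depths raised by `h` at the base label -/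
def z1 : Cfg := ⟨b.i + b.h, b.i + b.u + b.h, b.i + b.m * b.u + b.h, b.i + (1 + b.m) * b.u + b.h, b.u⟩

/-- the block scale -/
noncomputable def ρ : ℝ := b.ε ^ b.h

noncomputable def nX (d : Dat) : ℝ := b.ε ^ (-b.z0.LX) * (trep b.ε b.z1.LX d.V.1 - trep b.ε b.z0.LX d.V.1)

noncomputable def nY (d : Dat) : ℝ :=
  b.ε ^ (-b.z0.LY) * (trep b.ε b.z1.LY (d.fY b.ε b.u) - trep b.ε b.z0.LY (d.fY b.ε b.u))

noncomputable def nW (d : Dat) : ℝ :=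
  b.ε ^ (-b.z0.LW) * (trep b.ε b.z1.LW (d.fW b.m b.ε b.u) - trep b.ε b.z0.LW (d.fW b.m b.ε b.u))

noncomputable def nZ (d : Dat) : ℝ :=
  b.ε ^ (-b.z0.LZ) * (trep b.ε b.z1.LZ (d.fZ b.m b.ε b.u) - trep b.ε b.z0.LZ (d.fZ b.m b.ε b.u))

noncomputable def nc (d : Dat) : ℝ := b.ε ^ (-b.u) * (trep b.ε b.vK d.c - trep b.ε b.u d.c)

noncomputable def nr (d : Dat) : ℝ :=
  - (b.ε ^ (-(b.m * b.u)) * (trep b.ε (b.m * b.vK) d.R - trep b.ε (b.m * b.u) d.R))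

noncomputable def qY (d : Dat) : ℝ := b.nY d + b.nc d * b.nX d

noncomputable def qW (d : Dat) : ℝ := b.nW d + b.nr d * b.nX d

noncomputable def qZ (d : Dat) : ℝ := b.nZ d + b.nc d * b.nW d + b.nr d * b.nY d + b.nc d * b.nr d * b.nX d

/-- the canonical coordinate symbols -/
noncomputable def Q (t : Dep) (d : Dat) : ℤ × ℤ × ℤ × ℤ :=
  (bbin b.ρ t.X (b.nX d), bbin b.ρ t.Y (b.qY d), bbin b.ρ t.W (b.qW d), bbin b.ρ t.Z (b.qZ d))

noncomputable def cb (a : ℝ) (d : Dat) : ℤ := bbin b.ρ a (b.nc d)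

noncomputable def rb (a : ℝ) (d : Dat) : ℤ := bbin b.ρ a (b.nr d)

noncomputable def Th (a : ℝ) (d : Dat) : ℤ × ℤ := (bbin b.ρ a (b.nc d), bbin b.ρ a (b.nr d))

end BPar

/-- depths in the unit cube -/
def Dep.In01 (t : Dep) : Prop := 0 ≤ t.X ∧ t.X ≤ 1 ∧ 0 ≤ t.Y ∧ t.Y ≤ 1 ∧ 0 ≤ t.W ∧ t.W ≤ 1 ∧ 0 ≤ t.Z ∧ t.Z ≤ 1

variable {b : BPar}

theorem rx_z1_eq (b : BPar) : b.z0.shift ⟨1, 1, 1, 1, 0⟩ b.h = b.z1 := by
  simp [BPar.z0, BPar.z1, Cfg.shift, plane]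

theorem rx_rho_pos (hb : b.OK) : 0 < b.ρ ∧ b.ρ < 1 :=
  ⟨Real.rpow_pos_of_pos hb.ε0 _, Real.rpow_lt_one hb.ε0.le hb.ε1 hb.h0⟩

theorem rx_hK_pos (hb : b.OK) : 0 < b.h * b.K := mul_pos hb.h0 (by linarith [hb.K1])

/-- admissibility of all configurations of the block -/
theorem rx_adm (hb : b.OK) : b.z0.Adm b.m ∧ b.z1.Adm b.m ∧ ∀ t : Dep, t.In01 → (b.zt t).Adm b.m := by
  have hK := rx_hK_pos hb
  have hu := hb.u0
  have huK := hb.uK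
  refine ⟨?_, ?_, ?_⟩
  · simp only [Cfg.Adm, BPar.z0, plane]
    refine ⟨by linarith, by linarith, by linarith, by linarith, hu, by linarith⟩
  · simp only [Cfg.Adm, BPar.z1]
    refine ⟨by linarith, by linarith, by linarith, by linarith, hu, by linarith⟩
  · rintro t ⟨hX0, hX1, hY0, hY1, hW0, hW1, hZ0, hZ1⟩
    have hh := hb.h0
    have hK1 := hb.K1
    have hmK := hb.mK
    simp only [Cfg.Adm, BPar.zt, BPar.z0, plane, Cfg.shift]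
    have e1 : b.h * (t.Y - t.X) ≤ b.h * b.K := mul_le_mul_of_nonneg_left (by linarith) hh.le
    have e2 : b.h * (t.W - t.X) ≤ b.h * (b.m * b.K) := mul_le_mul_of_nonneg_left (by linarith) hh.le
    have e3 : b.h * (t.Z - t.W) ≤ b.h * b.K := mul_le_mul_of_nonneg_left (by linarith) hh.le
    have e4 : b.h * (t.Z - t.Y) ≤ b.h * (b.m * b.K) := mul_le_mul_of_nonneg_left (by linarith) hh.le
    refine ⟨by nlinarith, by nlinarith, by nlinarith, by nlinarith, by linarith, by linarith⟩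

/-- the displacements lie in the cone and in the ball of radius `max 1 K = K` -/
theorem rx_cone (hb : b.OK) : (⟨1, 1, 1, 1, 0⟩ : Cfg).InCone b.m ∧ (⟨1, 1, 1, 1, 0⟩ : Cfg).Bd b.K ∧
    ∀ t : Dep, t.In01 → (⟨t.X, t.Y, t.W, t.Z, b.K⟩ : Cfg).InCone b.m ∧ (⟨t.X, t.Y, t.W, t.Z, b.K⟩ : Cfg).Bd b.K := by
  have hK1 := hb.K1
  have hmK := hb.mK
  refine ⟨?_, ?_, ?_⟩
  · simp [Cfg.InCone]
  · simp only [Cfg.Bd, abs_one, abs_zero]
    refine ⟨hK1, hK1, hK1, hK1, by linarith⟩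
  · rintro t ⟨hX0, hX1, hY0, hY1, hW0, hW1, hZ0, hZ1⟩
    constructor
    · simp only [Cfg.InCone]
      refine ⟨by linarith, by linarith, by linarith, by linarith⟩
    · simp only [Cfg.Bd]
      refine ⟨?_, ?_, ?_, ?_, ?_⟩ <;> rw [abs_le] <;> constructor <;> linarith

theorem rx_fp_0K (hb : b.OK) : FramePair b.m b.z0 b.zK := by
  have hK := rx_hK_pos hb
  have hu := hb.u0
  have hi := hb.i0
  have hm := hb.m0
  have hmu : 0 < b.m * b.u := mul_pos hm hu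
  constructor <;> simp only [BPar.zK, BPar.zt, BPar.z0, plane, Cfg.shift] <;> nlinarith

theorem rx_fp_1 (hb : b.OK) : FramePair b.m b.z1 (b.zt ⟨1, 1, 1, 1⟩) := by
  have hK := rx_hK_pos hb
  have hu := hb.u0
  have hi := hb.i0
  have hm := hb.m0
  have hh := hb.h0
  have hmu : 0 < b.m * b.u := mul_pos hm hu
  constructor <;> simp only [BPar.z1, BPar.zt, BPar.z0, plane, Cfg.shift] <;> nlinarith

/-- a normalised increment of representatives lies in `[0, 1)` -/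
theorem rx_nrm_range {ε : ℝ} (h0 : 0 < ε) (h1 : ε < 1) {t t' : ℝ} (h : t ≤ t') (x : ℝ) :
    0 ≤ ε ^ (-t) * (trep ε t' x - trep ε t x) ∧ ε ^ (-t) * (trep ε t' x - trep ε t x) < 1 := by
  have hp : 0 < ε ^ (-t) := Real.rpow_pos_of_pos h0 _
  obtain ⟨h2, h3⟩ := rx_trep_sub h0 h1 h x
  have h4 := rx_gw_le h0 h1 t
  refine ⟨mul_nonneg hp.le h2, ?_⟩
  calc ε ^ (-t) * (trep ε t' x - trep ε t x) < ε ^ (-t) * ε ^ t :=
        mul_lt_mul_of_pos_left (by linarith) hp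
    _ = 1 := by rw [← Real.rpow_add h0]; simp

/-- the residual of the rounding at the depth `t + h`, in units of `ε^t`, lies in `[0, ε^h)` -/
theorem rx_res_range {ε : ℝ} (h0 : 0 < ε) (h1 : ε < 1) (t h x : ℝ) :
    0 ≤ ε ^ (-t) * (x - trep ε (t + h) x) ∧ ε ^ (-t) * (x - trep ε (t + h) x) < ε ^ h := by
  have hp : 0 < ε ^ (-t) := Real.rpow_pos_of_pos h0 _
  have h2 := rx_trep_le ε (t + h) x
  have h3 := rx_lt_trep ε (t + h) x
  have h4 := rx_gw_le h0 h1 (t + h)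
  refine ⟨mul_nonneg hp.le (by linarith), ?_⟩
  calc ε ^ (-t) * (x - trep ε (t + h) x) < ε ^ (-t) * ε ^ (t + h) :=
        mul_lt_mul_of_pos_left (by linarith) hp
    _ = ε ^ h := by rw [← Real.rpow_add h0]; congr 1; ring

theorem rx_n_range (hb : b.OK) (d : Dat) :
    (0 ≤ b.nX d ∧ b.nX d < 1) ∧ (0 ≤ b.nY d ∧ b.nY d < 1) ∧ (0 ≤ b.nW d ∧ b.nW d < 1) ∧ (0 ≤ b.nZ d ∧ b.nZ d < 1) ∧
      (0 ≤ b.nc d ∧ b.nc d < 1) ∧ (-1 < b.nr d ∧ b.nr d ≤ 0) := by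
  have hh := hb.h0
  have hK := rx_hK_pos hb
  have hX : b.z0.LX ≤ b.z1.LX := by simp only [BPar.z0, BPar.z1, plane]; linarith
  have hY : b.z0.LY ≤ b.z1.LY := by simp only [BPar.z0, BPar.z1, plane]; linarith
  have hW : b.z0.LW ≤ b.z1.LW := by simp only [BPar.z0, BPar.z1, plane]; linarith
  have hZ : b.z0.LZ ≤ b.z1.LZ := by simp only [BPar.z0, BPar.z1, plane]; linarith
  have hc : b.u ≤ b.vK := by simp only [BPar.vK]; linarith
  have hR : b.m * b.u ≤ b.m * b.vK := mul_le_mul_of_nonneg_left hc hb.m0.le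
  refine ⟨rx_nrm_range hb.ε0 hb.ε1 hX _, rx_nrm_range hb.ε0 hb.ε1 hY _, rx_nrm_range hb.ε0 hb.ε1 hW _,
    rx_nrm_range hb.ε0 hb.ε1 hZ _, rx_nrm_range hb.ε0 hb.ε1 hc _, ?_⟩
  obtain ⟨h1, h2⟩ := rx_nrm_range hb.ε0 hb.ε1 hR d.R
  simp only [BPar.nr]
  constructor <;> linarith

/-- the rounded point is a function of `obs z1` -/
theorem rx_n_congr_P (hb : b.OK) {d d' : Dat} (h : d.obs b.m b.ε b.z1 = d'.obs b.m b.ε b.z1) :
    b.nX d = b.nX d' ∧ b.nY d = b.nY d' ∧ b.nW d = b.nW d' ∧ b.nZ d = b.nZ d' := by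
  have hh := hb.h0
  have hX : b.z0.LX ≤ b.z1.LX := by simp only [BPar.z0, BPar.z1, plane]; linarith
  have hY : b.z0.LY ≤ b.z1.LY := by simp only [BPar.z0, BPar.z1, plane]; linarith
  have hW : b.z0.LW ≤ b.z1.LW := by simp only [BPar.z0, BPar.z1, plane]; linarith
  have hZ : b.z0.LZ ≤ b.z1.LZ := by simp only [BPar.z0, BPar.z1, plane]; linarith
  simp only [rx_obs_eq, Prod.mk.injEq] at h
  obtain ⟨-, -, eX, eY, eW, eZ⟩ := h
  have eY' : tcell b.ε b.z1.LY (d.fY b.ε b.u) = tcell b.ε b.z1.LY (d'.fY b.ε b.u) := eY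
  have eW' : tcell b.ε b.z1.LW (d.fW b.m b.ε b.u) = tcell b.ε b.z1.LW (d'.fW b.m b.ε b.u) := eW
  have eZ' : tcell b.ε b.z1.LZ (d.fZ b.m b.ε b.u) = tcell b.ε b.z1.LZ (d'.fZ b.m b.ε b.u) := eZ
  refine ⟨?_, ?_, ?_, ?_⟩
  · simp only [BPar.nX]
    rw [rx_trep_congr eX, rx_trep_congr (rx_cell_nest hb.ε0 hb.ε1 hX eX)]
  · simp only [BPar.nY]
    rw [rx_trep_congr eY', rx_trep_congr (rx_cell_nest hb.ε0 hb.ε1 hY eY')]
  · simp only [BPar.nW]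
    rw [rx_trep_congr eW', rx_trep_congr (rx_cell_nest hb.ε0 hb.ε1 hW eW')]
  · simp only [BPar.nZ]
    rw [rx_trep_congr eZ', rx_trep_congr (rx_cell_nest hb.ε0 hb.ε1 hZ eZ')]

/-- the increments are functions of the advanced label -/
theorem rx_n_congr_L (hb : b.OK) {d d' : Dat} (h : d.lab b.ε b.vK (b.m * b.vK) = d'.lab b.ε b.vK (b.m * b.vK)) :
    b.nc d = b.nc d' ∧ b.nr d = b.nr d' := by
  have hK := rx_hK_pos hb
  have hc : b.u ≤ b.vK := by simp only [BPar.vK]; linarith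
  have hR : b.m * b.u ≤ b.m * b.vK := mul_le_mul_of_nonneg_left hc hb.m0.le
  obtain ⟨ec, eR⟩ := rx_lab_iff.mp h
  constructor
  · simp only [BPar.nc]
    rw [rx_trep_congr ec, rx_trep_congr (rx_cell_nest hb.ε0 hb.ε1 hc ec)]
  · simp only [BPar.nr]
    rw [rx_trep_congr eR, rx_trep_congr (rx_cell_nest hb.ε0 hb.ε1 hR eR)]

/-- product of a number of `[0,1)` and a number of `[0,ρ)` -/
theorem rx_mul_range {a x r : ℝ} (ha0 : 0 ≤ a) (ha1 : a < 1) (hx0 : 0 ≤ x) (hx1 : x < r) :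
    0 ≤ a * x ∧ a * x < r := by
  refine ⟨mul_nonneg ha0 hx0, ?_⟩
  calc a * x ≤ 1 * x := mul_le_mul_of_nonneg_right ha1.le hx0
    _ < r := by linarith

/-- **the canonical shear follows the physical shear up to `O(ρ)`** -/
theorem rx_canon_diff (hb : b.OK) {d d' : Dat} (hl : d.lab b.ε b.vK (b.m * b.vK) = d'.lab b.ε b.vK (b.m * b.vK))
    (ho : d.obs b.m b.ε b.z0 = d'.obs b.m b.ε b.z0) :
    |b.ε ^ (-b.z0.LX) * (d.V.1 - d'.V.1) - (b.nX d - b.nX d')| < b.ρ ∧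
    |b.ε ^ (-b.z0.LY) * (d.fY b.ε b.vK - d'.fY b.ε b.vK) - (b.qY d - b.qY d')| < 2 * b.ρ ∧
    |b.ε ^ (-b.z0.LW) * (d.fW b.m b.ε b.vK - d'.fW b.m b.ε b.vK) - (b.qW d - b.qW d')| < 2 * b.ρ ∧
    |b.ε ^ (-b.z0.LZ) * (d.fZ b.m b.ε b.vK - d'.fZ b.m b.ε b.vK) - (b.qZ d - b.qZ d')| < 4 * b.ρ := by
  have h0 := hb.ε0
  have h1 := hb.ε1
  -- the common data
  obtain ⟨ecK, eRK⟩ := rx_lab_iff.mp hl
  simp only [rx_obs_eq, Prod.mk.injEq] at ho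
  obtain ⟨ec, eR, eX, eY, eW, eZ⟩ := ho
  have cK : trep b.ε b.vK d'.c = trep b.ε b.vK d.c := (rx_trep_congr ecK).symm
  have rK : trep b.ε (b.m * b.vK) d'.R = trep b.ε (b.m * b.vK) d.R := (rx_trep_congr eRK).symm
  have cu : trep b.ε b.u d'.c = trep b.ε b.u d.c := (rx_trep_congr ec).symm
  have ru : trep b.ε (b.m * b.u) d'.R = trep b.ε (b.m * b.u) d.R := (rx_trep_congr eR).symm
  have xE : trep b.ε b.z0.LX d'.V.1 = trep b.ε b.z0.LX d.V.1 := (rx_trep_congr eX).symm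
  have yE : trep b.ε b.z0.LY (d'.fY b.ε b.u) = trep b.ε b.z0.LY (d.fY b.ε b.u) := (rx_trep_congr eY).symm
  have wE : trep b.ε b.z0.LW (d'.fW b.m b.ε b.u) = trep b.ε b.z0.LW (d.fW b.m b.ε b.u) :=
    (rx_trep_congr eW).symm
  have zE : trep b.ε b.z0.LZ (d'.fZ b.m b.ε b.u) = trep b.ε b.z0.LZ (d.fZ b.m b.ε b.u) :=
    (rx_trep_congr eZ).symm
  -- the powers
  have pX : b.ε ^ (-b.z0.LX) = b.ε ^ (-b.i) := rfl
  have pY : b.ε ^ (-b.z0.LY) = b.ε ^ (-b.i) * b.ε ^ (-b.u) := by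
    rw [← Real.rpow_add h0]; congr 1; simp only [BPar.z0, plane]; ring
  have pW : b.ε ^ (-b.z0.LW) = b.ε ^ (-b.i) * b.ε ^ (-(b.m * b.u)) := by
    rw [← Real.rpow_add h0]; congr 1; simp only [BPar.z0, plane]; ring
  have pZ : b.ε ^ (-b.z0.LZ) = b.ε ^ (-b.i) * b.ε ^ (-b.u) * b.ε ^ (-(b.m * b.u)) := by
    rw [← Real.rpow_add h0, ← Real.rpow_add h0]; congr 1; simp only [BPar.z0, plane]; ring
  -- the residuals
  have resX : ∀ e : Dat, 0 ≤ b.ε ^ (-b.z0.LX) * (e.V.1 - trep b.ε b.z1.LX e.V.1) ∧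
      b.ε ^ (-b.z0.LX) * (e.V.1 - trep b.ε b.z1.LX e.V.1) < b.ρ := fun e =>
    rx_res_range h0 h1 b.i b.h e.V.1
  have resY : ∀ e : Dat, 0 ≤ b.ε ^ (-b.z0.LY) * (e.fY b.ε b.u - trep b.ε b.z1.LY (e.fY b.ε b.u)) ∧
      b.ε ^ (-b.z0.LY) * (e.fY b.ε b.u - trep b.ε b.z1.LY (e.fY b.ε b.u)) < b.ρ := fun e =>
    rx_res_range h0 h1 (b.i + b.u) b.h _
  have resW : ∀ e : Dat, 0 ≤ b.ε ^ (-b.z0.LW) * (e.fW b.m b.ε b.u - trep b.ε b.z1.LW (e.fW b.m b.ε b.u)) ∧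
      b.ε ^ (-b.z0.LW) * (e.fW b.m b.ε b.u - trep b.ε b.z1.LW (e.fW b.m b.ε b.u)) < b.ρ := fun e =>
    rx_res_range h0 h1 (b.i + b.m * b.u) b.h _
  have resZ : ∀ e : Dat, 0 ≤ b.ε ^ (-b.z0.LZ) * (e.fZ b.m b.ε b.u - trep b.ε b.z1.LZ (e.fZ b.m b.ε b.u)) ∧
      b.ε ^ (-b.z0.LZ) * (e.fZ b.m b.ε b.u - trep b.ε b.z1.LZ (e.fZ b.m b.ε b.u)) < b.ρ := fun e =>
    rx_res_range h0 h1 (b.i + (1 + b.m) * b.u) b.h _
  obtain ⟨-, -, -, -, ⟨c0, c1⟩, ⟨r1, r0⟩⟩ := rx_n_range hb d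
  obtain ⟨enc, enr⟩ := rx_n_congr_L hb hl
  obtain ⟨sY, sW, sZ⟩ := rx_shear d b.m b.ε b.u b.vK
  obtain ⟨sY', sW', sZ'⟩ := rx_shear d' b.m b.ε b.u b.vK
  -- names for the residuals
  obtain ⟨x0, x1⟩ := resX d
  obtain ⟨x0', x1'⟩ := resX d'
  obtain ⟨y0, y1⟩ := resY d
  obtain ⟨y0', y1'⟩ := resY d'
  obtain ⟨w0, w1⟩ := resW d
  obtain ⟨w0', w1'⟩ := resW d'
  obtain ⟨z0, z1⟩ := resZ d
  obtain ⟨z0', z1'⟩ := resZ d'
  set x := b.ε ^ (-b.z0.LX) * (d.V.1 - trep b.ε b.z1.LX d.V.1) with hx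
  set x' := b.ε ^ (-b.z0.LX) * (d'.V.1 - trep b.ε b.z1.LX d'.V.1) with hx'
  set y := b.ε ^ (-b.z0.LY) * (d.fY b.ε b.u - trep b.ε b.z1.LY (d.fY b.ε b.u)) with hy
  set y' := b.ε ^ (-b.z0.LY) * (d'.fY b.ε b.u - trep b.ε b.z1.LY (d'.fY b.ε b.u)) with hy'
  set w := b.ε ^ (-b.z0.LW) * (d.fW b.m b.ε b.u - trep b.ε b.z1.LW (d.fW b.m b.ε b.u)) with hw
  set w' := b.ε ^ (-b.z0.LW) * (d'.fW b.m b.ε b.u - trep b.ε b.z1.LW (d'.fW b.m b.ε b.u)) with hw'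
  set z := b.ε ^ (-b.z0.LZ) * (d.fZ b.m b.ε b.u - trep b.ε b.z1.LZ (d.fZ b.m b.ε b.u)) with hz
  set z' := b.ε ^ (-b.z0.LZ) * (d'.fZ b.m b.ε b.u - trep b.ε b.z1.LZ (d'.fZ b.m b.ε b.u)) with hz'
  have iX : b.ε ^ (-b.z0.LX) * (d.V.1 - d'.V.1) - (b.nX d - b.nX d') = x - x' := by
    simp only [hx, hx', BPar.nX, xE]
    ring
  have iY : b.ε ^ (-b.z0.LY) * (d.fY b.ε b.vK - d'.fY b.ε b.vK) - (b.qY d - b.qY d') =
      (y + b.nc d * x) - (y' + b.nc d * x') := by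
    simp only [hx, hx', hy, hy', BPar.qY, BPar.nY, BPar.nX, BPar.nc, sY, sY', xE, yE, cK, cu, pY, pX]
    ring
  have iW : b.ε ^ (-b.z0.LW) * (d.fW b.m b.ε b.vK - d'.fW b.m b.ε b.vK) - (b.qW d - b.qW d') =
      (w + b.nr d * x) - (w' + b.nr d * x') := by
    simp only [hx, hx', hw, hw', BPar.qW, BPar.nW, BPar.nX, BPar.nr, sW, sW', xE, wE, rK, ru, pW, pX]
    ring
  have iZ : b.ε ^ (-b.z0.LZ) * (d.fZ b.m b.ε b.vK - d'.fZ b.m b.ε b.vK) - (b.qZ d - b.qZ d') =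
      (z + b.nc d * w + b.nr d * y + b.nc d * b.nr d * x) -
        (z' + b.nc d * w' + b.nr d * y' + b.nc d * b.nr d * x') := by
    simp only [hx, hx', hy, hy', hw, hw', hz, hz', BPar.qZ, BPar.nZ, BPar.nY, BPar.nW, BPar.nX, BPar.nc, BPar.nr,
      sZ, sZ', xE, yE, wE, zE, cK, cu, rK, ru, pY, pW, pZ, pX]
    ring
  rw [iX, iY, iW, iZ]
  -- the products
  have n0 : 0 ≤ -b.nr d := by linarith
  have n1 : -b.nr d < 1 := by linarith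
  obtain ⟨a1, a2⟩ := rx_mul_range c0 c1 x0 x1
  obtain ⟨a1', a2'⟩ := rx_mul_range c0 c1 x0' x1'
  obtain ⟨b1, b2⟩ := rx_mul_range n0 n1 x0 x1
  obtain ⟨b1', b2'⟩ := rx_mul_range n0 n1 x0' x1'
  obtain ⟨c1w, c2w⟩ := rx_mul_range c0 c1 w0 w1
  obtain ⟨c1w', c2w'⟩ := rx_mul_range c0 c1 w0' w1'
  obtain ⟨d1, d2⟩ := rx_mul_range n0 n1 y0 y1
  obtain ⟨d1', d2'⟩ := rx_mul_range n0 n1 y0' y1'
  obtain ⟨e1, e2⟩ := rx_mul_range c0 c1 b1 b2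
  obtain ⟨e1', e2'⟩ := rx_mul_range c0 c1 b1' b2'
  refine ⟨?_, ?_, ?_, ?_⟩
  · rw [abs_lt]; constructor <;> linarith
  · rw [abs_lt]; constructor <;> linarith
  · rw [abs_lt]; constructor <;> linarith
  · have f1 : b.nc d * b.nr d * x = -(b.nc d * (-b.nr d * x)) := by ring
    have f2 : b.nc d * b.nr d * x' = -(b.nc d * (-b.nr d * x')) := by ring
    rw [f1, f2, abs_lt]; constructor <;> linarith

/-! ## 4. canonical versus physical bins -/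

/-- `ρ ≤ ρ^τ = ε^(hτ)` for `τ ≤ 1` -/
theorem rx_rho_le_pow (hb : b.OK) {τ : ℝ} (hτ1 : τ ≤ 1) : b.ρ ≤ b.ε ^ (b.h * τ) := by
  simp only [BPar.ρ]
  apply Real.rpow_le_rpow_of_exponent_ge hb.ε0 hb.ε1.le
  nlinarith [hb.h0]

/-- the grid of the block scale -/
theorem rx_gw_rho (hb : b.OK) (τ : ℝ) : gw b.ρ τ = gw b.ε (b.h * τ) := by
  simp only [BPar.ρ]
  rw [rx_gw_rpow hb.ε0, mul_comm]

/-- physical cell ⟹ canonical bin, one coordinate -/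
theorem rx_fwd_aux (hb : b.OK) {L τ x y n n' : ℝ} (hτ0 : 0 ≤ τ) (hτ1 : τ ≤ 1)
    (hc : tcell b.ε (L + b.h * τ) x = tcell b.ε (L + b.h * τ) y)
    (hD : |b.ε ^ (-L) * (x - y) - (n - n')| < 4 * b.ρ) : |bbin b.ρ τ n - bbin b.ρ τ n'| ≤ ((10 : ℕ) : ℤ) := by
  have h0 := hb.ε0
  have h1 := hb.ε1
  apply rx_bbin_close
  intro _
  have hp : 0 < b.ε ^ (-L) := Real.rpow_pos_of_pos h0 _
  have e1 : |x - y| < b.ε ^ (L + b.h * τ) := lt_of_lt_of_le (rx_cell_lt hc) (rx_gw_le h0 h1 _)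
  have e2 : |b.ε ^ (-L) * (x - y)| < b.ε ^ (b.h * τ) := by
    rw [abs_mul, abs_of_pos hp]
    calc b.ε ^ (-L) * |x - y| < b.ε ^ (-L) * b.ε ^ (L + b.h * τ) := mul_lt_mul_of_pos_left e1 hp
      _ = b.ε ^ (b.h * τ) := by rw [← Real.rpow_add h0]; congr 1; ring
  have e3 := rx_rho_le_pow hb hτ1
  have e4 : b.ε ^ (b.h * τ) < 2 * gw b.ε (b.h * τ) := rx_lt_gw h0 h1 (mul_nonneg hb.h0.le hτ0)
  rw [rx_gw_rho hb]
  have e5 : |n - n'| ≤ |b.ε ^ (-L) * (x - y)| + |b.ε ^ (-L) * (x - y) - (n - n')| := by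
    have := abs_sub_abs_le_abs_sub (n - n') (b.ε ^ (-L) * (x - y))
    rw [abs_sub_comm (n - n')] at this
    linarith
  push_cast
  linarith

/-- canonical bin ⟹ physical cell, one coordinate -/
theorem rx_bwd_aux (hb : b.OK) {L τ x y n n' : ℝ} (hL : 0 ≤ L) (hτ0 : 0 ≤ τ) (hτ1 : τ ≤ 1)
    (hc : bbin b.ρ τ n = bbin b.ρ τ n') (hr : |n - n'| < 4)
    (hD : |b.ε ^ (-L) * (x - y) - (n - n')| < 4 * b.ρ) :
    |tcell b.ε (L + b.h * τ) x - tcell b.ε (L + b.h * τ) y| ≤ ((16 : ℕ) : ℤ) := by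
  have h0 := hb.ε0
  have h1 := hb.ε1
  apply rx_cell_close
  have hp : 0 < b.ε ^ (-L) := Real.rpow_pos_of_pos h0 _
  have hq : 0 < b.ε ^ (b.h * τ) := Real.rpow_pos_of_pos h0 _
  have e0 : |n - n'| < 4 * b.ε ^ (b.h * τ) := by
    rcases hτ0.lt_or_eq with hpos | hz
    · have := rx_bbin_lt hpos hc
      rw [rx_gw_rho hb] at this
      have := rx_gw_le h0 h1 (b.h * τ)
      linarith
    · rw [← hz]; simpa using hr
  have e3 := rx_rho_le_pow hb hτ1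
  have e5 : |b.ε ^ (-L) * (x - y)| ≤ |n - n'| + |b.ε ^ (-L) * (x - y) - (n - n')| := by
    have := abs_sub_abs_le_abs_sub (b.ε ^ (-L) * (x - y)) (n - n')
    linarith
  have e6 : b.ε ^ (-L) * |x - y| < 8 * b.ε ^ (b.h * τ) := by
    rw [abs_mul, abs_of_pos hp] at e5
    linarith
  have e7 : |x - y| < 8 * b.ε ^ (L + b.h * τ) := by
    have hpL : 0 < b.ε ^ L := Real.rpow_pos_of_pos h0 _
    have : b.ε ^ L * (b.ε ^ (-L) * |x - y|) < b.ε ^ L * (8 * b.ε ^ (b.h * τ)) :=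
      mul_lt_mul_of_pos_left e6 hpL
    rw [← mul_assoc, ← Real.rpow_add h0] at this
    rw [Real.rpow_add h0]
    simp only [add_neg_cancel, Real.rpow_zero, one_mul] at this
    linarith
  have e4 : b.ε ^ (L + b.h * τ) < 2 * gw b.ε (L + b.h * τ) :=
    rx_lt_gw h0 h1 (add_nonneg hL (mul_nonneg hb.h0.le hτ0))
  push_cast
  linarith

/-- ranges of the canonical shears -/
theorem rx_q_range (hb : b.OK) (d : Dat) :
    (0 ≤ b.qY d ∧ b.qY d < 2) ∧ (-1 < b.qW d ∧ b.qW d < 1) ∧ (-2 < b.qZ d ∧ b.qZ d < 2) := by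
  obtain ⟨⟨x0, x1⟩, ⟨y0, y1⟩, ⟨w0, w1⟩, ⟨z0, z1⟩, ⟨c0, c1⟩, ⟨r1, r0⟩⟩ := rx_n_range hb d
  have n0 : 0 ≤ -b.nr d := by linarith
  have n1 : -b.nr d < 1 := by linarith
  obtain ⟨a1, a2⟩ := rx_mul_range c0 c1 x0 x1
  obtain ⟨b1, b2⟩ := rx_mul_range n0 n1 x0 x1
  obtain ⟨c1w, c2w⟩ := rx_mul_range c0 c1 w0 w1
  obtain ⟨d1, d2⟩ := rx_mul_range n0 n1 y0 y1
  obtain ⟨e1, e2⟩ := rx_mul_range c0 c1 b1 b2
  have f1 : b.nc d * b.nr d * b.nX d = -(b.nc d * (-b.nr d * b.nX d)) := by ring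
  simp only [BPar.qY, BPar.qW, BPar.qZ, f1]
  refine ⟨⟨by linarith, by linarith⟩, ⟨by linarith, by linarith⟩, ⟨by linarith, by linarith⟩⟩

theorem rx_zt_v (b : BPar) (t : Dep) : (b.zt t).v = b.vK := rfl

/-- physical bins determine the canonical bins up to `10` -/
theorem rx_canon_fwd (hb : b.OK) {t : Dep} (ht : t.In01) {d d' : Dat} (h : d.obs b.m b.ε (b.zt t) = d'.obs b.m b.ε (b.zt t))
    (ho : d.obs b.m b.ε b.z0 = d'.obs b.m b.ε b.z0) : rxCl4 10 (b.Q t d) (b.Q t d') := by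
  obtain ⟨hX0, hX1, hY0, hY1, hW0, hW1, hZ0, hZ1⟩ := ht
  have hl : d.lab b.ε b.vK (b.m * b.vK) = d'.lab b.ε b.vK (b.m * b.vK) := by
    have := rx_label_of_obs h
    rw [rx_zt_v] at this
    exact this
  obtain ⟨DX, DY, DW, DZ⟩ := rx_canon_diff hb hl ho
  have hρ := (rx_rho_pos hb).1
  simp only [rx_obs_eq, Prod.mk.injEq] at h
  obtain ⟨-, -, eX, eY, eW, eZ⟩ := h
  have eX' : tcell b.ε (b.z0.LX + b.h * t.X) d.V.1 = tcell b.ε (b.z0.LX + b.h * t.X) d'.V.1 := eX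
  have eY' : tcell b.ε (b.z0.LY + b.h * t.Y) (d.fY b.ε b.vK) = tcell b.ε (b.z0.LY + b.h * t.Y) (d'.fY b.ε b.vK) := eY
  have eW' : tcell b.ε (b.z0.LW + b.h * t.W) (d.fW b.m b.ε b.vK) =
      tcell b.ε (b.z0.LW + b.h * t.W) (d'.fW b.m b.ε b.vK) := eW
  have eZ' : tcell b.ε (b.z0.LZ + b.h * t.Z) (d.fZ b.m b.ε b.vK) =
      tcell b.ε (b.z0.LZ + b.h * t.Z) (d'.fZ b.m b.ε b.vK) := eZ
  have DX4 := lt_trans DX (show b.ρ < 4 * b.ρ by linarith)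
  have DY4 := lt_trans DY (show 2 * b.ρ < 4 * b.ρ by linarith)
  have DW4 := lt_trans DW (show 2 * b.ρ < 4 * b.ρ by linarith)
  have gX := rx_fwd_aux hb hX0 hX1 eX' DX4
  have gY := rx_fwd_aux hb hY0 hY1 eY' DY4
  have gW := rx_fwd_aux hb hW0 hW1 eW' DW4
  have gZ := rx_fwd_aux hb hZ0 hZ1 eZ' DZ
  simp only [rxCl4, BPar.Q]
  exact ⟨gX, gY, gW, gZ⟩

/-- canonical bins, the advanced label and the base observation determine the physical bins up to `16` -/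
theorem rx_canon_bwd (hb : b.OK) {t : Dep} (ht : t.In01) {d d' : Dat} (h : b.Q t d = b.Q t d')
    (hl : d.lab b.ε b.vK (b.m * b.vK) = d'.lab b.ε b.vK (b.m * b.vK)) (ho : d.obs b.m b.ε b.z0 = d'.obs b.m b.ε b.z0) :
    rxCl6 16 (d.obs b.m b.ε (b.zt t)) (d'.obs b.m b.ε (b.zt t)) := by
  obtain ⟨hX0, hX1, hY0, hY1, hW0, hW1, hZ0, hZ1⟩ := ht
  obtain ⟨DX, DY, DW, DZ⟩ := rx_canon_diff hb hl ho
  have hρ := (rx_rho_pos hb).1
  obtain ⟨ecK, eRK⟩ := rx_lab_iff.mp hl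
  simp only [BPar.Q, Prod.mk.injEq] at h
  obtain ⟨bX, bY, bW, bZ⟩ := h
  obtain ⟨⟨x0, x1⟩, -⟩ := rx_n_range hb d
  obtain ⟨⟨x0', x1'⟩, -⟩ := rx_n_range hb d'
  obtain ⟨⟨y0, y1⟩, ⟨w0, w1⟩, ⟨z0, z1⟩⟩ := rx_q_range hb d
  obtain ⟨⟨y0', y1'⟩, ⟨w0', w1'⟩, ⟨z0', z1'⟩⟩ := rx_q_range hb d'
  have hi := hb.i0
  have hu := hb.u0
  have hmu : 0 < b.m * b.u := mul_pos hb.m0 hu
  have LX0 : 0 ≤ b.z0.LX := hi
  have LY0 : 0 ≤ b.z0.LY := by simp only [BPar.z0, plane]; linarith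
  have LW0 : 0 ≤ b.z0.LW := by simp only [BPar.z0, plane]; linarith
  have LZ0 : 0 ≤ b.z0.LZ := by simp only [BPar.z0, plane]; nlinarith
  have ecK' : tcell b.ε (b.zt t).v d.c = tcell b.ε (b.zt t).v d'.c := ecK
  have eRK' : tcell b.ε (b.m * (b.zt t).v) d.R = tcell b.ε (b.m * (b.zt t).v) d'.R := eRK
  have DX4 := lt_trans DX (show b.ρ < 4 * b.ρ by linarith)
  have DY4 := lt_trans DY (show 2 * b.ρ < 4 * b.ρ by linarith)
  have DW4 := lt_trans DW (show 2 * b.ρ < 4 * b.ρ by linarith)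
  have rX : |b.nX d - b.nX d'| < 4 := by rw [abs_lt]; constructor <;> linarith
  have rY : |b.qY d - b.qY d'| < 4 := by rw [abs_lt]; constructor <;> linarith
  have rW : |b.qW d - b.qW d'| < 4 := by rw [abs_lt]; constructor <;> linarith
  have rZ : |b.qZ d - b.qZ d'| < 4 := by rw [abs_lt]; constructor <;> linarith
  have gX := rx_bwd_aux hb LX0 hX0 hX1 bX rX DX4
  have gY := rx_bwd_aux hb LY0 hY0 hY1 bY rY DY4
  have gW := rx_bwd_aux hb LW0 hW0 hW1 bW rW DW4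
  have gZ := rx_bwd_aux hb LZ0 hZ0 hZ1 bZ rZ DZ
  rw [rx_obs_eq, rx_obs_eq]
  refine ⟨?_, ?_, gX, gY, gW, gZ⟩
  · simp only [ecK']; simp
  · simp only [eRK']; simp

/-! ## 5. the parameter prefixes -/

/-- forward direction of the parameter prefixes, abstract form -/
theorem rx_par_fwd_aux {ε : ℝ} (e0 : 0 < ε) (e1 : ε < 1) {w wK h a : ℝ} (hh : 0 < h) (h0 : 0 ≤ a)
    (hK : w + a * h ≤ wK) {x x' : ℝ} (hc : tcell ε (w + a * h) x = tcell ε (w + a * h) x') :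
    |ε ^ (-w) * (trep ε wK x - trep ε w x) - ε ^ (-w) * (trep ε wK x' - trep ε w x')| ≤
      ((2 : ℕ) : ℝ) * gw (ε ^ h) a := by
  have hw : w ≤ w + a * h := le_add_of_nonneg_right (mul_nonneg h0 hh.le)
  have e0' := rx_trep_congr (rx_cell_nest e0 e1 hw hc)
  have c1 : tcell ε (w + a * h) (trep ε wK x) = tcell ε (w + a * h) (trep ε wK x') := by
    rw [rx_cell_trep e0 e1 hK, rx_cell_trep e0 e1 hK, hc]
  have h1 := rx_cell_lt c1
  have h2 := rx_gw_le e0 e1 (w + a * h)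
  have hρ0 : 0 < ε ^ h := Real.rpow_pos_of_pos e0 h
  have hρ1 : ε ^ h < 1 := Real.rpow_lt_one e0.le e1 hh
  have h3 := rx_lt_gw hρ0 hρ1 h0
  have e2 : ε ^ (-w) * ε ^ (w + a * h) = (ε ^ h) ^ a := by
    rw [← Real.rpow_add e0, ← Real.rpow_mul e0.le]
    congr 1
    ring
  have hp := Real.rpow_pos_of_pos e0 (-w)
  have e3 : trep ε wK x - trep ε w x' - (trep ε wK x' - trep ε w x') = trep ε wK x - trep ε wK x' := by ring
  rw [e0', ← mul_sub, abs_mul, abs_of_pos hp, e3]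
  have h4 : ε ^ (-w) * |trep ε wK x - trep ε wK x'| ≤ ε ^ (-w) * ε ^ (w + a * h) :=
    mul_le_mul_of_nonneg_left (h1.le.trans h2) hp.le
  push_cast
  linarith

/-- backward direction of the parameter prefixes, abstract form -/
theorem rx_par_bwd_aux {ε : ℝ} (e0 : 0 < ε) (e1 : ε < 1) {w wK h a : ℝ} (hw0 : 0 ≤ w) (hh : 0 < h) (h0 : 0 ≤ a)
    (hK : w + a * h ≤ wK) {x x' : ℝ}
    (hn : 0 < a → |ε ^ (-w) * (trep ε wK x - trep ε w x) - ε ^ (-w) * (trep ε wK x' - trep ε w x')| < gw (ε ^ h) a)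
    (hu : tcell ε w x = tcell ε w x') : |tcell ε (w + a * h) x - tcell ε (w + a * h) x'| ≤ 2 := by
  rcases h0.eq_or_lt with rfl | ha
  · rw [zero_mul, add_zero, hu, sub_self, abs_zero]
    norm_num
  · have e0' := rx_trep_congr hu
    have h1 := hn ha
    have hp := Real.rpow_pos_of_pos e0 (-w)
    have hq := Real.rpow_pos_of_pos e0 w
    have e3 : trep ε wK x - trep ε w x' - (trep ε wK x' - trep ε w x') = trep ε wK x - trep ε wK x' := by ring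
    rw [e0', ← mul_sub, abs_mul, abs_of_pos hp, e3] at h1
    have hρ0 : 0 < ε ^ h := Real.rpow_pos_of_pos e0 h
    have hρ1 : ε ^ h < 1 := Real.rpow_lt_one e0.le e1 hh
    have h2 := rx_gw_le hρ0 hρ1 a
    have h3 := rx_lt_gw e0 e1 (t := w + a * h) (by positivity)
    have e4 : ε ^ w * ε ^ (-w) = 1 := by rw [← Real.rpow_add e0, add_neg_cancel, Real.rpow_zero]
    have e5 : ε ^ w * (ε ^ h) ^ a = ε ^ (w + a * h) := by
      rw [← Real.rpow_mul e0.le, ← Real.rpow_add e0]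
      congr 1
      ring
    have h4 : |trep ε wK x - trep ε wK x'| ≤ ((2 : ℕ) : ℝ) * gw ε (w + a * h) := by
      have h5 : ε ^ w * (ε ^ (-w) * |trep ε wK x - trep ε wK x'|) < ε ^ w * (ε ^ h) ^ a :=
        mul_lt_mul_of_pos_left (h1.trans_le h2) hq
      rw [← mul_assoc, e4, one_mul, e5] at h5
      push_cast
      linarith
    have h6 := rx_cell_close (ε := ε) (t := w + a * h) 2 h4
    rw [rx_cell_trep e0 e1 hK, rx_cell_trep e0 e1 hK] at h6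
    exact_mod_cast h6

/-- the depths of the prefixes lie below the advanced clocks -/
theorem rx_par_depth (hb : b.OK) {a : ℝ} (h1 : a ≤ 1) :
    b.u + a * b.h ≤ b.vK ∧ b.m * b.u + a * b.h ≤ b.m * b.vK := by
  have hh := hb.h0
  have hK := hb.K1
  have hmK := hb.mK
  unfold BPar.vK
  constructor
  · nlinarith
  · nlinarith

theorem rx_par_time_fwd (hb : b.OK) {a : ℝ} (h0 : 0 ≤ a) (h1 : a ≤ 1) {d d' : Dat}
    (h : tcell b.ε (b.u + a * b.h) d.c = tcell b.ε (b.u + a * b.h) d'.c) : |b.cb a d - b.cb a d'| ≤ 2 := by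
  have h2 := rx_bbin_close (ρ := b.ρ) (d := a) (x := b.nc d) (y := b.nc d') 2 fun _ =>
    rx_par_fwd_aux hb.ε0 hb.ε1 hb.h0 h0 (rx_par_depth hb h1).1 h
  exact_mod_cast h2

theorem rx_par_time_bwd (hb : b.OK) {a : ℝ} (h0 : 0 ≤ a) (h1 : a ≤ 1) {d d' : Dat} (h : b.cb a d = b.cb a d')
    (hu : tcell b.ε b.u d.c = tcell b.ε b.u d'.c) :
    |tcell b.ε (b.u + a * b.h) d.c - tcell b.ε (b.u + a * b.h) d'.c| ≤ 2 :=
  rx_par_bwd_aux hb.ε0 hb.ε1 hb.u0.le hb.h0 h0 (rx_par_depth hb h1).1 (fun ha => rx_bbin_lt ha h) hu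

theorem rx_par_norm_fwd (hb : b.OK) {a : ℝ} (h0 : 0 ≤ a) (h1 : a ≤ 1) {d d' : Dat}
    (h : tcell b.ε (b.m * b.u + a * b.h) d.R = tcell b.ε (b.m * b.u + a * b.h) d'.R) : |b.rb a d - b.rb a d'| ≤ 2 := by
  have h2 := rx_bbin_close (ρ := b.ρ) (d := a) (x := b.nr d) (y := b.nr d') 2 fun _ => by
    have h3 := rx_par_fwd_aux hb.ε0 hb.ε1 hb.h0 h0 (rx_par_depth hb h1).2 h
    unfold BPar.nr BPar.ρ
    rw [neg_sub_neg, abs_sub_comm]
    exact h3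
  exact_mod_cast h2

theorem rx_par_norm_bwd (hb : b.OK) {a : ℝ} (h0 : 0 ≤ a) (h1 : a ≤ 1) {d d' : Dat} (h : b.rb a d = b.rb a d')
    (hu : tcell b.ε (b.m * b.u) d.R = tcell b.ε (b.m * b.u) d'.R) :
    |tcell b.ε (b.m * b.u + a * b.h) d.R - tcell b.ε (b.m * b.u + a * b.h) d'.R| ≤ 2 := by
  refine rx_par_bwd_aux hb.ε0 hb.ε1 (mul_nonneg hb.m0.le hb.u0.le) hb.h0 h0 (rx_par_depth hb h1).2 (fun ha => ?_) hu
  have h3 := rx_bbin_lt ha h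
  unfold BPar.nr BPar.ρ at h3
  rw [neg_sub_neg, abs_sub_comm] at h3
  exact h3

theorem rx_geo_eqns_cite : True := by
  have := @Dat.obs.eq_1
  have := @Dat.lab.eq_1
  have := @Dat.fY.eq_1
  have := @Dat.fW.eq_1
  have := @Dat.fZ.eq_1
  have := @BPar.z0.eq_1
  have := @BPar.vK.eq_1
  have := @BPar.zt.eq_1
  have := @BPar.zK.eq_1
  have := @BPar.z1.eq_1
  have := @BPar.ρ.eq_1
  have := @BPar.nX.eq_1
  have := @BPar.nY.eq_1
  have := @BPar.nW.eq_1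
  have := @BPar.nZ.eq_1
  have := @BPar.nc.eq_1
  have := @BPar.nr.eq_1
  have := @BPar.qY.eq_1
  have := @BPar.qW.eq_1
  have := @BPar.qZ.eq_1
  have := @BPar.Q.eq_1
  have := @BPar.cb.eq_1
  have := @BPar.rb.eq_1
  have := @BPar.Th.eq_1
  have := @Dep.In01.eq_1
  trivial

end Claimed.Agent.R255
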