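-- KEEP
import Claimed.Agent.R255.Rate.ExtGeo

/-!
# Row 255 (BR paper), Sec. 7, unit U1a EXTRACT, THE LABEL SIDE: exponents of the parameter prefixes      (architect helper163, for helper34)      prefix `rxl_`

Paper 07-rate-transfer.tex l.118-200: (7.1) prediction, (7.2) time children, (7.3) normal children, (7.3') joint children at tied clocks, `κ ≤ S' ≤ 1`.
§1  FINITE: entropy inequalities for ONE finite law `P` on `Ω`, a particle map `T`, data `D : Ω → Dat` (`V, A` functions of `T`).  Pure chain rule (`R255/Ent/Basic.lean`) + nesting of the grids (`Rate/ExtGrid.lean`).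
§2  SEQUENCE: the same along `𝓤` for a matched process: `S` is nondecreasing, `1`-Lipschitz, grows at least at the rate `κ` (`rxl_S_*`), hence `rt_s_bounds`;
    the homogeneous exponents (`Good.hom`) of   `C_v | E`,   `R_d | E`,   `(C_b,R_b) | E,(C_a,R_a)`   are bounded below by increments of `S`, resp. by `κ/m` (`rxl_time`, `rxl_norm`, `rxl_joint`).
    `E = M.O (plane m i u)`.   The conversion to surprises in probability is the second half of `CSeq.Homog`.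
§3  increments of `S` at a point of differentiability.
LEAVES: L-RXL-A (§1), L-RXL-B (§2 boundedness, S), L-RXL-C (§2 exponents), L-RXL-D (§3 + rt_s_bounds).
-/

set_option autoImplicit false

namespace Claimed.Agent.R255

open Filter Topology
open Classical
open FLaw

/-! ## 1. one finite law -/

section fin

variable {Ω : Type} [Fintype Ω] {ι : Type}

/-- the time prefix -/
noncomputable def xC (D : Ω → Dat) (ε v : ℝ) : Ω → ℤ := fun ω => tcell ε v (D ω).c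

/-- the slope prefix -/
noncomputable def xR (D : Ω → Dat) (ε d : ℝ) : Ω → ℤ := fun ω => tcell ε d (D ω).R

/-- the observation at a configuration -/
noncomputable def xO (D : Ω → Dat) (m ε : ℝ) (z : Cfg) : Ω → ℤ × ℤ × ℤ × ℤ × ℤ × ℤ := fun ω => (D ω).obs m ε z

/-- `V, A` are functions of the particle -/
def xPart (T : Ω → ι) (D : Ω → Dat) : Prop := ∀ ω ω', T ω = T ω' → (D ω).V = (D ω').V ∧ (D ω).A = (D ω').A

/-- given the particle, the observation and its label generate the same partition (`rx_obs_of_label`, `rx_label_of_obs`) -/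
theorem rxl_fin_part (T : Ω → ι) (D : Ω → Dat) (hT : xPart T D) (m ε : ℝ) (z : Cfg) (ω ω' : Ω) :
    (xO D m ε z ω = xO D m ε z ω' ∧ T ω = T ω') ↔
      ((xC D ε z.v ω = xC D ε z.v ω' ∧ xR D ε (m * z.v) ω = xR D ε (m * z.v) ω') ∧ T ω = T ω') := by
  constructor
  · rintro ⟨hO, hTT⟩
    have h := rx_obs_iff.1 hO
    exact ⟨⟨h.1, h.2.1⟩, hTT⟩
  · rintro ⟨⟨hc, hR⟩, hTT⟩
    obtain ⟨hV, hA⟩ := hT ω ω' hTT
    exact ⟨rx_obs_of_label m ε z hV hA hc hR, hTT⟩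

/-- abstract chain rule 1: `H(X|A,R) ≥ H(X|A) - H(R|A)` -/
theorem rxl_entC_adjoin (P : FLaw Ω) {α β γ : Type} (X : Ω → α) (A : Ω → β) (R : Ω → γ) :
    P.entC X A - P.entC R A ≤ P.entC X (pair A R) := by
  have h1 := ent_entC_chain P R X A
  have h2 : P.entC X A ≤ P.entC (pair R X) A :=
    ent_entC_mono P (pair R X) X A fun ω ω' _ _ h _ => congrArg Prod.snd h
  have h3 : P.entC X (pair R A) = P.entC X (pair A R) :=
    ent_entC_congr P X X _ _ (fun ω ω' _ _ => by simp only [FLaw.pair, Prod.mk.injEq]; tauto)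
      (fun _ _ _ _ _ => Iff.rfl)
  linarith

/-- abstract chain rule 2: if `X` determines `X₀` then `H(X|A,X₀) = H(X|A) - H(X₀|A)` -/
theorem rxl_entC_nested (P : FLaw Ω) {α β γ : Type} (X : Ω → α) (X₀ : Ω → γ) (A : Ω → β)
    (h : ∀ ω ω', X ω = X ω' → X₀ ω = X₀ ω') : P.entC X (pair A X₀) = P.entC X A - P.entC X₀ A := by
  have h1 := ent_entC_chain P X₀ X A
  have h2 : P.entC (pair X₀ X) A = P.entC X A :=
    ent_entC_congr P _ _ A A (fun _ _ _ _ => Iff.rfl) (fun ω ω' _ _ _ => by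
      simp only [FLaw.pair, Prod.mk.injEq]
      exact ⟨fun h5 => h5.2, fun h5 => ⟨h ω ω' h5, h5⟩⟩)
  have h3 : P.entC X (pair X₀ A) = P.entC X (pair A X₀) :=
    ent_entC_congr P X X _ _ (fun ω ω' _ _ => by simp only [FLaw.pair, Prod.mk.injEq]; tauto)
      (fun _ _ _ _ _ => Iff.rfl)
  linarith

/-- (7.2): `H(C_v' | E) ≥ H(C_v'|T) - H(C_v|T) - H(R_mv | T, C_v)`.
`H(C'|E) ≥ H(C'|E,T) = H(C'|(T,C_v),R_mv)` (`ent_entC_anti`, `rxl_fin_part` + `ent_entC_congr`) `≥ H(C'|T,C_v) - H(R_mv|T,C_v)` (`rxl_entC_adjoin`), `H(C'|T,C_v) = H(C'|T) - H(C_v|T)` (`rxl_entC_nested`, `rx_cell_nest`). -/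
theorem rxl_fin_time (P : FLaw Ω) (T : Ω → ι) (D : Ω → Dat) (hT : xPart T D) {m ε : ℝ} (h0 : 0 < ε) (h1 : ε < 1) (z : Cfg)
    {v' : ℝ} (hv : z.v ≤ v') :
    P.entC (xC D ε v') T - P.entC (xC D ε z.v) T - P.entC (xR D ε (m * z.v)) (pair T (xC D ε z.v))
      ≤ P.entC (xC D ε v') (xO D m ε z) := by
  have h2 := ent_entC_pair_le P (xC D ε v') (xO D m ε z) T
  have h3 : P.entC (xC D ε v') (pair (xO D m ε z) T)
      = P.entC (xC D ε v') (pair (pair T (xC D ε z.v)) (xR D ε (m * z.v))) :=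
    ent_entC_congr P _ _ _ _ (fun ω ω' _ _ => by
      have := rxl_fin_part T D hT m ε z ω ω'
      simp only [FLaw.pair, Prod.mk.injEq]
      tauto) (fun _ _ _ _ _ => Iff.rfl)
  have h4 := rxl_entC_adjoin P (xC D ε v') (pair T (xC D ε z.v)) (xR D ε (m * z.v))
  have h5 := rxl_entC_nested P (xC D ε v') (xC D ε z.v) T fun ω ω' h => rx_cell_nest h0 h1 hv h
  linarith

/-- (7.3): `H(R_d' | E) ≥ H(R_d' | T, C_v) - H(R_mv | T, C_v)` -/
theorem rxl_fin_norm (P : FLaw Ω) (T : Ω → ι) (D : Ω → Dat) (hT : xPart T D) {m ε : ℝ} (h0 : 0 < ε) (h1 : ε < 1) (z : Cfg)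
    {d' : ℝ} (hd : m * z.v ≤ d') :
    P.entC (xR D ε d') (pair T (xC D ε z.v)) - P.entC (xR D ε (m * z.v)) (pair T (xC D ε z.v))
      ≤ P.entC (xR D ε d') (xO D m ε z) := by
  have h2 := ent_entC_pair_le P (xR D ε d') (xO D m ε z) T
  have h3 : P.entC (xR D ε d') (pair (xO D m ε z) T)
      = P.entC (xR D ε d') (pair (pair T (xC D ε z.v)) (xR D ε (m * z.v))) :=
    ent_entC_congr P _ _ _ _ (fun ω ω' _ _ => by
      have := rxl_fin_part T D hT m ε z ω ω'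
      simp only [FLaw.pair, Prod.mk.injEq]
      tauto) (fun _ _ _ _ _ => Iff.rfl)
  have h5 := rxl_entC_nested P (xR D ε d') (xR D ε (m * z.v)) (pair T (xC D ε z.v))
    fun ω ω' h => rx_cell_nest h0 h1 hd h
  linarith

/-- (7.3'): `H(C_b,R_b' | E, C_a, R_a') ≥ H(C_b|T) - H(C_a|T) - H(R_a' | T, C_a)`  (`z.v ≤ a ≤ b`, `m z.v ≤ a'`).
`≥ H(C_b | E,(C_a,R_a')) ≥ H(C_b | E,(C_a,R_a'),T) = H(C_b | (T,C_a),R_a')`: given `T`, the label `(C_a,R_a')` determines `(C_v,R_mv)` (nesting), hence `E`. -/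
theorem rxl_fin_joint (P : FLaw Ω) (T : Ω → ι) (D : Ω → Dat) (hT : xPart T D) {m ε : ℝ} (h0 : 0 < ε) (h1 : ε < 1) (z : Cfg)
    {a a' b b' : ℝ} (hva : z.v ≤ a) (hab : a ≤ b) (hva' : m * z.v ≤ a') :
    P.entC (xC D ε b) T - P.entC (xC D ε a) T - P.entC (xR D ε a') (pair T (xC D ε a))
      ≤ P.entC (pair (xC D ε b) (xR D ε b')) (pair (xO D m ε z) (pair (xC D ε a) (xR D ε a'))) := by
  have h2 : P.entC (xC D ε b) (pair (xO D m ε z) (pair (xC D ε a) (xR D ε a')))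
      ≤ P.entC (pair (xC D ε b) (xR D ε b')) (pair (xO D m ε z) (pair (xC D ε a) (xR D ε a'))) :=
    ent_entC_mono P _ _ _ fun ω ω' _ _ h _ => congrArg Prod.fst h
  have h3 := ent_entC_pair_le P (xC D ε b) (pair (xO D m ε z) (pair (xC D ε a) (xR D ε a'))) T
  have h4 : P.entC (xC D ε b) (pair (pair (xO D m ε z) (pair (xC D ε a) (xR D ε a'))) T)
      = P.entC (xC D ε b) (pair (pair T (xC D ε a)) (xR D ε a')) :=
    ent_entC_congr P _ _ _ _ (fun ω ω' _ _ => by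
      have h6 := rxl_fin_part T D hT m ε z ω ω'
      have h7 : xC D ε a ω = xC D ε a ω' → xC D ε z.v ω = xC D ε z.v ω' := fun h => rx_cell_nest h0 h1 hva h
      have h8 : xR D ε a' ω = xR D ε a' ω' → xR D ε (m * z.v) ω = xR D ε (m * z.v) ω' :=
        fun h => rx_cell_nest h0 h1 hva' h
      simp only [FLaw.pair, Prod.mk.injEq]
      tauto) (fun _ _ _ _ _ => Iff.rfl)
  have h5 := rxl_entC_adjoin P (xC D ε b) (pair T (xC D ε a)) (xR D ε a')
  have h6 := rxl_entC_nested P (xC D ε b) (xC D ε a) T fun ω ω' h => rx_cell_nest h0 h1 hab h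
  linarith

/-- `S` is nondecreasing -/
theorem rxl_fin_mono (P : FLaw Ω) (T : Ω → ι) (D : Ω → Dat) {ε : ℝ} (h0 : 0 < ε) (h1 : ε < 1) {v v' : ℝ} (hv : v ≤ v') :
    P.entC (xC D ε v) T ≤ P.entC (xC D ε v') T := by
  exact ent_entC_mono P _ _ T fun ω ω' _ _ h _ => rx_cell_nest h0 h1 hv h

/-- `S` is `1`-Lipschitz: `C_v'` has at most `2·2^(tlev v' - tlev v) + 1 ≤ 6 ε^(-(v'-v))` values over `C_v` (`rx_cell_children`, `rx_nval_int`, `rx_children_le`, `ent_entC_le_log_nval`) -/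
theorem rxl_fin_lip (P : FLaw Ω) (T : Ω → ι) (D : Ω → Dat) {ε : ℝ} (h0 : 0 < ε) (h1 : ε < 1) {v v' : ℝ} (hv0 : 0 ≤ v)
    (hv : v ≤ v') : P.entC (xC D ε v') T - P.entC (xC D ε v) T ≤ (v' - v) * lg ε + Real.log 6 := by
  have h2 := rxl_entC_nested P (xC D ε v') (xC D ε v) T fun ω ω' h => rx_cell_nest h0 h1 hv h
  have h3 : P.NVal (fun _ => True) (xC D ε v') (pair T (xC D ε v))
      (2 * ((2 ^ (tlev ε v' - tlev ε v) : ℕ) : ℝ) + 1) :=
    rx_nval_int P _ _ _ fun ω ω' _ _ h => rx_cell_children h0 h1 hv (congrArg Prod.snd h)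
  have h4 := ent_entC_le_log_nval P _ _ h3
  have h5 := rx_children_le h0 h1 hv0 hv
  have hq : 1 ≤ ε ^ (-(v' - v)) := Real.one_le_rpow_of_pos_of_le_one_of_nonpos h0 h1.le (by linarith)
  have hK : (0 : ℝ) ≤ ((2 ^ (tlev ε v' - tlev ε v) : ℕ) : ℝ) := Nat.cast_nonneg _
  have h6 : Real.log (2 * ((2 ^ (tlev ε v' - tlev ε v) : ℕ) : ℝ) + 1) ≤ Real.log (6 * ε ^ (-(v' - v))) :=
    Real.log_le_log (by linarith) (by linarith)
  have h7 : Real.log (6 * ε ^ (-(v' - v))) = (v' - v) * lg ε + Real.log 6 := by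
    rw [Real.log_mul (by norm_num) (by linarith), Real.log_rpow h0]
    unfold lg
    rw [one_div, Real.log_inv]
    ring
  linarith

/-- prediction turns growth of the slope into growth of `S`:  `H(R'|T,C_v) ≤ H(R',C_v'|T,C_v) = H(C_v'|T,C_v) + H(R'|T,C_v')` -/
theorem rxl_fin_pred (P : FLaw Ω) (T : Ω → ι) (D : Ω → Dat) {ε : ℝ} (h0 : 0 < ε) (h1 : ε < 1) {v v' d' : ℝ} (hv : v ≤ v') :
    P.entC (xR D ε d') (pair T (xC D ε v))
      ≤ P.entC (xC D ε v') T - P.entC (xC D ε v) T + P.entC (xR D ε d') (pair T (xC D ε v')) := by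
  have h2 : P.entC (xR D ε d') (pair T (xC D ε v)) ≤ P.entC (pair (xC D ε v') (xR D ε d')) (pair T (xC D ε v)) :=
    ent_entC_mono P _ _ _ fun ω ω' _ _ h _ => congrArg Prod.snd h
  have h3 := ent_entC_chain P (xC D ε v') (xR D ε d') (pair T (xC D ε v))
  have h4 := rxl_entC_nested P (xC D ε v') (xC D ε v) T fun ω ω' h => rx_cell_nest h0 h1 hv h
  have h5 : P.entC (xR D ε d') (pair (xC D ε v') (pair T (xC D ε v))) = P.entC (xR D ε d') (pair T (xC D ε v')) :=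
    ent_entC_congr P _ _ _ _ (fun ω ω' _ _ => by
      have h7 : xC D ε v' ω = xC D ε v' ω' → xC D ε v ω = xC D ε v ω' := fun h => rx_cell_nest h0 h1 hv h
      simp only [FLaw.pair, Prod.mk.injEq]
      tauto) (fun _ _ _ _ _ => Iff.rfl)
  linarith

/-- the alphabet of a prefix of a bounded real observation: `|x| ≤ B` gives `≤ 2 B 2^tlev + 2 ≤ (4B+4) ε^(-v)` cells -/
theorem rxl_fin_alphabet (P : FLaw Ω) (x : Ω → ℝ) {ε B v : ℝ} (h0 : 0 < ε) (h1 : ε < 1) (hv : 0 ≤ v) (hB : 0 ≤ B)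
    (hx : ∀ ω, P.p ω ≠ 0 → |x ω| ≤ B) :
    P.ent (fun ω => tcell ε v (x ω)) ≤ v * lg ε + Real.log (4 * B + 4) := by
  set K : ℝ := 2 ^ (tlev ε v) with hK
  have hK0 : 0 < K := by positivity
  have h2 := ent_le_log_card P (fun ω => tcell ε v (x ω)) (Finset.Icc ⌊-B * K⌋ ⌊B * K⌋) (fun ω hω => by
    have h3 := abs_le.1 (hx ω hω)
    rw [Finset.mem_Icc]
    exact ⟨Int.floor_le_floor (by nlinarith [h3.1]), Int.floor_le_floor (by nlinarith [h3.2])⟩)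
  have hle : ⌊-B * K⌋ ≤ ⌊B * K⌋ + 1 := by
    have : ⌊-B * K⌋ ≤ ⌊B * K⌋ := Int.floor_le_floor (by nlinarith)
    linarith
  have hcard : ((Finset.Icc ⌊-B * K⌋ ⌊B * K⌋).card : ℝ) = (⌊B * K⌋ : ℝ) + 1 - (⌊-B * K⌋ : ℝ) := by
    rw [Int.card_Icc]
    have : ((⌊B * K⌋ + 1 - ⌊-B * K⌋).toNat : ℤ) = ⌊B * K⌋ + 1 - ⌊-B * K⌋ := Int.toNat_of_nonneg (by linarith)
    have h4 : (((⌊B * K⌋ + 1 - ⌊-B * K⌋).toNat : ℤ) : ℝ) = ((⌊B * K⌋ + 1 - ⌊-B * K⌋ : ℤ) : ℝ) := by rw [this]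
    push_cast at h4
    exact h4
  have h5 : (⌊B * K⌋ : ℝ) ≤ B * K := Int.floor_le _
  have h6 : -B * K < (⌊-B * K⌋ : ℝ) + 1 := Int.lt_floor_add_one _
  have hq : 1 ≤ ε ^ (-v) := Real.one_le_rpow_of_pos_of_le_one_of_nonpos h0 h1.le (by linarith)
  have hKq : K ≤ 2 * ε ^ (-v) := by
    have h7 := rx_lt_gw h0 h1 hv
    have h8 : gw ε v = K⁻¹ := rfl
    rw [h8] at h7
    have hp : 0 < ε ^ v := Real.rpow_pos_of_pos h0 v
    rw [Real.rpow_neg h0.le, ← div_eq_mul_inv, le_div_iff₀ hp]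
    rw [← div_eq_mul_inv, lt_div_iff₀ hK0] at h7
    linarith
  have hpos : (0 : ℝ) < ((Finset.Icc ⌊-B * K⌋ ⌊B * K⌋).card : ℝ) := by
    obtain ⟨ω, hω⟩ := ent_exists_supp P
    have h3 := abs_le.1 (hx ω hω)
    have : tcell ε v (x ω) ∈ Finset.Icc ⌊-B * K⌋ ⌊B * K⌋ := by
      rw [Finset.mem_Icc]
      exact ⟨Int.floor_le_floor (by nlinarith [h3.1]), Int.floor_le_floor (by nlinarith [h3.2])⟩
    exact_mod_cast Finset.card_pos.2 ⟨_, this⟩
  have h9 : ((Finset.Icc ⌊-B * K⌋ ⌊B * K⌋).card : ℝ) ≤ (4 * B + 4) * ε ^ (-v) := by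
    rw [hcard]
    nlinarith
  have h10 : Real.log ((4 * B + 4) * ε ^ (-v)) = v * lg ε + Real.log (4 * B + 4) := by
    rw [Real.log_mul (by linarith) (by linarith), Real.log_rpow h0]
    unfold lg
    rw [one_div, Real.log_inv]
    ring
  have h11 := Real.log_le_log hpos h9
  linarith

end fin

/-! ## 2. the matched process -/

namespace Matched

variable {γ m : ℝ} (M : Matched γ m)

/-- the data of the sample `ω` at the stage `n` -/
noncomputable def xD (n : ℕ) : (M.Q.S n).Ω → Dat :=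
  fun ω => ⟨(M.Q.S n).V ((M.Q.S n).T ω), (M.Q.S n).A ((M.Q.S n).T ω), (M.Q.S n).c ω, M.R n ω⟩

theorem xD_part (n : ℕ) : xPart (M.Q.T n) (M.xD n) := by
  intro ω ω' h
  have h' : (M.Q.S n).T ω = (M.Q.S n).T ω' := h
  simp only [xD, h', and_self]

theorem xD_C (n : ℕ) (v : ℝ) : M.Q.C v n = xC (M.xD n) (M.Q.ε n) v := rfl

theorem xD_R (n : ℕ) (d : ℝ) : M.Rd d n = xR (M.xD n) (M.Q.ε n) d := rfl

theorem xD_O (n : ℕ) (z : Cfg) : M.O z n = xO (M.xD n) m (M.Q.ε n) z := rfl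

end Matched

/-- `ℓ_n → ∞` along `𝓤` -/
theorem rxl_lg_tendsto (Q : CSeq) : Tendsto (fun n => lg (Q.ε n)) uf atTop := by
  have h1 : Tendsto Q.ε uf (𝓝[>] 0) :=
    tendsto_nhdsWithin_iff.2 ⟨Q.lim, Eventually.of_forall fun n => (Q.pos n).1⟩
  have h2 := Real.tendsto_log_atTop.comp (tendsto_inv_nhdsGT_zero.comp h1)
  refine h2.congr fun n => ?_
  simp only [Function.comp, lg, one_div]

/-- constants are negligible -/
theorem rxl_const_div (Q : CSeq) (c : ℝ) : Tendsto (fun n => c / lg (Q.ε n)) uf (𝓝 0) := by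
  exact (rxl_lg_tendsto Q).const_div_atTop c

/-- homogeneity only depends on the partitions -/
theorem rxl_homog_congr (Q : CSeq) {α β α' β' : ℕ → Type} (Y : Q.Obs α) (X : Q.Obs β) (Y' : Q.Obs α') (X' : Q.Obs β') (d : ℝ)
    (hX : ∀ n ω ω', X n ω = X n ω' ↔ X' n ω = X' n ω')
    (hYX : ∀ n ω ω', (Y n ω = Y n ω' ∧ X n ω = X n ω') ↔ (Y' n ω = Y' n ω' ∧ X' n ω = X' n ω'))
    (h : Q.Homog Y X d) : Q.Homog Y' X' d := by
  obtain ⟨h1, h2⟩ := h
  have hY : ∀ n ω ω', X n ω = X n ω' → (Y n ω = Y n ω' ↔ Y' n ω = Y' n ω') := by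
    intro n ω ω' h3
    have h4 := hYX n ω ω'
    have h5 := (hX n ω ω').1 h3
    exact ⟨fun h6 => (h4.1 ⟨h6, h3⟩).1, fun h6 => (h4.2 ⟨h6, h5⟩).1⟩
  refine ⟨?_, fun η hη => ?_⟩
  · have h3 : Tendsto (Q.seqHC Y X) uf (𝓝 d) := h1
    show Tendsto (Q.seqHC Y' X') uf (𝓝 d)
    refine h3.congr fun n => ?_
    unfold CSeq.seqHC
    rw [ent_entC_congr (Q.S n).P (Y n) (Y' n) (X n) (X' n) (fun ω ω' _ _ => hX n ω ω')
      (fun ω ω' _ _ h4 => hY n ω ω' h4)]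
  · refine (h2 η hη).congr fun n => ?_
    refine congrArg _ (funext fun ω => ?_)
    rw [ent_surC_congr (Q.S n).P (Y n) (Y' n) (X n) (X' n) ω (fun ω' _ => hX n ω' ω)
      (fun ω' _ h4 => hY n ω' ω h4)]

variable {γ m : ℝ}

/-- the normalised conditional time entropies are bounded (`rxl_fin_alphabet`, `Q.bdd`, `ent_entC_le`, `ent_entC_nonneg`) -/
theorem rxl_ubdd_S (M : Matched γ m) {v : ℝ} (hv : 0 ≤ v) : UBdd (M.Q.seqHC (M.Q.C v) M.Q.T) := by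
  set B : ℝ := max M.Q.B 0 with hB
  have hB0 : 0 ≤ B := le_max_right _ _
  have hL : 0 ≤ Real.log (4 * B + 4) := Real.log_nonneg (by linarith)
  refine UBdd.of_le 0 (v + Real.log (4 * B + 4)) ?_
  filter_upwards [M.Q.bdd, (rxl_lg_tendsto M.Q).eventually_ge_atTop 1] with n hn hl
  have hl0 : 0 < lg (M.Q.ε n) := by linarith
  have h1 := ent_entC_nonneg (M.Q.S n).P (M.Q.C v n) (M.Q.T n)
  have h2 := ent_entC_le (M.Q.S n).P (M.Q.C v n) (M.Q.T n)
  have h3 := rxl_fin_alphabet (M.Q.S n).P (M.Q.S n).c (M.Q.pos n).1 (M.Q.pos n).2 hv hB0 (fun ω hω =>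
    ((hn ω (lt_of_le_of_ne ((M.Q.S n).P.nonneg ω) (Ne.symm hω))).2.2.2.2).trans (le_max_left _ _))
  have h4 : (M.Q.S n).P.ent (M.Q.C v n) ≤ v * lg (M.Q.ε n) + Real.log (4 * B + 4) := h3
  unfold CSeq.seqHC
  refine ⟨div_nonneg h1 hl0.le, ?_⟩
  rw [div_le_iff₀ hl0]
  nlinarith

theorem rxl_S_tendsto (M : Matched γ m) {v : ℝ} (hv : 0 ≤ v) : Tendsto (M.Q.seqHC (M.Q.C v) M.Q.T) uf (𝓝 (M.Sp v)) :=
  ulim_tendsto _ (rxl_ubdd_S M hv)

theorem rxl_S_mono (M : Matched γ m) {v v' : ℝ} (hv0 : 0 ≤ v) (hv : v ≤ v') : M.Sp v ≤ M.Sp v' := by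
  haveI := uf_neBot
  refine le_of_tendsto_of_tendsto' (rxl_S_tendsto M hv0) (rxl_S_tendsto M (hv0.trans hv)) fun n => ?_
  exact div_le_div_of_nonneg_right
    (rxl_fin_mono (M.Q.S n).P (M.Q.T n) (M.xD n) (M.Q.pos n).1 (M.Q.pos n).2 hv)
    (rx_lg_pos (M.Q.pos n).1 (M.Q.pos n).2).le

theorem rxl_S_lip (M : Matched γ m) {v v' : ℝ} (hv0 : 0 ≤ v) (hv : v ≤ v') : M.Sp v' - M.Sp v ≤ v' - v := by
  haveI := uf_neBot
  have h1 := (rxl_S_tendsto M (hv0.trans hv)).sub (rxl_S_tendsto M hv0)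
  have h2 : Tendsto (fun n => (v' - v) + Real.log 6 / lg (M.Q.ε n)) uf (𝓝 ((v' - v) + 0)) :=
    tendsto_const_nhds.add (rxl_const_div M.Q (Real.log 6))
  rw [add_zero] at h2
  refine le_of_tendsto_of_tendsto' h1 h2 fun n => ?_
  have hl0 := rx_lg_pos (M.Q.pos n).1 (M.Q.pos n).2
  have h3 := rxl_fin_lip (M.Q.S n).P (M.Q.T n) (M.xD n) (M.Q.pos n).1 (M.Q.pos n).2 hv0 hv
  have h4 : M.Q.seqHC (M.Q.C v') M.Q.T n - M.Q.seqHC (M.Q.C v) M.Q.T n
      = ((M.Q.S n).P.entC (xC (M.xD n) (M.Q.ε n) v') (M.Q.T n)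
        - (M.Q.S n).P.entC (xC (M.xD n) (M.Q.ε n) v) (M.Q.T n)) / lg (M.Q.ε n) := by
    rw [sub_div]
    rfl
  rw [h4, div_le_iff₀ hl0, add_mul, div_mul_cancel₀ _ hl0.ne']
  exact h3

/-- `κ (v'-v) ≤ S(v') - S(v)`  (`Good.growth` at `(v, v'-v)`, `rxl_fin_pred` with `d' = m v'`, `Good.pred` at `v'`) -/
theorem rxl_S_growth (M : Matched γ m) (hM : M.Good) {v v' : ℝ} (hv0 : 0 < v) (hv : v ≤ v') (hv1 : v' < 1) :
    M.κ * (v' - v) ≤ M.Sp v' - M.Sp v := by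
  haveI := uf_neBot
  rcases hv.eq_or_lt with rfl | hlt
  · simp
  have hv'0 : 0 < v' := hv0.trans hlt
  have h1 := ((rxl_S_tendsto M hv'0.le).sub (rxl_S_tendsto M hv0.le)).add (hM.pred v' hv'0 hv1)
  rw [add_zero] at h1
  refine le_of_forall_pos_le_add fun η hη => ?_
  rw [← sub_le_iff_le_add]
  refine ge_of_tendsto h1 ?_
  filter_upwards [hM.growth v (v' - v) hv0 (by linarith) (by linarith) η hη] with n hn
  rw [add_sub_cancel] at hn
  refine hn.trans ?_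
  have hl0 := rx_lg_pos (M.Q.pos n).1 (M.Q.pos n).2
  have h3 := rxl_fin_pred (M.Q.S n).P (M.Q.T n) (M.xD n) (M.Q.pos n).1 (M.Q.pos n).2 (d' := m * v') hv
  have h4 : M.Q.seqHC (M.Q.C v') M.Q.T n - M.Q.seqHC (M.Q.C v) M.Q.T n
        + M.Q.seqHC (M.Rd (m * v')) (M.Q.pr2 M.Q.T (M.Q.C v')) n
      = ((M.Q.S n).P.entC (xC (M.xD n) (M.Q.ε n) v') (M.Q.T n)
        - (M.Q.S n).P.entC (xC (M.xD n) (M.Q.ε n) v) (M.Q.T n)
        + (M.Q.S n).P.entC (xR (M.xD n) (M.Q.ε n) (m * v')) (pair (M.Q.T n) (xC (M.xD n) (M.Q.ε n) v')))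
          / lg (M.Q.ε n) := by
    rw [add_div, sub_div]
    rfl
  rw [h4]
  exact div_le_div_of_nonneg_right h3 hl0.le

/-! ### helpers of the leaf L-RXL-C -/

theorem rxl_c_lg_pos (Q : CSeq) (n : ℕ) : 0 < lg (Q.ε n) := by
  unfold lg
  apply Real.log_pos
  rw [one_div]
  exact (one_lt_inv₀ (Q.pos n).1).mpr (Q.pos n).2

theorem rxl_c_plane_adm (i : ℝ) {u : ℝ} (hu : 0 < u) (hu1 : u < 1) : (plane m i u).Adm m := by
  unfold Cfg.Adm plane
  exact ⟨le_of_eq (by ring), le_of_eq (by ring), le_of_eq (by ring), le_of_eq (by ring), hu, hu1⟩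

theorem rxl_c_le_of_tendsto {x y : ℕ → ℝ} {a b : ℝ} (hx : Tendsto x uf (𝓝 a)) (hy : Tendsto y uf (𝓝 b))
    (h : ∀ᶠ n in uf, x n ≤ y n) : a ≤ b :=
  haveI := uf_neBot
  le_of_tendsto_of_tendsto hx hy h

theorem rxl_c_OL1 (M : Matched γ m) (x : Sym) (n : ℕ) (ω ω' : (M.Q.S n).Ω) :
    M.OL [x] n ω = M.OL [x] n ω' ↔ M.OS x n ω = M.OS x n ω' := by
  simp [Matched.OL]

theorem rxl_c_OL2 (M : Matched γ m) (x y : Sym) (n : ℕ) (ω ω' : (M.Q.S n).Ω) :
    M.OL [x, y] n ω = M.OL [x, y] n ω' ↔ (M.OS x n ω = M.OS x n ω' ∧ M.OS y n ω = M.OS y n ω') := by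
  simp [Matched.OL]

theorem rxl_c_OS_inr (M : Matched γ m) (v₁ v₂ : ℝ) (n : ℕ) (ω ω' : (M.Q.S n).Ω) :
    M.OS (Sum.inr (v₁, v₂)) n ω = M.OS (Sum.inr (v₁, v₂)) n ω' ↔
      (M.Q.C v₁ n ω = M.Q.C v₁ n ω' ∧ M.Rd v₂ n ω = M.Rd v₂ n ω') := by
  show lObs (M.Q.ε n) v₁ v₂ ((M.Q.S n).c ω) (M.R n ω) = lObs (M.Q.ε n) v₁ v₂ ((M.Q.S n).c ω') (M.R n ω') ↔
    (tcell (M.Q.ε n) v₁ ((M.Q.S n).c ω) = tcell (M.Q.ε n) v₁ ((M.Q.S n).c ω') ∧
      tcell (M.Q.ε n) v₂ (M.R n ω) = tcell (M.Q.ε n) v₂ (M.R n ω'))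
  simp [lObs]

theorem rxl_c_OS_inl (M : Matched γ m) (z : Cfg) (n : ℕ) (ω : (M.Q.S n).Ω) : M.OS (Sum.inl z) n ω = M.O z n ω := rfl

theorem rxl_c_pr2 (Q : CSeq) {α β : ℕ → Type} (X : Q.Obs α) (Y : Q.Obs β) (n : ℕ) (ω ω' : (Q.S n).Ω) :
    Q.pr2 X Y n ω = Q.pr2 X Y n ω' ↔ (X n ω = X n ω' ∧ Y n ω = Y n ω') := by
  show (X n ω, Y n ω) = (X n ω', Y n ω') ↔ _
  exact Prod.mk_inj

theorem rxl_c_O_C (M : Matched γ m) (i u : ℝ) (n : ℕ) (ω ω' : (M.Q.S n).Ω)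
    (h : M.O (plane m i u) n ω = M.O (plane m i u) n ω') : M.Q.C u n ω = M.Q.C u n ω' :=
  congrArg (fun x => x.1) h

theorem rxl_c_O_R (M : Matched γ m) (i u : ℝ) (n : ℕ) (ω ω' : (M.Q.S n).Ω)
    (h : M.O (plane m i u) n ω = M.O (plane m i u) n ω') : M.Rd (m * u) n ω = M.Rd (m * u) n ω' :=
  congrArg (fun x => x.2.1) h

/-- **time children** (7.2): the exponent of `C_v` over the base observation -/
theorem rxl_time (hm : 0 < m) (M : Matched γ m) (hM : M.Good) (i : ℝ) {u v : ℝ} (hu : 0 < u) (huv : u ≤ v) (hv : v < 1) :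
    ∃ d, M.Q.Homog (M.Q.C v) (M.O (plane m i u)) d ∧ M.Sp v - M.Sp u ≤ d := by
  have hu1 : u < 1 := lt_of_le_of_lt huv hv
  obtain ⟨d, hd⟩ := (hM.hom [Sum.inr (v, m * u)] [Sum.inl (plane m i u)]
    (by
      intro z hz
      rw [List.mem_singleton] at hz
      subst hz
      exact ⟨by linarith, hv.le, by positivity, by nlinarith⟩)
    (by
      intro z hz
      rw [List.mem_singleton] at hz
      subst hz
      exact rxl_c_plane_adm i hu hu1)).1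
  have hd' : M.Q.Homog (M.Q.C v) (M.O (plane m i u)) d := by
    refine rxl_homog_congr M.Q _ _ _ _ d ?_ ?_ hd
    · intro n ω ω'
      exact rxl_c_OL1 M _ n ω ω'
    · intro n ω ω'
      rw [rxl_c_OL1, rxl_c_OL1, rxl_c_OS_inr, rxl_c_OS_inl, rxl_c_OS_inl]
      constructor
      · rintro ⟨h1, h2⟩
        exact ⟨h1.1, h2⟩
      · rintro ⟨h1, h2⟩
        exact ⟨⟨h1, rxl_c_O_R M i u n ω ω' h2⟩, h2⟩
  refine ⟨d, hd', ?_⟩
  have h2 := ((rxl_S_tendsto M (by linarith : 0 ≤ v)).sub (rxl_S_tendsto M hu.le)).sub (hM.pred u hu hu1)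
  rw [sub_zero] at h2
  refine rxl_c_le_of_tendsto h2 hd'.1 (Filter.Eventually.of_forall fun n => ?_)
  have h3 := rxl_fin_time (M.Q.S n).P (M.Q.T n) (M.xD n) (M.xD_part n) (m := m) (M.Q.pos n).1 (M.Q.pos n).2
    (plane m i u) (v' := v) huv
  have h4 := div_le_div_of_nonneg_right h3 (rxl_c_lg_pos M.Q n).le
  rw [sub_div, sub_div] at h4
  exact h4

/-- **normal children** (7.3): the exponent of `R_d'` over the base observation -/
theorem rxl_norm (hm : 0 < m) (M : Matched γ m) (hM : M.Good) (i : ℝ) {u d' : ℝ} (hu : 0 < u) (hu1 : u < 1) (hd : m * u ≤ d')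
    (hd1 : d' < m) : ∃ d, M.Q.Homog (M.Rd d') (M.O (plane m i u)) d ∧ M.κ / m * (d' - m * u) ≤ d := by
  have hmu : 0 < m * u := by positivity
  obtain ⟨d, hd0⟩ := (hM.hom [Sum.inr (u, d')] [Sum.inl (plane m i u)]
    (by
      intro z hz
      rw [List.mem_singleton] at hz
      subst hz
      exact ⟨hu.le, hu1.le, by linarith, hd1.le⟩)
    (by
      intro z hz
      rw [List.mem_singleton] at hz
      subst hz
      exact rxl_c_plane_adm i hu hu1)).1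
  have hd' : M.Q.Homog (M.Rd d') (M.O (plane m i u)) d := by
    refine rxl_homog_congr M.Q _ _ _ _ d ?_ ?_ hd0
    · intro n ω ω'
      exact rxl_c_OL1 M _ n ω ω'
    · intro n ω ω'
      rw [rxl_c_OL1, rxl_c_OL1, rxl_c_OS_inr, rxl_c_OS_inl, rxl_c_OS_inl]
      constructor
      · rintro ⟨h1, h2⟩
        exact ⟨h1.2, h2⟩
      · rintro ⟨h1, h2⟩
        exact ⟨⟨rxl_c_O_C M i u n ω ω' h2, h1⟩, h2⟩
  refine ⟨d, hd', ?_⟩
  -- the finite inequality, normalised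
  have hfin : ∀ n, M.Q.seqHC (M.Rd d') (M.Q.pr2 M.Q.T (M.Q.C u)) n - M.Q.seqHC (M.Rd (m * u)) (M.Q.pr2 M.Q.T (M.Q.C u)) n
      ≤ M.Q.seqHC (M.Rd d') (M.O (plane m i u)) n := fun n => by
    have h3 := rxl_fin_norm (M.Q.S n).P (M.Q.T n) (M.xD n) (M.xD_part n) (m := m) (M.Q.pos n).1 (M.Q.pos n).2
      (plane m i u) (d' := d') hd
    have h4 := div_le_div_of_nonneg_right h3 (rxl_c_lg_pos M.Q n).le
    rw [sub_div] at h4
    exact h4
  rcases hd.eq_or_lt with he | hlt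
  · -- `d' = m u`: only nonnegativity
    rw [← he, sub_self, mul_zero]
    refine rxl_c_le_of_tendsto tendsto_const_nhds hd'.1 (Filter.Eventually.of_forall fun n => ?_)
    exact div_nonneg (ent_entC_nonneg _ _ _) (rxl_c_lg_pos M.Q n).le
  · have hh : 0 < d' / m - u := by
      rw [sub_pos, lt_div_iff₀ hm]
      linarith
    have hh1 : u + (d' / m - u) < 1 := by
      rw [add_sub_cancel, div_lt_one hm]
      exact hd1
    have hmd : m * (u + (d' / m - u)) = d' := by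
      rw [add_sub_cancel]
      field_simp
    have hκ : M.κ / m * (d' - m * u) = M.κ * (d' / m - u) := by
      field_simp
    rw [hκ]
    refine le_of_forall_pos_sub_le fun η hη => ?_
    have hg := hM.growth u (d' / m - u) hu hh hh1 η hη
    rw [hmd] at hg
    have h2 : Tendsto (fun n => M.κ * (d' / m - u) - η - M.Q.seqHC (M.Rd (m * u)) (M.Q.pr2 M.Q.T (M.Q.C u)) n) uf
        (𝓝 (M.κ * (d' / m - u) - η - 0)) := tendsto_const_nhds.sub (hM.pred u hu hu1)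
    rw [sub_zero] at h2
    refine rxl_c_le_of_tendsto h2 hd'.1 (hg.mono fun n hn => ?_)
    have := hfin n
    linarith

/-- **joint children at tied clocks** (7.3') -/
theorem rxl_joint (M : Matched γ 1) (hM : M.Good) (i : ℝ) {u a b : ℝ} (hu : 0 < u) (hua : u ≤ a) (hab : a ≤ b) (hb : b < 1) :
    ∃ d, M.Q.Homog (M.Q.pr2 (M.Q.C b) (M.Rd b)) (M.Q.pr2 (M.O (plane 1 i u)) (M.Q.pr2 (M.Q.C a) (M.Rd a))) d ∧
      M.Sp b - M.Sp a ≤ d := by
  have ha0 : 0 < a := lt_of_lt_of_le hu hua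
  have ha1 : a < 1 := lt_of_le_of_lt hab hb
  have hu1 : u < 1 := lt_of_le_of_lt hua ha1
  have hb0 : 0 < b := lt_of_lt_of_le ha0 hab
  obtain ⟨d, hd⟩ := (hM.hom [Sum.inr (b, b)] [Sum.inl (plane 1 i u), Sum.inr (a, a)]
    (by
      intro z hz
      rw [List.mem_singleton] at hz
      subst hz
      exact ⟨hb0.le, hb.le, hb0.le, hb.le⟩)
    (by
      intro z hz
      rw [List.mem_cons, List.mem_singleton] at hz
      rcases hz with rfl | rfl
      · exact rxl_c_plane_adm i hu hu1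
      · exact ⟨ha0.le, ha1.le, ha0.le, ha1.le⟩)).1
  have hd' : M.Q.Homog (M.Q.pr2 (M.Q.C b) (M.Rd b)) (M.Q.pr2 (M.O (plane 1 i u)) (M.Q.pr2 (M.Q.C a) (M.Rd a))) d := by
    have hX : ∀ n ω ω', M.OL [Sum.inl (plane 1 i u), Sum.inr (a, a)] n ω = M.OL [Sum.inl (plane 1 i u), Sum.inr (a, a)] n ω' ↔
        M.Q.pr2 (M.O (plane 1 i u)) (M.Q.pr2 (M.Q.C a) (M.Rd a)) n ω =
          M.Q.pr2 (M.O (plane 1 i u)) (M.Q.pr2 (M.Q.C a) (M.Rd a)) n ω' := by
      intro n ω ω'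
      rw [rxl_c_OL2, rxl_c_OS_inr, rxl_c_OS_inl, rxl_c_OS_inl, rxl_c_pr2, rxl_c_pr2]
    refine rxl_homog_congr M.Q _ _ _ _ d hX ?_ hd
    intro n ω ω'
    rw [hX, rxl_c_OL1, rxl_c_OS_inr, rxl_c_pr2 M.Q (M.Q.C b) (M.Rd b)]
  refine ⟨d, hd', ?_⟩
  have hp := hM.pred a ha0 ha1
  rw [one_mul] at hp
  have h2 := ((rxl_S_tendsto M hb0.le).sub (rxl_S_tendsto M ha0.le)).sub hp
  rw [sub_zero] at h2
  refine rxl_c_le_of_tendsto h2 hd'.1 (Filter.Eventually.of_forall fun n => ?_)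
  have h3 := rxl_fin_joint (M.Q.S n).P (M.Q.T n) (M.xD n) (M.xD_part n) (m := 1) (M.Q.pos n).1 (M.Q.pos n).2
    (plane 1 i u) (a := a) (a' := a) (b := b) (b' := b) hua hab (by rw [one_mul]; exact hua)
  have h4 := div_le_div_of_nonneg_right h3 (rxl_c_lg_pos M.Q n).le
  rw [sub_div, sub_div] at h4
  exact h4

/-! ## 3. a point of differentiability -/

/-- increments of `S` on a short block -/
theorem rxl_deriv (S : ℝ → ℝ) (s u : ℝ) (dS : HasDerivAt S s u) (η : ℝ) (hη : 0 < η) :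
    ∃ h₀ : ℝ, 0 < h₀ ∧ ∀ h : ℝ, 0 < h → h < h₀ → ∀ a b : ℝ, 0 ≤ a → a ≤ b → b ≤ 1 →
      (s * (b - a) - η) * h ≤ S (u + b * h) - S (u + a * h) := by
  have h1 := (hasDerivAt_iff_isLittleO_nhds_zero.1 dS).def (half_pos hη)
  obtain ⟨δ, hδ, hb⟩ := Metric.eventually_nhds_iff.1 h1
  refine ⟨δ, hδ, fun h hh hhδ a b ha hab hb1 => ?_⟩
  have key : ∀ c : ℝ, 0 ≤ c → c ≤ 1 → |S (u + c * h) - S u - (c * h) * s| ≤ η / 2 * (c * h) := by
    intro c hc0 hc1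
    have hch0 : 0 ≤ c * h := mul_nonneg hc0 hh.le
    have hch : c * h < δ := lt_of_le_of_lt (by nlinarith) hhδ
    have := hb (y := c * h) (by rw [Real.dist_eq, sub_zero, abs_of_nonneg hch0]; exact hch)
    rw [Real.norm_eq_abs, Real.norm_eq_abs, abs_of_nonneg hch0, smul_eq_mul] at this
    exact this
  have kb := abs_le.1 (key b (ha.trans hab) hb1)
  have ka := abs_le.1 (key a ha (hab.trans hb1))
  have e1 : η / 2 * (b * h) ≤ η / 2 * h := by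
    have : b * h ≤ h := by nlinarith
    nlinarith
  have e2 : η / 2 * (a * h) ≤ η / 2 * h := by
    have : a * h ≤ h := by nlinarith
    nlinarith
  nlinarith [kb.1, ka.2]

/-- `κ ≤ S' ≤ 1`  (statement of `Contracts.rt_s_bounds`) -/
theorem rxl_s_bounds (hm : 0 < m) (M : Matched γ m) (hM : M.Good) (u s : ℝ) (h0 : 0 < u) (h1 : u < 1)
    (dS : HasDerivAt M.Sp s u) : M.κ ≤ s ∧ s ≤ 1 := by
  have ht := dS.tendsto_slope_zero_right
  have hev : ∀ᶠ t in 𝓝[>] (0 : ℝ), t ∈ Set.Ioo 0 (1 - u) := Ioo_mem_nhdsGT (by linarith)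
  constructor
  · refine ge_of_tendsto ht ?_
    filter_upwards [hev] with t ht
    have h := rxl_S_growth M hM (v := u) (v' := u + t) h0 (by linarith [ht.1]) (by linarith [ht.2])
    rw [add_sub_cancel_left] at h
    rw [smul_eq_mul, ← div_eq_inv_mul, le_div_iff₀ ht.1]
    exact h
  · refine le_of_tendsto ht ?_
    filter_upwards [hev] with t ht
    have h := rxl_S_lip M (v := u) (v' := u + t) h0.le (by linarith [ht.1])
    rw [add_sub_cancel_left] at h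
    rw [smul_eq_mul, ← div_eq_inv_mul, div_le_one ht.1]
    exact h

end Claimed.Agent.R255
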