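-- KEEP
import Claimed.Agent.R255.Rate.ExtLab

/-!
# Row 255 (BR paper), Sec. 7, unit U1a EXTRACT, THE COORDINATE SIDE: exponents of the refined data      (architect helper163, for helper34)      prefix `rxc_`

Paper 07-rate-transfer.tex l.236-262: (7.5) `Ent((Q_j)_{t_j} | E, θ) = h ∑ a_j t_j + o(h)`, (7.6) `Mut(P;θ|E) = o(h)`.
Configurations (no `ε`): `z0 = plane m i u`, `xzt t = z0 + h (t, K)`, `xzK = z0 + h (0, K)`, `xz1 = z0 + h (1,1,1,1,0)`, advanced clock `vK = u + h K`.   They are `b.z0, b.zt t, b.zK, b.z1` of `ExtGeo.lean` for `b = M.xB i u h K n`.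
§1  FINITE (one law):  `H(O z | T) = H(label | T)`;   `H(O z' | O z) = I(T;O z') - I(T;O z)` at equal clocks;
      `|H(O(zt) | lab_K, O z0) - (I(T;O zt) - I(T;O zK))| ≤ 2 log 15⁶`,   `I(O z1 ; lab_K | O z0) ≤ [I(z1) - I(z0)] - [I(zt 1) - I(zK)] + 2 log 15⁶`   (frame lemmas `rx_frame_fwd/bwd` = ambiguity `15⁶`).
§2  SEQUENCE: `seqI T (O z)` is bounded, tends to `M.f z`; the homogeneous exponent of `O(zt) | lab_K, O z0` IS `f(zt) - f(zK)`; the conditional information is eventually `≤` the `f`-combination `+ η`.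
§3  TRACE: at a trace point there are arbitrarily small `h` with `|f(zt t) - f(zK) - h ∑ a_j t_j| ≤ η h` for all `t ∈ [0,1]⁴` and information combination `≤ η h`.
LEAVES: L-RXC-A (§1), L-RXC-B (§2), L-RXC-C (§3).
-/

set_option autoImplicit false

namespace Claimed.Agent.R255

open Filter Topology
open Classical
open FLaw

/-! ## configurations -/

/-- side conditions on the block parameters (`BPar.OK` without `ε`) -/
structure XOK (m i u h K : ℝ) : Prop where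
  m0 : 0 < m
  i0 : 0 ≤ i
  u0 : 0 < u
  h0 : 0 < h
  K1 : 1 ≤ K
  mK : 1 ≤ m * K
  uK : u + h * K < 1

/-- data depths raised by `h t_j` at the advanced label -/
def xzt (m i u h K : ℝ) (t : Dep) : Cfg := (plane m i u).shift ⟨t.X, t.Y, t.W, t.Z, K⟩ h

/-- unrefined data at the advanced label -/
def xzK (m i u h K : ℝ) : Cfg := xzt m i u h K ⟨0, 0, 0, 0⟩

/-- all data depths raised by `h` at the base label -/
def xz1 (m i u h : ℝ) : Cfg := (plane m i u).shift ⟨1, 1, 1, 1, 0⟩ h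

theorem rxc_ok {m i u h K ε : ℝ} (hx : XOK m i u h K) (h0 : 0 < ε) (h1 : ε < 1) : (⟨m, ε, i, u, h, K⟩ : BPar).OK :=
  ⟨hx.m0, h0, h1, hx.i0, hx.u0, hx.h0, hx.K1, hx.mK, hx.uK⟩

theorem rxc_zt (m ε i u h K : ℝ) (t : Dep) : (⟨m, ε, i, u, h, K⟩ : BPar).zt t = xzt m i u h K t := rfl

theorem rxc_zK (m ε i u h K : ℝ) : (⟨m, ε, i, u, h, K⟩ : BPar).zK = xzK m i u h K := rfl

theorem rxc_z1 (m ε i u h K : ℝ) : (⟨m, ε, i, u, h, K⟩ : BPar).z1 = xz1 m i u h :=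
  (rx_z1_eq ⟨m, ε, i, u, h, K⟩).symm

/-! ## 1. one finite law -/

section fin

variable {Ω : Type} [Fintype Ω] {ι : Type}

/-- the label at independent depths -/
noncomputable def xL (D : Ω → Dat) (ε v₁ v₂ : ℝ) : Ω → ℤ × ℤ × ℤ × ℤ × ℤ × ℤ := fun ω => (D ω).lab ε v₁ v₂

/-- `H(O z | T) = H(label | T)`   (`rxl_fin_part`, `rx_lab_iff`, `ent_entC_congr`) -/
theorem rxc_fin_entT (P : FLaw Ω) (T : Ω → ι) (D : Ω → Dat) (hT : xPart T D) (m ε : ℝ) (z : Cfg) :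
    P.entC (xO D m ε z) T = P.entC (xL D ε z.v (m * z.v)) T := by
  refine ent_entC_congr P _ _ T T (fun _ _ _ _ => Iff.rfl) fun ω ω' _ _ hTT => ?_
  obtain ⟨hV, hA⟩ := hT ω ω' hTT
  constructor
  · intro h
    exact rx_label_of_obs h
  · intro h
    obtain ⟨h1, h2⟩ := rx_lab_iff.1 h
    exact rx_obs_of_label m ε z hV hA h1 h2

/-- equal clocks, finer data: `H(O z' | O z) = I(T;O z') - I(T;O z)`.
`I(T;O) = H(O) - H(O|T)` (`ent_mi_comm`, `ent_mi_eq`), `H(O z'|T) = H(O z|T)` (`rxc_fin_entT`), `H(O z', O z) = H(O z')` (`rx_obs_nest`, `ent_pair_of_ker`). -/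
theorem rxc_fin_diff (P : FLaw Ω) (T : Ω → ι) (D : Ω → Dat) (hT : xPart T D) {m ε : ℝ} (h0 : 0 < ε) (h1 : ε < 1) {z z' : Cfg}
    (hv : z.v = z'.v) (hX : z.LX ≤ z'.LX) (hY : z.LY ≤ z'.LY) (hW : z.LW ≤ z'.LW) (hZ : z.LZ ≤ z'.LZ) :
    P.entC (xO D m ε z') (xO D m ε z) = P.mi T (xO D m ε z') - P.mi T (xO D m ε z) := by
  have e1 : P.mi T (xO D m ε z') = P.ent (xO D m ε z') - P.entC (xO D m ε z') T := by rw [ent_mi_comm, ent_mi_eq]
  have e2 : P.mi T (xO D m ε z) = P.ent (xO D m ε z) - P.entC (xO D m ε z) T := by rw [ent_mi_comm, ent_mi_eq]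
  have e3 : P.entC (xO D m ε z') T = P.entC (xO D m ε z) T := by
    rw [rxc_fin_entT P T D hT, rxc_fin_entT P T D hT, hv]
  have e4 : P.ent (pair (xO D m ε z') (xO D m ε z)) = P.ent (xO D m ε z') :=
    ent_pair_of_ker P _ _ fun ω ω' _ _ h => rx_obs_nest h0 h1 hv hX hY hW hZ h
  rw [e1, e2, e3]
  unfold FLaw.entC
  rw [e4]
  ring

/-- the pair (advanced label, coarse frame) and the fine frame determine one another up to `15⁶` values (`rx_frame_fwd`, `rx_frame_bwd`, `rx_label_of_obs`, `rx_nval_cl6`, `rx_nval_comp`) -/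
theorem rxc_fin_amb (P : FLaw Ω) (D : Ω → Dat) {m ε : ℝ} (hm : 0 ≤ m) (h0 : 0 < ε) (h1 : ε < 1) {z z' : Cfg}
    (hz : FramePair m z z') :
    P.Amb (pair (xL D ε z'.v (m * z'.v)) (xO D m ε z)) (xO D m ε z') ((15 : ℝ) ^ 6) := by
  have e15 : ((2 * ((7 : ℕ) : ℝ) + 1)) ^ 6 = (15 : ℝ) ^ 6 := by norm_num
  constructor
  · have h := rx_nval_cl6 P (xO D m ε z') (pair (xL D ε z'.v (m * z'.v)) (xO D m ε z)) 7 (fun ω ω' _ _ hA => by
      have hA' := Prod.mk.inj hA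
      exact rx_frame_fwd hm h0 h1 hz hA'.1 hA'.2)
    rw [e15] at h
    exact h
  · have h := rx_nval_cl6 P (xO D m ε z) (xO D m ε z') 7 (fun ω ω' _ _ hA => rx_frame_bwd hm h0 h1 hz hA)
    rw [e15] at h
    refine rx_nval_comp P (xO D m ε z) _ (xO D m ε z') h fun ω ω' _ _ hA hB => ?_
    exact Prod.ext (rx_label_of_obs hA) hB

/-- (7.5), finite form.  `X = O(zt)`, `L = lab_K`, `E = O z0`, `Kk = O zK`:  `H(X|L,E) = H(X,(L,E)) - H(L,E)`;  `H(X) ≤ H(X,(L,E)) ≤ H(X) + log 15⁶` (`X` determines `Kk` and `L`; `rxc_fin_amb`);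
`|H(L,E) - H(Kk)| ≤ log 15⁶` (`rx_ent_amb`);   `H(X) - H(Kk) = H(X|Kk)` = `rxc_fin_diff`. -/
theorem rxc_fin_coord (P : FLaw Ω) (T : Ω → ι) (D : Ω → Dat) (hT : xPart T D) {m i u h K ε : ℝ} (hx : XOK m i u h K)
    (h0 : 0 < ε) (h1 : ε < 1) {t : Dep} (ht : t.In01) :
    |P.entC (xO D m ε (xzt m i u h K t)) (pair (xL D ε (u + h * K) (m * (u + h * K))) (xO D m ε (plane m i u)))
      - (P.mi T (xO D m ε (xzt m i u h K t)) - P.mi T (xO D m ε (xzK m i u h K)))| ≤ 2 * Real.log ((15 : ℝ) ^ 6) := by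
  have hb := rxc_ok hx h0 h1
  have hfp : FramePair m (plane m i u) (xzK m i u h K) := rx_fp_0K hb
  have hamb : P.Amb (pair (xL D ε (u + h * K) (m * (u + h * K))) (xO D m ε (plane m i u))) (xO D m ε (xzK m i u h K))
      ((15 : ℝ) ^ 6) := rxc_fin_amb P D (z := plane m i u) (z' := xzK m i u h K) hx.m0.le h0 h1 hfp
  obtain ⟨tX0, tX1, tY0, tY1, tW0, tW1, tZ0, tZ1⟩ := ht
  have hh := hx.h0
  have nest : ∀ ω ω', xO D m ε (xzt m i u h K t) ω = xO D m ε (xzt m i u h K t) ω' →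
      xO D m ε (xzK m i u h K) ω = xO D m ε (xzK m i u h K) ω' := fun ω ω' hO =>
    rx_obs_nest h0 h1 (z := xzK m i u h K) (z' := xzt m i u h K t) rfl
      (by simp only [xzK, xzt, Cfg.shift]; nlinarith) (by simp only [xzK, xzt, Cfg.shift]; nlinarith)
      (by simp only [xzK, xzt, Cfg.shift]; nlinarith) (by simp only [xzK, xzt, Cfg.shift]; nlinarith) hO
  have hdiff := rxc_fin_diff P T D hT (m := m) h0 h1 (z := xzK m i u h K) (z' := xzt m i u h K t) rfl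
      (by simp only [xzK, xzt, Cfg.shift]; nlinarith) (by simp only [xzK, xzt, Cfg.shift]; nlinarith)
      (by simp only [xzK, xzt, Cfg.shift]; nlinarith) (by simp only [xzK, xzt, Cfg.shift]; nlinarith)
  rw [← hdiff]
  have e4 : P.ent (pair (xO D m ε (xzt m i u h K t)) (xO D m ε (xzK m i u h K))) = P.ent (xO D m ε (xzt m i u h K t)) :=
    ent_pair_of_ker P _ _ fun ω ω' _ _ hO => nest ω ω' hO
  have a1 := ent_le_pair_left P (xO D m ε (xzt m i u h K t))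
    (pair (xL D ε (u + h * K) (m * (u + h * K))) (xO D m ε (plane m i u)))
  have hn : P.NVal (fun _ => True) (pair (xL D ε (u + h * K) (m * (u + h * K))) (xO D m ε (plane m i u)))
      (xO D m ε (xzt m i u h K t)) ((15 : ℝ) ^ 6) :=
    rx_nval_anti P _ _ _ hamb.2 fun ω ω' _ _ hO => nest ω ω' hO
  have a2 := rx_ent_pair_le_of_nval P _ _ hn
  rw [ent_pair_comm] at a2
  have a3 := abs_le.1 (rx_ent_amb P _ _ hamb)
  have hlog : 0 ≤ Real.log ((15 : ℝ) ^ 6) := Real.log_nonneg (by norm_num)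
  unfold FLaw.entC
  rw [e4, abs_le]
  constructor <;> linarith [a3.1, a3.2]

/-- (7.6), finite form.  `I(X;L|E) = H(X|E) - H(X|L,E)`;  `H(X|E)` = `rxc_fin_diff` (`z0 → z1`);
`H(X|L,E) = H(X,L,E) - H(L,E) ≥ [H(O(zt 1)) - log 15⁶] - [H(O zK) + log 15⁶]`  (`rxc_fin_amb` for `rx_fp_1` and `rx_fp_0K`). -/
theorem rxc_fin_info (P : FLaw Ω) (T : Ω → ι) (D : Ω → Dat) (hT : xPart T D) {m i u h K ε : ℝ} (hx : XOK m i u h K)
    (h0 : 0 < ε) (h1 : ε < 1) :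
    P.miC (xO D m ε (xz1 m i u h)) (xL D ε (u + h * K) (m * (u + h * K))) (xO D m ε (plane m i u))
      ≤ (P.mi T (xO D m ε (xz1 m i u h)) - P.mi T (xO D m ε (plane m i u)))
        - (P.mi T (xO D m ε (xzt m i u h K ⟨1, 1, 1, 1⟩)) - P.mi T (xO D m ε (xzK m i u h K)))
        + 2 * Real.log ((15 : ℝ) ^ 6) := by
  have hb := rxc_ok hx h0 h1
  have hfp : FramePair m (plane m i u) (xzK m i u h K) := rx_fp_0K hb
  have hamb : P.Amb (pair (xL D ε (u + h * K) (m * (u + h * K))) (xO D m ε (plane m i u))) (xO D m ε (xzK m i u h K))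
      ((15 : ℝ) ^ 6) := rxc_fin_amb P D (z := plane m i u) (z' := xzK m i u h K) hx.m0.le h0 h1 hfp
  have hfp1 : FramePair m (xz1 m i u h) (xzt m i u h K ⟨1, 1, 1, 1⟩) := by
    have := rx_fp_1 hb
    rwa [rxc_z1, rxc_zt] at this
  have hamb1 : P.Amb (pair (xL D ε (u + h * K) (m * (u + h * K))) (xO D m ε (xz1 m i u h)))
      (xO D m ε (xzt m i u h K ⟨1, 1, 1, 1⟩)) ((15 : ℝ) ^ 6) :=
    rxc_fin_amb P D (z := xz1 m i u h) (z' := xzt m i u h K ⟨1, 1, 1, 1⟩) hx.m0.le h0 h1 hfp1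
  have hh := hx.h0
  have hdiffK := rxc_fin_diff P T D hT (m := m) h0 h1 (z := xzK m i u h K) (z' := xzt m i u h K ⟨1, 1, 1, 1⟩) rfl
      (by simp only [xzK, xzt, Cfg.shift]; nlinarith) (by simp only [xzK, xzt, Cfg.shift]; nlinarith)
      (by simp only [xzK, xzt, Cfg.shift]; nlinarith) (by simp only [xzK, xzt, Cfg.shift]; nlinarith)
  have hdiff0 := rxc_fin_diff P T D hT (m := m) h0 h1 (z := plane m i u) (z' := xz1 m i u h)
      (by simp only [xz1, Cfg.shift]; ring)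
      (by simp only [xz1, Cfg.shift]; nlinarith) (by simp only [xz1, Cfg.shift]; nlinarith)
      (by simp only [xz1, Cfg.shift]; nlinarith) (by simp only [xz1, Cfg.shift]; nlinarith)
  rw [← hdiffK, ← hdiff0, ent_miC_eq]
  have e4 : P.ent (pair (xO D m ε (xzt m i u h K ⟨1, 1, 1, 1⟩)) (xO D m ε (xzK m i u h K)))
      = P.ent (xO D m ε (xzt m i u h K ⟨1, 1, 1, 1⟩)) :=
    ent_pair_of_ker P _ _ fun ω ω' _ _ hO =>
      rx_obs_nest h0 h1 (z := xzK m i u h K) (z' := xzt m i u h K ⟨1, 1, 1, 1⟩) rfl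
        (by simp only [xzK, xzt, Cfg.shift]; nlinarith) (by simp only [xzK, xzt, Cfg.shift]; nlinarith)
        (by simp only [xzK, xzt, Cfg.shift]; nlinarith) (by simp only [xzK, xzt, Cfg.shift]; nlinarith) hO
  have a3 := abs_le.1 (rx_ent_amb P _ _ hamb)
  have a4 := abs_le.1 (rx_ent_amb P _ _ hamb1)
  have a5 : P.ent (pair (xL D ε (u + h * K) (m * (u + h * K))) (xO D m ε (xz1 m i u h)))
      ≤ P.ent (pair (xO D m ε (xz1 m i u h)) (pair (xL D ε (u + h * K) (m * (u + h * K))) (xO D m ε (plane m i u)))) :=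
    ent_mono_ker P _ _ fun ω ω' _ _ hO => by
      have h1 := Prod.mk.inj hO
      have h2 := Prod.mk.inj h1.2
      exact Prod.ext h2.1 h1.1
  have e5 : P.entC (xO D m ε (xz1 m i u h)) (pair (xL D ε (u + h * K) (m * (u + h * K))) (xO D m ε (plane m i u)))
      = P.ent (pair (xO D m ε (xz1 m i u h)) (pair (xL D ε (u + h * K) (m * (u + h * K))) (xO D m ε (plane m i u))))
        - P.ent (pair (xL D ε (u + h * K) (m * (u + h * K))) (xO D m ε (plane m i u))) := rfl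
  have e6 : P.entC (xO D m ε (xzt m i u h K ⟨1, 1, 1, 1⟩)) (xO D m ε (xzK m i u h K))
      = P.ent (pair (xO D m ε (xzt m i u h K ⟨1, 1, 1, 1⟩)) (xO D m ε (xzK m i u h K))) - P.ent (xO D m ε (xzK m i u h K)) := rfl
  rw [e5, e6, e4]
  linarith [a3.1, a3.2, a4.1, a4.2]

/-- the alphabet of an observation: six prefixes of reals bounded by `(B+2)³` (`rxl_fin_alphabet`, `ent_pair_le`; `|trep| ≤ B + 1`) -/
theorem rxc_fin_alphabet (P : FLaw Ω) (D : Ω → Dat) {m ε B : ℝ} (hm : 0 ≤ m) (h0 : 0 < ε) (h1 : ε < 1) (hB : 0 ≤ B) (z : Cfg)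
    (hz : 0 ≤ z.v ∧ 0 ≤ z.LX ∧ 0 ≤ z.LY ∧ 0 ≤ z.LW ∧ 0 ≤ z.LZ)
    (hD : ∀ ω, P.p ω ≠ 0 → |(D ω).V.1| ≤ B ∧ |(D ω).V.2| ≤ B ∧ |(D ω).A.1| ≤ B ∧ |(D ω).A.2| ≤ B ∧ |(D ω).c| ≤ B ∧ |(D ω).R| ≤ B) :
    P.ent (xO D m ε z) ≤ (z.v + m * z.v + z.LX + z.LY + z.LW + z.LZ) * lg ε + 6 * Real.log (4 * (B + 2) ^ 3 + 4) := by
  obtain ⟨hv, hLX, hLY, hLW, hLZ⟩ := hz
  have hB3 : 0 ≤ (B + 2) ^ 3 := by positivity
  have hgw : ∀ t : ℝ, gw ε t ≤ 1 := fun t => by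
    unfold gw
    exact inv_le_one_of_one_le₀ (one_le_pow₀ (by norm_num))
  have htrep : ∀ t x : ℝ, |x| ≤ B → |trep ε t x| ≤ B + 1 := fun t x hx => by
    have a1 := rx_trep_le ε t x
    have a2 := rx_lt_trep ε t x
    have a3 := hgw t
    have a4 := abs_le.1 hx
    rw [abs_le]
    constructor <;> linarith [a4.1, a4.2]
  have hmul : ∀ a b A' B' : ℝ, |a| ≤ A' → |b| ≤ B' → |a * b| ≤ A' * B' := fun a b A' B' ha hb => by
    rw [abs_mul]
    exact mul_le_mul ha hb (abs_nonneg _) ((abs_nonneg _).trans ha)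
  have bc : ∀ ω, P.p ω ≠ 0 → |(D ω).c| ≤ (B + 2) ^ 3 := fun ω hω => by
    have := (hD ω hω).2.2.2.2.1
    nlinarith [sq_nonneg (B + 2), sq_nonneg B]
  have bR : ∀ ω, P.p ω ≠ 0 → |(D ω).R| ≤ (B + 2) ^ 3 := fun ω hω => by
    have := (hD ω hω).2.2.2.2.2
    nlinarith [sq_nonneg (B + 2), sq_nonneg B]
  have bX : ∀ ω, P.p ω ≠ 0 → |(D ω).V.1| ≤ (B + 2) ^ 3 := fun ω hω => by
    have := (hD ω hω).1
    nlinarith [sq_nonneg (B + 2), sq_nonneg B]
  have bY0 : ∀ ω, P.p ω ≠ 0 → |(D ω).fY ε z.v| ≤ B * (B + 2) := fun ω hω => by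
    obtain ⟨h1, h2, h3, h4, h5, h6⟩ := hD ω hω
    have a1 := hmul _ _ _ _ (htrep z.v _ h5) h1
    unfold Dat.fY
    refine (abs_add_le _ _).trans ?_
    nlinarith
  have bY : ∀ ω, P.p ω ≠ 0 → |(D ω).fY ε z.v| ≤ (B + 2) ^ 3 := fun ω hω => by
    have := bY0 ω hω
    nlinarith [sq_nonneg (B + 2), sq_nonneg B]
  have bW : ∀ ω, P.p ω ≠ 0 → |(D ω).fW m ε z.v| ≤ (B + 2) ^ 3 := fun ω hω => by
    obtain ⟨h1, h2, h3, h4, h5, h6⟩ := hD ω hω
    have a1 := hmul _ _ _ _ (htrep (m * z.v) _ h6) h1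
    unfold Dat.fW
    refine (abs_sub _ _).trans ?_
    nlinarith [sq_nonneg (B + 2), sq_nonneg B]
  have bZ : ∀ ω, P.p ω ≠ 0 → |(D ω).fZ m ε z.v| ≤ (B + 2) ^ 3 := fun ω hω => by
    obtain ⟨h1, h2, h3, h4, h5, h6⟩ := hD ω hω
    have a1 := hmul _ _ _ _ (htrep z.v _ h5) h2
    have a2 := hmul _ _ _ _ (htrep (m * z.v) _ h6) (bY0 ω hω)
    have e : (D ω).fZ m ε z.v = (D ω).A.2 + trep ε z.v (D ω).c * (D ω).V.2 - trep ε (m * z.v) (D ω).R * (D ω).fY ε z.v := rfl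
    rw [e]
    refine (abs_sub _ _).trans ((add_le_add (abs_add_le _ _) le_rfl).trans ?_)
    nlinarith [sq_nonneg (B + 2), sq_nonneg B]
  have hmv : 0 ≤ m * z.v := mul_nonneg hm hv
  have e1 := rxl_fin_alphabet P (fun ω => (D ω).c) h0 h1 hv hB3 bc
  have e2 := rxl_fin_alphabet P (fun ω => (D ω).R) h0 h1 hmv hB3 bR
  have e3 := rxl_fin_alphabet P (fun ω => (D ω).V.1) h0 h1 hLX hB3 bX
  have e4 := rxl_fin_alphabet P (fun ω => (D ω).fY ε z.v) h0 h1 hLY hB3 bY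
  have e5 := rxl_fin_alphabet P (fun ω => (D ω).fW m ε z.v) h0 h1 hLW hB3 bW
  have e6 := rxl_fin_alphabet P (fun ω => (D ω).fZ m ε z.v) h0 h1 hLZ hB3 bZ
  have p5 := ent_pair_le P (fun ω => tcell ε z.LW ((D ω).fW m ε z.v)) (fun ω => tcell ε z.LZ ((D ω).fZ m ε z.v))
  have p4 := ent_pair_le P (fun ω => tcell ε z.LY ((D ω).fY ε z.v))
    (pair (fun ω => tcell ε z.LW ((D ω).fW m ε z.v)) (fun ω => tcell ε z.LZ ((D ω).fZ m ε z.v)))
  have p3 := ent_pair_le P (fun ω => tcell ε z.LX (D ω).V.1) (pair (fun ω => tcell ε z.LY ((D ω).fY ε z.v))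
    (pair (fun ω => tcell ε z.LW ((D ω).fW m ε z.v)) (fun ω => tcell ε z.LZ ((D ω).fZ m ε z.v))))
  have p2 := ent_pair_le P (fun ω => tcell ε (m * z.v) (D ω).R) (pair (fun ω => tcell ε z.LX (D ω).V.1)
    (pair (fun ω => tcell ε z.LY ((D ω).fY ε z.v))
    (pair (fun ω => tcell ε z.LW ((D ω).fW m ε z.v)) (fun ω => tcell ε z.LZ ((D ω).fZ m ε z.v)))))
  have p1 := ent_pair_le P (fun ω => tcell ε z.v (D ω).c) (pair (fun ω => tcell ε (m * z.v) (D ω).R)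
    (pair (fun ω => tcell ε z.LX (D ω).V.1) (pair (fun ω => tcell ε z.LY ((D ω).fY ε z.v))
    (pair (fun ω => tcell ε z.LW ((D ω).fW m ε z.v)) (fun ω => tcell ε z.LZ ((D ω).fZ m ε z.v))))))
  have e0 : xO D m ε z = pair (fun ω => tcell ε z.v (D ω).c) (pair (fun ω => tcell ε (m * z.v) (D ω).R)
    (pair (fun ω => tcell ε z.LX (D ω).V.1) (pair (fun ω => tcell ε z.LY ((D ω).fY ε z.v))
    (pair (fun ω => tcell ε z.LW ((D ω).fW m ε z.v)) (fun ω => tcell ε z.LZ ((D ω).fZ m ε z.v)))))) := rfl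
  rw [e0]
  linarith

end fin

/-! ## 2. the matched process -/

variable {γ m : ℝ}

theorem Matched.xD_L (M : Matched γ m) (n : ℕ) (v₁ v₂ : ℝ) :
    M.OS (Sum.inr (v₁, v₂)) n = xL (M.xD n) (M.Q.ε n) v₁ v₂ := rfl

theorem rxc_lg_pos (Q : CSeq) (n : ℕ) : 0 < lg (Q.ε n) := by
  unfold lg
  apply Real.log_pos
  rw [lt_div_iff₀ (Q.pos n).1, one_mul]
  exact (Q.pos n).2

/-- the normalised informations are bounded (`0 ≤ I ≤ H(O z)`, `rxc_fin_alphabet` with `B = max Q.B RB`, `Q.bdd`, `M.Rbd`) -/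
theorem rxc_ubdd_I (hm : 0 ≤ m) (M : Matched γ m) (z : Cfg) (hz : 0 ≤ z.v ∧ 0 ≤ z.LX ∧ 0 ≤ z.LY ∧ 0 ≤ z.LW ∧ 0 ≤ z.LZ) :
    UBdd (M.Q.seqI M.Q.T (M.O z)) := by
  set B : ℝ := max (max M.Q.B M.RB) 0 with hBdef
  have hB : 0 ≤ B := le_max_right _ _
  have hQB : M.Q.B ≤ B := (le_max_left _ _).trans (le_max_left _ _)
  have hRB : M.RB ≤ B := (le_max_right _ _).trans (le_max_left _ _)
  set c : ℝ := 6 * Real.log (4 * (B + 2) ^ 3 + 4) with hc
  have hc0 : 0 ≤ c := by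
    have : (1 : ℝ) ≤ 4 * (B + 2) ^ 3 + 4 := by
      have : 0 ≤ (B + 2) ^ 3 := by positivity
      linarith
    have := Real.log_nonneg this
    positivity
  set s : ℝ := z.v + m * z.v + z.LX + z.LY + z.LW + z.LZ with hs
  refine UBdd.of_le 0 (s + c) ?_
  have hlg : ∀ᶠ n in uf, 1 ≤ lg (M.Q.ε n) := (rxl_lg_tendsto M.Q).eventually_ge_atTop 1
  filter_upwards [M.Q.bdd, hlg] with n hn hl
  have hl0 : 0 < lg (M.Q.ε n) := rxc_lg_pos M.Q n
  have h1 : 0 ≤ (M.Q.S n).P.mi (M.Q.T n) (M.O z n) := ent_mi_nonneg _ _ _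
  have h2 : (M.Q.S n).P.mi (M.Q.T n) (M.O z n) ≤ (M.Q.S n).P.ent (M.O z n) := ent_mi_le_right _ _ _
  have h3 : (M.Q.S n).P.ent (M.O z n) ≤ s * lg (M.Q.ε n) + c := by
    rw [M.xD_O]
    refine rxc_fin_alphabet _ _ hm (M.Q.pos n).1 (M.Q.pos n).2 hB z hz ?_
    intro ω hω
    have hp : 0 < (M.Q.S n).P.p ω := lt_of_le_of_ne ((M.Q.S n).P.nonneg ω) (Ne.symm hω)
    obtain ⟨a1, a2, a3, a4, a5⟩ := hn ω hp
    exact ⟨a1.trans hQB, a2.trans hQB, a3.trans hQB, a4.trans hQB, a5.trans hQB, (M.Rbd n ω).trans hRB⟩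
  constructor
  · exact div_nonneg h1 hl0.le
  · show (M.Q.S n).P.mi (M.Q.T n) (M.O z n) / lg (M.Q.ε n) ≤ s + c
    rw [div_le_iff₀ hl0]
    have : c ≤ c * lg (M.Q.ε n) := le_mul_of_one_le_right hc0 hl
    nlinarith

theorem rxc_f_tendsto (hm : 0 ≤ m) (M : Matched γ m) (z : Cfg) (hz : 0 ≤ z.v ∧ 0 ≤ z.LX ∧ 0 ≤ z.LY ∧ 0 ≤ z.LW ∧ 0 ≤ z.LZ) :
    Tendsto (M.Q.seqI M.Q.T (M.O z)) uf (𝓝 (M.f z)) :=
  ulim_tendsto _ (rxc_ubdd_I hm M z hz)

/-- all depths of the block configurations are nonnegative -/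
theorem rxc_depths {i u h K : ℝ} (hx : XOK m i u h K) :
    (∀ t : Dep, t.In01 → 0 ≤ (xzt m i u h K t).v ∧ 0 ≤ (xzt m i u h K t).LX ∧ 0 ≤ (xzt m i u h K t).LY ∧
      0 ≤ (xzt m i u h K t).LW ∧ 0 ≤ (xzt m i u h K t).LZ) ∧
    (0 ≤ (xz1 m i u h).v ∧ 0 ≤ (xz1 m i u h).LX ∧ 0 ≤ (xz1 m i u h).LY ∧ 0 ≤ (xz1 m i u h).LW ∧ 0 ≤ (xz1 m i u h).LZ) ∧
    (0 ≤ (plane m i u).v ∧ 0 ≤ (plane m i u).LX ∧ 0 ≤ (plane m i u).LY ∧ 0 ≤ (plane m i u).LW ∧ 0 ≤ (plane m i u).LZ) := by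
  obtain ⟨m0, i0, u0, h0, K1, mK, uK⟩ := hx
  have hmu : 0 ≤ m * u := (mul_pos m0 u0).le
  have hK0 : 0 ≤ K := by linarith
  have h1mu : 0 ≤ (1 + m) * u := by positivity
  refine ⟨fun t ht => ?_, ?_, ?_⟩
  · obtain ⟨x0, -, y0, -, w0, -, z0, -⟩ := ht
    simp only [xzt, Cfg.shift, plane]
    refine ⟨by positivity, by positivity, by positivity, by positivity, by positivity⟩
  · simp only [xz1, Cfg.shift, plane]
    refine ⟨by positivity, by positivity, by positivity, by positivity, by positivity⟩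
  · simp only [plane]
    refine ⟨by positivity, by positivity, by positivity, by positivity, by positivity⟩

/-- **(7.5)**: the homogeneous exponent of the refined data at the advanced label.
`Good.hom [inl (xzt t)] [inr (vK, m vK), inl z0]` (`rx_adm`), `rxl_homog_congr` removes the lists; the limit of `seqHC` is computed by `rxc_fin_coord`, `rxc_f_tendsto`, `rxl_const_div`. -/
theorem rxc_coord (M : Matched γ m) (hM : M.Good) {i u h K : ℝ} (hx : XOK m i u h K) {t : Dep} (ht : t.In01) :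
    M.Q.Homog (M.O (xzt m i u h K t)) (M.Q.pr2 (M.OS (Sum.inr (u + h * K, m * (u + h * K)))) (M.O (plane m i u)))
      (M.f (xzt m i u h K t) - M.f (xzK m i u h K)) := by
  have hm0 : 0 ≤ m := hx.m0.le
  have hadm := rx_adm (rxc_ok hx (ε := 1 / 2) (by norm_num) (by norm_num))
  have hvK0 : 0 ≤ u + h * K := by
    have := hx.u0; have := hx.h0; have := hx.K1
    have : 0 ≤ h * K := by positivity
    linarith
  obtain ⟨⟨d, hd⟩, -⟩ := hM.hom [Sum.inl (xzt m i u h K t)]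
    [Sum.inr (u + h * K, m * (u + h * K)), Sum.inl (plane m i u)]
    (by
      intro z hz
      rw [List.mem_singleton] at hz
      subst hz
      exact hadm.2.2 t ht)
    (by
      intro z hz
      simp only [List.mem_cons, List.not_mem_nil, or_false] at hz
      rcases hz with rfl | rfl
      · refine ⟨hvK0, hx.uK.le, mul_nonneg hm0 hvK0, ?_⟩
        have := hx.uK
        nlinarith [hx.m0]
      · exact hadm.1)
  have hd' : M.Q.Homog (M.O (xzt m i u h K t))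
      (M.Q.pr2 (M.OS (Sum.inr (u + h * K, m * (u + h * K)))) (M.O (plane m i u))) d := by
    refine rxl_homog_congr M.Q _ _ _ _ d ?_ ?_ hd
    · intro n ω ω'
      simp only [Matched.OL, List.map_cons, List.map_nil, List.cons.injEq, and_true, CSeq.pr2, FLaw.pair,
        Prod.mk.injEq]
      rfl
    · intro n ω ω'
      simp only [Matched.OL, List.map_cons, List.map_nil, List.cons.injEq, and_true, CSeq.pr2, FLaw.pair,
        Prod.mk.injEq]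
      rfl
  have hdep := rxc_depths hx
  have h00 : (⟨0, 0, 0, 0⟩ : Dep).In01 := by simp [Dep.In01]
  have l1 := rxc_f_tendsto hm0 M _ (hdep.1 t ht)
  have l2 : Tendsto (M.Q.seqI M.Q.T (M.O (xzK m i u h K))) uf (𝓝 (M.f (xzK m i u h K))) :=
    rxc_f_tendsto hm0 M _ (hdep.1 _ h00)
  have l3 := rxl_const_div M.Q (2 * Real.log ((15 : ℝ) ^ 6))
  have hlim : Tendsto (M.Q.seqHC (M.O (xzt m i u h K t))
      (M.Q.pr2 (M.OS (Sum.inr (u + h * K, m * (u + h * K)))) (M.O (plane m i u)))) uf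
      (𝓝 (M.f (xzt m i u h K t) - M.f (xzK m i u h K))) := by
    have hdiff : Tendsto (fun n => M.Q.seqHC (M.O (xzt m i u h K t))
        (M.Q.pr2 (M.OS (Sum.inr (u + h * K, m * (u + h * K)))) (M.O (plane m i u))) n
        - (M.Q.seqI M.Q.T (M.O (xzt m i u h K t)) n - M.Q.seqI M.Q.T (M.O (xzK m i u h K)) n)) uf (𝓝 0) := by
      refine squeeze_zero_norm (fun n => ?_) l3
      have hl0 := rxc_lg_pos M.Q n
      have hfin := rxc_fin_coord (M.Q.S n).P (M.Q.T n) (M.xD n) (M.xD_part n) hx (M.Q.pos n).1 (M.Q.pos n).2 ht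
      rw [Real.norm_eq_abs]
      have e : M.Q.seqHC (M.O (xzt m i u h K t))
          (M.Q.pr2 (M.OS (Sum.inr (u + h * K, m * (u + h * K)))) (M.O (plane m i u))) n
          - (M.Q.seqI M.Q.T (M.O (xzt m i u h K t)) n - M.Q.seqI M.Q.T (M.O (xzK m i u h K)) n)
          = ((M.Q.S n).P.entC (xO (M.xD n) m (M.Q.ε n) (xzt m i u h K t))
              (pair (xL (M.xD n) (M.Q.ε n) (u + h * K) (m * (u + h * K))) (xO (M.xD n) m (M.Q.ε n) (plane m i u)))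
            - ((M.Q.S n).P.mi (M.Q.T n) (xO (M.xD n) m (M.Q.ε n) (xzt m i u h K t))
              - (M.Q.S n).P.mi (M.Q.T n) (xO (M.xD n) m (M.Q.ε n) (xzK m i u h K)))) / lg (M.Q.ε n) := by
        rw [sub_div, sub_div]
        rfl
      rw [e, abs_div, abs_of_pos hl0]
      exact div_le_div_of_nonneg_right hfin hl0.le
    have := hdiff.add (l1.sub l2)
    simpa using this
  have hdeq : d = M.f (xzt m i u h K t) - M.f (xzK m i u h K) :=
    haveI := uf_neBot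
    tendsto_nhds_unique hd'.1 hlim
  rw [← hdeq]
  exact hd'

/-- **(7.6)** -/
theorem rxc_info (M : Matched γ m) {i u h K : ℝ} (hx : XOK m i u h K) (η : ℝ) (hη : 0 < η) :
    ∀ᶠ n in uf, M.Q.seqIC (M.O (xz1 m i u h)) (M.OS (Sum.inr (u + h * K, m * (u + h * K)))) (M.O (plane m i u)) n
      ≤ (M.f (xz1 m i u h) - M.f (plane m i u)) - (M.f (xzt m i u h K ⟨1, 1, 1, 1⟩) - M.f (xzK m i u h K)) + η := by
  have hm0 : 0 ≤ m := hx.m0.le
  have hdep := rxc_depths hx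
  have h00 : (⟨0, 0, 0, 0⟩ : Dep).In01 := by simp [Dep.In01]
  have h11 : (⟨1, 1, 1, 1⟩ : Dep).In01 := by simp [Dep.In01]
  have l1 := rxc_f_tendsto hm0 M _ hdep.2.1
  have l0 := rxc_f_tendsto hm0 M _ hdep.2.2
  have lt := rxc_f_tendsto hm0 M _ (hdep.1 _ h11)
  have lK : Tendsto (M.Q.seqI M.Q.T (M.O (xzK m i u h K))) uf (𝓝 (M.f (xzK m i u h K))) :=
    rxc_f_tendsto hm0 M _ (hdep.1 _ h00)
  have l3 := rxl_const_div M.Q (2 * Real.log ((15 : ℝ) ^ 6))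
  have hlim := ((l1.sub l0).sub (lt.sub lK)).add l3
  rw [add_zero] at hlim
  have hev := hlim.eventually_lt_const (u := (M.f (xz1 m i u h) - M.f (plane m i u))
    - (M.f (xzt m i u h K ⟨1, 1, 1, 1⟩) - M.f (xzK m i u h K)) + η) (by linarith)
  filter_upwards [hev] with n hn
  refine le_trans ?_ hn.le
  have hl0 := rxc_lg_pos M.Q n
  have hfin := rxc_fin_info (M.Q.S n).P (M.Q.T n) (M.xD n) (M.xD_part n) hx (M.Q.pos n).1 (M.Q.pos n).2
  have h2 := div_le_div_of_nonneg_right hfin hl0.le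
  rw [add_div, sub_div, sub_div, sub_div] at h2
  exact h2

/-! ## 3. the trace -/

/-- the displacements of the block lie in the cone and in the ball of radius `K` -/
theorem rxc_cone {K : ℝ} (hm : 0 < m) (K1 : 1 ≤ K) (mK : 1 ≤ m * K) :
    (⟨1, 1, 1, 1, 0⟩ : Cfg).InCone m ∧ (⟨1, 1, 1, 1, 0⟩ : Cfg).Bd K ∧
      ∀ t : Dep, t.In01 → (⟨t.X, t.Y, t.W, t.Z, K⟩ : Cfg).InCone m ∧ (⟨t.X, t.Y, t.W, t.Z, K⟩ : Cfg).Bd K := by
  refine ⟨?_, ?_, ?_⟩
  · simp [Cfg.InCone]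
  · simp only [Cfg.Bd, abs_one, abs_zero]
    refine ⟨K1, K1, K1, K1, by linarith⟩
  · rintro t ⟨hX0, hX1, hY0, hY1, hW0, hW1, hZ0, hZ1⟩
    constructor
    · simp only [Cfg.InCone]
      refine ⟨by linarith, by linarith, by linarith, by linarith⟩
    · simp only [Cfg.Bd]
      refine ⟨?_, ?_, ?_, ?_, ?_⟩ <;> rw [abs_le] <;> constructor <;> linarith

/-- distinct clocks: arbitrarily short blocks with affine error `≤ η h` -/
theorem rxc_trace4 (hm : 0 < m) (M : Matched γ m) {i u x y w z D s K : ℝ} (tp : RtTrace4 M i u x y w z D s) (K1 : 1 ≤ K)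
    (mK : 1 ≤ m * K) (η h₁ : ℝ) (hη : 0 < η) (hh : 0 < h₁) :
    ∃ h : ℝ, 0 < h ∧ h < h₁ ∧
      (∀ t : Dep, t.In01 →
        |M.f (xzt m i u h K t) - M.f (xzK m i u h K) - h * (x * t.X + y * t.Y + w * t.W + z * t.Z)| ≤ η * h) ∧
      (M.f (xz1 m i u h) - M.f (plane m i u)) - (M.f (xzt m i u h K ⟨1, 1, 1, 1⟩) - M.f (xzK m i u h K)) ≤ η * h := by
  obtain ⟨hs, hpos, hlim, hblow⟩ := tp.blow
  obtain ⟨c1, c2, c3⟩ := rxc_cone (m := m) hm K1 mK
  have hη3 : 0 < η / 3 := by positivity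
  have hsmall : ∀ᶠ l in atTop, hs l < h₁ := hlim.eventually (gt_mem_nhds hh)
  obtain ⟨l, hl1, hl2⟩ := ((hblow K (η / 3) hη3).and hsmall).exists
  have h0 : (⟨0, 0, 0, 0⟩ : Dep).In01 := by simp [Dep.In01]
  have h11 : (⟨1, 1, 1, 1⟩ : Dep).In01 := by simp [Dep.In01]
  have bK := abs_le.1 (hl1 _ (c3 _ h0).1 (c3 _ h0).2)
  have b1 := abs_le.1 (hl1 _ c1 c2)
  have bt : ∀ t : Dep, t.In01 →
      |M.f (xzt m i u (hs l) K t) - M.f (xzK m i u (hs l) K) - hs l * (x * t.X + y * t.Y + w * t.W + z * t.Z)| ≤ η * hs l := by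
    intro t ht
    have b := abs_le.1 (hl1 _ (c3 t ht).1 (c3 t ht).2)
    have hp := hpos l
    simp only [xzK, xzt] at bK b ⊢
    rw [abs_le]
    constructor <;> nlinarith [b.1, b.2, bK.1, bK.2]
  refine ⟨hs l, hpos l, hl2, bt, ?_⟩
  have b := abs_le.1 (bt _ h11)
  have hp := hpos l
  have b2 := abs_le.1 (hl1 _ (c3 _ h11).1 (c3 _ h11).2)
  simp only [xzK, xzt, xz1] at bK b1 b2 ⊢
  nlinarith [b1.2, b2.1, bK.2]

/-- tied clocks: only `t.Y = t.W` -/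
theorem rxc_trace3 (hm : 0 < m) (M : Matched γ m) {i u x q z D s K : ℝ} (tp : RtTrace3 M i u x q z D s) (K1 : 1 ≤ K)
    (mK : 1 ≤ m * K) (η h₁ : ℝ) (hη : 0 < η) (hh : 0 < h₁) :
    ∃ h : ℝ, 0 < h ∧ h < h₁ ∧
      (∀ t : Dep, t.In01 → t.Y = t.W →
        |M.f (xzt m i u h K t) - M.f (xzK m i u h K) - h * (x * t.X + q * t.Y + z * t.Z)| ≤ η * h) ∧
      (M.f (xz1 m i u h) - M.f (plane m i u)) - (M.f (xzt m i u h K ⟨1, 1, 1, 1⟩) - M.f (xzK m i u h K)) ≤ η * h := by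
  obtain ⟨hs, hpos, hlim, hblow⟩ := tp.blow
  obtain ⟨c1, c2, c3⟩ := rxc_cone (m := m) hm K1 mK
  have hη3 : 0 < η / 3 := by positivity
  have hsmall : ∀ᶠ l in atTop, hs l < h₁ := hlim.eventually (gt_mem_nhds hh)
  obtain ⟨l, hl1, hl2⟩ := ((hblow K (η / 3) hη3).and hsmall).exists
  have h0 : (⟨0, 0, 0, 0⟩ : Dep).In01 := by simp [Dep.In01]
  have h11 : (⟨1, 1, 1, 1⟩ : Dep).In01 := by simp [Dep.In01]
  have bK := abs_le.1 (hl1 _ (c3 _ h0).1 (c3 _ h0).2 rfl)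
  have b1 := abs_le.1 (hl1 _ c1 c2 rfl)
  have bt : ∀ t : Dep, t.In01 → t.Y = t.W →
      |M.f (xzt m i u (hs l) K t) - M.f (xzK m i u (hs l) K) - hs l * (x * t.X + q * t.Y + z * t.Z)| ≤ η * hs l := by
    intro t ht hYW
    have b := abs_le.1 (hl1 _ (c3 t ht).1 (c3 t ht).2 hYW)
    have hp := hpos l
    simp only [xzK, xzt] at bK b ⊢
    rw [abs_le]
    constructor <;> nlinarith [b.1, b.2, bK.1, bK.2]
  refine ⟨hs l, hpos l, hl2, bt, ?_⟩
  have hp := hpos l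
  have b2 := abs_le.1 (hl1 _ (c3 _ h11).1 (c3 _ h11).2 rfl)
  simp only [xzK, xzt, xz1] at bK b1 b2 ⊢
  nlinarith [b1.2, b2.1, bK.2]

end Claimed.Agent.R255
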