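-- KEEP
import Claimed.Agent.R255.Rate.ExtGeo

/-!
# Row 255 (BR paper), Sec. 7, unit U1a EXTRACT (architect helper34), file 4: ONE FINITE STAGE GIVES A BLOCK LAW      prefix `rx_`

`RxStage S R b x y w z D s σ δ N` = what the matched process supplies at ONE index `n` (system `S = Q.S n`, slope `R = M.R n`, block parameters `b = (m, ε n, i, u, h, K)`), all errors `≤ δ` in block units `L = lg ρ = h lg ε`:
  `coord`  the surprise of `O(zt t)` given `(O(zK), O(z0))` is within `δ L` of its mean outside mass `δ`   (homogeneity),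
  `aff`, `aff1`  the informations `I(T; O(·))` are affine up to `δ L`                                      (trace point),
  `time`, `normal`, `joint`  lower bounds of the surprises of the label prefixes GIVEN `T`                  (homogeneity + prediction + growth).
THEOREM `rx_stage_blk`: for `κ, N` there are `δ, L₀` such that every stage with `L₀ ≤ L` yields `B : BLaw`, `B.ρ = b.ρ`, `B.Tol m x y w z s σ κ 1 N`.
-/

set_option autoImplicit false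

namespace Claimed.Agent.R255

open scoped BigOperators
open Classical
open FLaw

/-! ## 0. two abstract transfers -/

section abs

variable {Ω : Type} [Fintype Ω] {α β γ δ₁ α' β' : Type}

/-- concentration of a physical surprise ⟹ concentration of the canonical one -/
theorem rx_coord_abs (P : FLaw Ω) (X : Ω → α) (Y : Ω → β) (X' : Ω → α') (Y' : Ω → β') {N δ L c : ℝ}
    (h : P.pr (fun ω => δ * L < |P.surC X Y ω - P.entC X Y|) ≤ δ) (hc : |P.entC X Y - c| ≤ 3 * (δ * L))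
    (h₁ : P.Amb (pair X Y) (pair X' Y') N) (h₂ : P.Amb Y Y' N) (hN : Real.log N ≤ δ * L / 2)
    (he : Real.exp (-(δ * L)) ≤ δ) :
    P.pr (fun ω => 7 * (δ * L) < |P.surC X' Y' ω - c|) ≤ 5 * δ := by
  have h3 := rx_surC_amb P X Y X' Y' h₁ h₂ (δ * L)
  have h4 : P.pr (fun ω => 7 * (δ * L) < |P.surC X' Y' ω - c|)
      ≤ P.pr (fun ω => δ * L < |P.surC X Y ω - P.entC X Y| ∨
          2 * (Real.log N + δ * L) < |P.surC X Y ω - P.surC X' Y' ω|) := by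
    refine ent_pr_mono P fun ω _ hω => ?_
    by_contra hcon
    push Not at hcon
    obtain ⟨c1, c2⟩ := hcon
    have t1 : |P.surC X' Y' ω - c| ≤ |P.surC X Y ω - P.surC X' Y' ω| + |P.surC X Y ω - P.entC X Y| + |P.entC X Y - c| := by
      have e : P.surC X' Y' ω - c = -(P.surC X Y ω - P.surC X' Y' ω) + (P.surC X Y ω - P.entC X Y) + (P.entC X Y - c) := by
        ring
      rw [e]
      refine (abs_add_le _ _).trans ?_
      refine add_le_add ((abs_add_le _ _).trans ?_) le_rfl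
      rw [abs_neg]
    linarith
  have h5 := ent_pr_or_le P (fun ω => δ * L < |P.surC X Y ω - P.entC X Y|)
    (fun ω => 2 * (Real.log N + δ * L) < |P.surC X Y ω - P.surC X' Y' ω|)
  linarith

/-- a lower bound of a physical surprise given `T` ⟹ a lower bound of the canonical surprise without `T` -/
theorem rx_cap_abs (P : FLaw Ω) (B : Ω → β) (A : Ω → α) (T : Ω → γ) (AT : Ω → δ₁) (B' : Ω → β') (A' : Ω → α')
    {N δ L thr : ℝ} (h : P.pr (fun ω => P.surC B AT ω < thr) ≤ δ)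
    (hAT : ∀ ω ω', (pair A T) ω' = (pair A T) ω ↔ AT ω' = AT ω)
    (h₁ : P.Amb (pair B A) (pair B' A') N) (h₂ : P.Amb A A' N) (hN : Real.log N ≤ δ * L / 2)
    (he : Real.exp (-(δ * L)) ≤ δ) (hδ0 : 0 < δ) (hδ : δ ≤ 1 / 2) (hL : 0 < L) :
    P.pr (fun ω => P.surC B' A' ω < thr - 4 * (δ * L)) ≤ 6 * δ := by
  have e1 : ∀ ω, P.surC B (pair A T) ω = P.surC B AT ω := fun ω =>
    ent_surC_congr P B B (pair A T) AT ω (fun ω' _ => hAT ω ω') (fun _ _ _ => Iff.rfl)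
  have h' : P.pr (fun ω => P.surC B (pair A T) ω < thr) ≤ δ := by
    simpa only [e1] using h
  have hpos : 0 < δ * L := mul_pos hδ0 hL
  have h2 := rx_surC_drop P B A T hpos h'
  have h3 : δ / (1 - Real.exp (-(δ * L))) ≤ 2 * δ := by
    have : (1 : ℝ) / 2 ≤ 1 - Real.exp (-(δ * L)) := by linarith
    rw [div_le_iff₀ (by linarith)]
    nlinarith
  have h4 := rx_surC_amb P B A B' A' h₁ h₂ (δ * L)
  have h5 : P.pr (fun ω => P.surC B' A' ω < thr - 4 * (δ * L))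
      ≤ P.pr (fun ω => P.surC B A ω < thr - δ * L ∨ 2 * (Real.log N + δ * L) < |P.surC B A ω - P.surC B' A' ω|) := by
    refine ent_pr_mono P fun ω _ hω => ?_
    by_contra hcon
    push Not at hcon
    obtain ⟨c1, c2⟩ := hcon
    have := (abs_le.1 c2).2
    linarith
  have h6 := ent_pr_or_le P (fun ω => P.surC B A ω < thr - δ * L)
    (fun ω => 2 * (Real.log N + δ * L) < |P.surC B A ω - P.surC B' A' ω|)
  linarith

end abs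

/-! ## 1. the observations of a stage -/

/-- the data of a sample point -/
def CSys.dat (S : CSys) (R : S.Ω → ℝ) (ω : S.Ω) : Dat := ⟨S.V (S.T ω), S.A (S.T ω), S.c ω, R ω⟩

section obs

variable (S : CSys) (R : S.Ω → ℝ) (b : BPar)

/-- the observation at a configuration -/
noncomputable def CSys.xO (z : Cfg) : S.Ω → ℤ × ℤ × ℤ × ℤ × ℤ × ℤ := fun ω => (S.dat R ω).obs b.m b.ε z

/-- label-only observations -/
noncomputable def CSys.xL (v₁ v₂ : ℝ) : S.Ω → ℤ × ℤ × ℤ × ℤ × ℤ × ℤ := fun ω => (S.dat R ω).lab b.ε v₁ v₂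

/-- canonical coordinate symbols -/
noncomputable def CSys.xQ (t : Dep) : S.Ω → ℤ × ℤ × ℤ × ℤ := fun ω => b.Q t (S.dat R ω)

noncomputable def CSys.xc (a : ℝ) : S.Ω → ℤ := fun ω => b.cb a (S.dat R ω)

noncomputable def CSys.xr (a : ℝ) : S.Ω → ℤ := fun ω => b.rb a (S.dat R ω)

noncomputable def CSys.xTh (a : ℝ) : S.Ω → ℤ × ℤ := fun ω => b.Th a (S.dat R ω)

/-- the base observation `E` -/
noncomputable def CSys.xE : S.Ω → ℤ × ℤ × ℤ × ℤ × ℤ × ℤ := S.xO R b b.z0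

/-- the full label `θ` -/
noncomputable def CSys.xθ : S.Ω → ℤ × ℤ × ℤ × ℤ × ℤ × ℤ := S.xL R b b.vK (b.m * b.vK)

/-- the rounded point `P` -/
noncomputable def CSys.xP : S.Ω → ℤ × ℤ × ℤ × ℤ × ℤ × ℤ := S.xO R b b.z1

/-- the physical label prefixes `(C_{u + a₁ h}, R_{m u + a₂ h})` -/
noncomputable def CSys.xΛ (a₁ a₂ : ℝ) : S.Ω → ℤ × ℤ × ℤ × ℤ × ℤ × ℤ :=
  S.xL R b (b.u + a₁ * b.h) (b.m * b.u + a₂ * b.h)

/-- the canonical label prefixes -/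
noncomputable def CSys.xΘ (a₁ a₂ : ℝ) : S.Ω → ℤ × ℤ := pair (S.xc R b a₁) (S.xr R b a₂)

end obs

/-- mesh depths -/
def Dep.InMesh (t : Dep) (N : ℕ) : Prop := t.X ∈ mesh N ∧ t.Y ∈ mesh N ∧ t.W ∈ mesh N ∧ t.Z ∈ mesh N

/-- **one finite stage** -/
structure RxStage (S : CSys) (R : S.Ω → ℝ) (b : BPar) (x y w z D s σ δ : ℝ) (N : ℕ) : Prop where
  ok : b.OK
  coord : ∀ t : Dep, t.InMesh N → (b.m = 1 → t.Y = t.W) →
    S.P.pr (fun ω => δ * lg b.ρ < |S.P.surC (S.xO R b (b.zt t)) (pair (S.xO R b b.zK) (S.xE R b)) ω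
      - S.P.entC (S.xO R b (b.zt t)) (pair (S.xO R b b.zK) (S.xE R b))|) ≤ δ
  aff : ∀ t : Dep, t.InMesh N → (b.m = 1 → t.Y = t.W) →
    |S.P.mi S.T (S.xO R b (b.zt t)) - S.P.mi S.T (S.xE R b)
      - (x * t.X + y * t.Y + w * t.W + z * t.Z + D * b.K) * lg b.ρ| ≤ δ * lg b.ρ
  aff1 : |S.P.mi S.T (S.xP R b) - S.P.mi S.T (S.xE R b) - (x + y + w + z) * lg b.ρ| ≤ δ * lg b.ρ
  time : ∀ a ∈ mesh N, S.P.pr (fun ω => S.P.surC (S.xΛ R b a 0) (pair S.T (S.xΛ R b 0 0)) ω < (s * a - δ) * lg b.ρ) ≤ δ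
  normal : ∀ a ∈ mesh N, S.P.pr (fun ω => S.P.surC (S.xΛ R b 0 a) (pair S.T (S.xΛ R b 0 0)) ω < (σ * a - δ) * lg b.ρ) ≤ δ
  joint : b.m = 1 → ∀ a ∈ mesh N, ∀ a' ∈ mesh N, a ≤ a' →
    S.P.pr (fun ω => S.P.surC (S.xΛ R b a' a') (pair S.T (S.xΛ R b a a)) ω < (s * (a' - a) - δ) * lg b.ρ) ≤ δ

/-- the universal ambiguity constant -/
def rxN : ℝ := 33 ^ 12

theorem rx_mesh_01 {N : ℕ} {a : ℝ} (h : a ∈ mesh N) : 0 ≤ a ∧ a ≤ 1 := by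
  obtain ⟨k, hk, rfl⟩ := h
  refine ⟨by positivity, ?_⟩
  rcases Nat.eq_zero_or_pos N with h0 | h0
  · subst h0
    simp
  · rw [div_le_one (by exact_mod_cast h0)]
    exact_mod_cast hk

theorem rx_mesh_zero (N : ℕ) : (0 : ℝ) ∈ mesh N := ⟨0, Nat.zero_le _, by simp⟩

theorem rx_mesh_one {N : ℕ} (hN : 0 < N) : (1 : ℝ) ∈ mesh N :=
  ⟨N, le_rfl, by rw [div_self]; exact_mod_cast hN.ne'⟩

theorem rx_inMesh_01 {N : ℕ} {t : Dep} (h : t.InMesh N) : t.In01 :=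
  ⟨(rx_mesh_01 h.1).1, (rx_mesh_01 h.1).2, (rx_mesh_01 h.2.1).1, (rx_mesh_01 h.2.1).2, (rx_mesh_01 h.2.2.1).1,
    (rx_mesh_01 h.2.2.1).2, (rx_mesh_01 h.2.2.2).1, (rx_mesh_01 h.2.2.2).2⟩

/-! ## 2. determinations and ambiguities between the observations -/

section amb

variable {S : CSys} {R : S.Ω → ℝ} {b : BPar}

/-- given the particle, an observation is equivalent to its label -/
theorem rx_st_obs_iff (z : Cfg) {ω ω' : S.Ω} (hT : S.T ω = S.T ω') :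
    S.xO R b z ω = S.xO R b z ω' ↔ S.xL R b z.v (b.m * z.v) ω = S.xL R b z.v (b.m * z.v) ω' := by
  constructor
  · intro h
    exact rx_label_of_obs h
  · intro h
    have h2 := rx_lab_iff.1 h
    exact rx_obs_of_label b.m b.ε z (by simp [CSys.dat, hT]) (by simp [CSys.dat, hT]) h2.1 h2.2

/-- **(E1)** at equal label clocks the difference of the informations is the difference of the entropies -/
theorem rx_st_E1 (z z' : Cfg) (hv : z.v = z'.v) :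
    S.P.mi S.T (S.xO R b z') - S.P.mi S.T (S.xO R b z) = S.P.ent (S.xO R b z') - S.P.ent (S.xO R b z) := by
  have h1 : S.P.entC (S.xO R b z') S.T = S.P.entC (S.xO R b z) S.T := by
    refine ent_entC_congr S.P _ _ S.T S.T (fun _ _ _ _ => Iff.rfl) fun ω ω' _ _ hT => ?_
    rw [rx_st_obs_iff z' hT, rx_st_obs_iff z hT, hv]
  rw [ent_mi_comm S.P S.T, ent_mi_comm S.P S.T, ent_mi_eq, ent_mi_eq, h1]
  ring

theorem rx_N_facts : (1 : ℝ) ≤ rxN ∧ ((2 * (7 : ℕ) + 1 : ℝ) ^ 6 ≤ rxN) ∧ ((2 * (10 : ℕ) + 1 : ℝ) ^ 4 * 1 ≤ rxN) ∧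
    ((2 * (16 : ℕ) + 1 : ℝ) ^ 6 * ((2 * (7 : ℕ) + 1 : ℝ) ^ 6 * 1) ≤ rxN) ∧
    ((2 * (2 : ℕ) + 1 : ℝ) ^ 2 * ((2 * (2 : ℕ) + 1 : ℝ) ^ 2 * 1) ≤ rxN) ∧
    ((2 * (2 : ℕ) + 1 : ℝ) ^ 6 * ((2 * (2 : ℕ) + 1 : ℝ) ^ 6 * 1) ≤ rxN) ∧
    ((2 * (2 : ℕ) + 1 : ℝ) ^ 2 * 1 ≤ rxN) ∧ ((2 * (2 : ℕ) + 1 : ℝ) ^ 6 * 1 ≤ rxN) := by
  unfold rxN
  norm_num

theorem rx_st_zt_v (b : BPar) (t : Dep) : (b.zt t).v = b.vK := rfl

theorem rx_st_zK_v (b : BPar) : b.zK.v = b.vK := rfl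

theorem rx_st_z0_v (b : BPar) : b.z0.v = b.u := rfl

theorem rx_st_z1_v (b : BPar) : b.z1.v = b.u := rfl

/-- `E` is determined by `O(zK)` up to bounded ambiguity -/
theorem rx_st_nval_E_K (hb : b.OK) : S.P.NVal (fun _ => True) (S.xE R b) (S.xO R b b.zK) ((2 * (7 : ℕ) + 1 : ℝ) ^ 6) :=
  rx_nval_cl6 S.P _ _ 7 fun ω ω' _ _ h =>
    rx_frame_bwd (d := S.dat R ω) (d' := S.dat R ω') hb.m0.le hb.ε0 hb.ε1 (rx_fp_0K hb) h

/-- `O(zK)` is determined by `(θ, E)` up to bounded ambiguity -/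
theorem rx_st_nval_K_θE (hb : b.OK) :
    S.P.NVal (fun _ => True) (S.xO R b b.zK) (pair (S.xθ R b) (S.xE R b)) ((2 * (7 : ℕ) + 1 : ℝ) ^ 6) :=
  rx_nval_cl6 S.P _ _ 7 fun ω ω' _ _ h =>
    rx_frame_fwd (d := S.dat R ω) (d' := S.dat R ω') hb.m0.le hb.ε0 hb.ε1 (rx_fp_0K hb)
      (by rw [rx_st_zK_v]; exact (Prod.ext_iff.1 h).1) (Prod.ext_iff.1 h).2

/-- `θ` is a function of `O(zt t)` -/
theorem rx_st_θ_of_t (t : Dep) {ω ω' : S.Ω} (h : S.xO R b (b.zt t) ω = S.xO R b (b.zt t) ω') :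
    S.xθ R b ω = S.xθ R b ω' := by
  have := rx_label_of_obs (d := S.dat R ω) (d' := S.dat R ω') (m := b.m) (ε := b.ε) (z := b.zt t) h
  rw [rx_st_zt_v] at this
  exact this

/-- `O(zK)` is a function of `O(zt t)` -/
theorem rx_st_K_of_t (hb : b.OK) {t : Dep} (ht : t.In01) {ω ω' : S.Ω} (h : S.xO R b (b.zt t) ω = S.xO R b (b.zt t) ω') :
    S.xO R b b.zK ω = S.xO R b b.zK ω' := by
  obtain ⟨h1, -, h2, -, h3, -, h4, -⟩ := ht
  have hh := hb.h0.le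
  refine rx_obs_nest (d := S.dat R ω) (d' := S.dat R ω') (m := b.m) (z := b.zK) (z' := b.zt t) hb.ε0 hb.ε1 rfl
    ?_ ?_ ?_ ?_ h <;>
    simp only [BPar.zK, BPar.zt, Cfg.shift, mul_zero, add_zero] <;> nlinarith

/-- `E` is a function of `P` -/
theorem rx_st_E_of_P (hb : b.OK) {ω ω' : S.Ω} (h : S.xP R b ω = S.xP R b ω') : S.xE R b ω = S.xE R b ω' := by
  have hh := hb.h0.le
  refine rx_obs_nest (d := S.dat R ω) (d' := S.dat R ω') (m := b.m) (z := b.z0) (z' := b.z1) hb.ε0 hb.ε1 rfl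
    ?_ ?_ ?_ ?_ h <;> simp only [BPar.z0, BPar.z1, plane] <;> linarith

theorem rx_st_amb2 (hb : b.OK) : S.P.Amb (pair (S.xO R b b.zK) (S.xE R b)) (pair (S.xθ R b) (S.xE R b)) rxN := by
  constructor
  · refine rx_nval_mono S.P (rx_nval_fun S.P _ _ fun ω ω' _ _ h => ?_) rx_N_facts.1
    exact Prod.ext (rx_st_θ_of_t ⟨0, 0, 0, 0⟩ (Prod.ext_iff.1 h).1) (Prod.ext_iff.1 h).2
  · refine rx_nval_mono S.P (rx_nval_pair S.P _ _ _ (rx_st_nval_K_θE hb)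
      (rx_nval_fun S.P _ _ fun ω ω' _ _ h => (Prod.ext_iff.1 h).2)) ?_
    rw [mul_one]
    exact rx_N_facts.2.1

theorem rx_st_amb1 (hb : b.OK) {t : Dep} (ht : t.In01) :
    S.P.Amb (pair (S.xO R b (b.zt t)) (pair (S.xO R b b.zK) (S.xE R b)))
      (pair (S.xQ R b t) (pair (S.xθ R b) (S.xE R b))) rxN := by
  constructor
  · refine rx_nval_mono S.P (rx_nval_pair S.P _ _ _
      (rx_nval_cl4 S.P _ _ 10 fun ω ω' _ _ h => ?_) (rx_nval_fun S.P _ _ fun ω ω' _ _ h => ?_)) rx_N_facts.2.2.1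
    · exact rx_canon_fwd (d := S.dat R ω) (d' := S.dat R ω') hb ht (Prod.ext_iff.1 h).1
        (Prod.ext_iff.1 (Prod.ext_iff.1 h).2).2
    · exact Prod.ext (rx_st_θ_of_t t (Prod.ext_iff.1 h).1) (Prod.ext_iff.1 (Prod.ext_iff.1 h).2).2
  · refine rx_nval_mono S.P (rx_nval_pair S.P _ _ _
      (rx_nval_cl6 S.P _ _ 16 fun ω ω' _ _ h => ?_) (rx_nval_pair S.P _ _ _
        (rx_nval_anti S.P _ _ _ (rx_st_nval_K_θE hb) fun ω ω' _ _ h => (Prod.ext_iff.1 h).2)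
        (rx_nval_fun S.P _ _ fun ω ω' _ _ h => (Prod.ext_iff.1 (Prod.ext_iff.1 h).2).2))) rx_N_facts.2.2.2.1
    exact rx_canon_bwd (d := S.dat R ω) (d' := S.dat R ω') hb ht (Prod.ext_iff.1 h).1
      (Prod.ext_iff.1 (Prod.ext_iff.1 h).2).1 (Prod.ext_iff.1 (Prod.ext_iff.1 h).2).2

/-- the conditional entropy of the refinement is the difference of the entropies, up to the ambiguity of the frames -/
theorem rx_st_entC (hb : b.OK) {t : Dep} (ht : t.In01) :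
    |S.P.entC (S.xO R b (b.zt t)) (pair (S.xO R b b.zK) (S.xE R b))
      - (S.P.ent (S.xO R b (b.zt t)) - S.P.ent (S.xO R b b.zK))| ≤ Real.log rxN := by
  have hlog : Real.log ((2 * (7 : ℕ) + 1 : ℝ) ^ 6) ≤ Real.log rxN :=
    Real.log_le_log (by positivity) rx_N_facts.2.1
  have n1 : S.P.NVal (fun _ => True) (pair (S.xO R b b.zK) (S.xE R b)) (S.xO R b (b.zt t)) ((2 * (7 : ℕ) + 1 : ℝ) ^ 6) := by
    have := rx_nval_pair S.P _ _ _ (rx_nval_fun S.P (S.xO R b b.zK) (S.xO R b (b.zt t)) fun ω ω' _ _ h => rx_st_K_of_t hb ht h)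
      (rx_nval_anti S.P _ _ (S.xO R b (b.zt t)) (rx_st_nval_E_K (S := S) (R := R) hb) fun ω ω' _ _ h => rx_st_K_of_t hb ht h)
    rwa [one_mul] at this
  have a1 := rx_ent_pair_le_of_nval S.P _ _ n1
  have a2 := ent_pair_comm S.P (pair (S.xO R b b.zK) (S.xE R b)) (S.xO R b (b.zt t))
  have a3 := ent_le_pair_left S.P (S.xO R b (b.zt t)) (pair (S.xO R b b.zK) (S.xE R b))
  have a4 := rx_ent_pair_le_of_nval S.P _ _ (rx_st_nval_E_K (S := S) (R := R) hb)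
  have a5 := ent_pair_comm S.P (S.xE R b) (S.xO R b b.zK)
  have a6 := ent_le_pair_left S.P (S.xO R b b.zK) (S.xE R b)
  unfold FLaw.entC
  rw [abs_le]
  constructor <;> linarith

end amb

/-! ## 3. the estimates on the whole space -/

/-- the numerical requirements on the tolerance and the block length -/
structure RxNum (δ L : ℝ) : Prop where
  δ0 : 0 < δ
  δ1 : δ ≤ 1 / 2
  L0 : 0 < L
  hN : Real.log rxN ≤ δ * L / 2
  he : Real.exp (-(δ * L)) ≤ δ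

section est

variable {S : CSys} {R : S.Ω → ℝ} {b : BPar} {x y w z D s σ δ : ℝ} {N : ℕ}

theorem rx_zero_inMesh (N : ℕ) : (⟨0, 0, 0, 0⟩ : Dep).InMesh N :=
  ⟨rx_mesh_zero N, rx_mesh_zero N, rx_mesh_zero N, rx_mesh_zero N⟩

theorem rx_one_inMesh {N : ℕ} (hN : 0 < N) : (⟨1, 1, 1, 1⟩ : Dep).InMesh N :=
  ⟨rx_mesh_one hN, rx_mesh_one hN, rx_mesh_one hN, rx_mesh_one hN⟩

/-- the mean of the physical conditional surprise -/
theorem rx_st_mean (hS : RxStage S R b x y w z D s σ δ N) (hn : RxNum δ (lg b.ρ)) (t : Dep) (ht : t.InMesh N)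
    (hm : b.m = 1 → t.Y = t.W) :
    |S.P.entC (S.xO R b (b.zt t)) (pair (S.xO R b b.zK) (S.xE R b))
      - (x * t.X + y * t.Y + w * t.W + z * t.Z) * lg b.ρ| ≤ 3 * (δ * lg b.ρ) := by
  have h1 := rx_st_entC (S := S) (R := R) hS.ok (rx_inMesh_01 ht)
  have h2 := rx_st_E1 (S := S) (R := R) (b := b) b.zK (b.zt t) rfl
  have h3 := hS.aff t ht hm
  have h4 := hS.aff ⟨0, 0, 0, 0⟩ (rx_zero_inMesh N) (fun _ => rfl)
  have h5 : S.xO R b (b.zt ⟨0, 0, 0, 0⟩) = S.xO R b b.zK := rfl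
  rw [h5] at h4
  simp only [mul_zero, zero_add, add_zero] at h4
  have h6 := hn.hN
  have h7 : 0 < δ * lg b.ρ := mul_pos hn.δ0 hn.L0
  rw [abs_le] at h1 h3 h4 ⊢
  constructor <;> linarith [h1.1, h1.2, h3.1, h3.2, h4.1, h4.2]

/-- **(7.5) for the canonical symbols, in probability** -/
theorem rx_st_coord (hS : RxStage S R b x y w z D s σ δ N) (hn : RxNum δ (lg b.ρ)) (t : Dep) (ht : t.InMesh N)
    (hm : b.m = 1 → t.Y = t.W) :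
    S.P.pr (fun ω => 7 * (δ * lg b.ρ) < |S.P.surC (S.xQ R b t) (pair (S.xθ R b) (S.xE R b)) ω
      - (x * t.X + y * t.Y + w * t.W + z * t.Z) * lg b.ρ|) ≤ 5 * δ :=
  rx_coord_abs S.P _ _ _ _ (hS.coord t ht hm) (rx_st_mean hS hn t ht hm) (rx_st_amb1 hS.ok (rx_inMesh_01 ht))
    (rx_st_amb2 hS.ok) hn.hN hn.he

/-- **(7.6)**: the point and the label are almost independent given the base observation -/
theorem rx_st_info (hS : RxStage S R b x y w z D s σ δ N) (hn : RxNum δ (lg b.ρ)) (hN : 0 < N) :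
    S.P.miC (S.xP R b) (S.xθ R b) (S.xE R b) ≤ 5 * (δ * lg b.ρ) := by
  have hb := hS.ok
  -- upper bound of `H(P | E)`
  have a1 : S.P.ent (pair (S.xP R b) (S.xE R b)) = S.P.ent (S.xP R b) :=
    ent_pair_of_ker S.P _ _ fun ω ω' _ _ h => rx_st_E_of_P hb h
  have a2 := rx_st_E1 (S := S) (R := R) (b := b) b.z0 b.z1 rfl
  have a3 := hS.aff1
  -- lower bound of `H(P | θ, E)`
  have n1 : S.P.NVal (fun _ => True) (S.xO R b (b.zt ⟨1, 1, 1, 1⟩)) (pair (S.xP R b) (pair (S.xθ R b) (S.xE R b)))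
      ((2 * (7 : ℕ) + 1 : ℝ) ^ 6) :=
    rx_nval_cl6 S.P _ _ 7 fun ω ω' _ _ h =>
      rx_frame_fwd (d := S.dat R ω) (d' := S.dat R ω') hb.m0.le hb.ε0 hb.ε1 (rx_fp_1 hb)
        (by rw [rx_st_zt_v]; exact (Prod.ext_iff.1 (Prod.ext_iff.1 h).2).1) (Prod.ext_iff.1 h).1
  have b1 := rx_entC_ge_of_nval S.P (S.xP R b) (S.xO R b (b.zt ⟨1, 1, 1, 1⟩)) (pair (S.xθ R b) (S.xE R b)) n1
  have b2 : S.P.entC (S.xO R b (b.zt ⟨1, 1, 1, 1⟩)) (pair (S.xO R b b.zK) (S.xE R b))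
      ≤ S.P.entC (S.xO R b (b.zt ⟨1, 1, 1, 1⟩)) (pair (S.xθ R b) (S.xE R b)) :=
    ent_entC_anti S.P _ _ _ fun ω ω' _ _ h =>
      Prod.ext (rx_st_θ_of_t ⟨0, 0, 0, 0⟩ (Prod.ext_iff.1 h).1) (Prod.ext_iff.1 h).2
  have b3 := rx_st_mean hS hn ⟨1, 1, 1, 1⟩ (rx_one_inMesh hN) (fun _ => rfl)
  simp only [mul_one] at b3
  have hlog : Real.log ((2 * (7 : ℕ) + 1 : ℝ) ^ 6) ≤ Real.log rxN :=
    Real.log_le_log (by positivity) rx_N_facts.2.1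
  have h6 := hn.hN
  have h7 : 0 < δ * lg b.ρ := mul_pos hn.δ0 hn.L0
  rw [ent_miC_eq]
  have c1 : S.P.entC (S.xP R b) (S.xE R b) = S.P.ent (S.xP R b) - S.P.ent (S.xE R b) := by
    unfold FLaw.entC
    rw [a1]
  rw [c1]
  have a2' : S.P.mi S.T (S.xP R b) - S.P.mi S.T (S.xE R b) = S.P.ent (S.xP R b) - S.P.ent (S.xE R b) := a2
  rw [abs_le] at a3 b3
  linarith [a3.1, a3.2, b3.1, b3.2]

/-- physical label prefixes determine the canonical ones up to `2` -/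
theorem rx_st_Λ_fwd (hb : b.OK) {a₁ a₂ : ℝ} (h₁ : 0 ≤ a₁ ∧ a₁ ≤ 1) (h₂ : 0 ≤ a₂ ∧ a₂ ≤ 1) {ω ω' : S.Ω}
    (h : S.xΛ R b a₁ a₂ ω = S.xΛ R b a₁ a₂ ω') : rxCl2 2 (S.xΘ R b a₁ a₂ ω) (S.xΘ R b a₁ a₂ ω') := by
  have h3 := (rx_lab_iff (d := S.dat R ω) (d' := S.dat R ω')).1 h
  exact ⟨rx_par_time_fwd hb h₁.1 h₁.2 h3.1, rx_par_norm_fwd hb h₂.1 h₂.2 h3.2⟩

theorem rx_st_E_lab {ω ω' : S.Ω} (hE : S.xE R b ω = S.xE R b ω') :
    tcell b.ε b.u (S.dat R ω).c = tcell b.ε b.u (S.dat R ω').c ∧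
      tcell b.ε (b.m * b.u) (S.dat R ω).R = tcell b.ε (b.m * b.u) (S.dat R ω').R := by
  have h1 := rx_label_of_obs (d := S.dat R ω) (d' := S.dat R ω') (m := b.m) (ε := b.ε) (z := b.z0) hE
  rw [rx_st_z0_v] at h1
  exact rx_lab_iff.1 h1

/-- canonical label prefixes and the base observation determine the physical ones up to `2` -/
theorem rx_st_Λ_bwd (hb : b.OK) {a₁ a₂ : ℝ} (h₁ : 0 ≤ a₁ ∧ a₁ ≤ 1) (h₂ : 0 ≤ a₂ ∧ a₂ ≤ 1) {ω ω' : S.Ω}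
    (h : S.xΘ R b a₁ a₂ ω = S.xΘ R b a₁ a₂ ω') (hE : S.xE R b ω = S.xE R b ω') :
    rxCl6 2 (S.xΛ R b a₁ a₂ ω) (S.xΛ R b a₁ a₂ ω') := by
  have h3 := rx_st_E_lab hE
  have h4 := rx_par_time_bwd (d := S.dat R ω) (d' := S.dat R ω') hb h₁.1 h₁.2 (Prod.ext_iff.1 h).1 h3.1
  have h5 := rx_par_norm_bwd (d := S.dat R ω) (d' := S.dat R ω') hb h₂.1 h₂.2 (Prod.ext_iff.1 h).2 h3.2
  refine ⟨h4, h5, ?_, ?_, ?_, ?_⟩ <;> simp [CSys.xΛ, CSys.xL, Dat.lab, lObs]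

/-- the particle and a label prefix determine the base observation -/
theorem rx_st_E_of_TΛ (hb : b.OK) {a₁ a₂ : ℝ} (h₁ : 0 ≤ a₁) (h₂ : 0 ≤ a₂) {ω ω' : S.Ω} (hT : S.T ω = S.T ω')
    (h : S.xΛ R b a₁ a₂ ω = S.xΛ R b a₁ a₂ ω') : S.xE R b ω = S.xE R b ω' := by
  refine (rx_st_obs_iff b.z0 hT).2 ?_
  rw [rx_st_z0_v]
  have hh := hb.h0.le
  exact rx_lab_nest (d := S.dat R ω) (d' := S.dat R ω') hb.ε0 hb.ε1 (by nlinarith) (by nlinarith) h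

/-- **the caps**: from the label prefixes given `T` to the canonical prefixes given the base observation -/
theorem rx_st_cap (hb : b.OK) (hn : RxNum δ (lg b.ρ)) {a₁ a₂ a₁' a₂' thr : ℝ} (h₁ : 0 ≤ a₁ ∧ a₁ ≤ 1) (h₂ : 0 ≤ a₂ ∧ a₂ ≤ 1)
    (h₁' : 0 ≤ a₁' ∧ a₁' ≤ 1) (h₂' : 0 ≤ a₂' ∧ a₂' ≤ 1)
    (h : S.P.pr (fun ω => S.P.surC (S.xΛ R b a₁' a₂') (pair S.T (S.xΛ R b a₁ a₂)) ω < thr) ≤ δ) :
    S.P.pr (fun ω => S.P.surC (S.xΘ R b a₁' a₂') (pair (S.xΘ R b a₁ a₂) (S.xE R b)) ω < thr - 4 * (δ * lg b.ρ))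
      ≤ 6 * δ := by
  refine rx_cap_abs S.P (S.xΛ R b a₁' a₂') (pair (S.xΛ R b a₁ a₂) (S.xE R b)) S.T (pair S.T (S.xΛ R b a₁ a₂))
    (S.xΘ R b a₁' a₂') (pair (S.xΘ R b a₁ a₂) (S.xE R b)) (N := rxN) h ?_ ⟨?_, ?_⟩ ⟨?_, ?_⟩ hn.hN hn.he hn.δ0 hn.δ1 hn.L0
  · intro ω ω'
    constructor
    · intro h
      exact Prod.ext (Prod.ext_iff.1 h).2 (Prod.ext_iff.1 (Prod.ext_iff.1 h).1).1
    · intro h
      exact Prod.ext (Prod.ext (Prod.ext_iff.1 h).2 (rx_st_E_of_TΛ hb h₁.1 h₂.1 (Prod.ext_iff.1 h).1 (Prod.ext_iff.1 h).2))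
        (Prod.ext_iff.1 h).1
  · refine rx_nval_mono S.P (rx_nval_pair S.P _ _ _ (rx_nval_cl2 S.P _ _ 2 fun ω ω' _ _ h => ?_)
      (rx_nval_pair S.P _ _ _ (rx_nval_cl2 S.P _ _ 2 fun ω ω' _ _ h => ?_)
        (rx_nval_fun S.P _ _ fun ω ω' _ _ h => ?_))) rx_N_facts.2.2.2.2.1
    · exact rx_st_Λ_fwd hb h₁' h₂' (Prod.ext_iff.1 h).1
    · exact rx_st_Λ_fwd hb h₁ h₂ (Prod.ext_iff.1 (Prod.ext_iff.1 h).2).1
    · exact (Prod.ext_iff.1 (Prod.ext_iff.1 h).2).2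
  · refine rx_nval_mono S.P (rx_nval_pair S.P _ _ _ (rx_nval_cl6 S.P _ _ 2 fun ω ω' _ _ h => ?_)
      (rx_nval_pair S.P _ _ _ (rx_nval_cl6 S.P _ _ 2 fun ω ω' _ _ h => ?_)
        (rx_nval_fun S.P _ _ fun ω ω' _ _ h => ?_))) rx_N_facts.2.2.2.2.2.1
    · exact rx_st_Λ_bwd hb h₁' h₂' (Prod.ext_iff.1 h).1 (Prod.ext_iff.1 (Prod.ext_iff.1 h).2).2
    · exact rx_st_Λ_bwd hb h₁ h₂ (Prod.ext_iff.1 (Prod.ext_iff.1 h).2).1 (Prod.ext_iff.1 (Prod.ext_iff.1 h).2).2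
    · exact (Prod.ext_iff.1 (Prod.ext_iff.1 h).2).2
  · refine rx_nval_mono S.P (rx_nval_pair S.P _ _ _ (rx_nval_cl2 S.P _ _ 2 fun ω ω' _ _ h => ?_)
      (rx_nval_fun S.P _ _ fun ω ω' _ _ h => ?_)) rx_N_facts.2.2.2.2.2.2.1
    · exact rx_st_Λ_fwd hb h₁ h₂ (Prod.ext_iff.1 h).1
    · exact (Prod.ext_iff.1 h).2
  · refine rx_nval_mono S.P (rx_nval_pair S.P _ _ _ (rx_nval_cl6 S.P _ _ 2 fun ω ω' _ _ h => ?_)
      (rx_nval_fun S.P _ _ fun ω ω' _ _ h => ?_)) rx_N_facts.2.2.2.2.2.2.2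
    · exact rx_st_Λ_bwd hb h₁ h₂ (Prod.ext_iff.1 h).1 (Prod.ext_iff.1 h).2
    · exact (Prod.ext_iff.1 h).2

theorem rx_xc_zero (ω : S.Ω) : S.xc R b 0 ω = 0 := by
  simp [CSys.xc, BPar.cb, bbin]

theorem rx_xr_zero (ω : S.Ω) : S.xr R b 0 ω = 0 := by
  simp [CSys.xr, BPar.rb, bbin]

theorem rx_01 : (0 : ℝ) ≤ 0 ∧ (0 : ℝ) ≤ 1 := ⟨le_rfl, zero_le_one⟩

/-- **(7.2)** for the canonical time prefix -/
theorem rx_st_time (hS : RxStage S R b x y w z D s σ δ N) (hn : RxNum δ (lg b.ρ)) {a : ℝ} (ha : a ∈ mesh N) :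
    S.P.pr (fun ω => S.P.surC (S.xc R b a) (S.xE R b) ω < (s * a - 5 * δ) * lg b.ρ) ≤ 6 * δ := by
  have h1 := rx_st_cap hS.ok hn rx_01 rx_01 (rx_mesh_01 ha) rx_01 (hS.time a ha)
  have e : ∀ ω, S.P.surC (S.xΘ R b a 0) (pair (S.xΘ R b 0 0) (S.xE R b)) ω = S.P.surC (S.xc R b a) (S.xE R b) ω := by
    intro ω
    refine ent_surC_congr S.P _ _ _ _ ω (fun ω' _ => ?_) (fun ω' _ _ => ?_)
    · simp [FLaw.pair, CSys.xΘ, rx_xc_zero, rx_xr_zero]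
    · simp [FLaw.pair, CSys.xΘ, rx_xr_zero]
  simp only [e] at h1
  refine le_trans (le_of_eq ?_) h1
  congr 1
  funext ω
  congr 1
  ring

/-- **(7.3)** for the canonical normal prefix -/
theorem rx_st_normal (hS : RxStage S R b x y w z D s σ δ N) (hn : RxNum δ (lg b.ρ)) {a : ℝ} (ha : a ∈ mesh N) :
    S.P.pr (fun ω => S.P.surC (S.xr R b a) (S.xE R b) ω < (σ * a - 5 * δ) * lg b.ρ) ≤ 6 * δ := by
  have h1 := rx_st_cap hS.ok hn rx_01 rx_01 rx_01 (rx_mesh_01 ha) (hS.normal a ha)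
  have e : ∀ ω, S.P.surC (S.xΘ R b 0 a) (pair (S.xΘ R b 0 0) (S.xE R b)) ω = S.P.surC (S.xr R b a) (S.xE R b) ω := by
    intro ω
    refine ent_surC_congr S.P _ _ _ _ ω (fun ω' _ => ?_) (fun ω' _ _ => ?_)
    · simp [FLaw.pair, CSys.xΘ, rx_xc_zero, rx_xr_zero]
    · simp [FLaw.pair, CSys.xΘ, rx_xc_zero]
  simp only [e] at h1
  refine le_trans (le_of_eq ?_) h1
  congr 1
  funext ω
  congr 1
  ring

/-- the joint prefixes at tied clocks -/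
theorem rx_st_joint (hS : RxStage S R b x y w z D s σ δ N) (hn : RxNum δ (lg b.ρ)) (hm : b.m = 1) {a a' : ℝ}
    (ha : a ∈ mesh N) (ha' : a' ∈ mesh N) (haa : a ≤ a') :
    S.P.pr (fun ω => S.P.surC (S.xTh R b a') (pair (S.xTh R b a) (S.xE R b)) ω < (s * (a' - a) - 5 * δ) * lg b.ρ)
      ≤ 6 * δ := by
  have h1 := rx_st_cap hS.ok hn (rx_mesh_01 ha) (rx_mesh_01 ha) (rx_mesh_01 ha') (rx_mesh_01 ha') (hS.joint hm a ha a' ha' haa)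
  refine le_trans (le_of_eq ?_) h1
  congr 1
  funext ω
  have e : (s * (a' - a) - 5 * δ) * lg b.ρ = (s * (a' - a) - δ) * lg b.ρ - 4 * (δ * lg b.ρ) := by ring
  rw [e]
  rfl

end est

/-! ## 4. the block law on one base cell -/

section blk

variable (S : CSys) (R : S.Ω → ℝ) (b : BPar)

/-- the canonical pair (representatives of the fibres of `P` and of `θ`) -/
noncomputable def rxφ (ω : S.Ω) : S.Ω × S.Ω := (rxRep (S.xP R b) ω, rxRep (S.xθ R b) ω)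

/-- the block law on the base cell through `ω₀` -/
noncomputable def rxBlk (ω₀ : S.Ω) : BLaw where
  Pt := S.Ω
  Lb := S.Ω
  π := (S.P.cfib (S.xE R b) ω₀).map (rxφ S R b)
  ρ := b.ρ
  X := fun p => b.nX (S.dat R p)
  Y := fun p => b.nY (S.dat R p)
  W := fun p => b.nW (S.dat R p)
  Z := fun p => b.nZ (S.dat R p)
  c := fun θ => b.nc (S.dat R θ)
  r := fun θ => b.nr (S.dat R θ)

variable {S R b}

theorem rx_blk_P (hb : b.OK) (ω : S.Ω) :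
    b.nX (S.dat R (rxRep (S.xP R b) ω)) = b.nX (S.dat R ω) ∧ b.nY (S.dat R (rxRep (S.xP R b) ω)) = b.nY (S.dat R ω) ∧
      b.nW (S.dat R (rxRep (S.xP R b) ω)) = b.nW (S.dat R ω) ∧ b.nZ (S.dat R (rxRep (S.xP R b) ω)) = b.nZ (S.dat R ω) :=
  rx_n_congr_P hb (rx_rep_spec (S.xP R b) ω)

theorem rx_blk_L (hb : b.OK) (ω : S.Ω) :
    b.nc (S.dat R (rxRep (S.xθ R b) ω)) = b.nc (S.dat R ω) ∧ b.nr (S.dat R (rxRep (S.xθ R b) ω)) = b.nr (S.dat R ω) :=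
  rx_n_congr_L hb (rx_rep_spec (S.xθ R b) ω)

theorem rx_blk_Q (hb : b.OK) (ω₀ : S.Ω) (t : Dep) (ω : S.Ω) : (rxBlk S R b ω₀).Q t (rxφ S R b ω) = S.xQ R b t ω := by
  obtain ⟨p1, p2, p3, p4⟩ := rx_blk_P (S := S) (R := R) hb ω
  obtain ⟨l1, l2⟩ := rx_blk_L (S := S) (R := R) hb ω
  simp only [BLaw.Q, BLaw.qX, BLaw.qY, BLaw.qW, BLaw.qZ, rxBlk, rxφ, CSys.xQ, BPar.Q, BPar.qY, BPar.qW, BPar.qZ,
    p1, p2, p3, p4, l1, l2]

theorem rx_blk_cb (hb : b.OK) (ω₀ : S.Ω) (a : ℝ) (ω : S.Ω) : (rxBlk S R b ω₀).cb a (rxφ S R b ω) = S.xc R b a ω := by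
  obtain ⟨l1, l2⟩ := rx_blk_L (S := S) (R := R) hb ω
  simp only [BLaw.cb, rxBlk, rxφ, CSys.xc, BPar.cb, l1]

theorem rx_blk_rb (hb : b.OK) (ω₀ : S.Ω) (a : ℝ) (ω : S.Ω) : (rxBlk S R b ω₀).rb a (rxφ S R b ω) = S.xr R b a ω := by
  obtain ⟨l1, l2⟩ := rx_blk_L (S := S) (R := R) hb ω
  simp only [BLaw.rb, rxBlk, rxφ, CSys.xr, BPar.rb, l2]

theorem rx_blk_Th (hb : b.OK) (ω₀ : S.Ω) (a : ℝ) (ω : S.Ω) : (rxBlk S R b ω₀).Th a (rxφ S R b ω) = S.xTh R b a ω := by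
  obtain ⟨l1, l2⟩ := rx_blk_L (S := S) (R := R) hb ω
  simp only [BLaw.Th, rxBlk, rxφ, CSys.xTh, BPar.Th, l1, l2]

theorem rx_blk_lb (ω₀ : S.Ω) (ω₁ ω₂ : S.Ω) :
    (rxBlk S R b ω₀).lb (rxφ S R b ω₁) = (rxBlk S R b ω₀).lb (rxφ S R b ω₂) ↔ S.xθ R b ω₁ = S.xθ R b ω₂ :=
  rx_rep_eq_iff (S.xθ R b) ω₁ ω₂

theorem rx_blk_pt (ω₀ : S.Ω) (ω₁ ω₂ : S.Ω) :
    (rxBlk S R b ω₀).pt (rxφ S R b ω₁) = (rxBlk S R b ω₀).pt (rxφ S R b ω₂) ↔ S.xP R b ω₁ = S.xP R b ω₂ :=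
  rx_rep_eq_iff (S.xP R b) ω₁ ω₂

end blk

/-! ## 5. selection of the cell and the theorem -/

/-- the index type of the tested events -/
abbrev RxIdx (N : ℕ) : Type :=
  (Fin (N + 1) × Fin (N + 1) × Fin (N + 1) × Fin (N + 1)) ⊕ (Fin (N + 1) ⊕ (Fin (N + 1) ⊕ (Fin (N + 1) × Fin (N + 1))))

/-- mesh values -/
noncomputable def rxMv {N : ℕ} (k : Fin (N + 1)) : ℝ := (k.val : ℝ) / (N : ℝ)

theorem rx_mv_mem {N : ℕ} (k : Fin (N + 1)) : rxMv k ∈ mesh N := ⟨k.val, Nat.lt_succ_iff.1 k.2, rfl⟩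

theorem rx_mesh_mv {N : ℕ} {a : ℝ} (h : a ∈ mesh N) : ∃ k : Fin (N + 1), a = rxMv k := by
  obtain ⟨k, hk, rfl⟩ := h
  exact ⟨⟨k, Nat.lt_succ_of_le hk⟩, rfl⟩

/-- the tested bad events -/
noncomputable def rxBad (S : CSys) (R : S.Ω → ℝ) (b : BPar) (x y w z s σ δ : ℝ) (N : ℕ) : RxIdx N → S.Ω → Prop
  | Sum.inl k => fun ω => (b.m = 1 → rxMv k.2.1 = rxMv k.2.2.1) ∧
      7 * (δ * lg b.ρ) < |S.P.surC (S.xQ R b ⟨rxMv k.1, rxMv k.2.1, rxMv k.2.2.1, rxMv k.2.2.2⟩)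
        (pair (S.xθ R b) (S.xE R b)) ω
        - (x * rxMv k.1 + y * rxMv k.2.1 + w * rxMv k.2.2.1 + z * rxMv k.2.2.2) * lg b.ρ|
  | Sum.inr (Sum.inl k) => fun ω => S.P.surC (S.xc R b (rxMv k)) (S.xE R b) ω < (s * rxMv k - 5 * δ) * lg b.ρ
  | Sum.inr (Sum.inr (Sum.inl k)) => fun ω => S.P.surC (S.xr R b (rxMv k)) (S.xE R b) ω < (σ * rxMv k - 5 * δ) * lg b.ρ
  | Sum.inr (Sum.inr (Sum.inr k)) => fun ω => (b.m = 1 ∧ rxMv k.1 ≤ rxMv k.2) ∧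
      S.P.surC (S.xTh R b (rxMv k.2)) (pair (S.xTh R b (rxMv k.1)) (S.xE R b)) ω
        < (s * (rxMv k.2 - rxMv k.1) - 5 * δ) * lg b.ρ

section main

variable {S : CSys} {R : S.Ω → ℝ} {b : BPar} {x y w z D s σ δ : ℝ} {N : ℕ}

theorem rx_bad_le (hS : RxStage S R b x y w z D s σ δ N) (hn : RxNum δ (lg b.ρ)) (k : RxIdx N) :
    S.P.pr (rxBad S R b x y w z s σ δ N k) ≤ 6 * δ := by
  have hδ := hn.δ0
  rcases k with k | k | k | k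
  · by_cases hc : b.m = 1 → rxMv k.2.1 = rxMv k.2.2.1
    · have h1 := rx_st_coord hS hn ⟨rxMv k.1, rxMv k.2.1, rxMv k.2.2.1, rxMv k.2.2.2⟩
        ⟨rx_mv_mem _, rx_mv_mem _, rx_mv_mem _, rx_mv_mem _⟩ hc
      refine le_trans (ent_pr_mono S.P fun ω _ h => ?_) (h1.trans (by linarith))
      exact h.2
    · rw [ent_pr_eq_zero S.P fun ω _ h => hc h.1]
      positivity
  · exact rx_st_time hS hn (rx_mv_mem k)
  · exact rx_st_normal hS hn (rx_mv_mem k)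
  · by_cases hc : b.m = 1 ∧ rxMv k.1 ≤ rxMv k.2
    · refine le_trans (ent_pr_mono S.P fun ω _ h => ?_) (rx_st_joint hS hn hc.1 (rx_mv_mem k.1) (rx_mv_mem k.2) hc.2)
      exact h.2
    · rw [ent_pr_eq_zero S.P fun ω _ h => hc h.1]
      positivity

/-- a good cell gives a block law -/
theorem rx_blk_tol (hb : b.OK) {κ : ℝ} (hδ : 0 ≤ δ) (h7 : 7 * δ ≤ κ) (hL : 0 < lg b.ρ) {ω₀ : S.Ω} (h₀ : S.P.p ω₀ ≠ 0)
    (hbad : ∀ k : RxIdx N, (S.P.cfib (S.xE R b) ω₀).pr (rxBad S R b x y w z s σ δ N k) ≤ κ)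
    (hinfo : (S.P.cfib (S.xE R b) ω₀).mi (S.xP R b) (S.xθ R b) ≤ κ * lg b.ρ) :
    (rxBlk S R b ω₀).Tol b.m x y w z s σ κ 1 N := by
  have hκL : 7 * (δ * lg b.ρ) ≤ κ * lg b.ρ := by nlinarith
  have hthr : ∀ c : ℝ, (c - κ) * lg b.ρ ≤ (c - 5 * δ) * lg b.ρ := fun c =>
    mul_le_mul_of_nonneg_right (by linarith) hL.le
  refine ⟨(rx_rho_pos hb).1, (rx_rho_pos hb).2, fun p => ?_, fun θ => ?_, ?_, ?_, ?_, ?_, ?_⟩
  · obtain ⟨r1, r2, r3, r4, -, -⟩ := rx_n_range hb (S.dat R p)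
    refine ⟨abs_le.2 ⟨?_, ?_⟩, abs_le.2 ⟨?_, ?_⟩, abs_le.2 ⟨?_, ?_⟩, abs_le.2 ⟨?_, ?_⟩⟩ <;>
      simp only [rxBlk] <;> linarith [r1.1, r1.2, r2.1, r2.2, r3.1, r3.2, r4.1, r4.2]
  · obtain ⟨-, -, -, -, r5, r6⟩ := rx_n_range hb (S.dat R θ)
    refine ⟨abs_le.2 ⟨?_, ?_⟩, abs_le.2 ⟨?_, ?_⟩⟩ <;> simp only [rxBlk] <;> linarith [r5.1, r5.2, r6.1, r6.2]
  · -- info
    have e := rx_push_mi S.P (S.xE R b) (rxφ S R b) (rxBlk S R b ω₀).pt (rxBlk S R b ω₀).lb (S.xP R b) (S.xθ R b) h₀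
      (fun ω₁ ω₂ _ _ => rx_blk_pt ω₀ ω₁ ω₂) (fun ω₁ ω₂ _ _ => rx_blk_lb ω₀ ω₁ ω₂)
    exact (le_of_eq e).trans hinfo
  · -- coord
    intro t hX hY hW hZ hm
    obtain ⟨tX, tY, tW, tZ⟩ := t
    obtain ⟨k1, rfl⟩ := rx_mesh_mv hX
    obtain ⟨k2, rfl⟩ := rx_mesh_mv hY
    obtain ⟨k3, rfl⟩ := rx_mesh_mv hW
    obtain ⟨k4, rfl⟩ := rx_mesh_mv hZ
    refine le_trans (rx_push_pr_le S.P (S.xE R b) (rxφ S R b) _ (rxBad S R b x y w z s σ δ N (Sum.inl (k1, k2, k3, k4))) h₀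
      fun ω hω hc hev => ?_) (hbad _)
    have e := rx_push_surC S.P (S.xE R b) (rxφ S R b) ((rxBlk S R b ω₀).Q ⟨rxMv k1, rxMv k2, rxMv k3, rxMv k4⟩)
      (rxBlk S R b ω₀).lb (S.xQ R b ⟨rxMv k1, rxMv k2, rxMv k3, rxMv k4⟩) (S.xθ R b) h₀ hc hω
      (fun ω₁ ω₂ _ _ => by rw [rx_blk_Q hb, rx_blk_Q hb]) (fun ω₁ ω₂ _ _ => rx_blk_lb ω₀ ω₁ ω₂)
    refine ⟨hm, lt_of_le_of_lt hκL ?_⟩
    rw [← e]
    exact hev
  · -- time
    intro d hd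
    obtain ⟨k, rfl⟩ := rx_mesh_mv hd
    refine le_trans (rx_push_pr_le S.P (S.xE R b) (rxφ S R b) _ (rxBad S R b x y w z s σ δ N (Sum.inr (Sum.inl k))) h₀
      fun ω hω hc hev => ?_) (hbad _)
    have e := rx_push_sur S.P (S.xE R b) (rxφ S R b) ((rxBlk S R b ω₀).cb (rxMv k)) (S.xc R b (rxMv k)) h₀ hc hω
      (fun ω₁ ω₂ _ _ => by rw [rx_blk_cb hb, rx_blk_cb hb])
    show S.P.surC (S.xc R b (rxMv k)) (S.xE R b) ω < (s * rxMv k - 5 * δ) * lg b.ρ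
    rw [← e]
    have hev' : - Real.log (((S.P.cfib (S.xE R b) ω₀).map (rxφ S R b)).fib ((rxBlk S R b ω₀).cb (rxMv k)) (rxφ S R b ω))
        < (s * rxMv k - κ) * lg b.ρ := hev
    exact lt_of_lt_of_le hev' (hthr _)
  · -- normal
    intro d hd
    obtain ⟨k, rfl⟩ := rx_mesh_mv hd
    refine le_trans (rx_push_pr_le S.P (S.xE R b) (rxφ S R b) _
      (rxBad S R b x y w z s σ δ N (Sum.inr (Sum.inr (Sum.inl k)))) h₀ fun ω hω hc hev => ?_) (hbad _)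
    have e := rx_push_sur S.P (S.xE R b) (rxφ S R b) ((rxBlk S R b ω₀).rb (rxMv k)) (S.xr R b (rxMv k)) h₀ hc hω
      (fun ω₁ ω₂ _ _ => by rw [rx_blk_rb hb, rx_blk_rb hb])
    show S.P.surC (S.xr R b (rxMv k)) (S.xE R b) ω < (σ * rxMv k - 5 * δ) * lg b.ρ
    rw [← e]
    have hev' : - Real.log (((S.P.cfib (S.xE R b) ω₀).map (rxφ S R b)).fib ((rxBlk S R b ω₀).rb (rxMv k)) (rxφ S R b ω))
        < (σ * rxMv k - κ) * lg b.ρ := hev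
    exact lt_of_lt_of_le hev' (hthr _)
  · -- joint
    intro hm a ha a' ha' haa
    obtain ⟨k, rfl⟩ := rx_mesh_mv ha
    obtain ⟨k', rfl⟩ := rx_mesh_mv ha'
    refine le_trans (rx_push_pr_le S.P (S.xE R b) (rxφ S R b) _
      (rxBad S R b x y w z s σ δ N (Sum.inr (Sum.inr (Sum.inr (k, k'))))) h₀ fun ω hω hc hev => ?_) (hbad _)
    have e := rx_push_surC S.P (S.xE R b) (rxφ S R b) ((rxBlk S R b ω₀).Th (rxMv k')) ((rxBlk S R b ω₀).Th (rxMv k))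
      (S.xTh R b (rxMv k')) (S.xTh R b (rxMv k)) h₀ hc hω
      (fun ω₁ ω₂ _ _ => by rw [rx_blk_Th hb, rx_blk_Th hb]) (fun ω₁ ω₂ _ _ => by rw [rx_blk_Th hb, rx_blk_Th hb])
    refine ⟨⟨hm, haa⟩, ?_⟩
    show S.P.surC (S.xTh R b (rxMv k')) (pair (S.xTh R b (rxMv k)) (S.xE R b)) ω
      < (s * (rxMv k' - rxMv k) - 5 * δ) * lg b.ρ
    rw [← e]
    have hev' : ((S.P.cfib (S.xE R b) ω₀).map (rxφ S R b)).surC ((rxBlk S R b ω₀).Th (rxMv k'))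
        ((rxBlk S R b ω₀).Th (rxMv k)) (rxφ S R b ω) < (s * (rxMv k' - rxMv k) - κ) * lg b.ρ := hev
    exact lt_of_lt_of_le hev' (hthr _)

/-- **one finite stage gives a block law** -/
theorem rx_stage_blk (κ : ℝ) (hκ : 0 < κ) (N : ℕ) (hN : 0 < N) : ∃ δ L₀ : ℝ, 0 < δ ∧
    ∀ (S : CSys) (R : S.Ω → ℝ) (b : BPar) (x y w z D s σ : ℝ), RxStage S R b x y w z D s σ δ N → L₀ ≤ lg b.ρ →
      ∃ B : BLaw, B.ρ = b.ρ ∧ B.Tol b.m x y w z s σ κ 1 N := by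
  set n : ℝ := (Fintype.card (RxIdx N) : ℝ) with hn_def
  have hn0 : 0 ≤ n := Nat.cast_nonneg _
  set δ : ℝ := min (1 / 2) (κ / (7 * (n + 1))) with hδ_def
  have hδ0 : 0 < δ := lt_min (by norm_num) (by positivity)
  have hδ1 : δ ≤ 1 / 2 := min_le_left _ _
  have hδ2 : δ * (7 * (n + 1)) ≤ κ := by
    have : δ ≤ κ / (7 * (n + 1)) := min_le_right _ _
    rwa [le_div_iff₀ (by positivity)] at this
  refine ⟨δ, max (2 * Real.log rxN / δ) (Real.log (1 / δ) / δ) + 1, hδ0, ?_⟩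
  intro S R b x y w z D s σ hS hL
  have hlogN : 0 ≤ Real.log rxN := Real.log_nonneg rx_N_facts.1
  have hL1 : 2 * Real.log rxN / δ ≤ lg b.ρ := by
    have := le_max_left (2 * Real.log rxN / δ) (Real.log (1 / δ) / δ)
    linarith
  have hL2 : Real.log (1 / δ) / δ ≤ lg b.ρ := by
    have := le_max_right (2 * Real.log rxN / δ) (Real.log (1 / δ) / δ)
    linarith
  have hL0 : 0 < lg b.ρ := by
    have h1 : 0 ≤ 2 * Real.log rxN / δ := by positivity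
    have := le_max_left (2 * Real.log rxN / δ) (Real.log (1 / δ) / δ)
    linarith
  have hnum : RxNum δ (lg b.ρ) := by
    refine ⟨hδ0, hδ1, hL0, ?_, ?_⟩
    · rw [div_le_iff₀ hδ0] at hL1
      linarith
    · rw [div_le_iff₀ hδ0] at hL2
      have h3 : Real.exp (-(δ * lg b.ρ)) ≤ Real.exp (-Real.log (1 / δ)) := Real.exp_le_exp.2 (by linarith)
      refine h3.trans (le_of_eq ?_)
      rw [Real.exp_neg, Real.exp_log (by positivity)]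
      simp
  have hinfo := rx_st_info hS hnum hN
  rw [ent_miC_eq_avg] at hinfo
  obtain ⟨ω₀, h₀, hb1, hb2⟩ := rx_cell_select S.P (S.xE R b) (Finset.univ : Finset (RxIdx N))
    (rxBad S R b x y w z s σ δ N) (δ' := 6 * δ) (D := 5 * (δ * lg b.ρ)) (by positivity) (by positivity)
    (fun k _ => rx_bad_le hS hnum k) (fun ω => (S.P.cfib (S.xE R b) ω).mi (S.xP R b) (S.xθ R b))
    (fun ω => ent_mi_nonneg _ _ _) hinfo
  rw [Finset.card_univ] at hb1 hb2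
  refine ⟨rxBlk S R b ω₀, rfl, rx_blk_tol (δ := δ) hS.ok hδ0.le ?_ hL0 h₀ (fun k => (hb1 k (Finset.mem_univ k)).trans ?_)
    (hb2.trans ?_)⟩
  · nlinarith
  · nlinarith
  · nlinarith

end main

theorem rx_stage_eqns_cite : True := by
  have := @CSys.dat.eq_1
  have := @CSys.xO.eq_1
  have := @CSys.xL.eq_1
  have := @CSys.xQ.eq_1
  have := @CSys.xc.eq_1
  have := @CSys.xr.eq_1
  have := @CSys.xTh.eq_1
  have := @CSys.xE.eq_1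
  have := @CSys.xθ.eq_1
  have := @CSys.xP.eq_1
  have := @CSys.xΛ.eq_1
  have := @CSys.xΘ.eq_1
  have := @Dep.InMesh.eq_1
  have := @rxN.eq_1
  have := @rxφ.eq_1
  have := @rxBlk.eq_1
  have := @rxMv.eq_1
  trivial

end Claimed.Agent.R255
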