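-- KEEP
import Claimed.Agent.R255.Rate.ExtStage
import Claimed.Agent.R255.Rate.ExtCoo

/-!
# Row 255 (BR paper), Sec. 7, unit U1a EXTRACT, file 5: FROM THE MATCHED PROCESS TO THE FINITE STAGES      (helper174)      prefix `rxu_`

`rxu_stage` : for fixed block parameters `(i, u, h, K)` with affine error `≤ δ h / 2` of the information profile and of the time profile, the system `M.Q.S n` is an `RxStage` with tolerance `δ` for `𝓤`-almost all `n`.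
  `coord`                   second half of `Homog` for `O(zt) | O(zK), O(z0)`                    (`Good.hom`)
  `aff`, `aff1`             `seqI T (O z) → f z` (`rxc_f_tendsto`) and the trace
  `time`, `normal`, `joint` `Homog` GIVEN THE PARTICLE (second half of `Good.hom`), the exponent is bounded below by chain rules, `Good.pred`, `Good.growth`.
`rxu_supply` : order of the choices `κ, N → δ, L₀ (rx_stage_blk) → K → h (trace, rxl_deriv) → n`.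
EXITS `rxu_supply4`, `rxu_supply3` = `rt_supply4`, `rt_supply3` of `Rate/Contracts.lean`.
-/

set_option autoImplicit false

namespace Claimed.Agent.R255

open Filter Topology
open Classical
open FLaw

/-! ## 0. reading off homogeneity -/

theorem rxu_lg_rpow {ε : ℝ} (h0 : 0 < ε) (h : ℝ) : lg (ε ^ h) = h * lg ε := by
  unfold lg
  rw [one_div, one_div, Real.log_inv, Real.log_inv, Real.log_rpow h0]
  ring

/-- concentration of the surprise around the conditional entropy -/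
theorem rxu_conc (Q : CSeq) {α β : ℕ → Type} (Y : Q.Obs α) (X : Q.Obs β) (d : ℝ) (hH : Q.Homog Y X d) (c δ : ℝ)
    (hc : 0 < c) (hδ : 0 < δ) :
    ∀ᶠ n in uf, (Q.S n).P.pr (fun ω => c * lg (Q.ε n) <
      |(Q.S n).P.surC (Y n) (X n) ω - (Q.S n).P.entC (Y n) (X n)|) ≤ δ := by
  obtain ⟨h1, h2⟩ := hH
  have e1 : ∀ᶠ n in uf, |Q.seqHC Y X n - d| < c / 2 := by
    have h3 := (Metric.tendsto_nhds.1 h1) (c / 2) (by positivity)
    simpa only [Real.dist_eq] using h3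
  have e2 := (h2 (c / 2) (by positivity)).eventually (gt_mem_nhds hδ)
  filter_upwards [e1, e2] with n a1 a2
  refine le_trans (ent_pr_mono _ fun ω _ hω => ?_) a2.le
  have hl := rxc_lg_pos Q n
  by_contra hcon
  push Not at hcon
  have a1' : |(Q.S n).P.entC (Y n) (X n) / lg (Q.ε n) - d| < c / 2 := a1
  have e : (Q.S n).P.surC (Y n) (X n) ω - (Q.S n).P.entC (Y n) (X n)
      = lg (Q.ε n) * (((Q.S n).P.surC (Y n) (X n) ω / lg (Q.ε n) - d)
        - ((Q.S n).P.entC (Y n) (X n) / lg (Q.ε n) - d)) := by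
    field_simp
    ring
  rw [e, abs_mul, abs_of_pos hl] at hω
  have h4 := abs_sub ((Q.S n).P.surC (Y n) (X n) ω / lg (Q.ε n) - d) ((Q.S n).P.entC (Y n) (X n) / lg (Q.ε n) - d)
  nlinarith

/-- lower bound of the surprise in probability -/
theorem rxu_low (Q : CSeq) {α β : ℕ → Type} (Y : Q.Obs α) (X : Q.Obs β) (d : ℝ) (hH : Q.Homog Y X d) (c δ : ℝ)
    (hc : c < d) (hδ : 0 < δ) :
    ∀ᶠ n in uf, (Q.S n).P.pr (fun ω => (Q.S n).P.surC (Y n) (X n) ω < c * lg (Q.ε n)) ≤ δ := by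
  have e2 := (hH.2 ((d - c) / 2) (by linarith)).eventually (gt_mem_nhds hδ)
  filter_upwards [e2] with n a2
  refine le_trans (ent_pr_mono _ fun ω _ hω => ?_) a2.le
  have hl := rxc_lg_pos Q n
  have h3 : (Q.S n).P.surC (Y n) (X n) ω / lg (Q.ε n) < c := by
    rw [div_lt_iff₀ hl]
    exact hω
  rw [lt_abs]
  right
  linarith

/-! ## 1. finite chain rules for the labels given the particle -/

section fin

variable {Ω : Type} [Fintype Ω] {ι : Type}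

omit [Fintype Ω] in
theorem rxu_xL_iff (D : Ω → Dat) (ε v₁ v₂ : ℝ) (ω ω' : Ω) :
    xL D ε v₁ v₂ ω = xL D ε v₁ v₂ ω' ↔ (xC D ε v₁ ω = xC D ε v₁ ω' ∧ xR D ε v₂ ω = xR D ε v₂ ω') :=
  rx_lab_iff

/-- `H(C_b, R_b' | T, C_a, R_a') ≥ H(C_b|T) - H(C_a|T) - H(R_a'|T,C_a)` -/
theorem rxu_fin_time (P : FLaw Ω) (T : Ω → ι) (D : Ω → Dat) {ε : ℝ} (h0 : 0 < ε) (h1 : ε < 1) {a b : ℝ} (a' b' : ℝ)
    (hab : a ≤ b) :
    P.entC (xC D ε b) T - P.entC (xC D ε a) T - P.entC (xR D ε a') (pair T (xC D ε a))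
      ≤ P.entC (xL D ε b b') (pair T (xL D ε a a')) := by
  have h2 : P.entC (xC D ε b) (pair T (xL D ε a a')) ≤ P.entC (xL D ε b b') (pair T (xL D ε a a')) :=
    ent_entC_mono P _ _ _ fun ω ω' _ _ h _ => ((rxu_xL_iff D ε b b' ω ω').1 h).1
  have h3 : P.entC (xC D ε b) (pair T (xL D ε a a')) = P.entC (xC D ε b) (pair (pair T (xC D ε a)) (xR D ε a')) := by
    refine ent_entC_congr P _ _ _ _ (fun ω ω' _ _ => ?_) (fun _ _ _ _ _ => Iff.rfl)
    simp only [FLaw.pair, Prod.mk.injEq, rxu_xL_iff, and_assoc]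
  have h4 := rxl_entC_adjoin P (xC D ε b) (pair T (xC D ε a)) (xR D ε a')
  have h5 := rxl_entC_nested P (xC D ε b) (xC D ε a) T fun ω ω' h => rx_cell_nest h0 h1 hab h
  linarith

/-- `H(C_a, R_b' | T, C_a, R_a') ≥ H(R_b'|T,C_a) - H(R_a'|T,C_a)` -/
theorem rxu_fin_norm (P : FLaw Ω) (T : Ω → ι) (D : Ω → Dat) (ε a a' b' : ℝ) :
    P.entC (xR D ε b') (pair T (xC D ε a)) - P.entC (xR D ε a') (pair T (xC D ε a))
      ≤ P.entC (xL D ε a b') (pair T (xL D ε a a')) := by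
  have h2 : P.entC (xR D ε b') (pair T (xL D ε a a')) ≤ P.entC (xL D ε a b') (pair T (xL D ε a a')) :=
    ent_entC_mono P _ _ _ fun ω ω' _ _ h _ => ((rxu_xL_iff D ε a b' ω ω').1 h).2
  have h3 : P.entC (xR D ε b') (pair T (xL D ε a a')) = P.entC (xR D ε b') (pair (pair T (xC D ε a)) (xR D ε a')) := by
    refine ent_entC_congr P _ _ _ _ (fun ω ω' _ _ => ?_) (fun _ _ _ _ _ => Iff.rfl)
    simp only [FLaw.pair, Prod.mk.injEq, rxu_xL_iff, and_assoc]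
  have h4 := rxl_entC_adjoin P (xR D ε b') (pair T (xC D ε a)) (xR D ε a')
  linarith

end fin

/-! ## 2. the homogeneous exponents -/

variable {γ m : ℝ}

/-- the refined data over `(O(zK), O(z0))` -/
theorem rxu_hom_coord (M : Matched γ m) (hM : M.Good) {i u h K : ℝ} (hx : XOK m i u h K) {t : Dep} (ht : t.In01) :
    ∃ d, M.Q.Homog (M.O (xzt m i u h K t)) (M.Q.pr2 (M.O (xzK m i u h K)) (M.O (plane m i u))) d := by
  have hadm := rx_adm (rxc_ok hx (ε := 1 / 2) (by norm_num) (by norm_num))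
  have h00 : (⟨0, 0, 0, 0⟩ : Dep).In01 := by simp [Dep.In01]
  obtain ⟨d, hd⟩ := (hM.hom [Sum.inl (xzt m i u h K t)] [Sum.inl (xzK m i u h K), Sum.inl (plane m i u)]
    (by
      intro z hz
      rw [List.mem_singleton] at hz
      subst hz
      exact hadm.2.2 t ht)
    (by
      intro z hz
      rw [List.mem_cons, List.mem_singleton] at hz
      rcases hz with rfl | rfl
      · exact hadm.2.2 _ h00
      · exact hadm.1)).1
  have hX : ∀ n ω ω', M.OL [Sum.inl (xzK m i u h K), Sum.inl (plane m i u)] n ω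
        = M.OL [Sum.inl (xzK m i u h K), Sum.inl (plane m i u)] n ω' ↔
      M.Q.pr2 (M.O (xzK m i u h K)) (M.O (plane m i u)) n ω = M.Q.pr2 (M.O (xzK m i u h K)) (M.O (plane m i u)) n ω' := by
    intro n ω ω'
    rw [rxl_c_OL2, rxl_c_pr2]
    rfl
  refine ⟨d, rxl_homog_congr M.Q _ _ _ _ d hX ?_ hd⟩
  intro n ω ω'
  rw [hX, rxl_c_OL1]
  rfl

/-- label prefixes given the particle and a shorter label prefix -/
theorem rxu_hom_lab (M : Matched γ m) (hM : M.Good) {v₁ v₂ v₁' v₂' : ℝ} (h : Sym.Adm m (Sum.inr (v₁, v₂)))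
    (h' : Sym.Adm m (Sum.inr (v₁', v₂'))) :
    ∃ d, M.Q.Homog (M.OS (Sum.inr (v₁', v₂'))) (M.Q.pr2 M.Q.T (M.OS (Sum.inr (v₁, v₂)))) d := by
  obtain ⟨d, hd⟩ := (hM.hom [Sum.inr (v₁', v₂')] [Sum.inr (v₁, v₂)]
    (by
      intro z hz
      rw [List.mem_singleton] at hz
      subst hz
      exact h')
    (by
      intro z hz
      rw [List.mem_singleton] at hz
      subst hz
      exact h)).2
  have hX : ∀ n ω ω', M.Q.pr2 M.Q.T (M.OL [Sum.inr (v₁, v₂)]) n ω = M.Q.pr2 M.Q.T (M.OL [Sum.inr (v₁, v₂)]) n ω' ↔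
      M.Q.pr2 M.Q.T (M.OS (Sum.inr (v₁, v₂))) n ω = M.Q.pr2 M.Q.T (M.OS (Sum.inr (v₁, v₂))) n ω' := by
    intro n ω ω'
    rw [rxl_c_pr2, rxl_c_pr2, rxl_c_OL1]
  refine ⟨d, rxl_homog_congr M.Q _ _ _ _ d hX ?_ hd⟩
  intro n ω ω'
  rw [hX, rxl_c_OL1]

/-- the exponent of `(C_b, R_b')` over `(T, C_a, R_{m a})` -/
theorem rxu_exp_time (M : Matched γ m) (hM : M.Good) {a b b' d : ℝ} (ha : 0 < a) (hab : a ≤ b) (ha1 : a < 1)
    (hd : M.Q.Homog (M.OS (Sum.inr (b, b'))) (M.Q.pr2 M.Q.T (M.OS (Sum.inr (a, m * a)))) d) :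
    M.Sp b - M.Sp a ≤ d := by
  have h2 := ((rxl_S_tendsto M (by linarith : 0 ≤ b)).sub (rxl_S_tendsto M ha.le)).sub (hM.pred a ha ha1)
  rw [sub_zero] at h2
  refine rxl_c_le_of_tendsto h2 hd.1 (Filter.Eventually.of_forall fun n => ?_)
  have h3 := rxu_fin_time (M.Q.S n).P (M.Q.T n) (M.xD n) (M.Q.pos n).1 (M.Q.pos n).2 (m * a) b' hab
  have h4 := div_le_div_of_nonneg_right h3 (rxl_c_lg_pos M.Q n).le
  rw [sub_div, sub_div] at h4
  exact h4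

/-- the exponent of `(C_u, R_{m (u + g)})` over `(T, C_u, R_{m u})` -/
theorem rxu_exp_norm (M : Matched γ m) (hM : M.Good) {u g d : ℝ} (hu : 0 < u) (hg : 0 < g) (hug : u + g < 1)
    (hd : M.Q.Homog (M.OS (Sum.inr (u, m * (u + g)))) (M.Q.pr2 M.Q.T (M.OS (Sum.inr (u, m * u)))) d) :
    M.κ * g ≤ d := by
  have hu1 : u < 1 := by linarith
  refine le_of_forall_pos_sub_le fun η hη => ?_
  have hgr := hM.growth u g hu hg hug η hη
  have h2 : Tendsto (fun n => M.κ * g - η - M.Q.seqHC (M.Rd (m * u)) (M.Q.pr2 M.Q.T (M.Q.C u)) n) uf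
      (𝓝 (M.κ * g - η - 0)) := tendsto_const_nhds.sub (hM.pred u hu hu1)
  rw [sub_zero] at h2
  refine rxl_c_le_of_tendsto h2 hd.1 (hgr.mono fun n hn => ?_)
  have h3 := rxu_fin_norm (M.Q.S n).P (M.Q.T n) (M.xD n) (M.Q.ε n) u (m * u) (m * (u + g))
  have h4 := div_le_div_of_nonneg_right h3 (rxl_c_lg_pos M.Q n).le
  rw [sub_div] at h4
  have h5 : M.Q.seqHC (M.Rd (m * (u + g))) (M.Q.pr2 M.Q.T (M.Q.C u)) n
      - M.Q.seqHC (M.Rd (m * u)) (M.Q.pr2 M.Q.T (M.Q.C u)) n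
      ≤ M.Q.seqHC (M.OS (Sum.inr (u, m * (u + g)))) (M.Q.pr2 M.Q.T (M.OS (Sum.inr (u, m * u)))) n := h4
  linarith

theorem rxu_exp_nonneg (Q : CSeq) {α β : ℕ → Type} (Y : Q.Obs α) (X : Q.Obs β) (d : ℝ) (hH : Q.Homog Y X d) : 0 ≤ d :=
  rxl_c_le_of_tendsto tendsto_const_nhds hH.1 (Filter.Eventually.of_forall fun n =>
    div_nonneg (ent_entC_nonneg _ _ _) (rxl_c_lg_pos Q n).le)

/-! ## 3. the fields of a stage, for `𝓤`-almost all indices -/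

/-- the block parameters at the index `n` -/
abbrev rxuB (M : Matched γ m) (i u h K : ℝ) (n : ℕ) : BPar := ⟨m, M.Q.ε n, i, u, h, K⟩

theorem rxu_lg_rho (M : Matched γ m) (i u h K : ℝ) (n : ℕ) : lg (rxuB M i u h K n).ρ = h * lg (M.Q.ε n) :=
  rxu_lg_rpow (M.Q.pos n).1 h

theorem rxu_f_coord (M : Matched γ m) (hM : M.Good) {i u h K δ : ℝ} (hx : XOK m i u h K) (hδ : 0 < δ) {t : Dep}
    (ht : t.In01) :
    ∀ᶠ n in uf, (M.Q.S n).P.pr (fun ω => δ * lg (rxuB M i u h K n).ρ <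
      |(M.Q.S n).P.surC ((M.Q.S n).xO (M.R n) (rxuB M i u h K n) ((rxuB M i u h K n).zt t))
          (pair ((M.Q.S n).xO (M.R n) (rxuB M i u h K n) (rxuB M i u h K n).zK)
            ((M.Q.S n).xE (M.R n) (rxuB M i u h K n))) ω
        - (M.Q.S n).P.entC ((M.Q.S n).xO (M.R n) (rxuB M i u h K n) ((rxuB M i u h K n).zt t))
          (pair ((M.Q.S n).xO (M.R n) (rxuB M i u h K n) (rxuB M i u h K n).zK)
            ((M.Q.S n).xE (M.R n) (rxuB M i u h K n)))|) ≤ δ := by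
  obtain ⟨d, hd⟩ := rxu_hom_coord M hM hx ht
  filter_upwards [rxu_conc M.Q _ _ d hd (δ * h) δ (mul_pos hδ hx.h0) hδ] with n hn
  rw [rxu_lg_rho, ← mul_assoc]
  exact hn

/-- the informations follow the profile -/
theorem rxu_f_aff (hm : 0 ≤ m) (M : Matched γ m) {h δ c : ℝ} (hh : 0 < h) (hδ : 0 < δ) (z₁ z₂ : Cfg)
    (hz₁ : 0 ≤ z₁.v ∧ 0 ≤ z₁.LX ∧ 0 ≤ z₁.LY ∧ 0 ≤ z₁.LW ∧ 0 ≤ z₁.LZ)
    (hz₂ : 0 ≤ z₂.v ∧ 0 ≤ z₂.LX ∧ 0 ≤ z₂.LY ∧ 0 ≤ z₂.LW ∧ 0 ≤ z₂.LZ)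
    (hf : |M.f z₁ - M.f z₂ - h * c| ≤ δ / 2 * h) :
    ∀ᶠ n in uf, |(M.Q.S n).P.mi (M.Q.T n) (M.O z₁ n) - (M.Q.S n).P.mi (M.Q.T n) (M.O z₂ n) - c * (h * lg (M.Q.ε n))|
      ≤ δ * (h * lg (M.Q.ε n)) := by
  have h1 := (rxc_f_tendsto hm M z₁ hz₁).sub (rxc_f_tendsto hm M z₂ hz₂)
  have h2 := (Metric.tendsto_nhds.1 h1) (δ / 2 * h) (by positivity)
  filter_upwards [h2] with n hn
  rw [Real.dist_eq] at hn
  have hl := rxc_lg_pos M.Q n
  have e : (M.Q.S n).P.mi (M.Q.T n) (M.O z₁ n) - (M.Q.S n).P.mi (M.Q.T n) (M.O z₂ n) - c * (h * lg (M.Q.ε n))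
      = lg (M.Q.ε n) * ((M.Q.seqI M.Q.T (M.O z₁) n - M.Q.seqI M.Q.T (M.O z₂) n - (M.f z₁ - M.f z₂))
        + (M.f z₁ - M.f z₂ - h * c)) := by
    unfold CSeq.seqI
    field_simp
    ring
  rw [e, abs_mul, abs_of_pos hl]
  have h3 := abs_add_le (M.Q.seqI M.Q.T (M.O z₁) n - M.Q.seqI M.Q.T (M.O z₂) n - (M.f z₁ - M.f z₂))
    (M.f z₁ - M.f z₂ - h * c)
  nlinarith

/-- lower bounds of the surprises of the label prefixes given the particle -/
theorem rxu_f_lab (M : Matched γ m) (hM : M.Good) {v₁ v₂ v₁' v₂' c δ : ℝ} (h : Sym.Adm m (Sum.inr (v₁, v₂)))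
    (h' : Sym.Adm m (Sum.inr (v₁', v₂'))) (hδ : 0 < δ)
    (hexp : ∀ d, M.Q.Homog (M.OS (Sum.inr (v₁', v₂'))) (M.Q.pr2 M.Q.T (M.OS (Sum.inr (v₁, v₂)))) d → c < d) :
    ∀ᶠ n in uf, (M.Q.S n).P.pr (fun ω => (M.Q.S n).P.surC (M.OS (Sum.inr (v₁', v₂')) n)
      (pair (M.Q.T n) (M.OS (Sum.inr (v₁, v₂)) n)) ω < c * lg (M.Q.ε n)) ≤ δ := by
  obtain ⟨d, hd⟩ := rxu_hom_lab M hM h h'
  exact rxu_low M.Q _ _ d hd c δ (hexp d hd) hδ

/-- admissibility of the label prefixes of the block -/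
theorem rxu_adm {i u h K a₁ a₂ : ℝ} (hx : XOK m i u h K) (h₁ : 0 ≤ a₁ ∧ a₁ ≤ 1) (h₂ : 0 ≤ a₂ ∧ a₂ ≤ 1) :
    Sym.Adm m (Sum.inr (u + a₁ * h, m * u + a₂ * h)) := by
  obtain ⟨m0, i0, u0, h0, K1, mK, uK⟩ := hx
  have e1 : a₁ * h ≤ h * K := by nlinarith
  have e2 : a₂ * h ≤ m * (h * K) := by nlinarith
  have e3 : 0 ≤ a₁ * h := mul_nonneg h₁.1 h0.le
  have e4 : 0 ≤ a₂ * h := mul_nonneg h₂.1 h0.le
  have e5 : 0 < m * u := mul_pos m0 u0
  refine ⟨by linarith, by linarith, by linarith, ?_⟩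
  show m * u + a₂ * h ≤ m
  nlinarith

theorem rxu_f_time (M : Matched γ m) (hM : M.Good) {i u h K s δ a : ℝ} (hx : XOK m i u h K) (hδ : 0 < δ)
    (ha : 0 ≤ a ∧ a ≤ 1)
    (hS : ∀ a b : ℝ, 0 ≤ a → a ≤ b → b ≤ 1 → (s * (b - a) - δ / 2) * h ≤ M.Sp (u + b * h) - M.Sp (u + a * h)) :
    ∀ᶠ n in uf, (M.Q.S n).P.pr (fun ω => (M.Q.S n).P.surC ((M.Q.S n).xΛ (M.R n) (rxuB M i u h K n) a 0)
      (pair (M.Q.S n).T ((M.Q.S n).xΛ (M.R n) (rxuB M i u h K n) 0 0)) ω < (s * a - δ) * lg (rxuB M i u h K n).ρ) ≤ δ := by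
  have hh := hx.h0
  have hu1 : u < 1 := by
    have := hx.uK; have := hx.K1
    nlinarith
  have key := rxu_f_lab M hM (c := (s * a - δ) * h) (rxu_adm hx rx_01 rx_01) (rxu_adm hx ha rx_01) hδ (fun d hd => by
    have e0 : u + 0 * h = u := by ring
    have e1 : m * u + 0 * h = m * u := by ring
    rw [e0, e1] at hd
    have h1 := rxu_exp_time M hM hx.u0 (by nlinarith [ha.1]) hu1 hd
    have h2 := hS 0 a le_rfl ha.1 ha.2
    rw [e0, sub_zero] at h2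
    nlinarith)
  filter_upwards [key] with n hn
  rw [rxu_lg_rho, ← mul_assoc]
  exact hn

theorem rxu_sig_le (hm : 0 < m) (M : Matched γ m) : 0 ≤ M.sig ∧ M.sig ≤ M.κ / m := by
  have h1 : 0 < M.κ / m := div_pos M.κpos hm
  have h2 : 0 < min 1 (M.κ / m) := lt_min one_pos h1
  have h3 := min_le_right 1 (M.κ / m)
  unfold Matched.sig
  constructor <;> linarith

theorem rxu_f_normal (M : Matched γ m) (hM : M.Good) {i u h K δ a : ℝ} (hx : XOK m i u h K) (hδ : 0 < δ)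
    (ha : 0 ≤ a ∧ a ≤ 1) :
    ∀ᶠ n in uf, (M.Q.S n).P.pr (fun ω => (M.Q.S n).P.surC ((M.Q.S n).xΛ (M.R n) (rxuB M i u h K n) 0 a)
      (pair (M.Q.S n).T ((M.Q.S n).xΛ (M.R n) (rxuB M i u h K n) 0 0)) ω < (M.sig * a - δ) * lg (rxuB M i u h K n).ρ)
      ≤ δ := by
  have hh := hx.h0
  have hm := hx.m0
  obtain ⟨s0, s1⟩ := rxu_sig_le hm M
  have key := rxu_f_lab M hM (c := (M.sig * a - δ) * h) (rxu_adm hx rx_01 rx_01) (rxu_adm hx rx_01 ha) hδ (fun d hd => by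
    rcases ha.1.eq_or_lt with h0 | h0
    · have := rxu_exp_nonneg M.Q _ _ d hd
      rw [← h0]
      nlinarith
    · have e0 : u + 0 * h = u := by ring
      have e1 : m * u + 0 * h = m * u := by ring
      have e2 : m * u + a * h = m * (u + a * h / m) := by
        field_simp
      rw [e0, e1, e2] at hd
      have hg : 0 < a * h / m := by positivity
      have hg1 : a * h / m ≤ h * K := by
        rw [div_le_iff₀ hm]
        have := hx.mK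
        nlinarith [ha.2]
      have h1 := rxu_exp_norm M hM hx.u0 hg (by linarith [hx.uK]) hd
      have h2 : M.sig * (a * h) ≤ M.κ / m * (a * h) := mul_le_mul_of_nonneg_right s1 (by positivity)
      have h3 : M.κ / m * (a * h) = M.κ * (a * h / m) := by ring
      nlinarith)
  filter_upwards [key] with n hn
  rw [rxu_lg_rho, ← mul_assoc]
  exact hn

theorem rxu_f_joint (M : Matched γ m) (hM : M.Good) (hm1 : m = 1) {i u h K s δ a a' : ℝ} (hx : XOK m i u h K) (hδ : 0 < δ)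
    (ha : 0 ≤ a ∧ a ≤ 1) (ha' : 0 ≤ a' ∧ a' ≤ 1) (haa : a ≤ a')
    (hS : ∀ a b : ℝ, 0 ≤ a → a ≤ b → b ≤ 1 → (s * (b - a) - δ / 2) * h ≤ M.Sp (u + b * h) - M.Sp (u + a * h)) :
    ∀ᶠ n in uf, (M.Q.S n).P.pr (fun ω => (M.Q.S n).P.surC ((M.Q.S n).xΛ (M.R n) (rxuB M i u h K n) a' a')
      (pair (M.Q.S n).T ((M.Q.S n).xΛ (M.R n) (rxuB M i u h K n) a a)) ω
        < (s * (a' - a) - δ) * lg (rxuB M i u h K n).ρ) ≤ δ := by
  have hh := hx.h0
  have key := rxu_f_lab M hM (c := (s * (a' - a) - δ) * h) (rxu_adm hx ha ha) (rxu_adm hx ha' ha') hδ (fun d hd => by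
    have e1 : m * u + a * h = m * (u + a * h) := by
      rw [hm1]
      ring
    rw [e1] at hd
    have h0 : 0 ≤ a * h := mul_nonneg ha.1 hh.le
    have h3 : a * h ≤ h * K := by nlinarith [hx.K1, ha.2]
    have h1 := rxu_exp_time M hM (by linarith [hx.u0]) (by nlinarith) (by linarith [hx.uK]) hd
    have h2 := hS a a' ha.1 haa ha'.2
    nlinarith)
  filter_upwards [key] with n hn
  rw [rxu_lg_rho, ← mul_assoc]
  exact hn

/-! ## 4. the stage -/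

theorem rxu_ev_mesh (N : ℕ) (p : ℝ → ℕ → Prop) (h : ∀ a ∈ mesh N, ∀ᶠ n in uf, p a n) :
    ∀ᶠ n in uf, ∀ a ∈ mesh N, p a n := by
  have h1 : ∀ᶠ n in uf, ∀ k : Fin (N + 1), p (rxMv k) n := Filter.eventually_all.2 fun k => h _ (rx_mv_mem k)
  filter_upwards [h1] with n hn a ha
  obtain ⟨k, rfl⟩ := rx_mesh_mv ha
  exact hn k

theorem rxu_ev_dep (N : ℕ) (p : Dep → ℕ → Prop) (h : ∀ t : Dep, t.InMesh N → ∀ᶠ n in uf, p t n) :
    ∀ᶠ n in uf, ∀ t : Dep, t.InMesh N → p t n := by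
  have h1 := rxu_ev_mesh N (fun a n => ∀ b ∈ mesh N, ∀ c ∈ mesh N, ∀ d ∈ mesh N, p ⟨a, b, c, d⟩ n) fun a ha =>
    rxu_ev_mesh N _ fun b hb => rxu_ev_mesh N _ fun c hc => rxu_ev_mesh N _ fun d hd => h ⟨a, b, c, d⟩ ⟨ha, hb, hc, hd⟩
  filter_upwards [h1] with n hn t ht
  exact hn t.X ht.1 t.Y ht.2.1 t.W ht.2.2.1 t.Z ht.2.2.2

/-- **the matched process is a stage for `𝓤`-almost all indices** -/
theorem rxu_stage (M : Matched γ m) (hM : M.Good) {i u h K x y w z D s δ : ℝ} (hx : XOK m i u h K) (N : ℕ) (hδ : 0 < δ)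
    (haff : ∀ t : Dep, t.In01 → (m = 1 → t.Y = t.W) →
      |M.f (xzt m i u h K t) - M.f (plane m i u) - h * (x * t.X + y * t.Y + w * t.W + z * t.Z + D * K)| ≤ δ / 2 * h)
    (haff1 : |M.f (xz1 m i u h) - M.f (plane m i u) - h * (x + y + w + z)| ≤ δ / 2 * h)
    (hS : ∀ a b : ℝ, 0 ≤ a → a ≤ b → b ≤ 1 → (s * (b - a) - δ / 2) * h ≤ M.Sp (u + b * h) - M.Sp (u + a * h)) :
    ∀ᶠ n in uf, RxStage (M.Q.S n) (M.R n) (rxuB M i u h K n) x y w z D s M.sig δ N := by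
  have hdep := rxc_depths hx
  have hm0 := hx.m0.le
  have E1 := rxu_ev_dep N _ fun t ht => rxu_f_coord M hM hx hδ (rx_inMesh_01 ht)
  have E2 := rxu_ev_dep N (fun t n => (m = 1 → t.Y = t.W) →
      |(M.Q.S n).P.mi (M.Q.T n) (M.O (xzt m i u h K t) n) - (M.Q.S n).P.mi (M.Q.T n) (M.O (plane m i u) n)
        - (x * t.X + y * t.Y + w * t.W + z * t.Z + D * K) * (h * lg (M.Q.ε n))| ≤ δ * (h * lg (M.Q.ε n))) fun t ht => by
    by_cases hc : m = 1 → t.Y = t.W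
    · filter_upwards [rxu_f_aff hm0 M hx.h0 hδ _ _ (hdep.1 t (rx_inMesh_01 ht)) hdep.2.2 (haff t (rx_inMesh_01 ht) hc)]
        with n hn _
      exact hn
    · exact Filter.Eventually.of_forall fun n h => absurd h hc
  have E3 := rxu_f_aff hm0 M hx.h0 hδ _ _ hdep.2.1 hdep.2.2 haff1
  have E4 := rxu_ev_mesh N _ fun a ha => rxu_f_time M hM hx hδ (rx_mesh_01 ha) hS
  have E5 := rxu_ev_mesh N _ fun a ha => rxu_f_normal M hM hx hδ (rx_mesh_01 ha)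
  have E6 := rxu_ev_mesh N (fun a n => m = 1 → ∀ a' ∈ mesh N, a ≤ a' →
      (M.Q.S n).P.pr (fun ω => (M.Q.S n).P.surC ((M.Q.S n).xΛ (M.R n) (rxuB M i u h K n) a' a')
        (pair (M.Q.S n).T ((M.Q.S n).xΛ (M.R n) (rxuB M i u h K n) a a)) ω
          < (s * (a' - a) - δ) * lg (rxuB M i u h K n).ρ) ≤ δ) fun a ha => by
    by_cases hm1 : m = 1
    · have h1 := rxu_ev_mesh N (fun a' n => a ≤ a' →
        (M.Q.S n).P.pr (fun ω => (M.Q.S n).P.surC ((M.Q.S n).xΛ (M.R n) (rxuB M i u h K n) a' a')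
          (pair (M.Q.S n).T ((M.Q.S n).xΛ (M.R n) (rxuB M i u h K n) a a)) ω
            < (s * (a' - a) - δ) * lg (rxuB M i u h K n).ρ) ≤ δ) fun a' ha' => by
        by_cases haa : a ≤ a'
        · filter_upwards [rxu_f_joint M hM hm1 hx hδ (rx_mesh_01 ha) (rx_mesh_01 ha') haa hS] with n hn _
          exact hn
        · exact Filter.Eventually.of_forall fun n h => absurd h haa
      filter_upwards [h1] with n hn _
      exact hn
    · exact Filter.Eventually.of_forall fun n h => absurd h hm1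
  filter_upwards [E1, E2, E3, E4, E5, E6] with n a1 a2 a3 a4 a5 a6
  refine ⟨rxc_ok hx (M.Q.pos n).1 (M.Q.pos n).2, fun t ht _ => a1 t ht, fun t ht hc => ?_, ?_, a4, a5,
    fun hm1 a ha a' ha' haa => a6 a ha hm1 a' ha' haa⟩
  · rw [rxu_lg_rho]
    exact a2 t ht hc
  · rw [rxu_lg_rho]
    have e : (M.Q.S n).xP (M.R n) (rxuB M i u h K n) = M.O (xz1 m i u h) n := by
      show (M.Q.S n).xO (M.R n) (rxuB M i u h K n) (rxuB M i u h K n).z1 = M.O (xz1 m i u h) n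
      rw [rxc_z1]
      rfl
    rw [e]
    exact a3

/-! ## 5. the supply -/

/-- order of the choices: `κ, N → δ, L₀ → K → h → n` -/
theorem rxu_supply (hm : 0 < m) (M : Matched γ m) (hM : M.Good) {i u x y w z D s : ℝ} (hi : 0 < i) (hu : 0 < u)
    (hu1 : u < 1) (dS : HasDerivAt M.Sp s u)
    (htr : ∀ K : ℝ, 1 ≤ K → 1 ≤ m * K → ∀ η h₁ : ℝ, 0 < η → 0 < h₁ → ∃ h : ℝ, 0 < h ∧ h < h₁ ∧
      (∀ t : Dep, t.In01 → (m = 1 → t.Y = t.W) →
        |M.f (xzt m i u h K t) - M.f (plane m i u) - h * (x * t.X + y * t.Y + w * t.W + z * t.Z + D * K)| ≤ η * h) ∧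
      |M.f (xz1 m i u h) - M.f (plane m i u) - h * (x + y + w + z)| ≤ η * h) :
    BlkSupply m x y w z s M.sig 1 := by
  intro κ hκ N hN ρ₁ hρ₁
  obtain ⟨δ, L₀, hδ, hblk⟩ := rx_stage_blk κ hκ N hN
  obtain ⟨h₀, hh₀, hder⟩ := rxl_deriv M.Sp s u dS (δ / 2) (by positivity)
  have hK1 : (1 : ℝ) ≤ max 1 (1 / m) := le_max_left _ _
  have hK0 : (0 : ℝ) < max 1 (1 / m) := by linarith
  have hmK : 1 ≤ m * max 1 (1 / m) := by
    have h1 : 1 / m ≤ max 1 (1 / m) := le_max_right _ _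
    have h2 : m * (1 / m) = 1 := by field_simp
    nlinarith
  obtain ⟨h, hh, hlt, ha, ha1⟩ := htr (max 1 (1 / m)) hK1 hmK (δ / 2) (min h₀ ((1 - u) / max 1 (1 / m))) (by positivity)
    (lt_min hh₀ (div_pos (by linarith) hK0))
  have hx : XOK m i u h (max 1 (1 / m)) := by
    refine ⟨hm, hi.le, hu, hh, hK1, hmK, ?_⟩
    have h1 : h < (1 - u) / max 1 (1 / m) := lt_of_lt_of_le hlt (min_le_right _ _)
    rw [lt_div_iff₀ hK0] at h1
    linarith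
  have E := rxu_stage M hM (x := x) (y := y) (w := w) (z := z) (D := D) (s := s) hx N hδ ha ha1
    (hder h hh (lt_of_lt_of_le hlt (min_le_left _ _)))
  have E2 : ∀ᶠ n in uf, max L₀ (lg ρ₁ + 1) / h ≤ lg (M.Q.ε n) :=
    (rxl_lg_tendsto M.Q).eventually (Filter.eventually_ge_atTop _)
  have := uf_neBot
  obtain ⟨n, hn, hn2⟩ := (E.and E2).exists
  rw [div_le_iff₀ hh] at hn2
  have hL : lg (rxuB M i u h (max 1 (1 / m)) n).ρ = h * lg (M.Q.ε n) := rxu_lg_rho M i u h _ n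
  obtain ⟨B, hB, hT⟩ := hblk _ _ _ x y w z D s M.sig hn (by
    rw [hL]
    linarith [le_max_left L₀ (lg ρ₁ + 1)])
  refine ⟨B, ?_, hT⟩
  rw [hB]
  have h3 : lg ρ₁ < lg (rxuB M i u h (max 1 (1 / m)) n).ρ := by
    rw [hL]
    linarith [le_max_right L₀ (lg ρ₁ + 1)]
  have hρ0 := (rx_rho_pos hn.ok).1
  unfold lg at h3
  have h4 := (Real.log_lt_log_iff (by positivity) (by positivity)).1 h3
  rwa [one_div, one_div, inv_lt_inv₀ hρ₁ hρ0] at h4

/-- = `rt_supply4` -/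
theorem rxu_supply4 (hm : 0 < m) (M : Matched γ m) (hM : M.Good) (i u x y w z D s : ℝ)
    (tp : RtTrace4 M i u x y w z D s) : ∃ A : ℝ, 1 ≤ A ∧ BlkSupply m x y w z s M.sig A := by
  refine ⟨1, le_rfl, rxu_supply hm M hM (D := D) tp.ipos tp.upos tp.ult tp.dS ?_⟩
  intro K K1 mK η h₁ hη hh
  obtain ⟨hs, hpos, hlim, hblow⟩ := tp.blow
  obtain ⟨c1, c2, c3⟩ := rxc_cone (m := m) hm K1 mK
  obtain ⟨l, a1, a2⟩ := ((hblow K η hη).and (hlim.eventually (gt_mem_nhds hh))).exists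
  refine ⟨hs l, hpos l, a2, fun t ht _ => ?_, ?_⟩
  · exact a1 ⟨t.X, t.Y, t.W, t.Z, K⟩ (c3 t ht).1 (c3 t ht).2
  · have h1 := a1 ⟨1, 1, 1, 1, 0⟩ c1 c2
    simp only [mul_one, mul_zero, add_zero] at h1
    exact h1

/-- = `rt_supply3` -/
theorem rxu_supply3 (M : Matched γ 1) (hM : M.Good) (i u x q z D s : ℝ)
    (tp : RtTrace3 M i u x q z D s) : ∃ A : ℝ, 1 ≤ A ∧ BlkSupply 1 x q 0 z s M.sig A := by
  refine ⟨1, le_rfl, rxu_supply one_pos M hM (D := D) tp.ipos tp.upos tp.ult tp.dS ?_⟩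
  intro K K1 mK η h₁ hη hh
  obtain ⟨hs, hpos, hlim, hblow⟩ := tp.blow
  obtain ⟨c1, c2, c3⟩ := rxc_cone (m := 1) one_pos K1 mK
  obtain ⟨l, a1, a2⟩ := ((hblow K η hη).and (hlim.eventually (gt_mem_nhds hh))).exists
  refine ⟨hs l, hpos l, a2, fun t ht hc => ?_, ?_⟩
  · have h1 := a1 ⟨t.X, t.Y, t.W, t.Z, K⟩ (c3 t ht).1 (c3 t ht).2 (hc rfl)
    rw [zero_mul, add_zero]
    exact h1
  · have h1 := a1 ⟨1, 1, 1, 1, 0⟩ c1 c2 rfl
    simp only [mul_one, mul_zero, add_zero] at h1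
    rw [add_zero]
    exact h1

theorem rxu_eqns_cite : True := by
  have := @rxuB.eq_1
  trivial

end Claimed.Agent.R255
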