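-- KEEP
import Claimed.Agent.R255.Rate.Gr

/-!
# Row 255 (BR paper), Section 7, unit U5b (`rt_test_q2_ns`), file 1: toolkit      (helper150)

Paper-free finite lemmas: averaging, Cauchy-Schwarz on a bipartite graph, heavy slices, slopes from thin cones.
-/

set_option autoImplicit false

namespace Claimed.Agent.R255

open Finset Classical

/-- averaging: some index of positive weight has at least the average -/
theorem rq2_avg {ι : Type} (s : Finset ι) (w f : ι → ℝ) (c : ℝ) (hc : 0 < c) (hw : ∀ i ∈ s, 0 ≤ w i)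
    (hw1 : ∑ i ∈ s, w i ≤ 1) (h : c ≤ ∑ i ∈ s, w i * f i) : ∃ i ∈ s, 0 < w i ∧ c ≤ f i := by
  by_contra hne
  push Not at hne
  have h1 : ∀ i ∈ s, w i * f i ≤ w i * c := by
    intro i hi
    rcases (hw i hi).eq_or_lt with h0 | h0
    · rw [← h0]; simp
    · exact mul_le_mul_of_nonneg_left (hne i hi h0).le h0.le
  have h2 : ∃ i ∈ s, 0 < w i * f i := by
    by_contra h3
    push Not at h3
    have := Finset.sum_nonpos h3
    linarith
  obtain ⟨i, hi, h3⟩ := h2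
  have h4 : 0 < w i := by
    rcases (hw i hi).eq_or_lt with h0 | h0
    · rw [← h0] at h3; simp at h3
    · exact h0
  have h5 : ∑ i ∈ s, w i * f i < ∑ i ∈ s, w i * c :=
    Finset.sum_lt_sum h1 ⟨i, hi, mul_lt_mul_of_pos_left (hne i hi h4) h4⟩
  rw [← Finset.sum_mul] at h5
  nlinarith

/-- Cauchy-Schwarz on a weighted bipartite graph: pairs of labels with a common neighbour -/
theorem rq2_cs {P T : Type} [Fintype P] [Fintype T] (μ : P → ℝ) (lam : T → ℝ) (G : P → T → Prop)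
    (hμ : ∀ p, 0 ≤ μ p) (hμ1 : ∑ p, μ p ≤ 1) :
    (∑ t, lam t * ∑ p with G p t, μ p) ^ 2 ≤ ∑ i, ∑ j, lam i * lam j * ∑ p with G p i ∧ G p j, μ p := by
  set g : P → ℝ := fun p => ∑ t with G p t, lam t with hg
  have e1 : ∑ t, lam t * ∑ p with G p t, μ p = ∑ p, μ p * g p := by
    simp only [hg, Finset.sum_filter, Finset.mul_sum]
    rw [Finset.sum_comm]
    refine Finset.sum_congr rfl fun p _ => Finset.sum_congr rfl fun t _ => ?_
    split_ifs <;> ring
  have e2 : ∑ i, ∑ j, lam i * lam j * ∑ p with G p i ∧ G p j, μ p = ∑ p, μ p * g p ^ 2 := by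
    have : ∀ p, μ p * g p ^ 2 = ∑ i, ∑ j, lam i * lam j * (if G p i ∧ G p j then μ p else 0) := by
      intro p
      simp only [hg, Finset.sum_filter, sq]
      rw [Finset.sum_mul_sum, Finset.mul_sum]
      refine Finset.sum_congr rfl fun i _ => ?_
      rw [Finset.mul_sum]
      refine Finset.sum_congr rfl fun j _ => ?_
      by_cases h1 : G p i <;> by_cases h2 : G p j <;> simp [h1, h2]
      ring
    simp only [this, Finset.sum_filter, Finset.mul_sum]
    rw [Finset.sum_comm (s := (univ : Finset P))]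
    refine Finset.sum_congr rfl fun i _ => ?_
    rw [Finset.sum_comm]
  rw [e1, e2]
  have h := Finset.sum_sq_le_sum_mul_sum_of_sq_le_mul (univ : Finset P) (r := fun p => μ p * g p) (f := μ)
    (g := fun p => μ p * g p ^ 2) (fun p _ => hμ p) (fun p _ => mul_nonneg (hμ p) (sq_nonneg _))
    (fun p _ => le_of_eq (by ring))
  have h2 : 0 ≤ ∑ p, μ p * g p ^ 2 := Finset.sum_nonneg fun p _ => mul_nonneg (hμ p) (sq_nonneg _)
  nlinarith

/-- heavy slices: a population split in at most `N` classes has a class which is not light and keeps its share of `f` -/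
theorem rq2_slice {P κ : Type} (S : Finset P) (K : Finset κ) (cl : P → κ) (μ f : P → ℝ) (c N : ℝ)
    (hc : 0 < c) (hN : 0 < N) (hK : (K.card : ℝ) ≤ N) (hcl : ∀ p ∈ S, cl p ∈ K) (hμ : ∀ p ∈ S, 0 ≤ μ p)
    (hμ1 : ∑ p ∈ S, μ p ≤ 1)
    (hf : ∀ p ∈ S, f p ≤ μ p) (h : c ≤ ∑ p ∈ S, f p) :
    ∃ k ∈ K, c / 2 * ∑ p ∈ S with cl p = k, μ p ≤ ∑ p ∈ S with cl p = k, f p ∧
      c / (2 * N) ≤ ∑ p ∈ S with cl p = k, μ p := by
  have hne : K.Nonempty := by
    by_contra h0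
    rw [Finset.not_nonempty_iff_eq_empty] at h0
    have h1 : S = ∅ := by
      rw [Finset.eq_empty_iff_forall_notMem]
      intro p hp
      have := hcl p hp
      rw [h0] at this
      exact absurd this (Finset.notMem_empty _)
    rw [h1] at h
    simp at h
    linarith
  have e1 : ∑ k ∈ K, ∑ p ∈ S with cl p = k, f p = ∑ p ∈ S, f p := Finset.sum_fiberwise_of_maps_to hcl f
  have e2 : ∑ k ∈ K, ∑ p ∈ S with cl p = k, μ p = ∑ p ∈ S, μ p := Finset.sum_fiberwise_of_maps_to hcl μ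
  have h3 : ∑ k ∈ K, c / 2 * (∑ p ∈ S with cl p = k, μ p + 1 / N) ≤ ∑ k ∈ K, ∑ p ∈ S with cl p = k, f p := by
    rw [e1, ← Finset.mul_sum, Finset.sum_add_distrib, e2, Finset.sum_const, nsmul_eq_mul]
    have h4 : (K.card : ℝ) * (1 / N) ≤ 1 := by
      rw [mul_one_div, div_le_one hN]
      exact hK
    nlinarith
  obtain ⟨k, hk, h5⟩ := Finset.exists_le_of_sum_le hne h3
  have h6 : ∑ p ∈ S with cl p = k, f p ≤ ∑ p ∈ S with cl p = k, μ p :=
    Finset.sum_le_sum fun p hp => hf p (Finset.mem_filter.1 hp).1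
  have h7 : 0 < 1 / N := by positivity
  have h8 : c / (2 * N) = c / 2 * (1 / N) := by field_simp
  refine ⟨k, hk, ?_, ?_⟩
  · nlinarith
  · rw [h8]
    have h9 : 0 ≤ ∑ p ∈ S with cl p = k, μ p := Finset.sum_nonneg fun p hp => hμ p (Finset.mem_filter.1 hp).1
    nlinarith

theorem rq2_ip_bound (d₁ d₂ c a r : ℝ) (hc : |c| ≤ 1) (h2 : |d₂| ≤ |d₁|) (h3 : |-(d₂ / d₁) - a| ≤ r) :
    |c * (a * d₁ + d₂)| ≤ r * |d₁| := by
  have hr : 0 ≤ r := (abs_nonneg _).trans h3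
  by_cases h0 : d₁ = 0
  · have h4 : d₂ = 0 := by
      rw [h0, abs_zero] at h2
      exact abs_eq_zero.1 (le_antisymm h2 (abs_nonneg _))
    rw [h0, h4]
    simp
  · have e : c * (a * d₁ + d₂) = -(c * ((-(d₂ / d₁) - a) * d₁)) := by field_simp; ring
    rw [e, abs_neg, abs_mul, abs_mul]
    calc |c| * (|-(d₂ / d₁) - a| * |d₁|) ≤ 1 * (r * |d₁|) := by gcongr
      _ = r * |d₁| := one_mul _

theorem rq2_sin_arctan (y : ℝ) : Real.sin (Real.arctan y) = y * Real.cos (Real.arctan y) := by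
  rw [Real.sin_arctan, Real.cos_arctan]; ring

/-- slopes from thin cones, chart `|Δ₂| ≤ |Δ₁|` -/
theorem rq2_slope1 {ι : Type} [Fintype ι] (lam : ι → ℝ) (pos : ι → ℝ × ℝ) (𝒢 : ι → ι → Prop) (C t ρ : ℝ)
    (hlam : ∀ i, 0 ≤ lam i) (hT : RtThin lam pos 𝒢 C t ρ) (i₀ : ι) (a r : ℝ) (hr : ρ ≤ r) (hr1 : r ≤ 1) :
    ∑ i ∈ univ.filter (fun i => 𝒢 i₀ i ∧ |(pos i).2 - (pos i₀).2| ≤ |(pos i).1 - (pos i₀).1|) with
      |-(((pos i).2 - (pos i₀).2) / ((pos i).1 - (pos i₀).1)) - a| ≤ r, lam i ≤ C * r ^ t := by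
  refine le_trans (Finset.sum_le_sum_of_subset_of_nonneg ?_ fun i _ _ => hlam i) (hT i₀ (Real.arctan (-a)) r hr hr1)
  intro i hi
  simp only [Finset.mem_filter, Finset.mem_univ, true_and] at hi ⊢
  obtain ⟨⟨h1, h2⟩, h3⟩ := hi
  refine ⟨h1, ?_⟩
  have h4 := rq2_ip_bound _ _ (Real.cos (Real.arctan (-a))) a r (Real.abs_cos_le_one _) h2 h3
  have e : ip (pos i - pos i₀) (nrm (Real.arctan (-a))) =
      Real.cos (Real.arctan (-a)) * (a * ((pos i).1 - (pos i₀).1) + ((pos i).2 - (pos i₀).2)) := by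
    simp only [ip, nrm, Prod.fst_sub, Prod.snd_sub, rq2_sin_arctan]
    ring
  rw [e]
  refine h4.trans (mul_le_mul_of_nonneg_left ?_ ((abs_nonneg _).trans h3))
  rw [Prod.dist_eq, Real.dist_eq]
  exact le_max_left _ _

/-- slopes from thin cones, chart `|Δ₁| < |Δ₂|` -/
theorem rq2_slope2 {ι : Type} [Fintype ι] (lam : ι → ℝ) (pos : ι → ℝ × ℝ) (𝒢 : ι → ι → Prop) (C t ρ : ℝ)
    (hlam : ∀ i, 0 ≤ lam i) (hT : RtThin lam pos 𝒢 C t ρ) (i₀ : ι) (a r : ℝ) (hr : ρ ≤ r) (hr1 : r ≤ 1) :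
    ∑ i ∈ univ.filter (fun i => 𝒢 i₀ i ∧ ¬ |(pos i).2 - (pos i₀).2| ≤ |(pos i).1 - (pos i₀).1|) with
      |-(((pos i).1 - (pos i₀).1) / ((pos i).2 - (pos i₀).2)) - a| ≤ r, lam i ≤ C * r ^ t := by
  refine le_trans (Finset.sum_le_sum_of_subset_of_nonneg ?_ fun i _ _ => hlam i)
    (hT i₀ (Real.pi / 2 + Real.arctan a) r hr hr1)
  intro i hi
  simp only [Finset.mem_filter, Finset.mem_univ, true_and] at hi ⊢
  obtain ⟨⟨h1, h2⟩, h3⟩ := hi
  refine ⟨h1, ?_⟩
  have h4 := rq2_ip_bound _ _ (-Real.cos (Real.arctan a)) a r (by rw [abs_neg]; exact Real.abs_cos_le_one _)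
    (not_le.1 h2).le h3
  have e : ip (pos i - pos i₀) (nrm (Real.pi / 2 + Real.arctan a)) =
      -Real.cos (Real.arctan a) * (a * ((pos i).2 - (pos i₀).2) + ((pos i).1 - (pos i₀).1)) := by
    simp only [ip, nrm, Prod.fst_sub, Prod.snd_sub, Real.sin_add, Real.cos_add, Real.sin_pi_div_two,
      Real.cos_pi_div_two, rq2_sin_arctan]
    ring
  rw [e]
  refine h4.trans (mul_le_mul_of_nonneg_left ?_ ((abs_nonneg _).trans h3))
  rw [Prod.dist_eq, Real.dist_eq, Real.dist_eq]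
  exact le_max_right _ _

end Claimed.Agent.R255
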