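-- KEEP
import Claimed.Agent.R255.Rate.Q2Tool

/-!
# Row 255 (BR paper), Section 7, unit U5b (`rt_test_q2_ns`), file 2: one chart of directions      (helper150)

In a heavy slice `(X, Z₀) ≈ (eX, eZ)` of the frame of the pin, the middle datum is Frostman `q`, and
`Z₁ = Z₀ + D₁ b + D₂ a + D₁ D₂ X` shows that the projection `b + (D₂/D₁) a` is covered by `ρ^(-z-η)` intervals of length `ρ^(1-2η')`.
This contradicts `ex_F`.
-/

set_option autoImplicit false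

namespace Claimed.Agent.R255

open Finset Classical
open Claimed.Agent.RW (KfFrost KfCov kfProj ExTest)

/-- the covering of `Z₁` gives a covering of the projection of the middle datum -/
theorem rq2_cover {P : Type} (S : Set P) (a b X ζ Zt : P → ℝ) (D₁ D₂ eX eZ ρ ρ' A δ : ℝ) (cov : Finset ℝ)
    (h0 : 0 < ρ) (hδ : 0 < δ)
    (hfr : ∀ p, Zt p = ζ p + D₁ * b p + D₂ * a p + D₁ * D₂ * X p)
    (hD2 : |D₂| ≤ |D₁|) (hD1 : δ ≤ |D₁|) (hDA : |D₁| ≤ 2 * A)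
    (hS : ∀ p ∈ S, |X p - eX| ≤ ρ ∧ |ζ p - eZ| ≤ ρ)
    (hcov : ∀ p ∈ S, ∃ e ∈ cov, |Zt p - e| ≤ ρ)
    (hρ' : (4 + 8 * A ^ 2) * ρ ≤ δ * ρ') :
    ∃ cov' : Finset ℝ, cov'.card ≤ cov.card ∧
      KfCov cov' ρ' {v | ∃ p ∈ S, v = kfProj (-(D₂ / D₁)) (a p, b p)} := by
  refine ⟨cov.image (fun e => (e - eZ - D₁ * D₂ * eX) / D₁ - ρ' / 2), Finset.card_image_le, ?_⟩
  rintro v ⟨p, hp, rfl⟩
  obtain ⟨e, he, h1⟩ := hcov p hp
  obtain ⟨h2, h3⟩ := hS p hp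
  refine ⟨_, Finset.mem_image_of_mem _ he, ?_⟩
  have hD0 : 0 < |D₁| := hδ.trans_le hD1
  have hD0' : D₁ ≠ 0 := abs_pos.1 hD0
  have e1 : kfProj (-(D₂ / D₁)) (a p, b p) - (e - eZ - D₁ * D₂ * eX) / D₁ =
      ((Zt p - e) - (ζ p - eZ) - D₁ * D₂ * (X p - eX)) / D₁ := by
    rw [hfr p]
    simp only [kfProj]
    field_simp
    ring
  have h4 : |(Zt p - e) - (ζ p - eZ) - D₁ * D₂ * (X p - eX)| ≤ (2 + 4 * A ^ 2) * ρ := by
    have h5 : |D₁ * D₂ * (X p - eX)| ≤ (2 * A) * (2 * A) * ρ := by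
      rw [abs_mul, abs_mul]
      have : |D₂| ≤ 2 * A := hD2.trans hDA
      have hA0 : 0 ≤ 2 * A := hD0.le.trans hDA
      gcongr
    have h6 := abs_sub ((Zt p - e) - (ζ p - eZ)) (D₁ * D₂ * (X p - eX))
    have h7 := abs_sub (Zt p - e) (ζ p - eZ)
    nlinarith
  have h8 : |kfProj (-(D₂ / D₁)) (a p, b p) - (e - eZ - D₁ * D₂ * eX) / D₁| ≤ ρ' / 2 := by
    rw [e1, abs_div, div_le_iff₀ hD0]
    have h9 : 0 ≤ ρ' := by
      by_contra hneg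
      push Not at hneg
      have : δ * ρ' < 0 := mul_neg_of_pos_of_neg hδ hneg
      nlinarith [sq_nonneg A]
    nlinarith
  have h10 := abs_le.1 h8
  constructor <;> linarith [h10.1, h10.2]

/-- the numerical inequalities between the scales `ρ` and `ρ' = ρ^(1-2η')` -/
theorem rq2_num (A ηF η η' ρ : ℝ) (h0 : 0 < ρ) (h1 : ρ < 1) (hsm : 4 + 8 * A ^ 2 ≤ ρ ^ (-η'))
    (hη : 0 < η) (hη' : 0 < η') (hη1 : η ≤ ηF / 12) (hη'1 : η' ≤ ηF / 8) (hη'3 : η' ≤ 1 / 4) :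
    ρ ≤ ρ ^ (1 - 2 * η') ∧ ρ ^ (-η') ≤ (ρ ^ (1 - 2 * η')) ^ (-ηF) ∧ (ρ ^ (1 - 2 * η')) ^ ηF ≤ ρ ^ η' / 4 ∧
      2 * ρ ^ (-3 * η - η') ≤ (ρ ^ (1 - 2 * η')) ^ (-ηF) ∧ (4 + 8 * A ^ 2) * ρ ≤ ρ ^ η' * ρ ^ (1 - 2 * η') := by
  have hE : ηF / 2 ≤ (1 - 2 * η') * ηF := by nlinarith
  have h4 : (4 : ℝ) ≤ ρ ^ (-η') := by nlinarith [sq_nonneg A]
  have hp : 0 < ρ ^ η' := Real.rpow_pos_of_pos h0 _
  have hinv : ρ ^ (-η') * ρ ^ η' = 1 := by rw [← Real.rpow_add h0]; simp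
  refine ⟨?_, ?_, ?_, ?_, ?_⟩
  · calc ρ = ρ ^ (1 : ℝ) := (Real.rpow_one ρ).symm
      _ ≤ ρ ^ (1 - 2 * η') := Real.rpow_le_rpow_of_exponent_ge h0 h1.le (by linarith)
  · rw [← Real.rpow_mul h0.le]
    exact Real.rpow_le_rpow_of_exponent_ge h0 h1.le (by nlinarith)
  · rw [← Real.rpow_mul h0.le]
    have h5 : ρ ^ ((1 - 2 * η') * ηF) ≤ ρ ^ (η' + η') := Real.rpow_le_rpow_of_exponent_ge h0 h1.le (by nlinarith)
    rw [Real.rpow_add h0] at h5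
    have h6 : ρ ^ η' ≤ 1 / 4 := by
      rw [le_div_iff₀ (by norm_num)]
      nlinarith
    nlinarith
  · rw [← Real.rpow_mul h0.le]
    have h5 : ρ ^ (-η' + (-3 * η - η')) ≤ ρ ^ ((1 - 2 * η') * -ηF) :=
      Real.rpow_le_rpow_of_exponent_ge h0 h1.le (by nlinarith)
    rw [Real.rpow_add h0] at h5
    have h6 : 0 < ρ ^ (-3 * η - η') := Real.rpow_pos_of_pos h0 _
    nlinarith
  · have e : ρ ^ η' * ρ ^ (1 - 2 * η') = ρ ^ (-η') * ρ := by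
      rw [← Real.rpow_add h0]
      nth_rewrite 3 [← Real.rpow_one ρ]
      rw [← Real.rpow_add h0]
      congr 1
      ring
    rw [e]
    exact mul_le_mul_of_nonneg_right hsm h0.le

/-- **one chart**: a heavy slice and a family of tags with `|D₂| ≤ |D₁|` contradict `ex_F` -/
theorem rq2_half {P T : Type} [Fintype P] [Fintype T] (q' s' α A A' ηF ρF z η η' ρ : ℝ)
    (hF : ∀ ρ : ℝ, 0 < ρ → ρ < ρF → ∀ (X T : Type) [Fintype X] [Fintype T] (μ : X → ℝ) (ν : T → ℝ)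
      (pt : X → ℝ × ℝ) (sl : T → ℝ) (G : Finset (X × T)) (M : ℕ),
      ExTest ρ ηF A' s' μ ν pt sl G M → KfFrost μ pt (ρ ^ (-ηF)) q' ρ → ρ ^ (-1 + α) ≤ (M : ℝ))
    (hA' : 1 ≤ A') (h0 : 0 < ρ) (h1 : ρ < 1) (hρF : ρ ^ (1 - 2 * η') < ρF)
    (hsm : 4 + 8 * A ^ 2 ≤ ρ ^ (-η')) (hη : 0 < η) (hη' : 0 < η') (hη1 : η ≤ ηF / 12) (hη2 : η ≤ (1 - z) / 8)
    (hη'1 : η' ≤ ηF / 8) (hη'2 : η' ≤ (1 - z) / 8) (hη'3 : η' ≤ 1 / 4) (hα : α = (1 - z) / 4) (hz1 : z < 1)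
    (μ : P → ℝ) (lam : T → ℝ) (S : Finset P) (T' : Finset T) (G : P → T → Prop)
    (a b X ζ : P → ℝ) (D₁ D₂ : T → ℝ) (Zt : T → P → ℝ) (eX eZ m : ℝ)
    (hμ : ∀ p, 0 ≤ μ p) (hlam : ∀ t, 0 ≤ lam t) (hlam1 : ∑ t, lam t ≤ 1)
    (hm : m = ∑ p ∈ S, μ p) (hm0 : 0 < m)
    (hfr : ∀ t p, Zt t p = ζ p + D₁ t * b p + D₂ t * a p + D₁ t * D₂ t * X p)
    (hD : ∀ t ∈ T', |D₂ t| ≤ |D₁ t| ∧ ρ ^ η' ≤ |D₁ t| ∧ |D₁ t| ≤ 2 * A)
    (hsl : ∀ a₀ r : ℝ, ρ ≤ r → r ≤ 1 → ∑ t ∈ T' with |-(D₂ t / D₁ t) - a₀| ≤ r, lam t ≤ ρ ^ (-η') * r ^ s')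
    (hS : ∀ p ∈ S, |X p - eX| ≤ ρ ∧ |ζ p - eZ| ≤ ρ)
    (hbd : ∀ p, |a p| ≤ A' ∧ |b p| ≤ A')
    (hfro : ∀ y₀ w₀ r : ℝ, ρ ≤ r → r ≤ 1 →
      ∑ p ∈ S with |a p - y₀| ≤ r ∧ |b p - w₀| ≤ r, μ p ≤ 2 * ρ ^ (-3 * η - η') * m * r ^ q')
    (hcov : ∀ t, RtCov {v | ∃ p, G p t ∧ v = Zt t p} ρ (ρ ^ (-η) * ρ ^ (-z)))
    (hmass : ρ ^ η' / 4 * m ≤ ∑ t ∈ T', lam t * ∑ p ∈ S with G p t, μ p) : False := by
  obtain ⟨n1, n2, n3, n4, n5⟩ := rq2_num A ηF η η' ρ h0 h1 hsm hη hη' hη1 hη'1 hη'3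
  set ρ' : ℝ := ρ ^ (1 - 2 * η') with hρ'
  have hρ'0 : 0 < ρ' := Real.rpow_pos_of_pos h0 _
  -- the coverings
  have hc : ∀ t, ∃ cov' : Finset ℝ, (cov'.card : ℝ) ≤ ρ ^ (-η) * ρ ^ (-z) ∧ (t ∈ T' →
      KfCov cov' ρ' {v | ∃ p ∈ {p | p ∈ S ∧ G p t}, v = kfProj (-(D₂ t / D₁ t)) (a p, b p)}) := by
    intro t
    by_cases ht : t ∈ T'
    · obtain ⟨cov, hcard, hcv⟩ := hcov t
      obtain ⟨d1, d2, d3⟩ := hD t ht
      obtain ⟨cov', hc1, hc2⟩ := rq2_cover {p | p ∈ S ∧ G p t} a b X ζ (Zt t) (D₁ t) (D₂ t) eX eZ ρ ρ' A (ρ ^ η') cov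
        h0 (Real.rpow_pos_of_pos h0 _) (hfr t) d1 d2 d3 (fun p hp => hS p hp.1)
        (fun p hp => hcv _ ⟨p, hp.2, rfl⟩) n5
      exact ⟨cov', le_trans (by exact_mod_cast hc1) hcard, fun _ => hc2⟩
    · exact ⟨∅, by simp; positivity, fun h => absurd h ht⟩
  choose cov' hcard hcv using hc
  have hTs : ∀ f : T → ℝ, ∑ t ∈ T', f t = ∑ t, if t ∈ T' then f t else 0 := fun f => by
    rw [Finset.sum_ite_mem, Finset.univ_inter]
  have hSs : ∀ f : P → ℝ, ∑ p ∈ S, f p = ∑ p, if p ∈ S then f p else 0 := fun f => by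
    rw [Finset.sum_ite_mem, Finset.univ_inter]
  -- the test
  set μ' : P → ℝ := fun p => if p ∈ S then μ p / m else 0 with hμ'
  set ν : T → ℝ := fun t => if t ∈ T' then lam t else 0 with hν
  set sl : T → ℝ := fun t => if t ∈ T' then -(D₂ t / D₁ t) else 0 with hsl'
  set Gf : Finset (P × T) := univ.filter (fun x => x.1 ∈ S ∧ x.2 ∈ T' ∧ G x.1 x.2) with hGf
  have hT : ExTest ρ' ηF A' s' μ' ν (fun p => (a p, b p)) sl Gf ⌊ρ ^ (-η) * ρ ^ (-z)⌋₊ := by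
    refine ⟨?_, ?_, ?_, ?_, hbd, ?_, ?_, ?_, cov', ?_, ?_⟩
    · intro p
      simp only [hμ']
      split_ifs
      · exact div_nonneg (hμ p) hm0.le
      · exact le_rfl
    · intro t
      simp only [hν]
      split_ifs
      · exact hlam t
      · exact le_rfl
    · simp only [hμ']
      rw [← Finset.sum_filter, Finset.filter_mem_eq_inter, Finset.univ_inter, ← Finset.sum_div, ← hm,
        div_self hm0.ne']
    · refine le_trans (Finset.sum_le_sum fun t _ => ?_) hlam1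
      simp only [hν]
      split_ifs
      · exact le_rfl
      · exact hlam t
    · intro t
      simp only [hsl']
      split_ifs with ht
      · obtain ⟨d1, d2, d3⟩ := hD t ht
        rw [abs_neg, abs_div]
        exact (div_le_one_of_le₀ d1 (abs_nonneg _)).trans hA'
      · rw [abs_zero]; linarith
    · intro z₀ r hr hr1
      have e : ∑ t with dist (sl t) z₀ ≤ r, ν t = ∑ t ∈ T' with |-(D₂ t / D₁ t) - z₀| ≤ r, lam t := by
        rw [Finset.sum_filter, Finset.sum_filter, hTs]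
        refine Finset.sum_congr rfl fun t _ => ?_
        simp only [hν, hsl', Real.dist_eq]
        by_cases ht : t ∈ T' <;> simp [ht]
      rw [e]
      refine (hsl z₀ r (n1.trans hr) hr1).trans ?_
      exact mul_le_mul_of_nonneg_right n2 (Real.rpow_nonneg (hρ'0.le.trans hr) _)
    · have e : ∑ x ∈ Gf, μ' x.1 * ν x.2 = (∑ t ∈ T', lam t * ∑ p ∈ S with G p t, μ p) / m := by
        rw [hGf, Finset.sum_filter, Fintype.sum_prod_type_right, hTs, Finset.sum_div]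
        refine Finset.sum_congr rfl fun t _ => ?_
        by_cases ht : t ∈ T'
        · simp only [ht, if_true, true_and, hν, hμ']
          rw [Finset.sum_filter, hSs, Finset.mul_sum, Finset.sum_div]
          refine Finset.sum_congr rfl fun p _ => ?_
          by_cases hp : p ∈ S <;> by_cases hg : G p t <;> simp [hp, hg]
          ring
        · simp [ht]
      rw [e, le_div_iff₀ hm0]
      exact (mul_le_mul_of_nonneg_right n3 hm0.le).trans hmass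
    · intro t
      exact Nat.le_floor (hcard t)
    · rintro t v ⟨p, hp, rfl⟩
      simp only [hGf, Finset.mem_filter, Finset.mem_univ, true_and] at hp
      have := hcv t hp.2.1 (kfProj (-(D₂ t / D₁ t)) (a p, b p)) ⟨p, ⟨hp.1, hp.2.2⟩, rfl⟩
      simpa only [hsl', if_pos hp.2.1] using this
  have hFr : KfFrost μ' (fun p => (a p, b p)) (ρ' ^ (-ηF)) q' ρ' := by
    intro u₀ r hr hr1
    have e : ∑ p with dist (a p, b p) u₀ ≤ r, μ' p = (∑ p ∈ S with |a p - u₀.1| ≤ r ∧ |b p - u₀.2| ≤ r, μ p) / m := by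
      rw [Finset.sum_filter, Finset.sum_filter, hSs, Finset.sum_div]
      refine Finset.sum_congr rfl fun p _ => ?_
      simp only [hμ', Prod.dist_eq, Real.dist_eq, max_le_iff]
      by_cases hp : p ∈ S <;> by_cases hg : |a p - u₀.1| ≤ r ∧ |b p - u₀.2| ≤ r <;> simp [hp, hg]
    rw [e, div_le_iff₀ hm0]
    refine (hfro u₀.1 u₀.2 r (n1.trans hr) hr1).trans ?_
    have h5 : 0 ≤ r ^ q' := Real.rpow_nonneg (hρ'0.le.trans hr) _
    calc 2 * ρ ^ (-3 * η - η') * m * r ^ q' = 2 * ρ ^ (-3 * η - η') * (r ^ q' * m) := by ring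
      _ ≤ ρ' ^ (-ηF) * (r ^ q' * m) := mul_le_mul_of_nonneg_right n4 (mul_nonneg h5 hm0.le)
      _ = ρ' ^ (-ηF) * r ^ q' * m := by ring
  have hfin := hF ρ' hρ'0 hρF P T μ' ν (fun p => (a p, b p)) sl Gf _ hT hFr
  have h6 : ((⌊ρ ^ (-η) * ρ ^ (-z)⌋₊ : ℕ) : ℝ) ≤ ρ ^ (-η) * ρ ^ (-z) := Nat.floor_le (by positivity)
  have h7 : ρ ^ ((1 - 2 * η') * (-1 + α)) ≤ ρ ^ (-η + -z) := by
    rw [Real.rpow_mul h0.le, Real.rpow_add h0]
    exact hfin.trans h6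
  rw [Real.rpow_le_rpow_left_iff_of_base_lt_one h0 h1] at h7
  rw [hα] at h7
  nlinarith

end Claimed.Agent.R255
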