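-- KEEP
import Claimed.Agent.R255.Rate.Q2Half

/-!
# Row 255 (BR paper), Section 7, unit U5b: `rt_test_q2_ns` (tied clocks, no strip, `z < 1 ⟹ q ≤ 2 - s`)      (helper150)

EXIT: `rq2_main` = the contract `rt_test_q2_ns` of `Rate/Contracts.lean`, with the statement of `rt_rp` (unit U4) as a hypothesis (`rq2_RpStmt`).
Proof (plan.md, T2n): pairs of labels with a common neighbour (Cauchy-Schwarz), `rt_rp` gives separated pairs with thin cones, fix a pin `t₀`,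
cut `G_{t₀}` in slices `(X, Z₀)` at the scale `ρ`, take a heavy slice, split the tags in two charts, `rq2_half` (= `ex_F`).
-/

set_option autoImplicit false

namespace Claimed.Agent.R255

open Finset Classical
open Claimed.Agent.RW (KfFrost KfCov kfProj ExTest ex_F)

/-- the statement of `rt_rp` (Proposition 7.3, finite form; unit U4) -/
def rq2_RpStmt : Prop :=
  ∀ (A s τ η' : ℝ), 1 ≤ A → 0 < s → s ≤ 1 → 0 < τ → 0 < η' →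
    ∃ t₀ : ℝ, 0 < t₀ ∧ t₀ ≤ 1 ∧ ∀ κ₀ : ℝ, 0 < κ₀ → ∃ η ρ₁ : ℝ, 0 < η ∧ 0 < ρ₁ ∧ ∀ ρ : ℝ, 0 < ρ → ρ < ρ₁ →
      ∀ (ι : Type) [Fintype ι] (lam : ι → ℝ) (pos : ι → ℝ × ℝ) (wt : ι → ι → ℝ),
        (∀ i, 0 ≤ lam i) → ∑ i, lam i ≤ 1 → (∀ i, |(pos i).1| ≤ A ∧ |(pos i).2| ≤ A) →
        RtTreeHer lam pos (ρ ^ (-η)) s ρ → RtNoStrip lam pos (ρ ^ t₀) (ρ ^ κ₀) →
        (∀ i j, 0 ≤ wt i j ∧ wt i j ≤ 1) → ρ ^ η ≤ ∑ i, ∑ j, lam i * lam j * wt i j →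
        ∃ 𝒢 : ι → ι → Prop, ρ ^ η' ≤ ∑ i, ∑ j with 𝒢 i j, lam i * lam j * wt i j ∧
          (∀ i j, 𝒢 i j → ρ ^ η' ≤ dist (pos i) (pos j)) ∧ RtThin lam pos 𝒢 (ρ ^ (-η')) (s - τ) ρ

/-- a block with a good family of pairs of labels is impossible -/
theorem rq2_block (q' s' α A ηF ρF x q z s σ η η' ρ : ℝ)
    (hF : ∀ ρ : ℝ, 0 < ρ → ρ < ρF → ∀ (X T : Type) [Fintype X] [Fintype T] (μ : X → ℝ) (ν : T → ℝ)
      (pt : X → ℝ × ℝ) (sl : T → ℝ) (G : Finset (X × T)) (M : ℕ),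
      ExTest ρ ηF (A + A ^ 2) s' μ ν pt sl G M → KfFrost μ pt (ρ ^ (-ηF)) q' ρ → ρ ^ (-1 + α) ≤ (M : ℝ))
    (hA : 1 ≤ A) (h0 : 0 < ρ) (h1 : ρ < 1) (hρF : ρ ^ (1 - 2 * η') < ρF)
    (hsm : 4 + 8 * A ^ 2 ≤ ρ ^ (-η')) (hη : 0 < η) (hη' : 0 < η') (hη1 : η ≤ ηF / 12) (hη2 : η ≤ (1 - z) / 8)
    (hη'1 : η' ≤ ηF / 8) (hη'2 : η' ≤ (1 - z) / 8) (hη'3 : η' ≤ 1 / 4) (hα : α = (1 - z) / 4) (hz1 : z < 1)
    (hq' : q' ≤ q) (b : RtBlk) (hb : b.Is3w ρ η A x q z s σ) (𝒢 : b.Th → b.Th → Prop)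
    (hGm : ρ ^ η' ≤ ∑ i, ∑ j with 𝒢 i j, b.lam i * b.lam j * ∑ p with b.G p i ∧ b.G p j, b.μ p)
    (hGs : ∀ i j, 𝒢 i j → ρ ^ η' ≤ dist (b.pos i) (b.pos j))
    (hGt : RtThin b.lam b.pos 𝒢 (ρ ^ (-η')) s' ρ) : False := by
  have hc0 : 0 < ρ ^ η' := Real.rpow_pos_of_pos h0 _
  -- the pin
  have h2 : ρ ^ η' ≤ ∑ i ∈ univ, b.lam i * ∑ j with 𝒢 i j, b.lam j * ∑ p with b.G p i ∧ b.G p j, b.μ p := by
    refine hGm.trans (le_of_eq (Finset.sum_congr rfl fun i _ => ?_))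
    rw [Finset.mul_sum]
    exact Finset.sum_congr rfl fun j _ => by ring
  obtain ⟨t0, -, -, hpin⟩ := rq2_avg univ b.lam _ (ρ ^ η') hc0 (fun i _ => hb.lam0 i) hb.lam1 h2
  -- the slices
  set S₀ : Finset b.P := univ.filter (fun p => b.G p t0) with hS₀
  set f : b.P → ℝ := fun p => b.μ p * ∑ j with 𝒢 t0 j ∧ b.G p j, b.lam j with hf
  have hfsum : ∀ S : Finset b.P, ∑ p ∈ S, f p = ∑ j with 𝒢 t0 j, b.lam j * ∑ p ∈ S with b.G p j, b.μ p := by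
    intro S
    simp only [hf, Finset.sum_filter, Finset.mul_sum]
    rw [Finset.sum_comm]
    refine Finset.sum_congr rfl fun j _ => ?_
    by_cases hj : 𝒢 t0 j
    · simp only [hj, true_and, if_true]
      refine Finset.sum_congr rfl fun p _ => ?_
      split_ifs <;> ring
    · simp [hj]
  obtain ⟨cX, hcX, hX⟩ := hb.covX t0 ρ le_rfl h1.le
  obtain ⟨cZ, hcZ, hZ⟩ := hb.covZ t0 ρ le_rfl h1.le
  have hcl : ∀ p, ∃ e : ℝ × ℝ, b.G p t0 → (e ∈ cX ×ˢ cZ ∧ |b.X p - e.1| ≤ ρ ∧ |b.Zf t0 p - e.2| ≤ ρ) := by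
    intro p
    by_cases hp : b.G p t0
    · obtain ⟨e1, he1, h3⟩ := hX (b.X p) ⟨p, hp, rfl⟩
      obtain ⟨e2, he2, h4⟩ := hZ (b.Zf t0 p) ⟨p, hp, rfl⟩
      exact ⟨(e1, e2), fun _ => ⟨Finset.mk_mem_product he1 he2, h3, h4⟩⟩
    · exact ⟨(0, 0), fun h => absurd h hp⟩
  choose cl hcl using hcl
  set N : ℝ := (ρ ^ (-η) * ρ ^ (-x)) * (ρ ^ (-η) * ρ ^ (-z)) with hN
  have hN0 : 0 < N := by positivity
  have hcard : ((cX ×ˢ cZ).card : ℝ) ≤ N := by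
    rw [Finset.card_product, Nat.cast_mul]
    exact mul_le_mul hcX hcZ (Nat.cast_nonneg _) (by positivity)
  have hpin' : ρ ^ η' ≤ ∑ p ∈ S₀, f p := by
    rw [hfsum S₀]
    refine hpin.trans (le_of_eq (Finset.sum_congr rfl fun j _ => ?_))
    rw [hS₀, Finset.filter_filter]
  have hlamle : ∀ p, ∑ j with 𝒢 t0 j ∧ b.G p j, b.lam j ≤ 1 := fun p =>
    (Finset.sum_le_sum_of_subset_of_nonneg (Finset.filter_subset _ _) fun j _ _ => hb.lam0 j).trans hb.lam1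
  obtain ⟨k, hk, hs1, hs2⟩ := rq2_slice S₀ (cX ×ˢ cZ) cl b.μ f (ρ ^ η') N hc0 hN0 hcard
    (fun p hp => (hcl p (Finset.mem_filter.1 hp).2).1) (fun p _ => hb.μ0 p)
    ((Finset.sum_le_sum_of_subset_of_nonneg (Finset.filter_subset _ _) fun p _ _ => hb.μ0 p).trans hb.μ1)
    (fun p _ => by
      simp only [hf]
      exact mul_le_of_le_one_right (hb.μ0 p) (hlamle p)) hpin'
  set S : Finset b.P := S₀.filter (fun p => cl p = k) with hS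
  set m : ℝ := ∑ p ∈ S, b.μ p with hm
  replace hs1 : ρ ^ η' / 2 * m ≤ ∑ p ∈ S, f p := by convert hs1
  replace hs2 : ρ ^ η' / (2 * N) ≤ m := by convert hs2
  have hm0 : 0 < m := lt_of_lt_of_le (show 0 < ρ ^ η' / (2 * N) by positivity) hs2
  have hSmem : ∀ p ∈ S, b.G p t0 ∧ |b.X p - k.1| ≤ ρ ∧ |b.Zf t0 p - k.2| ≤ ρ := by
    intro p hp
    rw [hS, Finset.mem_filter, hS₀, Finset.mem_filter] at hp
    have := hcl p hp.1.2
    rw [hp.2] at this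
    exact ⟨hp.1.2, this.2⟩
  -- the Frostman bound in the slice
  have hbox : ∀ y₀ w₀ r : ℝ, ρ ≤ r → r ≤ 1 →
      ∑ p ∈ S with |b.Yf t0 p - y₀| ≤ r ∧ |b.Wf t0 p - w₀| ≤ r, b.μ p ≤ 2 * ρ ^ (-3 * η - η') * m * r ^ q' := by
    intro y₀ w₀ r hr hr1
    have hr0 : 0 < r := h0.trans_le hr
    have h3 := hb.box t0 k.1 y₀ w₀ k.2 ρ r ρ le_rfl h1.le hr hr1 le_rfl h1.le
    have h4 : ∑ p ∈ S with |b.Yf t0 p - y₀| ≤ r ∧ |b.Wf t0 p - w₀| ≤ r, b.μ p ≤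
        ∑ p with b.G p t0 ∧ |b.X p - k.1| ≤ ρ ∧ |b.Yf t0 p - y₀| ≤ r ∧ |b.Wf t0 p - w₀| ≤ r ∧ |b.Zf t0 p - k.2| ≤ ρ,
          b.μ p := by
      refine Finset.sum_le_sum_of_subset_of_nonneg ?_ fun p _ _ => hb.μ0 p
      intro p hp
      rw [Finset.mem_filter] at hp
      obtain ⟨g1, g2, g3⟩ := hSmem p hp.1
      simp only [Finset.mem_filter, Finset.mem_univ, true_and]
      exact ⟨g1, g2, hp.2.1, hp.2.2, g3⟩
    have h5 : r ^ q ≤ r ^ q' := Real.rpow_le_rpow_of_exponent_ge hr0 hr1 hq'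
    have e0 : ρ ^ (-η) * (ρ ^ x * ρ ^ z) * N = ρ ^ (-3 * η - η') * ρ ^ η' := by
      rw [hN]
      simp only [← Real.rpow_add h0]
      congr 1
      ring
    have e1 : ρ ^ (-η) * (ρ ^ x * ρ ^ z) = 2 * ρ ^ (-3 * η - η') * (ρ ^ η' / (2 * N)) := by
      have e2 : 2 * ρ ^ (-3 * η - η') * (ρ ^ η' / (2 * N)) = ρ ^ (-3 * η - η') * ρ ^ η' / N := by
        field_simp
      rw [e2, ← e0, mul_div_assoc, div_self hN0.ne', mul_one]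
    have h6 : ρ ^ (-η) * (ρ ^ x * ρ ^ z) ≤ 2 * ρ ^ (-3 * η - η') * m := by
      rw [e1]
      exact mul_le_mul_of_nonneg_left hs2 (by positivity)
    calc ∑ p ∈ S with |b.Yf t0 p - y₀| ≤ r ∧ |b.Wf t0 p - w₀| ≤ r, b.μ p
        ≤ ρ ^ (-η) * (ρ ^ x * r ^ q * ρ ^ z) := h4.trans h3
      _ = ρ ^ (-η) * (ρ ^ x * ρ ^ z) * r ^ q := by ring
      _ ≤ 2 * ρ ^ (-3 * η - η') * m * r ^ q' := by
        have h7 : 0 ≤ r ^ q := (Real.rpow_pos_of_pos hr0 _).le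
        have h8 : 0 ≤ 2 * ρ ^ (-3 * η - η') * m := by positivity
        exact mul_le_mul h6 h5 h7 h8
  -- bounds
  have hbd : ∀ p, |b.Yf t0 p| ≤ A + A ^ 2 ∧ |b.Wf t0 p| ≤ A + A ^ 2 := by
    intro p
    obtain ⟨g1, g2, g3, -⟩ := hb.bdP p
    obtain ⟨g4, g5⟩ := hb.bdT t0
    have hA0 : 0 ≤ A := by linarith
    constructor
    · unfold RtBlk.Yf
      have h3 : |b.c t0 * b.X p| ≤ A * A := by
        rw [abs_mul]
        exact mul_le_mul g4 g1 (abs_nonneg _) hA0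
      have := abs_add_le (b.Y p) (b.c t0 * b.X p)
      nlinarith
    · unfold RtBlk.Wf
      have h3 : |b.r t0 * b.X p| ≤ A * A := by
        rw [abs_mul]
        exact mul_le_mul g5 g1 (abs_nonneg _) hA0
      have := abs_add_le (b.W p) (b.r t0 * b.X p)
      nlinarith
  -- the two charts
  set T₁ : Finset b.Th := univ.filter (fun j => 𝒢 t0 j ∧ |(b.pos j).2 - (b.pos t0).2| ≤ |(b.pos j).1 - (b.pos t0).1|) with hT₁
  set T₂ : Finset b.Th := univ.filter (fun j => 𝒢 t0 j ∧ ¬ |(b.pos j).2 - (b.pos t0).2| ≤ |(b.pos j).1 - (b.pos t0).1|) with hT₂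
  have hsplit : ∑ p ∈ S, f p = ∑ t ∈ T₁, b.lam t * ∑ p ∈ S with b.G p t, b.μ p +
      ∑ t ∈ T₂, b.lam t * ∑ p ∈ S with b.G p t, b.μ p := by
    rw [hfsum S, hT₁, hT₂, ← Finset.filter_filter, ← Finset.filter_filter, Finset.sum_filter_add_sum_filter_not]
  have hcase : ρ ^ η' / 4 * m ≤ ∑ t ∈ T₁, b.lam t * ∑ p ∈ S with b.G p t, b.μ p ∨
      ρ ^ η' / 4 * m ≤ ∑ t ∈ T₂, b.lam t * ∑ p ∈ S with b.G p t, b.μ p := by
    by_contra hcon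
    push Not at hcon
    rw [hsplit] at hs1
    linarith [hcon.1, hcon.2]
  have hdist : ∀ t, 𝒢 t0 t → ρ ^ η' ≤ max |b.c t - b.c t0| |b.r t - b.r t0| := by
    intro t ht
    have := hGs t0 t ht
    rw [Prod.dist_eq, Real.dist_eq, Real.dist_eq, abs_sub_comm, abs_sub_comm (b.pos t0).2] at this
    exact this
  have hD2A : ∀ t, |b.c t - b.c t0| ≤ 2 * A ∧ |b.r t - b.r t0| ≤ 2 * A := by
    intro t
    have h3 := hb.bdT t
    have h4 := hb.bdT t0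
    constructor
    · have := abs_sub (b.c t) (b.c t0); linarith [h3.1, h4.1]
    · have := abs_sub (b.r t) (b.r t0); linarith [h3.2, h4.2]
  have hA' : 1 ≤ A + A ^ 2 := by nlinarith
  rcases hcase with hc1 | hc2
  · refine rq2_half q' s' α A (A + A ^ 2) ηF ρF z η η' ρ hF hA' h0 h1 hρF hsm hη hη' hη1 hη2 hη'1 hη'2 hη'3 hα hz1
      b.μ b.lam S T₁ b.G (b.Yf t0) (b.Wf t0) b.X (b.Zf t0) (fun t => b.c t - b.c t0) (fun t => b.r t - b.r t0)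
      (fun t p => b.Zf t p) k.1 k.2 m hb.μ0 hb.lam0 hb.lam1 hm hm0 (fun t p => b.frame_Z t0 t p) ?_ ?_
      (fun p hp => (hSmem p hp).2) hbd hbox (fun t => hb.covZ t ρ le_rfl h1.le) hc1
    · intro t ht
      rw [hT₁, Finset.mem_filter] at ht
      have h5 : |b.r t - b.r t0| ≤ |b.c t - b.c t0| := ht.2.2
      refine ⟨h5, ?_, (hD2A t).1⟩
      have := hdist t ht.2.1
      rwa [max_eq_left h5] at this
    · intro a₀ r hr hr1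
      exact rq2_slope1 b.lam b.pos 𝒢 (ρ ^ (-η')) s' ρ hb.lam0 hGt t0 a₀ r hr hr1
  · refine rq2_half q' s' α A (A + A ^ 2) ηF ρF z η η' ρ hF hA' h0 h1 hρF hsm hη hη' hη1 hη2 hη'1 hη'2 hη'3 hα hz1
      b.μ b.lam S T₂ b.G (b.Wf t0) (b.Yf t0) b.X (b.Zf t0) (fun t => b.r t - b.r t0) (fun t => b.c t - b.c t0)
      (fun t p => b.Zf t p) k.1 k.2 m hb.μ0 hb.lam0 hb.lam1 hm hm0 (fun t p => ?_) ?_ ?_
      (fun p hp => (hSmem p hp).2) (fun p => ⟨(hbd p).2, (hbd p).1⟩) ?_ (fun t => hb.covZ t ρ le_rfl h1.le) hc2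
    · rw [b.frame_Z t0 t p]; ring
    · intro t ht
      rw [hT₂, Finset.mem_filter] at ht
      have h5 : ¬ |b.r t - b.r t0| ≤ |b.c t - b.c t0| := ht.2.2
      refine ⟨(not_le.1 h5).le, ?_, (hD2A t).2⟩
      have := hdist t ht.2.1
      rwa [max_eq_right (not_le.1 h5).le] at this
    · intro a₀ r hr hr1
      exact rq2_slope2 b.lam b.pos 𝒢 (ρ ^ (-η')) s' ρ hb.lam0 hGt t0 a₀ r hr hr1
    · intro y₀ w₀ r hr hr1
      refine le_trans (le_of_eq ?_) (hbox w₀ y₀ r hr hr1)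
      refine Finset.sum_congr (Finset.filter_congr fun p _ => and_comm) fun _ _ => rfl

/-- **U5b** = contract `rt_test_q2_ns`, modulo the statement of `rt_rp` -/
theorem rq2_main (RP : rq2_RpStmt) (A x q z s σ : ℝ) (hA : 1 ≤ A) (_hx0 : 0 ≤ x) (hs : 0 < s) (hs1 : s ≤ 1)
    (_hσ : 0 < σ) (_hq0 : 0 ≤ q) (_hz0 : 0 ≤ z) (hz1 : z < 1) (hq : 2 - s < q) :
    ∃ t₀ : ℝ, 0 < t₀ ∧ t₀ ≤ 1 ∧ ∀ κ₀ : ℝ, 0 < κ₀ → ∃ η ρ₁ : ℝ, 0 < η ∧ 0 < ρ₁ ∧ ∀ ρ : ℝ, 0 < ρ → ρ < ρ₁ →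
      ∀ b : RtBlk, b.Is3 ρ η A x q z s σ → ¬ RtNoStrip b.lam b.pos (ρ ^ t₀) (ρ ^ κ₀) := by
  obtain ⟨q', hq'def⟩ : ∃ q' : ℝ, q' = min q 2 := ⟨_, rfl⟩
  have hq'q : q' ≤ q := hq'def ▸ min_le_left _ _
  have hq'2 : q' ≤ 2 := hq'def ▸ min_le_right _ _
  have hq's : 2 - s < q' := by
    rw [hq'def]
    exact lt_min hq (by linarith)
  obtain ⟨τ, hτdef⟩ : ∃ τ : ℝ, τ = (q' + s - 2) / 2 := ⟨_, rfl⟩
  have hτ : 0 < τ := by rw [hτdef]; linarith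
  have hA' : 1 ≤ A + A ^ 2 := by nlinarith
  obtain ⟨ηF, hηF, ρF, hρF, hF⟩ := ex_F q' (s - τ) ((1 - z) / 4) (A + A ^ 2) (by linarith) (by rw [hτdef]; linarith)
    (by linarith) (by linarith) hA'
  have hmin : min 1 (q' + (s - τ) - 1) = 1 := min_eq_left (by rw [hτdef]; linarith)
  rw [hmin] at hF
  obtain ⟨η', hη'def⟩ : ∃ η' : ℝ, η' = min (min (ηF / 8) ((1 - z) / 8)) (1 / 4) := ⟨_, rfl⟩
  have hη' : 0 < η' := by
    rw [hη'def]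
    exact lt_min (lt_min (by linarith) (by linarith)) (by norm_num)
  have hη'1 : η' ≤ ηF / 8 := hη'def ▸ (min_le_left _ _).trans (min_le_left _ _)
  have hη'2 : η' ≤ (1 - z) / 8 := hη'def ▸ (min_le_left _ _).trans (min_le_right _ _)
  have hη'3 : η' ≤ 1 / 4 := hη'def ▸ min_le_right _ _
  obtain ⟨t₀, ht0, ht1, RP⟩ := RP A s τ η' hA hs hs1 hτ hη'
  refine ⟨t₀, ht0, ht1, fun κ₀ hκ => ?_⟩
  obtain ⟨ηr, ρr, hηr, hρr, RP⟩ := RP κ₀ hκ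
  have hB : 0 < 4 + 8 * A ^ 2 := by positivity
  refine ⟨min (min (ηr / 4) (ηF / 12)) ((1 - z) / 8),
    min (min ρr 1) (min (ρF ^ (1 / (1 - 2 * η'))) ((4 + 8 * A ^ 2) ^ (-(1 / η')))),
    lt_min (lt_min (by linarith) (by linarith)) (by linarith), by positivity, ?_⟩
  intro ρ h0 hρ b hb hns
  obtain ⟨η, hηdef⟩ : ∃ η : ℝ, η = min (min (ηr / 4) (ηF / 12)) ((1 - z) / 8) := ⟨_, rfl⟩
  rw [← hηdef] at hb
  have hη : 0 < η := by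
    rw [hηdef]
    exact lt_min (lt_min (by linarith) (by linarith)) (by linarith)
  have hη0 : η ≤ ηr / 4 := hηdef ▸ (min_le_left _ _).trans (min_le_left _ _)
  have hη1 : η ≤ ηF / 12 := hηdef ▸ (min_le_left _ _).trans (min_le_right _ _)
  have hη2 : η ≤ (1 - z) / 8 := hηdef ▸ min_le_right _ _
  have hρr' : ρ < ρr := lt_of_lt_of_le hρ ((min_le_left _ _).trans (min_le_left _ _))
  have h1 : ρ < 1 := lt_of_lt_of_le hρ ((min_le_left _ _).trans (min_le_right _ _))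
  have hρ3 : ρ < ρF ^ (1 / (1 - 2 * η')) := lt_of_lt_of_le hρ ((min_le_right _ _).trans (min_le_left _ _))
  have hρ4 : ρ < (4 + 8 * A ^ 2) ^ (-(1 / η')) := lt_of_lt_of_le hρ ((min_le_right _ _).trans (min_le_right _ _))
  have he : 0 < 1 - 2 * η' := by linarith
  have hρF' : ρ ^ (1 - 2 * η') < ρF := by
    have h3 : ρ ^ (1 - 2 * η') < (ρF ^ (1 / (1 - 2 * η'))) ^ (1 - 2 * η') := Real.rpow_lt_rpow h0.le hρ3 he
    rwa [← Real.rpow_mul hρF.le, one_div_mul_cancel he.ne', Real.rpow_one] at h3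
  have hsm : 4 + 8 * A ^ 2 ≤ ρ ^ (-η') := by
    have h3 : ((4 + 8 * A ^ 2) ^ (-(1 / η'))) ^ (-η') ≤ ρ ^ (-η') :=
      Real.rpow_le_rpow_of_nonpos h0 hρ4.le (by linarith)
    rwa [← Real.rpow_mul hB.le, show -(1 / η') * -η' = 1 by field_simp, Real.rpow_one] at h3
  -- the pairs
  have hwt : ∀ i j : b.Th, 0 ≤ ∑ p with b.G p i ∧ b.G p j, b.μ p ∧ ∑ p with b.G p i ∧ b.G p j, b.μ p ≤ 1 := fun i j =>
    ⟨Finset.sum_nonneg fun p _ => hb.μ0 p,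
      (Finset.sum_le_sum_of_subset_of_nonneg (Finset.filter_subset _ _) fun p _ _ => hb.μ0 p).trans hb.μ1⟩
  have hher : RtTreeHer b.lam b.pos (ρ ^ (-ηr)) s ρ := by
    intro k k' hk hk' i₀
    refine (hb.her k k' hk hk' i₀).trans ?_
    have h3 : ρ ^ (-η) ≤ ρ ^ (-ηr) := Real.rpow_le_rpow_of_exponent_ge h0 h1.le (by linarith)
    have h4 : 0 ≤ ∑ i with rtCell k (b.pos i) = rtCell k (b.pos i₀), b.lam i := Finset.sum_nonneg fun i _ => hb.lam0 i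
    have h5 : 0 ≤ ((1 / 2 : ℝ) ^ (k' - k)) ^ s := by positivity
    gcongr
  have hmass : ρ ^ ηr ≤ ∑ i, ∑ j, b.lam i * b.lam j * ∑ p with b.G p i ∧ b.G p j, b.μ p := by
    refine le_trans ?_ (rq2_cs b.μ b.lam b.G hb.μ0 hb.μ1)
    have h3 : ρ ^ η * ρ ^ η ≤ ∑ t, b.lam t * ∑ p with b.G p t, b.μ p := by
      calc ρ ^ η * ρ ^ η ≤ (∑ t, b.lam t) * ρ ^ η := mul_le_mul_of_nonneg_right hb.mass (Real.rpow_pos_of_pos h0 _).le
        _ = ∑ t, b.lam t * ρ ^ η := Finset.sum_mul _ _ _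
        _ ≤ ∑ t, b.lam t * ∑ p with b.G p t, b.μ p := by
          refine Finset.sum_le_sum fun t _ => ?_
          rcases (hb.lam0 t).eq_or_lt with h4 | h4
          · rw [← h4]; simp
          · exact mul_le_mul_of_nonneg_left (hb.nbr t h4) h4.le
    have h5 : ρ ^ ηr ≤ (ρ ^ η * ρ ^ η) ^ 2 := by
      rw [← Real.rpow_add h0, ← Real.rpow_natCast, ← Real.rpow_mul h0.le]
      refine Real.rpow_le_rpow_of_exponent_ge h0 h1.le ?_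
      push_cast
      linarith
    exact h5.trans (pow_le_pow_left₀ (by positivity) h3 2)
  obtain ⟨𝒢, g1, g2, g3⟩ := RP ρ h0 hρr' b.Th b.lam b.pos (fun i j => ∑ p with b.G p i ∧ b.G p j, b.μ p)
    hb.lam0 hb.lam1 hb.bdT hher hns hwt hmass
  exact rq2_block q' (s - τ) ((1 - z) / 4) A ηF ρF x q z s σ η η' ρ hF hA h0 h1 hρF' hsm hη hη' hη1 hη2 hη'1 hη'2 hη'3
    rfl hz1 hq'q b hb.toIs3w 𝒢 g1 g2 g3

end Claimed.Agent.R255
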