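import Claimed.Agent.R255.Rate.RpDefs

/-!
# U4 (`rt_rp`), leaf L-RP-CONV (this file: `rp_thin_conv`, `rp_swap_*`); plan of L-RP-FINAL: from slopes to directions; vertical pairs by interchanging the coordinates.   (architect helper69)
* `rp_thin_conv`: `ip (Δ) (nrm φ) = -Δ₁ sin φ + Δ₂ cos φ`, `dist = |Δ₁|` on horizontal pairs.  If `|cos φ| ≥ 1/2`: `|sl - tan φ| ≤ wd/|cos φ| ≤ 2 wd`, two intervals of half-length `wd` (centres `tan φ ± wd`).
  If `|cos φ| < 1/2`: `|sin φ| > 3/4`, and a point of the set gives `|sin φ| ≤ wd + 1/2`, so `wd > 1/4` and `∑ lam ≤ 1 ≤ 4 wd ≤ 4 wd^u`.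
* swap: `rtCell`, `dist` commute with `Prod.swap`; `ip (swap Δ) (nrm (-π/2 - φ)) = ip Δ (nrm φ)`.
* `rp_final`: stage at `η₁ = η'/2` for `(lam, pos)` (graph `𝒢a`) and `(lam, swap ∘ pos)` (graph `𝒢b`);  `𝒢 i j := (RpHor pos i j → 𝒢a i j) ∧ (RpHor (swap ∘ pos) i j → 𝒢b i j)`.
  Every pair is horizontal for `pos` or for `swap ∘ pos`.  `η = min (min η₀ (c/2)) (η'/2)`;  `∑_{¬𝒢} lam lam wt ≤ 2 ρ^c`,  `ρ^η - 2ρ^c ≥ ρ^η/2 ≥ ρ^η'`;  thin constant `8 ρ^(-η'/2) ≤ ρ^(-η')`.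
-/

set_option autoImplicit false

namespace Claimed.Agent.R255

open Finset Classical

variable {ι : Type} [Fintype ι]

/-- pointwise translation of the direction condition into a slope condition on a separated horizontal pair -/
theorem rp_conv_point {pos : ι → ℝ × ℝ} {σ wd φ : ℝ} {i₀ i : ι} (hσ : 0 < σ) (hH : RpH pos σ i₀ i)
    (hc : |ip (pos i - pos i₀) (nrm φ)| ≤ wd * dist (pos i) (pos i₀)) :
    |rpSl pos i₀ i * Real.cos φ - Real.sin φ| ≤ wd ∧ |rpSl pos i₀ i| ≤ 1 := by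
  obtain ⟨hh, hs⟩ := hH
  unfold RpHor at hh
  have hd1 : 0 < |(pos i).1 - (pos i₀).1| := lt_of_lt_of_le hσ hs
  have hne : (pos i).1 - (pos i₀).1 ≠ 0 := abs_pos.1 hd1
  have hdist : dist (pos i) (pos i₀) = |(pos i).1 - (pos i₀).1| := by
    rw [Prod.dist_eq, Real.dist_eq, Real.dist_eq]
    exact max_eq_left hh
  have hip : ip (pos i - pos i₀) (nrm φ) =
      ((pos i).1 - (pos i₀).1) * (rpSl pos i₀ i * Real.cos φ - Real.sin φ) := by
    unfold ip nrm rpSl
    simp only [Prod.fst_sub, Prod.snd_sub]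
    field_simp
    ring
  rw [hdist, hip, abs_mul, mul_comm wd] at hc
  refine ⟨le_of_mul_le_mul_left hc hd1, ?_⟩
  unfold rpSl
  rw [abs_div, div_le_one hd1]
  exact hh

theorem rp_thin_conv {lam : ι → ℝ} {pos : ι → ℝ × ℝ} {𝒢 : ι → ι → Prop} {A σ C u ρ : ℝ} (hp : RpPop lam pos A) (hσ : 0 < σ)
    (hg : RpGr pos 𝒢 σ) (hC : 1 ≤ C) (hu1 : u ≤ 1) (hthin : RpThin lam pos 𝒢 C u ρ)
    (i₀ : ι) (φ wd : ℝ) (h1 : ρ ≤ wd) (h0 : 0 < wd) (h2 : wd ≤ 1) :
    ∑ i with 𝒢 i₀ i ∧ |ip (pos i - pos i₀) (nrm φ)| ≤ wd * dist (pos i) (pos i₀), lam i ≤ 4 * C * wd ^ u := by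
  have hwu : 0 < wd ^ u := Real.rpow_pos_of_pos h0 _
  have hC0 : 0 < C := by linarith
  by_cases hcos : 1 / 2 ≤ |Real.cos φ|
  · -- two intervals of slopes
    have hcpos : 0 < |Real.cos φ| := by linarith
    have hcne : Real.cos φ ≠ 0 := abs_pos.1 hcpos
    have ha := hthin i₀ (Real.tan φ + wd) wd h1 h2
    have hb := hthin i₀ (Real.tan φ - wd) wd h1 h2
    have hle : ∑ i with 𝒢 i₀ i ∧ |ip (pos i - pos i₀) (nrm φ)| ≤ wd * dist (pos i) (pos i₀), lam i ≤
        ∑ i with 𝒢 i₀ i ∧ |rpSl pos i₀ i - (Real.tan φ + wd)| ≤ wd, lam i +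
        ∑ i with 𝒢 i₀ i ∧ |rpSl pos i₀ i - (Real.tan φ - wd)| ≤ wd, lam i := by
      rw [Finset.sum_filter, Finset.sum_filter, Finset.sum_filter, ← Finset.sum_add_distrib]
      refine Finset.sum_le_sum fun i _ => ?_
      have hl := hp.lam0 i
      by_cases hi : 𝒢 i₀ i ∧ |ip (pos i - pos i₀) (nrm φ)| ≤ wd * dist (pos i) (pos i₀)
      · rw [if_pos hi]
        obtain ⟨hk, -⟩ := rp_conv_point hσ (hg.sub i₀ i hi.1) hi.2
        have htan : rpSl pos i₀ i - Real.tan φ =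
            (rpSl pos i₀ i * Real.cos φ - Real.sin φ) / Real.cos φ := by
          rw [Real.tan_eq_sin_div_cos]
          field_simp
        have h2wd : |rpSl pos i₀ i - Real.tan φ| ≤ 2 * wd := by
          rw [htan, abs_div, div_le_iff₀ hcpos]
          nlinarith
        rw [abs_le] at h2wd
        by_cases hsg : Real.tan φ ≤ rpSl pos i₀ i
        · have : 𝒢 i₀ i ∧ |rpSl pos i₀ i - (Real.tan φ + wd)| ≤ wd :=
            ⟨hi.1, by rw [abs_le]; constructor <;> linarith⟩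
          rw [if_pos this]
          split_ifs <;> linarith
        · have : 𝒢 i₀ i ∧ |rpSl pos i₀ i - (Real.tan φ - wd)| ≤ wd :=
            ⟨hi.1, by rw [abs_le]; constructor <;> linarith⟩
          rw [if_pos this]
          split_ifs <;> linarith
      · rw [if_neg hi]
        split_ifs <;> linarith
    have hCw : 0 < C * wd ^ u := mul_pos hC0 hwu
    nlinarith
  · -- nearly vertical normal direction: the set is empty or `wd > 1/4`
    push Not at hcos
    by_cases hemp : ∃ i, 𝒢 i₀ i ∧ |ip (pos i - pos i₀) (nrm φ)| ≤ wd * dist (pos i) (pos i₀)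
    · obtain ⟨i, hi⟩ := hemp
      obtain ⟨hk, hsl⟩ := rp_conv_point hσ (hg.sub i₀ i hi.1) hi.2
      have hsin : 3 / 4 < |Real.sin φ| := by
        have hsq := Real.sin_sq_add_cos_sq φ
        have hc2 : Real.cos φ ^ 2 < 1 / 4 := by
          rw [← sq_abs]
          nlinarith [abs_nonneg (Real.cos φ)]
        have hs2 : (3 / 4 : ℝ) ^ 2 < |Real.sin φ| ^ 2 := by
          rw [sq_abs]
          nlinarith
        exact lt_of_pow_lt_pow_left₀ 2 (abs_nonneg _) hs2
      have hsin2 : |Real.sin φ| ≤ wd + 1 / 2 := by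
        have e : Real.sin φ = rpSl pos i₀ i * Real.cos φ - (rpSl pos i₀ i * Real.cos φ - Real.sin φ) := by
          ring
        have h3 : |Real.sin φ| ≤ |rpSl pos i₀ i * Real.cos φ| + |rpSl pos i₀ i * Real.cos φ - Real.sin φ| := by
          conv_lhs => rw [e]
          exact abs_sub _ _
        have h4 : |rpSl pos i₀ i * Real.cos φ| ≤ 1 / 2 := by
          rw [abs_mul]
          nlinarith [abs_nonneg (rpSl pos i₀ i), abs_nonneg (Real.cos φ)]
        linarith
      have hwd : 1 / 4 < wd := by linarith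
      have hsum : ∑ i with 𝒢 i₀ i ∧ |ip (pos i - pos i₀) (nrm φ)| ≤ wd * dist (pos i) (pos i₀), lam i ≤ 1 :=
        (Finset.sum_le_sum_of_subset_of_nonneg (Finset.filter_subset _ _)
          (fun i _ _ => hp.lam0 i)).trans hp.lam1
      have hw1 : wd ≤ wd ^ u := by
        have := Real.rpow_le_rpow_of_exponent_ge h0 h2 hu1
        rwa [Real.rpow_one] at this
      nlinarith
    · push Not at hemp
      have : (Finset.univ.filter fun i => 𝒢 i₀ i ∧
          |ip (pos i - pos i₀) (nrm φ)| ≤ wd * dist (pos i) (pos i₀)) = ∅ := by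
        apply Finset.filter_eq_empty_iff.2
        intro i _ hi
        exact absurd hi.2 (not_le.2 (hemp i hi.1))
      rw [this, Finset.sum_empty]
      positivity

theorem rp_swap_pop {lam : ι → ℝ} {pos : ι → ℝ × ℝ} {A : ℝ} (hp : RpPop lam pos A) : RpPop lam (fun i => (pos i).swap) A :=
  ⟨hp.lam0, hp.lam1, fun i => ⟨(hp.bd i).2, (hp.bd i).1⟩⟩

theorem rp_swap_her {lam : ι → ℝ} {pos : ι → ℝ × ℝ} {C s ρ : ℝ} (h : RtTreeHer lam pos C s ρ) :
    RtTreeHer lam (fun i => (pos i).swap) C s ρ := by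
  intro k k' hk hρ i₀
  have hc : ∀ (k : ℕ) (i : ι), (rtCell k ((pos i).swap) = rtCell k ((pos i₀).swap)) ↔
      rtCell k (pos i) = rtCell k (pos i₀) := by
    intro k i
    unfold rtCell
    simp only [Prod.fst_swap, Prod.snd_swap, Prod.mk.injEq]
    exact and_comm
  simp only [hc]
  exact h k k' hk hρ i₀

theorem rp_swap_ip (v : ℝ × ℝ) (φ : ℝ) : ip v.swap (nrm (-(Real.pi / 2) - φ)) = ip v (nrm φ) := by
  unfold ip nrm
  have h1 : Real.sin (-(Real.pi / 2) - φ) = - Real.cos φ := by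
    rw [show -(Real.pi / 2) - φ = -(φ + Real.pi / 2) by ring, Real.sin_neg, Real.sin_add_pi_div_two]
  have h2 : Real.cos (-(Real.pi / 2) - φ) = - Real.sin φ := by
    rw [show -(Real.pi / 2) - φ = -(φ + Real.pi / 2) by ring, Real.cos_neg, Real.cos_add_pi_div_two]
  simp only [Prod.fst_swap, Prod.snd_swap, h1, h2]
  ring

theorem rp_swap_ns {lam : ι → ℝ} {pos : ι → ℝ × ℝ} {wd κ : ℝ} (h : RtNoStrip lam pos wd κ) :
    RtNoStrip lam (fun i => (pos i).swap) wd κ := by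
  intro p₀ φ
  have hc : ∀ i, ip ((pos i).swap - p₀) (nrm φ) =
      ip (pos i - p₀.swap) (nrm (-(Real.pi / 2) - φ)) := by
    intro i
    have h1 := rp_swap_ip (pos i - p₀.swap) (-(Real.pi / 2) - φ)
    have h2 : -(Real.pi / 2) - (-(Real.pi / 2) - φ) = φ := by ring
    rw [h2] at h1
    rw [← h1]
    rfl
  simp only [hc]
  exact h p₀.swap (-(Real.pi / 2) - φ)

end Claimed.Agent.R255
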