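import Claimed.Agent.R255.Rate.RpInd
import Claimed.Agent.R255.Rate.RpConv

/-!
# U4 (`rt_rp`), GLUE L-RP-FINAL: from slopes to directions; vertical pairs by interchanging the coordinates.   (architect helper69)
* `rp_thin_conv`: `ip (Δ) (nrm φ) = -Δ₁ sin φ + Δ₂ cos φ`, `dist = |Δ₁|` on horizontal pairs.  If `|cos φ| ≥ 1/2`: `|sl - tan φ| ≤ wd/|cos φ| ≤ 2 wd`, two intervals of half-length `wd` (centres `tan φ ± wd`).
  If `|cos φ| < 1/2`: `|sin φ| > 3/4`, and a point of the set gives `|sin φ| ≤ wd + 1/2`, so `wd > 1/4` and `∑ lam ≤ 1 ≤ 4 wd ≤ 4 wd^u`.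
* swap: `rtCell`, `dist` commute with `Prod.swap`; `ip (swap Δ) (nrm (-π/2 - φ)) = ip Δ (nrm φ)`.
* `rp_final`: stage at `η₁ = η'/2` for `(lam, pos)` (graph `𝒢a`) and `(lam, swap ∘ pos)` (graph `𝒢b`);  `𝒢 i j := (RpHor pos i j → 𝒢a i j) ∧ (RpHor (swap ∘ pos) i j → 𝒢b i j)`.
  Every pair is horizontal for `pos` or for `swap ∘ pos`.  `η = min (min η₀ (c/2)) (η'/2)`;  `∑_{¬𝒢} lam lam wt ≤ 2 ρ^c`,  `ρ^η - 2ρ^c ≥ ρ^η/2 ≥ ρ^η'`;  thin constant `8 ρ^(-η'/2) ≤ ρ^(-η')`.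
-/

set_option autoImplicit false

namespace Claimed.Agent.R255

open Finset Classical

/-- a sum over a set covered by two sets -/
theorem rp_fin_split {ι : Type} [Fintype ι] (lam : ι → ℝ) (h0 : ∀ i, 0 ≤ lam i) (p pa pb : ι → Prop)
    {_ : DecidablePred p} {_ : DecidablePred pa} {_ : DecidablePred pb} (h : ∀ i, p i → pa i ∨ pb i) :
    ∑ i with p i, lam i ≤ ∑ i with pa i, lam i + ∑ i with pb i, lam i := by
  rw [Finset.sum_filter, Finset.sum_filter, Finset.sum_filter, ← Finset.sum_add_distrib]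
  refine Finset.sum_le_sum fun i _ => ?_
  have h1 := h0 i
  by_cases hp : p i
  · rw [if_pos hp]
    rcases h i hp with h2 | h2
    · rw [if_pos h2]
      split_ifs <;> linarith
    · rw [if_pos h2]
      split_ifs <;> linarith
  · rw [if_neg hp]
    split_ifs <;> linarith

/-- the weighted mass of all pairs: pairs of the graph and two exceptional sets -/
theorem rp_fin_mass {ι : Type} [Fintype ι] (lam : ι → ℝ) (wt : ι → ι → ℝ) (𝒢 Ba Bb : ι → ι → Prop)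
    {_ : ∀ i, DecidablePred (𝒢 i)} {_ : ∀ i, DecidablePred (Ba i)} {_ : ∀ i, DecidablePred (Bb i)} (h0 : ∀ i, 0 ≤ lam i)
    (hwt : ∀ i j, 0 ≤ wt i j ∧ wt i j ≤ 1) (hcov : ∀ i j, ¬ 𝒢 i j → Ba i j ∨ Bb i j) :
    ∑ i, ∑ j, lam i * lam j * wt i j ≤ ∑ i, ∑ j with 𝒢 i j, lam i * lam j * wt i j
      + ∑ i, ∑ j with Ba i j, lam i * lam j + ∑ i, ∑ j with Bb i j, lam i * lam j := by
  rw [← Finset.sum_add_distrib, ← Finset.sum_add_distrib]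
  refine Finset.sum_le_sum fun i _ => ?_
  rw [Finset.sum_filter, Finset.sum_filter, Finset.sum_filter, ← Finset.sum_add_distrib, ← Finset.sum_add_distrib]
  refine Finset.sum_le_sum fun j _ => ?_
  have h1 : 0 ≤ lam i * lam j := mul_nonneg (h0 i) (h0 j)
  have h2 : lam i * lam j * wt i j ≤ lam i * lam j := mul_le_of_le_one_right h1 (hwt i j).2
  have h3 : 0 ≤ lam i * lam j * wt i j := mul_nonneg h1 (hwt i j).1
  by_cases hg : 𝒢 i j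
  · rw [if_pos hg]
    split_ifs <;> linarith
  · rw [if_neg hg]
    rcases hcov i j hg with h | h
    · rw [if_pos h]
      split_ifs <;> linarith
    · rw [if_pos h]
      split_ifs <;> linarith

theorem rp_fin_dist_swap (a b : ℝ × ℝ) : dist a.swap b.swap = dist a b := by
  rw [Prod.dist_eq, Prod.dist_eq]
  exact max_comm _ _

/-- the numerology of `rp_final` -/
theorem rp_fin_num {ρ c η η' : ℝ} (h0 : 0 < ρ) (h1 : ρ ≤ 1) (hc : η ≤ c / 2) (hη : η ≤ η' / 2)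
    (k1 : 4 * ρ ^ (c / 2) ≤ 1) (k2 : 8 * ρ ^ (η' / 2) ≤ 1) :
    ρ ^ η' ≤ ρ ^ η - 2 * ρ ^ c ∧ 8 * ρ ^ (-(η' / 2)) ≤ ρ ^ (-η') := by
  have a0 : 0 < ρ ^ (c / 2) := Real.rpow_pos_of_pos h0 _
  have b0 : 0 < ρ ^ (η' / 2) := Real.rpow_pos_of_pos h0 _
  have a1 : ρ ^ (c / 2) ≤ ρ ^ η := Real.rpow_le_rpow_of_exponent_ge h0 h1 hc
  have b1 : ρ ^ (η' / 2) ≤ ρ ^ η := Real.rpow_le_rpow_of_exponent_ge h0 h1 hη
  have a2 : ρ ^ c = ρ ^ (c / 2) * ρ ^ (c / 2) := by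
    rw [← Real.rpow_add h0]
    congr 1
    ring
  have b2 : ρ ^ η' = ρ ^ (η' / 2) * ρ ^ (η' / 2) := by
    rw [← Real.rpow_add h0]
    congr 1
    ring
  constructor
  · rw [a2, b2]
    nlinarith
  · rw [Real.rpow_neg h0.le, Real.rpow_neg h0.le, b2, mul_inv]
    have h8 : 8 ≤ (ρ ^ (η' / 2))⁻¹ := by
      rw [← one_div, le_div_iff₀ b0]
      exact k2
    have h9 : 0 < (ρ ^ (η' / 2))⁻¹ := inv_pos.2 b0
    nlinarith

/-- `rt_rp` from the top stage -/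
theorem rp_final (A s τ η' : ℝ) (hs1 : s ≤ 1) (hτ : 0 < τ) (hη' : 0 < η') (hst : RpStage A s (s - τ)) :
    ∃ t₀ : ℝ, 0 < t₀ ∧ t₀ ≤ 1 ∧ ∀ κ₀ : ℝ, 0 < κ₀ → ∃ η ρ₁ : ℝ, 0 < η ∧ 0 < ρ₁ ∧ ∀ ρ : ℝ, 0 < ρ → ρ < ρ₁ →
      ∀ (ι : Type) [Fintype ι] (lam : ι → ℝ) (pos : ι → ℝ × ℝ) (wt : ι → ι → ℝ),
        (∀ i, 0 ≤ lam i) → ∑ i, lam i ≤ 1 → (∀ i, |(pos i).1| ≤ A ∧ |(pos i).2| ≤ A) →
        RtTreeHer lam pos (ρ ^ (-η)) s ρ → RtNoStrip lam pos (ρ ^ t₀) (ρ ^ κ₀) →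
        (∀ i j, 0 ≤ wt i j ∧ wt i j ≤ 1) → ρ ^ η ≤ ∑ i, ∑ j, lam i * lam j * wt i j →
        ∃ 𝒢 : ι → ι → Prop, ρ ^ η' ≤ ∑ i, ∑ j with 𝒢 i j, lam i * lam j * wt i j ∧
          (∀ i j, 𝒢 i j → ρ ^ η' ≤ dist (pos i) (pos j)) ∧ RtThin lam pos 𝒢 (ρ ^ (-η')) (s - τ) ρ := by
  obtain ⟨t₀, ht0, ht1, H⟩ := hst (η' / 2) (by positivity)
  refine ⟨t₀, ht0, ht1, fun κ₀ hκ => ?_⟩
  obtain ⟨c, η₀, ρ₀, hc, hη₀, hρ₀, H⟩ := H κ₀ hκ
  obtain ⟨ρa, hρa, hρa1, Ka⟩ := rp_small 4 (c / 2) (by positivity)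
  obtain ⟨ρb, hρb, _, Kb⟩ := rp_small 8 (η' / 2) (by positivity)
  refine ⟨min (min η₀ (c / 2)) (η' / 2), min ρ₀ (min ρa ρb), by positivity, by positivity, ?_⟩
  intro ρ hρ hρ1 ι _ lam pos wt hl0 hl1 hbd hher hns hwt hmass
  set η := min (min η₀ (c / 2)) (η' / 2) with hηdef
  have e1 : η ≤ η₀ := (min_le_left _ _).trans (min_le_left _ _)
  have e2 : η ≤ c / 2 := (min_le_left _ _).trans (min_le_right _ _)
  have e3 : η ≤ η' / 2 := min_le_right _ _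
  have r0 : ρ < ρ₀ := lt_of_lt_of_le hρ1 (min_le_left _ _)
  have ra : ρ < ρa := lt_of_lt_of_le hρ1 ((min_le_right _ _).trans (min_le_left _ _))
  have rb : ρ < ρb := lt_of_lt_of_le hρ1 ((min_le_right _ _).trans (min_le_right _ _))
  have hρle : ρ ≤ 1 := (ra.le).trans hρa1
  obtain ⟨n1, n2⟩ := rp_fin_num hρ hρle e2 e3 (Ka ρ hρ ra) (Kb ρ hρ rb)
  have hpop : RpPop lam pos A := ⟨hl0, hl1, hbd⟩
  have hher' : RtTreeHer lam pos (ρ ^ (-η₀)) s ρ :=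
    rt_treeher_mono hl0 (Real.rpow_le_rpow_of_exponent_ge hρ hρle (by linarith)) hher
  obtain ⟨𝒢a, ga, ma, ta⟩ := H ρ hρ r0 ι lam pos hpop hher' hns
  obtain ⟨𝒢b, gb, mb, tb⟩ := H ρ hρ r0 ι lam (fun i => (pos i).swap) (rp_swap_pop hpop) (rp_swap_her hher') (rp_swap_ns hns)
  have hσ : 0 < ρ ^ (η' / 2) := Real.rpow_pos_of_pos hρ _
  have hσ' : ρ ^ η' ≤ ρ ^ (η' / 2) := Real.rpow_le_rpow_of_exponent_ge hρ hρle (by linarith)
  have hC : 1 ≤ ρ ^ (-(η' / 2)) := Real.one_le_rpow_of_pos_of_le_one_of_nonpos hρ hρle (by linarith)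
  have htot : ∀ i j, RpHor pos i j ∨ RpHor (fun i => (pos i).swap) i j := fun i j =>
    le_total |(pos j).2 - (pos i).2| |(pos j).1 - (pos i).1|
  refine ⟨fun i j => (RpHor pos i j → 𝒢a i j) ∧ (RpHor (fun i => (pos i).swap) i j → 𝒢b i j), ?_, ?_, ?_⟩
  · refine n1.trans ?_
    rw [sub_le_iff_le_add]
    refine hmass.trans (((rp_fin_mass lam wt _ _ _ hl0 hwt ?_).trans (add_le_add (add_le_add le_rfl ma) mb)).trans
      (le_of_eq (by ring_nf)))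
    intro i j h
    by_contra hcon
    push Not at hcon
    exact h ⟨fun h1 => hcon.1 h1, fun h1 => hcon.2 h1⟩
  · intro i j h
    refine hσ'.trans ?_
    rcases htot i j with h1 | h1
    · refine ((ga.sub i j (h.1 h1)).2).trans ?_
      rw [Prod.dist_eq, Real.dist_eq, abs_sub_comm]
      exact le_max_left _ _
    · refine ((gb.sub i j (h.2 h1)).2).trans ?_
      rw [Prod.dist_eq, Real.dist_eq, Real.dist_eq, abs_sub_comm (pos i).2]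
      exact le_max_right _ _
  · intro i₀ φ wd w1 w2
    have w0 : 0 < wd := lt_of_lt_of_le hρ w1
    have k1 := rp_thin_conv hpop hσ ga hC (by linarith) ta i₀ φ wd w1 w0 w2
    have k2 := rp_thin_conv (rp_swap_pop hpop) hσ gb hC (by linarith) tb i₀ (-(Real.pi / 2) - φ) wd w1 w0 w2
    have w3 : 0 ≤ wd ^ (s - τ) := Real.rpow_nonneg w0.le _
    refine ((rp_fin_split lam hl0 _ _ _ ?_).trans (add_le_add k1 k2)).trans ?_
    · intro i h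
      rcases htot i₀ i with h1 | h1
      · exact Or.inl ⟨h.1.1 h1, h.2⟩
      · refine Or.inr ⟨h.1.2 h1, ?_⟩
        show |ip ((pos i).swap - (pos i₀).swap) (nrm (-(Real.pi / 2) - φ))| ≤ wd * dist (pos i).swap (pos i₀).swap
        rw [rp_fin_dist_swap, show (pos i).swap - (pos i₀).swap = (pos i - pos i₀).swap from rfl, rp_swap_ip]
        exact h.2
    · calc 4 * ρ ^ (-(η' / 2)) * wd ^ (s - τ) + 4 * ρ ^ (-(η' / 2)) * wd ^ (s - τ)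
          = 8 * ρ ^ (-(η' / 2)) * wd ^ (s - τ) := by ring
        _ ≤ ρ ^ (-η') * wd ^ (s - τ) := mul_le_mul_of_nonneg_right n2 w3

/-- **Proposition 7.3**, finite form (= the contract `rt_rp` of `Rate/Contracts.lean`) -/
theorem rp_main (A s τ η' : ℝ) (hA : 1 ≤ A) (hs : 0 < s) (hs1 : s ≤ 1) (hτ : 0 < τ) (hη' : 0 < η') :
    ∃ t₀ : ℝ, 0 < t₀ ∧ t₀ ≤ 1 ∧ ∀ κ₀ : ℝ, 0 < κ₀ → ∃ η ρ₁ : ℝ, 0 < η ∧ 0 < ρ₁ ∧ ∀ ρ : ℝ, 0 < ρ → ρ < ρ₁ →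
      ∀ (ι : Type) [Fintype ι] (lam : ι → ℝ) (pos : ι → ℝ × ℝ) (wt : ι → ι → ℝ),
        (∀ i, 0 ≤ lam i) → ∑ i, lam i ≤ 1 → (∀ i, |(pos i).1| ≤ A ∧ |(pos i).2| ≤ A) →
        RtTreeHer lam pos (ρ ^ (-η)) s ρ → RtNoStrip lam pos (ρ ^ t₀) (ρ ^ κ₀) →
        (∀ i j, 0 ≤ wt i j ∧ wt i j ≤ 1) → ρ ^ η ≤ ∑ i, ∑ j, lam i * lam j * wt i j →
        ∃ 𝒢 : ι → ι → Prop, ρ ^ η' ≤ ∑ i, ∑ j with 𝒢 i j, lam i * lam j * wt i j ∧
          (∀ i j, 𝒢 i j → ρ ^ η' ≤ dist (pos i) (pos j)) ∧ RtThin lam pos 𝒢 (ρ ^ (-η')) (s - τ) ρ :=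
  rp_final A s τ η' hs1 hτ hη' (rp_stage_top A s τ hA hs hs1 hτ)

end Claimed.Agent.R255
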