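-- KEEP
import Claimed.Agent.R255.Rate.Gr

/-!
# Row 255 (BR paper), Sec. 7: small finite tools for graph blocks (star, pigeonholes, coverings)      (helper163)

PAPER-FREE.  Used by `Rate/XzCore.lean`.
* `rt_gstar` (Cauchy-Schwarz): a graph of product mass `≥ m` has a label `t₀` with `∑_t ν t μ(G_t₀ ∩ G_t) ≥ m²`.
* `rt_gslice` one slice carries the average;  `rt_gprune` the light cells have small total mass;  `rt_unit_sum` an unconstrained bounded coordinate costs `⌈A⌉₊`.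
* `RtCov.mono`, `rt_gcover` (from `RtCov` to `KfCov` with a translation and an error `A ρ`), `rt_gchoose` (choice of cover elements).
-/

set_option autoImplicit false

namespace Claimed.Agent.R255

open Finset Classical
open Claimed.Agent.RW (KfFrost KfCov kfProj)

/-- the star -/
theorem rt_gstar {P T : Type} [Fintype P] [Fintype T] (μ : P → ℝ) (ν : T → ℝ) (G : P → T → Prop) (m : ℝ)
    (hμ : ∀ p, 0 ≤ μ p) (hν : ∀ t, 0 ≤ ν t) (hμ1 : ∑ p, μ p ≤ 1) (hν1 : ∑ t, ν t ≤ 1) (hm0 : 0 < m)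
    (hm : m ≤ ∑ t, ν t * ∑ p with G p t, μ p) :
    ∃ t₀, 0 < ν t₀ ∧ m ^ 2 ≤ ∑ t, ν t * ∑ p with G p t₀ ∧ G p t, μ p := by
  set b : P → ℝ := fun p => ∑ t with G p t, ν t with hb
  have hb0 : ∀ p, 0 ≤ b p := fun p => Finset.sum_nonneg fun t _ => hν t
  -- swap
  have e1 : ∑ t, ν t * ∑ p with G p t, μ p = ∑ p, μ p * b p := by
    simp only [hb, Finset.mul_sum, Finset.sum_filter]
    rw [Finset.sum_comm]
    refine Finset.sum_congr rfl fun p _ => Finset.sum_congr rfl fun t _ => ?_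
    split_ifs <;> ring
  -- Cauchy-Schwarz
  have cs : (∑ p, μ p * b p) ^ 2 ≤ (∑ p, μ p) * ∑ p, μ p * b p ^ 2 := by
    have := Finset.sum_mul_sq_le_sq_mul_sq Finset.univ (fun p => Real.sqrt (μ p)) (fun p => Real.sqrt (μ p) * b p)
    have h1 : ∀ p, Real.sqrt (μ p) * (Real.sqrt (μ p) * b p) = μ p * b p := fun p => by
      rw [← mul_assoc, Real.mul_self_sqrt (hμ p)]
    have h2 : ∀ p, Real.sqrt (μ p) ^ 2 = μ p := fun p => Real.sq_sqrt (hμ p)
    have h3 : ∀ p, (Real.sqrt (μ p) * b p) ^ 2 = μ p * b p ^ 2 := fun p => by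
      rw [mul_pow, Real.sq_sqrt (hμ p)]
    simpa only [h1, h2, h3] using this
  have hS0 : 0 ≤ ∑ p, μ p * b p ^ 2 := Finset.sum_nonneg fun p _ => mul_nonneg (hμ p) (sq_nonneg _)
  have cs' : m ^ 2 ≤ ∑ p, μ p * b p ^ 2 := by
    have h1 : m ^ 2 ≤ (∑ p, μ p * b p) ^ 2 := by
      rw [e1] at hm
      exact pow_le_pow_left₀ hm0.le hm 2
    calc m ^ 2 ≤ (∑ p, μ p) * ∑ p, μ p * b p ^ 2 := h1.trans cs
      _ ≤ 1 * ∑ p, μ p * b p ^ 2 := mul_le_mul_of_nonneg_right hμ1 hS0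
      _ = _ := one_mul _
  -- expand the square
  set F : T → ℝ := fun t₀ => ∑ t, ν t * ∑ p with G p t₀ ∧ G p t, μ p with hF
  have e2 : ∑ p, μ p * b p ^ 2 = ∑ t₀, ν t₀ * F t₀ := by
    have h1 : ∀ t₀, ν t₀ * F t₀ = ∑ p, ∑ t, if G p t₀ ∧ G p t then μ p * (ν t₀ * ν t) else 0 := by
      intro t₀
      simp only [hF, Finset.mul_sum, Finset.sum_filter]
      rw [Finset.sum_comm]
      refine Finset.sum_congr rfl fun p _ => Finset.sum_congr rfl fun t _ => ?_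
      split_ifs <;> ring
    have h2 : ∀ p, μ p * b p ^ 2 = ∑ t₀, ∑ t, if G p t₀ ∧ G p t then μ p * (ν t₀ * ν t) else 0 := by
      intro p
      have hbp : b p = ∑ t, if G p t then ν t else 0 := by simp only [hb, Finset.sum_filter]
      rw [hbp, sq, Finset.sum_mul_sum, Finset.mul_sum]
      refine Finset.sum_congr rfl fun t₀ _ => ?_
      rw [Finset.mul_sum]
      refine Finset.sum_congr rfl fun t _ => ?_
      by_cases h1 : G p t₀ <;> by_cases h2 : G p t <;> simp [h1, h2]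
    simp only [h1, h2]
    rw [Finset.sum_comm]
  by_contra hcon
  push Not at hcon
  have hlt : ∀ t₀, ν t₀ * F t₀ ≤ ν t₀ * m ^ 2 := by
    intro t₀
    rcases (hν t₀).lt_or_eq with h | h
    · exact mul_le_mul_of_nonneg_left (hcon t₀ h).le h.le
    · rw [← h]; simp
  have hex : ∃ t₀, 0 < ν t₀ := by
    by_contra hno
    push Not at hno
    have hz : ∀ t, ν t = 0 := fun t => le_antisymm (hno t) (hν t)
    simp only [hz, zero_mul, Finset.sum_const_zero] at hm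
    linarith
  obtain ⟨t₁, ht₁⟩ := hex
  have hstrict : ∑ t₀, ν t₀ * F t₀ < ∑ t₀, ν t₀ * m ^ 2 :=
    Finset.sum_lt_sum (fun t₀ _ => hlt t₀) ⟨t₁, Finset.mem_univ _, mul_lt_mul_of_pos_left (hcon t₁ ht₁) ht₁⟩
  rw [← Finset.sum_mul] at hstrict
  have : (∑ t, ν t) * m ^ 2 ≤ 1 * m ^ 2 := mul_le_mul_of_nonneg_right hν1 (sq_nonneg _)
  rw [e2] at cs'
  linarith

/-- one slice.  `∑_p f p = ∑_{ζ ∈ F} ∑_{p : slc p = ζ} f p ≤ |F| max`. -/
theorem rt_gslice {P Sl : Type} [Fintype P] (f : P → ℝ) (slc : P → Sl) (F : Finset Sl) (hf0 : ∀ p, 0 ≤ f p)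
    (hF : ∀ p, 0 < f p → slc p ∈ F) (hpos : 0 < ∑ p, f p) :
    ∃ ζ ∈ F, ∑ p, f p ≤ (F.card : ℝ) * ∑ p with slc p = ζ, f p := by
  have e1 : ∑ p, f p = ∑ ζ ∈ F, ∑ p with slc p = ζ, f p := by
    have h1 : ∑ p, f p = ∑ p with slc p ∈ F, f p := by
      rw [Finset.sum_filter]
      refine Finset.sum_congr rfl fun p _ => ?_
      split_ifs with h
      · rfl
      · by_contra hne
        exact h (hF p (lt_of_le_of_ne (hf0 p) (Ne.symm hne)))
    rw [h1, ← Finset.sum_fiberwise_of_maps_to (s := Finset.univ.filter fun p => slc p ∈ F) (t := F) (g := slc)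
      (fun p hp => (Finset.mem_filter.1 hp).2)]
    refine Finset.sum_congr rfl fun ζ hζ => ?_
    rw [Finset.filter_filter]
    refine Finset.sum_congr ?_ fun _ _ => rfl
    ext p
    simp only [Finset.mem_filter, Finset.mem_univ, true_and]
    constructor
    · exact fun h => h.2
    · exact fun h => ⟨h ▸ hζ, h⟩
  have hne : F.Nonempty := by
    by_contra hemp
    rw [Finset.not_nonempty_iff_eq_empty] at hemp
    rw [e1, hemp] at hpos
    simp at hpos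
  obtain ⟨ζ, hζ, hmax⟩ := Finset.exists_max_image F (fun ζ => ∑ p with slc p = ζ, f p) hne
  refine ⟨ζ, hζ, ?_⟩
  rw [e1]
  calc ∑ ζ' ∈ F, ∑ p with slc p = ζ', f p ≤ ∑ _ζ' ∈ F, ∑ p with slc p = ζ, f p :=
        Finset.sum_le_sum fun ζ' h' => hmax ζ' h'
    _ = _ := by rw [Finset.sum_const, nsmul_eq_mul]

/-- the light cells have small total mass: `∑_{e₀ ∈ cov} ∑_{p : S p, e p = e₀, light} μ p ≤ |cov| thr`. -/
theorem rt_gprune {P E : Type} [Fintype P] (μ : P → ℝ) (S : P → Prop) (e : P → E) (cov : Finset E) (thr : ℝ)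
    (hμ : ∀ p, 0 ≤ μ p) (hthr : 0 ≤ thr) (he : ∀ p, 0 < μ p → e p ∈ cov) :
    ∑ p with S p ∧ ∑ p' with S p' ∧ e p' = e p, μ p' < thr, μ p ≤ (cov.card : ℝ) * thr := by
  set Lt : P → Prop := fun p => S p ∧ ∑ p' with S p' ∧ e p' = e p, μ p' < thr with hLt
  have h1 : ∑ p with Lt p, μ p = ∑ p with Lt p ∧ e p ∈ cov, μ p := by
    rw [Finset.sum_filter, Finset.sum_filter]
    refine Finset.sum_congr rfl fun p _ => ?_
    by_cases hl : Lt p
    · by_cases hc : e p ∈ cov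
      · simp [hl, hc]
      · have : μ p = 0 := by
          by_contra hne
          exact hc (he p (lt_of_le_of_ne (hμ p) (Ne.symm hne)))
        simp [hl, hc, this]
    · simp [hl]
  rw [h1, ← Finset.sum_fiberwise_of_maps_to (s := Finset.univ.filter fun p => Lt p ∧ e p ∈ cov) (t := cov) (g := e)
    (fun p hp => (Finset.mem_filter.1 hp).2.2)]
  calc ∑ e₀ ∈ cov, ∑ p ∈ (Finset.univ.filter fun p => Lt p ∧ e p ∈ cov) with e p = e₀, μ p
      ≤ ∑ _e₀ ∈ cov, thr := by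
        refine Finset.sum_le_sum fun e₀ _ => ?_
        by_cases hex : ∃ p, Lt p ∧ e p = e₀
        · obtain ⟨p₀, hp₀, rfl⟩ := hex
          refine le_trans ?_ hp₀.2.le
          refine Finset.sum_le_sum_of_subset_of_nonneg ?_ fun p _ _ => hμ p
          intro p hp
          simp only [Finset.mem_filter, Finset.mem_univ, true_and] at hp ⊢
          exact ⟨hp.1.1.1, hp.2⟩
        · rw [Finset.sum_eq_zero]
          · exact hthr
          · intro p hp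
            simp only [Finset.mem_filter, Finset.mem_univ, true_and] at hp
            exact absurd ⟨p, hp.1.1, hp.2⟩ hex
    _ = _ := by rw [Finset.sum_const, nsmul_eq_mul]

/-- an unconstrained bounded coordinate costs the factor `⌈A⌉₊`: the intervals `|v - (-A + 2k + 1)| ≤ 1`, `k < ⌈A⌉₊`, cover `[-A, A]`. -/
theorem rt_unit_sum {ι : Type} [Fintype ι] (w : ι → ℝ) (f : ι → ℝ) (S : ι → Prop) (A B : ℝ) (hA : 1 ≤ A) (hw : ∀ i, 0 ≤ w i)
    (hf : ∀ i, |f i| ≤ A) (h : ∀ x₀ : ℝ, ∑ i with S i ∧ |f i - x₀| ≤ 1, w i ≤ B) :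
    ∑ i with S i, w i ≤ (⌈A⌉₊ : ℝ) * B := by
  have hcov : ∀ i, ∃ k ∈ Finset.range ⌈A⌉₊, |f i - (-A + 2 * (k : ℝ) + 1)| ≤ 1 := by
    intro i
    obtain ⟨h1, h2⟩ := abs_le.1 (hf i)
    have hu0 : 0 ≤ (f i + A) / 2 := by linarith
    have hc1 : 1 ≤ ⌈A⌉₊ := Nat.one_le_ceil_iff.2 (by linarith)
    by_cases hc : ⌊(f i + A) / 2⌋₊ < ⌈A⌉₊
    · refine ⟨_, Finset.mem_range.2 hc, ?_⟩
      have h3 := Nat.floor_le hu0
      have h4 := Nat.lt_floor_add_one ((f i + A) / 2)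
      rw [abs_le]
      constructor <;> linarith
    · push Not at hc
      refine ⟨⌈A⌉₊ - 1, Finset.mem_range.2 (by omega), ?_⟩
      have h3 : ((⌈A⌉₊ : ℕ) : ℝ) ≤ (f i + A) / 2 := le_trans (by exact_mod_cast hc) (Nat.floor_le hu0)
      have h4 : A ≤ (⌈A⌉₊ : ℝ) := Nat.le_ceil A
      have h5 : ((⌈A⌉₊ - 1 : ℕ) : ℝ) = (⌈A⌉₊ : ℝ) - 1 := by
        rw [Nat.cast_sub hc1]; simp
      rw [h5, abs_le]
      constructor <;> linarith
  calc ∑ i with S i, w i ≤ ∑ k ∈ Finset.range ⌈A⌉₊, ∑ i with S i ∧ |f i - (-A + 2 * (k : ℝ) + 1)| ≤ 1, w i := by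
        simp only [Finset.sum_filter]
        rw [Finset.sum_comm]
        refine Finset.sum_le_sum fun i _ => ?_
        split_ifs with hS
        · obtain ⟨k, hk, hk'⟩ := hcov i
          calc w i = if S i ∧ |f i - (-A + 2 * (k : ℝ) + 1)| ≤ 1 then w i else 0 := by simp [hS, hk']
            _ ≤ _ := Finset.single_le_sum
              (f := fun k : ℕ => if S i ∧ |f i - (-A + 2 * (k : ℝ) + 1)| ≤ 1 then w i else 0)
              (fun k _ => by split_ifs; exacts [hw i, le_rfl]) hk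
        · exact Finset.sum_nonneg fun k _ => by split_ifs; exacts [hw i, le_rfl]
    _ ≤ ∑ _k ∈ Finset.range ⌈A⌉₊, B := Finset.sum_le_sum fun k _ => h _
    _ = _ := by rw [Finset.sum_const, nsmul_eq_mul, Finset.card_range]

theorem RtCov.mono {S S' : Set ℝ} {r N N' : ℝ} (h : RtCov S r N) (hS : S' ⊆ S) (hN : N ≤ N') : RtCov S' r N' := by
  obtain ⟨cov, h1, h2⟩ := h
  exact ⟨cov, h1.trans hN, fun t ht => h2 t (hS ht)⟩

/-- from a covering of `S` by `N` intervals of half-length `ρ` to a `KfCov`-covering of a set `S'` whose points are within `a + A ρ` of points of `S`: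
every `e ∈ cov` gives the left ends `e + a - (A+1) ρ + k ρ`, `k < ⌈2A+2⌉₊ + 1`. -/
theorem rt_gcover (S S' : Set ℝ) (ρ N A a : ℝ) (hρ : 0 < ρ) (hA : 0 ≤ A) (h : RtCov S ρ N)
    (hS : ∀ v' ∈ S', ∃ v ∈ S, |v' - v - a| ≤ A * ρ) :
    ∃ cov : Finset ℝ, cov.card ≤ (⌈2 * A + 2⌉₊ + 1) * ⌊N⌋₊ ∧ KfCov cov ρ S' := by
  obtain ⟨cov, hc, hcov⟩ := h
  refine ⟨(Finset.range (⌈2 * A + 2⌉₊ + 1) ×ˢ cov).image
    (fun q : ℕ × ℝ => q.2 + a - (A + 1) * ρ + (q.1 : ℝ) * ρ), ?_, ?_⟩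
  · refine Finset.card_image_le.trans ?_
    rw [Finset.card_product, Finset.card_range]
    exact Nat.mul_le_mul_left _ (Nat.le_floor hc)
  · intro v' hv'
    obtain ⟨v, hv, hvv⟩ := hS v' hv'
    obtain ⟨e, he, hve⟩ := hcov v hv
    obtain ⟨a1, a2⟩ := abs_le.1 hvv
    obtain ⟨b1, b2⟩ := abs_le.1 hve
    set y : ℝ := (v' - (e + a - (A + 1) * ρ)) / ρ with hy
    have hy0 : 0 ≤ y := div_nonneg (by nlinarith) hρ.le
    have hy1 : y ≤ 2 * A + 2 := by
      rw [hy, div_le_iff₀ hρ]; nlinarith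
    have hk : ⌊y⌋₊ < ⌈2 * A + 2⌉₊ + 1 := by
      have h1 : ⌊y⌋₊ ≤ ⌈2 * A + 2⌉₊ := by
        have : (⌊y⌋₊ : ℝ) ≤ (⌈2 * A + 2⌉₊ : ℝ) := (Nat.floor_le hy0).trans (hy1.trans (Nat.le_ceil _))
        exact_mod_cast this
      omega
    refine ⟨e + a - (A + 1) * ρ + (⌊y⌋₊ : ℝ) * ρ, ?_, ?_, ?_⟩
    · exact Finset.mem_image.2 ⟨(⌊y⌋₊, e), Finset.mem_product.2 ⟨Finset.mem_range.2 hk, he⟩, rfl⟩
    · have h3 : (⌊y⌋₊ : ℝ) * ρ ≤ y * ρ := mul_le_mul_of_nonneg_right (Nat.floor_le hy0) hρ.le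
      have h4 : y * ρ = v' - (e + a - (A + 1) * ρ) := by rw [hy]; field_simp
      linarith
    · have h3 : y * ρ ≤ ((⌊y⌋₊ : ℝ) + 1) * ρ := mul_le_mul_of_nonneg_right (Nat.lt_floor_add_one y).le hρ.le
      have h4 : y * ρ = v' - (e + a - (A + 1) * ρ) := by rw [hy]; field_simp
      linarith

/-- choice of a cover element -/
theorem rt_gchoose {P : Type} (src : P → ℝ) (S : P → Prop) (ρ N : ℝ) (h : RtCov {v | ∃ p, S p ∧ v = src p} ρ N) :
    ∃ (cov : Finset ℝ) (e : P → ℝ), (cov.card : ℝ) ≤ N ∧ ∀ p, S p → e p ∈ cov ∧ |src p - e p| ≤ ρ := by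
  obtain ⟨cov, h1, h2⟩ := h
  have h3 : ∀ p, ∃ e : ℝ, S p → e ∈ cov ∧ |src p - e| ≤ ρ := by
    intro p
    by_cases hp : S p
    · obtain ⟨e, he, he'⟩ := h2 (src p) ⟨p, hp, rfl⟩
      exact ⟨e, fun _ => ⟨he, he'⟩⟩
    · exact ⟨0, fun h => absurd h hp⟩
  choose e he using h3
  exact ⟨cov, e, h1, he⟩

end Claimed.Agent.R255
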