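-- KEEP
import Claimed.Agent.R255.Rate.GTest

/-!
# Row 255 (BR paper), Sec. 7, unit U6 (strip), file W: THE CELL TEST `rst_cells`      (helper294)

PAPER-FREE.  A generalisation of `rt_gtest` (`Rate/GTest.lean`): the cells in which the mass of the point population is compared with the reference law
are the fibres of an ARBITRARY class map `rc` (number of classes `≤ ρ^(-er-ε)`, `er` need not be the Frostman exponent `β` of the source coordinate `L`).
Hypotheses `RstHyp` on one point population `μ` (already restricted to the neighbours of the fixed label):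
  * `sc p` slice symbol (`≤ ρ^(-es-ε)` values), `rc p` reference class (`≤ ρ^(-er-ε)` values), on a reference class `L` varies by `≤ C ρ`;
  * `box1`  `μ{sc = σ, |L - l| ≤ r} ≤ ρ^(es-ε) r^β`,      `box2`  `μ{sc = σ, rc = κ, |V - v| ≤ ρ} ≤ ρ^(es+er+z-ε)`;
  * tags `t` (weights `ν`), slopes `sl t`, Frostman `γ`; graph mass `≥ ρ^ε`;
  * for every slice and tag the set `{V p - sl t * L p : G p t}` is covered by `ρ^(-z-ε)` intervals of half-length `C ρ`.
CONCLUSION: impossible if `0 < β`, `0 < γ`, `0 ≤ z < min 1 (β+γ)`, `ε = ε(β,γ,z,A,C)`, `ρ < ρ₁`;  `es`, `er` are arbitrary.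

PROOF.  `χ` from `RW.ex_W1 β γ z (A+C+1)`, `ε = χ/6`.  One slice `σ` carries graph mass `≥ ρ^(es+2ε)` (`rt_gslice`); the cells `(σ,κ)` of mass `< thr = ρ^(es+er+4ε)` have total mass
`≤ ρ^(es+3ε)` (`rt_gprune`); point law `rstMu` = `μ` on the heavy cells of the slice divided by `nrm = ⌈A⌉₊ ρ^(es-ε)`, reference law `rstRef` = `μ` on the slice divided by `nrm`;
`hU` (`rst_hU`): cell by cell, `box2 ≤ ρ^(z-5ε) thr ≤ ρ^(z-5ε) μ(cell)` and the whole cell lies within `(C+1) ρ` of the square.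
-/

set_option autoImplicit false

namespace Claimed.Agent.R255

open Finset Classical
open Claimed.Agent.RW (KfFrost KfCov kfProj ExTest ex_W1)

/-- the hypotheses of the cell test -/
structure RstHyp (ρ ε A C es er β γ z : ℝ) {P T S R : Type} [Fintype P] [Fintype T] (μ : P → ℝ) (ν : T → ℝ)
    (G : P → T → Prop) (sc : P → S) (rc : P → R) (L V : P → ℝ) (sl : T → ℝ) : Prop where
  μ0 : ∀ p, 0 ≤ μ p
  ν0 : ∀ t, 0 ≤ ν t
  ν1 : ∑ t, ν t ≤ 1
  bdP : ∀ p, |L p| ≤ A ∧ |V p| ≤ A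
  bdT : ∀ t, |sl t| ≤ A
  fr : KfFrost ν sl (ρ ^ (-ε)) γ ρ
  mass : ρ ^ ε ≤ ∑ t, ν t * ∑ p with G p t, μ p
  nS : ∃ F : Finset S, (F.card : ℝ) ≤ ρ ^ (-es - ε) ∧ ∀ p, 0 < μ p → sc p ∈ F
  nR : ∃ F : Finset R, (F.card : ℝ) ≤ ρ ^ (-er - ε) ∧ ∀ p, 0 < μ p → rc p ∈ F
  box1 : ∀ (σ : S) (l r : ℝ), ρ ≤ r → r ≤ 1 → ∑ p with sc p = σ ∧ |L p - l| ≤ r, μ p ≤ ρ ^ (es - ε) * r ^ β
  box2 : ∀ (σ : S) (κ : R) (v : ℝ), ∑ p with sc p = σ ∧ rc p = κ ∧ |V p - v| ≤ ρ, μ p ≤ ρ ^ (es + er + z - ε)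
  diam : ∀ p p', 0 < μ p → 0 < μ p' → rc p = rc p' → |L p - L p'| ≤ C * ρ
  cov : ∀ (σ : S) (t : T),
    RtCov {w | ∃ p, 0 < μ p ∧ sc p = σ ∧ G p t ∧ w = V p - sl t * L p} (C * ρ) (ρ ^ (-z - ε))

/-- heavy points of the slice `σ` (cells = fibres of `rc` in the slice) -/
def rstHv {P S R : Type} [Fintype P] (μ : P → ℝ) (sc : P → S) (rc : P → R) (σ : S) (thr : ℝ) (p : P) : Prop :=
  sc p = σ ∧ thr ≤ ∑ p' with sc p' = σ ∧ rc p' = rc p, μ p'

/-- the point population of the test -/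
noncomputable def rstMu {P S R : Type} [Fintype P] (μ : P → ℝ) (sc : P → S) (rc : P → R) (σ : S) (thr nrm : ℝ) : P → ℝ :=
  fun p => if rstHv μ sc rc σ thr p then μ p / nrm else 0

/-- the reference law of the test -/
noncomputable def rstRef {P S : Type} (μ : P → ℝ) (sc : P → S) (σ : S) (nrm : ℝ) : P → ℝ :=
  fun p => if sc p = σ then μ p / nrm else 0

theorem rst_sum_pos {ι : Type} (s : Finset ι) (w : ι → ℝ) (hw : ∀ i, 0 ≤ w i) :
    ∑ i ∈ s, w i = ∑ i ∈ s with 0 < w i, w i := by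
  rw [Finset.sum_filter]
  refine Finset.sum_congr rfl fun i _ => ?_
  split_ifs with h
  · rfl
  · exact le_antisymm (not_lt.1 h) (hw i)

/-- sums over a population split in classes -/
theorem rst_sum_cover {ι κ : Type} (s : Finset ι) (F : Finset κ) (w : ι → ℝ) (cl : ι → κ) (B : ℝ)
    (hcl : ∀ i ∈ s, cl i ∈ F) (hB : ∀ k ∈ F, ∑ i ∈ s with cl i = k, w i ≤ B) :
    ∑ i ∈ s, w i ≤ (F.card : ℝ) * B := by
  rw [← Finset.sum_fiberwise_of_maps_to hcl]
  calc ∑ k ∈ F, ∑ i ∈ s with cl i = k, w i ≤ ∑ _k ∈ F, B := Finset.sum_le_sum hB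
    _ = (F.card : ℝ) * B := by rw [Finset.sum_const, nsmul_eq_mul]

/-- an unconstrained bounded coordinate costs the factor `⌈A / r⌉₊` at the scale `r` -/
theorem rst_grid_sum {ι : Type} [Fintype ι] (w : ι → ℝ) (f : ι → ℝ) (S : ι → Prop) (A r B : ℝ) (hr : 0 < r) (hA : r ≤ A)
    (hw : ∀ i, 0 ≤ w i) (hf : ∀ i, |f i| ≤ A) (h : ∀ x₀ : ℝ, ∑ i with S i ∧ |f i - x₀| ≤ r, w i ≤ B) :
    ∑ i with S i, w i ≤ (⌈A / r⌉₊ : ℝ) * B := by
  have hA0 : 0 < A := lt_of_lt_of_le hr hA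
  have hn : 1 ≤ ⌈A / r⌉₊ := Nat.one_le_ceil_iff.2 (by positivity)
  have := rst_sum_cover (univ.filter S) (Finset.range ⌈A / r⌉₊) w (fun i => ⌈(f i + A) / (2 * r)⌉₊ - 1) B ?_ ?_
  · simpa using this
  · intro i _
    rw [Finset.mem_range]
    have h1 : ⌈(f i + A) / (2 * r)⌉₊ ≤ ⌈A / r⌉₊ := by
      refine Nat.ceil_le_ceil ?_
      rw [div_le_div_iff₀ (by positivity) hr]
      have := (abs_le.1 (hf i)).2
      nlinarith
    omega
  · intro k _
    refine le_trans (Finset.sum_le_sum_of_subset_of_nonneg ?_ fun i _ _ => hw i) (h (-A + (2 * k + 1) * r))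
    intro i hi
    simp only [Finset.mem_filter, Finset.mem_univ, true_and] at hi ⊢
    refine ⟨hi.1, ?_⟩
    have hy0 : 0 ≤ (f i + A) / (2 * r) := by
      have := (abs_le.1 (hf i)).1
      exact div_nonneg (by linarith) (by positivity)
    have h2r : 0 < 2 * r := by positivity
    rcases Nat.eq_zero_or_pos ⌈(f i + A) / (2 * r)⌉₊ with h0 | h0
    · have hk : k = 0 := by omega
      have hy : (f i + A) / (2 * r) ≤ 0 := Nat.ceil_eq_zero.1 h0
      have hy' : (f i + A) / (2 * r) = 0 := le_antisymm hy hy0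
      have : f i + A = 0 := by
        rcases div_eq_zero_iff.1 hy' with h | h
        · exact h
        · exact absurd h h2r.ne'
      rw [hk, abs_le]
      constructor <;> push_cast <;> nlinarith
    · have hk : (⌈(f i + A) / (2 * r)⌉₊ : ℝ) = k + 1 := by
        have : ⌈(f i + A) / (2 * r)⌉₊ = k + 1 := by omega
        rw [this]; push_cast; ring
      have h1 : (f i + A) / (2 * r) ≤ k + 1 := hk ▸ Nat.le_ceil _
      have h2 : (k : ℝ) + 1 < (f i + A) / (2 * r) + 1 := hk ▸ Nat.ceil_lt_add_one hy0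
      rw [div_le_iff₀ h2r] at h1
      have h3 : (k : ℝ) * (2 * r) < f i + A := by
        rw [← lt_div_iff₀ h2r]; linarith
      rw [abs_le]
      constructor <;> nlinarith

/-- small powers -/
theorem rst_small (e c : ℝ) (he : 0 < e) (hc : 0 < c) :
    ∃ ρ₂ : ℝ, 0 < ρ₂ ∧ ρ₂ ≤ 1 ∧ ∀ ρ : ℝ, 0 < ρ → ρ < ρ₂ → ρ ^ e < c := by
  refine ⟨min 1 (c ^ (1 / e)), lt_min one_pos (Real.rpow_pos_of_pos hc _), min_le_left _ _, fun ρ h0 h1 => ?_⟩
  have h2 : ρ < c ^ (1 / e) := lt_of_lt_of_le h1 (min_le_right _ _)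
  have h3 : ρ ^ e < (c ^ (1 / e)) ^ e := Real.rpow_lt_rpow h0.le h2 he
  rwa [← Real.rpow_mul hc.le, one_div_mul_cancel he.ne', Real.rpow_one] at h3

/-- the fibre hypothesis of `ex_W1` -/
theorem rst_hU {P S R : Type} [Fintype P] (μ : P → ℝ) (sc : P → S) (rc : P → R) (L V : P → ℝ) (σ : S) (FR : Finset R)
    (ρ thr nrm bx c C A₁ : ℝ) (hρ : 0 < ρ) (hμ : ∀ p, 0 ≤ μ p) (hn : 0 < nrm) (hA₁ : C + 1 ≤ A₁) (hc : 0 ≤ c)
    (hFR : ∀ p, 0 < μ p → rc p ∈ FR)
    (hdiam : ∀ p p', 0 < μ p → 0 < μ p' → rc p = rc p' → |L p - L p'| ≤ C * ρ)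
    (hbox : ∀ (κ : R) (v : ℝ), ∑ p with sc p = σ ∧ rc p = κ ∧ |V p - v| ≤ ρ, μ p ≤ bx)
    (hc' : bx ≤ c * thr) (w : ℝ × ℝ) :
    ∑ p with dist ((L p, V p) : ℝ × ℝ) w ≤ ρ, rstMu μ sc rc σ thr nrm p
      ≤ c * ∑ p with dist (L p) w.1 ≤ A₁ * ρ, rstRef μ sc σ nrm p := by
  set s : Finset P := univ.filter fun p => (dist ((L p, V p) : ℝ × ℝ) w ≤ ρ ∧ rstHv μ sc rc σ thr p) ∧ 0 < μ p with hs
  set s2 : Finset P := univ.filter fun p => (sc p = σ ∧ |L p - w.1| ≤ (C + 1) * ρ) ∧ 0 < μ p with hs2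
  have h1 : ∑ p with dist ((L p, V p) : ℝ × ℝ) w ≤ ρ, rstMu μ sc rc σ thr nrm p = (∑ p ∈ s, μ p) / nrm := by
    rw [Finset.sum_div, hs, Finset.sum_filter, Finset.sum_filter]
    refine Finset.sum_congr rfl fun p _ => ?_
    unfold rstMu
    by_cases a1 : dist ((L p, V p) : ℝ × ℝ) w ≤ ρ <;> by_cases a2 : rstHv μ sc rc σ thr p <;>
      by_cases a3 : 0 < μ p <;> simp only [a1, a2, a3, and_self, and_true, and_false, if_true, if_false]
    have : μ p = 0 := le_antisymm (not_lt.1 a3) (hμ p)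
    rw [this, zero_div]
  have h5 : (∑ p ∈ s2, μ p) / nrm ≤ ∑ p with dist (L p) w.1 ≤ A₁ * ρ, rstRef μ sc σ nrm p := by
    rw [Finset.sum_div]
    calc ∑ p ∈ s2, μ p / nrm = ∑ p ∈ s2, rstRef μ sc σ nrm p := by
          refine Finset.sum_congr rfl fun p hp => ?_
          have := (Finset.mem_filter.1 hp).2.1.1
          simp [rstRef, this]
      _ ≤ ∑ p with dist (L p) w.1 ≤ A₁ * ρ, rstRef μ sc σ nrm p := by
          refine Finset.sum_le_sum_of_subset_of_nonneg ?_ fun p _ _ => ?_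
          · intro p hp
            have := (Finset.mem_filter.1 hp).2.1.2
            simp only [Finset.mem_filter, Finset.mem_univ, true_and, Real.dist_eq]
            exact this.trans (mul_le_mul_of_nonneg_right hA₁ hρ.le)
          · unfold rstRef
            split_ifs
            · exact div_nonneg (hμ p) hn.le
            · exact le_rfl
  have h3 : ∀ κ ∈ FR, ∑ p ∈ s with rc p = κ, μ p ≤ c * ∑ p ∈ s2 with rc p = κ, μ p := by
    intro κ _
    have hnn : 0 ≤ ∑ p ∈ s2 with rc p = κ, μ p := Finset.sum_nonneg fun p _ => hμ p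
    by_cases hex : ∃ p₀ ∈ s, rc p₀ = κ
    · obtain ⟨p₀, hp₀, hκ⟩ := hex
      obtain ⟨-, ⟨hd₀, -, hthr⟩, hpos₀⟩ := Finset.mem_filter.1 hp₀
      have hd₁ : |L p₀ - w.1| ≤ ρ := by
        have := (le_max_left _ _).trans (le_of_eq_of_le (Prod.dist_eq).symm hd₀)
        simpa [Real.dist_eq] using this
      have a1 : ∑ p ∈ s with rc p = κ, μ p ≤ bx := by
        refine le_trans (Finset.sum_le_sum_of_subset_of_nonneg ?_ fun p _ _ => hμ p) (hbox κ w.2)
        intro p hp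
        obtain ⟨hp1, hp2⟩ := Finset.mem_filter.1 hp
        obtain ⟨-, ⟨hd, hsc, -⟩, -⟩ := Finset.mem_filter.1 hp1
        have hd2 : |V p - w.2| ≤ ρ := by
          have := (le_max_right _ _).trans (le_of_eq_of_le (Prod.dist_eq).symm hd)
          simpa [Real.dist_eq] using this
        simp only [Finset.mem_filter, Finset.mem_univ, true_and]
        exact ⟨hsc, hp2, hd2⟩
      have a2 : thr ≤ ∑ p ∈ s2 with rc p = κ, μ p := by
        refine hthr.trans ?_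
        rw [rst_sum_pos _ μ hμ]
        refine Finset.sum_le_sum_of_subset_of_nonneg ?_ fun p _ _ => hμ p
        intro p hp
        obtain ⟨hp1, hp2⟩ := Finset.mem_filter.1 hp
        obtain ⟨-, hsc, hrc⟩ := Finset.mem_filter.1 hp1
        simp only [hs2, Finset.mem_filter, Finset.mem_univ, true_and]
        refine ⟨⟨⟨hsc, ?_⟩, hp2⟩, hrc.trans hκ⟩
        have b1 := hdiam p p₀ hp2 hpos₀ hrc
        calc |L p - w.1| = |(L p - L p₀) + (L p₀ - w.1)| := by congr 1; ring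
          _ ≤ |L p - L p₀| + |L p₀ - w.1| := abs_add_le _ _
          _ ≤ C * ρ + ρ := add_le_add b1 hd₁
          _ = (C + 1) * ρ := by ring
      calc ∑ p ∈ s with rc p = κ, μ p ≤ bx := a1
        _ ≤ c * thr := hc'
        _ ≤ c * ∑ p ∈ s2 with rc p = κ, μ p := mul_le_mul_of_nonneg_left a2 hc
    · rw [Finset.sum_eq_zero]
      · exact mul_nonneg hc hnn
      · intro p hp
        obtain ⟨hp1, hp2⟩ := Finset.mem_filter.1 hp
        exact absurd ⟨p, hp1, hp2⟩ hex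
  have h2 : ∑ p ∈ s, μ p ≤ c * ∑ p ∈ s2, μ p := by
    rw [← Finset.sum_fiberwise_of_maps_to (s := s) (t := FR) (g := rc) (fun p hp => hFR p (Finset.mem_filter.1 hp).2.2),
      ← Finset.sum_fiberwise_of_maps_to (s := s2) (t := FR) (g := rc) (fun p hp => hFR p (Finset.mem_filter.1 hp).2.2),
      Finset.mul_sum]
    exact Finset.sum_le_sum h3
  rw [h1]
  calc (∑ p ∈ s, μ p) / nrm ≤ (c * ∑ p ∈ s2, μ p) / nrm := div_le_div_of_nonneg_right h2 hn.le
    _ = c * ((∑ p ∈ s2, μ p) / nrm) := by ring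
    _ ≤ _ := mul_le_mul_of_nonneg_left h5 hc

/-- exchange of the order of summation in the graph mass -/
theorem rst_swap {P T : Type} [Fintype P] [Fintype T] (μ : P → ℝ) (ν : T → ℝ) (G : P → T → Prop) :
    ∑ t, ν t * ∑ p with G p t, μ p = ∑ p, μ p * ∑ t with G p t, ν t := by
  simp only [Finset.sum_filter, Finset.mul_sum]
  rw [Finset.sum_comm]
  refine Finset.sum_congr rfl fun p _ => Finset.sum_congr rfl fun t _ => ?_
  by_cases h : G p t <;> simp [h, mul_comm]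

/-- **the cell test** -/
theorem rst_cells (β γ z A C : ℝ) (hβ : 0 < β) (hγ : 0 < γ) (hz0 : 0 ≤ z) (hz : z < min 1 (β + γ)) (hA : 1 ≤ A)
    (hC : 0 ≤ C) :
    ∃ ε ρ₁ : ℝ, 0 < ε ∧ 0 < ρ₁ ∧ ρ₁ ≤ 1 ∧ ∀ ρ : ℝ, 0 < ρ → ρ < ρ₁ → ∀ (es er : ℝ) (P T S R : Type) [Fintype P] [Fintype T]
      (μ : P → ℝ) (ν : T → ℝ) (G : P → T → Prop) (sc : P → S) (rc : P → R) (L V : P → ℝ) (sl : T → ℝ),
      ¬ RstHyp ρ ε A C es er β γ z μ ν G sc rc L V sl := by
  obtain ⟨χ, hχ, ρW, hρW, hW⟩ := ex_W1 β γ z (A + C + 1) hβ hγ hz0 hz (by linarith)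
  have hCa : (1 : ℝ) ≤ (⌈A⌉₊ : ℝ) := by
    have : 1 ≤ ⌈A⌉₊ := Nat.one_le_ceil_iff.2 (by linarith)
    exact_mod_cast this
  set Ca : ℝ := (⌈A⌉₊ : ℝ) with hCadef
  set Kc : ℕ := ⌈2 * C + 2⌉₊ + 1 with hKc
  have hKc0 : (0 : ℝ) < (Kc : ℝ) := by rw [hKc]; positivity
  obtain ⟨ρa, ha0, ha1, ha⟩ := rst_small (χ / 6) (1 / 2) (by positivity) (by norm_num)
  obtain ⟨ρb, hb0, -, hb⟩ := rst_small (χ - 3 * (χ / 6)) (1 / (2 * Ca)) (by linarith) (by positivity)
  obtain ⟨ρc, hc0, -, hc⟩ := rst_small (χ - χ / 6) (1 / (Kc : ℝ)) (by linarith) (by positivity)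
  refine ⟨χ / 6, min (min ρW ρa) (min ρb ρc), by positivity, by positivity,
    ((min_le_left _ _).trans (min_le_right _ _)).trans ha1, ?_⟩
  intro ρ h0 hρ es er P T S R _ _ μ ν G sc rc L V sl H
  set ε : ℝ := χ / 6 with hε
  have hε0 : 0 < ε := by positivity
  have hρW' : ρ < ρW := lt_of_lt_of_le hρ ((min_le_left _ _).trans (min_le_left _ _))
  have hρa' : ρ < ρa := lt_of_lt_of_le hρ ((min_le_left _ _).trans (min_le_right _ _))
  have hρb' : ρ < ρb := lt_of_lt_of_le hρ ((min_le_right _ _).trans (min_le_left _ _))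
  have hρc' : ρ < ρc := lt_of_lt_of_le hρ ((min_le_right _ _).trans (min_le_right _ _))
  have hρ1 : ρ < 1 := lt_of_lt_of_le hρa' ha1
  have ka := ha ρ h0 hρa'
  have kb := hb ρ h0 hρb'
  have kc := hc ρ h0 hρc'
  have hpw : ∀ a : ℝ, 0 < ρ ^ a := fun a => Real.rpow_pos_of_pos h0 a
  have hmono : ∀ {a b : ℝ}, b ≤ a → ρ ^ a ≤ ρ ^ b := fun h => Real.rpow_le_rpow_of_exponent_ge h0 hρ1.le h
  obtain ⟨FS, hFS, hFSm⟩ := H.nS
  obtain ⟨FR, hFR, hFRm⟩ := H.nR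
  -- the slice
  set f : P → ℝ := fun p => μ p * ∑ t with G p t, ν t with hf
  have hb01 : ∀ p, 0 ≤ ∑ t with G p t, ν t ∧ ∑ t with G p t, ν t ≤ 1 := fun p =>
    ⟨Finset.sum_nonneg fun t _ => H.ν0 t,
      (Finset.sum_le_sum_of_subset_of_nonneg (Finset.subset_univ _) fun t _ _ => H.ν0 t).trans H.ν1⟩
  have hf0 : ∀ p, 0 ≤ f p := fun p => mul_nonneg (H.μ0 p) (hb01 p).1
  have hfle : ∀ p, f p ≤ μ p := fun p => mul_le_of_le_one_right (H.μ0 p) (hb01 p).2
  have hsum : ρ ^ ε ≤ ∑ p, f p := by rw [hf, ← rst_swap]; exact H.mass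
  obtain ⟨σ, -, hsl⟩ := rt_gslice f sc FS hf0
    (fun p hp => hFSm p (lt_of_lt_of_le hp (hfle p))) (lt_of_lt_of_le (hpw ε) hsum)
  have hg0 : 0 ≤ ∑ p with sc p = σ, f p := Finset.sum_nonneg fun p _ => hf0 p
  have h1 : ρ ^ (es + 2 * ε) ≤ ∑ p with sc p = σ, f p := by
    have a1 : ρ ^ ε ≤ ρ ^ (-es - ε) * ∑ p with sc p = σ, f p :=
      hsum.trans (hsl.trans (mul_le_mul_of_nonneg_right hFS hg0))
    have a2 : ρ ^ (es + 2 * ε) = ρ ^ (es + ε) * ρ ^ ε := by rw [← Real.rpow_add h0]; congr 1; ring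
    have a3 : ρ ^ (es + ε) * ρ ^ (-es - ε) = 1 := by
      rw [← Real.rpow_add h0]
      have : es + ε + (-es - ε) = 0 := by ring
      rw [this, Real.rpow_zero]
    calc ρ ^ (es + 2 * ε) = ρ ^ (es + ε) * ρ ^ ε := a2
      _ ≤ ρ ^ (es + ε) * (ρ ^ (-es - ε) * ∑ p with sc p = σ, f p) := mul_le_mul_of_nonneg_left a1 (hpw _).le
      _ = (ρ ^ (es + ε) * ρ ^ (-es - ε)) * ∑ p with sc p = σ, f p := by ring
      _ = ∑ p with sc p = σ, f p := by rw [a3, one_mul]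
  -- deletion of the light cells
  set thr : ℝ := ρ ^ (es + er + 4 * ε) with hthr
  have hlight : ∑ p with sc p = σ ∧ ∑ p' with sc p' = σ ∧ rc p' = rc p, μ p' < thr, μ p ≤ ρ ^ (es + 2 * ε) / 2 := by
    refine (rt_gprune μ (fun p => sc p = σ) rc FR thr H.μ0 (hpw _).le hFRm).trans ?_
    calc (FR.card : ℝ) * thr ≤ ρ ^ (-er - ε) * thr := mul_le_mul_of_nonneg_right hFR (hpw _).le
      _ = ρ ^ (es + 2 * ε) * ρ ^ ε := by
          rw [hthr, ← Real.rpow_add h0, ← Real.rpow_add h0]; congr 1; ring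
      _ ≤ ρ ^ (es + 2 * ε) * (1 / 2) := mul_le_mul_of_nonneg_left ka.le (hpw _).le
      _ = ρ ^ (es + 2 * ε) / 2 := by ring
  have h2 : ρ ^ (es + 2 * ε) / 2 ≤ ∑ p with rstHv μ sc rc σ thr p, f p := by
    have a1 : ∑ p with sc p = σ, f p = ∑ p with rstHv μ sc rc σ thr p, f p
        + ∑ p with sc p = σ ∧ ∑ p' with sc p' = σ ∧ rc p' = rc p, μ p' < thr, f p := by
      rw [Finset.sum_filter, Finset.sum_filter, Finset.sum_filter, ← Finset.sum_add_distrib]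
      refine Finset.sum_congr rfl fun p _ => ?_
      unfold rstHv
      by_cases b1 : sc p = σ
      · by_cases b2 : thr ≤ ∑ p' with sc p' = σ ∧ rc p' = rc p, μ p'
        · simp [b1, b2, not_lt.2 b2]
        · simp [b1, b2, not_le.1 b2]
      · simp [b1]
    have a2 : ∑ p with sc p = σ ∧ ∑ p' with sc p' = σ ∧ rc p' = rc p, μ p' < thr, f p ≤ ρ ^ (es + 2 * ε) / 2 :=
      (Finset.sum_le_sum fun p _ => hfle p).trans hlight
    linarith
  -- the populations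
  set nrm : ℝ := Ca * ρ ^ (es - ε) with hnrm
  have hn0 : 0 < nrm := mul_pos (by linarith) (hpw _)
  have hμ'0 : ∀ p, 0 ≤ rstMu μ sc rc σ thr nrm p := by
    intro p
    unfold rstMu
    split_ifs
    · exact div_nonneg (H.μ0 p) hn0.le
    · exact le_rfl
  have hμ'1 : ∑ p, rstMu μ sc rc σ thr nrm p ≤ 1 := by
    have a1 : ∑ p with sc p = σ, μ p ≤ Ca * ρ ^ (es - ε) := by
      refine rt_unit_sum μ L (fun p => sc p = σ) A _ hA H.μ0 (fun p => (H.bdP p).1) fun x₀ => ?_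
      have := H.box1 σ x₀ 1 hρ1.le le_rfl
      rwa [Real.one_rpow, mul_one] at this
    calc ∑ p, rstMu μ sc rc σ thr nrm p ≤ ∑ p, (if sc p = σ then μ p / nrm else 0) := by
          refine Finset.sum_le_sum fun p _ => ?_
          unfold rstMu rstHv
          by_cases b1 : sc p = σ
          · simp only [b1, true_and, if_true]
            split_ifs
            · exact le_rfl
            · exact div_nonneg (H.μ0 p) hn0.le
          · simp [b1]
      _ = (∑ p with sc p = σ, μ p) / nrm := by rw [Finset.sum_div, Finset.sum_filter]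
      _ ≤ 1 := (div_le_one hn0).2 a1
  set Gr : Finset (P × T) := univ.filter fun e : P × T => G e.1 e.2 ∧ rstHv μ sc rc σ thr e.1 ∧ 0 < μ e.1 with hGr
  have hgraph : ρ ^ χ ≤ ∑ e ∈ Gr, rstMu μ sc rc σ thr nrm e.1 * ν e.2 := by
    have a1 : ∑ e ∈ Gr, rstMu μ sc rc σ thr nrm e.1 * ν e.2 = (∑ p with rstHv μ sc rc σ thr p, f p) / nrm := by
      rw [hGr, Finset.sum_filter, Fintype.sum_prod_type, Finset.sum_div, Finset.sum_filter]
      refine Finset.sum_congr rfl fun p _ => ?_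
      by_cases b1 : rstHv μ sc rc σ thr p
      · simp only [b1, true_and, if_true, hf, rstMu]
        rw [Finset.sum_filter, Finset.mul_sum, Finset.sum_div]
        refine Finset.sum_congr rfl fun t _ => ?_
        by_cases b2 : G p t <;> by_cases b3 : 0 < μ p <;> simp only [b2, b3, and_self, and_true, and_false, if_true, if_false,
          mul_zero, zero_div]
        · ring
        · have : μ p = 0 := le_antisymm (not_lt.1 b3) (H.μ0 p)
          rw [this]; ring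
      · simp [b1]
    rw [a1, le_div_iff₀ hn0]
    refine le_trans ?_ h2
    have a2 : ρ ^ χ = ρ ^ (χ - 3 * ε) * ρ ^ (3 * ε) := by rw [← Real.rpow_add h0]; congr 1; ring
    have a3 : ρ ^ (3 * ε) * ρ ^ (es - ε) = ρ ^ (es + 2 * ε) := by rw [← Real.rpow_add h0]; congr 1; ring
    calc ρ ^ χ * nrm = ρ ^ (χ - 3 * ε) * Ca * (ρ ^ (3 * ε) * ρ ^ (es - ε)) := by rw [a2, hnrm]; ring
      _ ≤ 1 / (2 * Ca) * Ca * (ρ ^ (3 * ε) * ρ ^ (es - ε)) := by
          have : 0 ≤ Ca := by linarith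
          have := kb.le
          gcongr
      _ = ρ ^ (es + 2 * ε) / 2 := by
          rw [a3]
          have : Ca ≠ 0 := by linarith
          field_simp
  -- the coverings
  have hcov : ∀ t : T, ∃ cov : Finset ℝ, cov.card ≤ Kc * ⌊ρ ^ (-z - ε)⌋₊ ∧
      KfCov cov ρ {w | ∃ x, (x, t) ∈ Gr ∧ w = kfProj (sl t) ((L x, V x) : ℝ × ℝ)} := by
    intro t
    obtain ⟨cov₀, c1, c2⟩ := H.cov σ t
    refine rt_gcover (↑cov₀ : Set ℝ) _ ρ (ρ ^ (-z - ε)) C 0 h0 hC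
      ⟨cov₀, c1, fun v hv => ⟨v, hv, by simpa using h0.le⟩⟩ ?_
    rintro v' ⟨x, hx, rfl⟩
    obtain ⟨-, g1, g2, g3⟩ := Finset.mem_filter.1 hx
    obtain ⟨e, he, he'⟩ := c2 (V x - sl t * L x) ⟨x, g3, g2.1, g1, rfl⟩
    exact ⟨e, he, by simpa [kfProj] using he'⟩
  choose cov hcov1 hcov2 using hcov
  have hT : ExTest ρ χ (A + C + 1) γ (rstMu μ sc rc σ thr nrm) ν (fun p => ((L p, V p) : ℝ × ℝ)) sl Gr
      (Kc * ⌊ρ ^ (-z - ε)⌋₊) := by
    refine ⟨hμ'0, H.ν0, hμ'1, H.ν1, fun p => ⟨(H.bdP p).1.trans (by linarith), (H.bdP p).2.trans (by linarith)⟩,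
      fun t => (H.bdT t).trans (by linarith), ?_, hgraph, cov, hcov1, hcov2⟩
    intro y r hr hr1
    refine (H.fr y r hr hr1).trans (mul_le_mul_of_nonneg_right (hmono (by linarith))
      (Real.rpow_nonneg (h0.le.trans hr) _))
  have href0 : ∀ p, 0 ≤ rstRef μ sc σ nrm p := by
    intro p
    unfold rstRef
    split_ifs
    · exact div_nonneg (H.μ0 p) hn0.le
    · exact le_rfl
  have hrefF : KfFrost (rstRef μ sc σ nrm) L (ρ ^ (-χ)) β ρ := by
    intro y r hr hr1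
    have hr0 : 0 < r := lt_of_lt_of_le h0 hr
    have a1 : ∑ p with dist (L p) y ≤ r, rstRef μ sc σ nrm p = (∑ p with sc p = σ ∧ |L p - y| ≤ r, μ p) / nrm := by
      rw [Finset.sum_div, Finset.sum_filter, Finset.sum_filter]
      refine Finset.sum_congr rfl fun p _ => ?_
      unfold rstRef
      rw [Real.dist_eq]
      by_cases b1 : sc p = σ <;> by_cases b2 : |L p - y| ≤ r <;> simp [b1, b2]
    rw [a1, div_le_iff₀ hn0]
    refine (H.box1 σ y r hr hr1).trans ?_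
    have a2 : (1 : ℝ) ≤ ρ ^ (-χ) := Real.one_le_rpow_of_pos_of_le_one_of_nonpos h0 hρ1.le (by linarith)
    have a3 : 0 < r ^ β := Real.rpow_pos_of_pos hr0 _
    have a4 := hpw (es - ε)
    calc ρ ^ (es - ε) * r ^ β = 1 * r ^ β * (1 * ρ ^ (es - ε)) := by ring
      _ ≤ ρ ^ (-χ) * r ^ β * (Ca * ρ ^ (es - ε)) := by gcongr
  have hU : ∀ w : ℝ × ℝ, ∑ p with dist ((L p, V p) : ℝ × ℝ) w ≤ ρ, rstMu μ sc rc σ thr nrm p ≤
      ρ ^ (z - χ) * ∑ p with dist (L p) w.1 ≤ (A + C + 1) * ρ, rstRef μ sc σ nrm p := by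
    intro w
    refine rst_hU μ sc rc L V σ FR ρ thr nrm (ρ ^ (es + er + z - ε)) (ρ ^ (z - χ)) C (A + C + 1) h0 H.μ0 hn0
      (by linarith) (hpw _).le hFRm H.diam (H.box2 σ) ?_ w
    rw [hthr, ← Real.rpow_add h0]
    exact hmono (by linarith)
  have hfin := hW ρ h0 hρW' P T P (rstMu μ sc rc σ thr nrm) ν (fun p => ((L p, V p) : ℝ × ℝ)) sl Gr
    (Kc * ⌊ρ ^ (-z - ε)⌋₊) (rstRef μ sc σ nrm) L hT href0 hrefF hU
  have hM : ((Kc * ⌊ρ ^ (-z - ε)⌋₊ : ℕ) : ℝ) ≤ Kc * ρ ^ (-z - ε) := by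
    push_cast
    exact mul_le_mul_of_nonneg_left (Nat.floor_le (hpw _).le) hKc0.le
  have h3 : ρ ^ (-z - χ) ≤ Kc * ρ ^ (-z - ε) := hfin.trans hM
  have h4 : ρ ^ (-z - ε) = ρ ^ (-z - χ) * ρ ^ (χ - ε) := by rw [← Real.rpow_add h0]; congr 1; ring
  have h5 : (Kc : ℝ) * ρ ^ (χ - ε) < 1 := by
    have := mul_lt_mul_of_pos_left kc hKc0
    rwa [mul_one_div, div_self hKc0.ne'] at this
  have h6 := hpw (-z - χ)
  rw [h4] at h3
  nlinarith

end Claimed.Agent.R255
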