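-- KEEP
import Claimed.Agent.R255.Rate.StripW

/-!
# Row 255 (BR paper), Sec. 7, unit U6 (strip), file B: block level tools      (helper294)

Bounds of the frame coordinates, graph mass and the pin `t₀` (`rst_pin`), choice of cover elements, box bounds with free coordinates (the free coordinate is covered at the scale `1`
by `covZ` / `covU`: factor `ρ^(-η)`, no constant), the strip relation, Frostman bound of a set of labels of small `c`-diameter.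
-/

set_option autoImplicit false

namespace Claimed.Agent.R255

open Finset Classical
open Claimed.Agent.RW (KfFrost kf_frost_ext)

section

variable {b : RtBlk} {ρ η A x q z s σ : ℝ}

theorem rst_bd (hA : 1 ≤ A) (h : b.Base ρ η A s σ) (t : b.Th) (p : b.P) :
    |b.Yf t p| ≤ 2 * A ^ 2 ∧ |b.Wf t p| ≤ 2 * A ^ 2 ∧ |b.Zf t p| ≤ 4 * A ^ 3 := by
  obtain ⟨hX, hY, hW, hZ⟩ := h.bdP p
  obtain ⟨hc, hr⟩ := h.bdT t
  have hA0 : 0 ≤ A := by linarith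
  have e1 : A ≤ A ^ 2 := by nlinarith
  have e2 : A ^ 2 ≤ A ^ 3 := by nlinarith [sq_nonneg A]
  have m1 : |b.c t * b.X p| ≤ A ^ 2 := by
    rw [abs_mul, sq]; exact mul_le_mul hc hX (abs_nonneg _) hA0
  have m2 : |b.r t * b.X p| ≤ A ^ 2 := by
    rw [abs_mul, sq]; exact mul_le_mul hr hX (abs_nonneg _) hA0
  have m3 : |b.c t * b.W p| ≤ A ^ 2 := by
    rw [abs_mul, sq]; exact mul_le_mul hc hW (abs_nonneg _) hA0
  have m4 : |b.r t * b.Y p| ≤ A ^ 2 := by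
    rw [abs_mul, sq]; exact mul_le_mul hr hY (abs_nonneg _) hA0
  have m5 : |b.c t * b.r t * b.X p| ≤ A ^ 3 := by
    rw [abs_mul, abs_mul]
    calc |b.c t| * |b.r t| * |b.X p| ≤ A * A * A :=
          mul_le_mul (mul_le_mul hc hr (abs_nonneg _) hA0) hX (abs_nonneg _) (by positivity)
      _ = A ^ 3 := by ring
  refine ⟨?_, ?_, ?_⟩
  · unfold RtBlk.Yf
    exact (abs_add_le _ _).trans (by linarith)
  · unfold RtBlk.Wf
    exact (abs_add_le _ _).trans (by linarith)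
  · unfold RtBlk.Zf
    refine (abs_add_le _ _).trans ?_
    refine (add_le_add_left (abs_add_le _ _) _).trans ?_
    refine (add_le_add_left (add_le_add_left (abs_add_le _ _) _) _).trans ?_
    linarith

theorem rst_mass (h0 : 0 < ρ) (h : b.Base ρ η A s σ) :
    ρ ^ (2 * η) ≤ ∑ t, b.lam t * ∑ p with b.G p t, b.μ p := by
  have e1 : ρ ^ (2 * η) = ρ ^ η * ρ ^ η := by rw [← Real.rpow_add h0]; congr 1; ring
  calc ρ ^ (2 * η) = ρ ^ η * ρ ^ η := e1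
    _ ≤ (∑ t, b.lam t) * ρ ^ η := mul_le_mul_of_nonneg_right h.mass (Real.rpow_nonneg h0.le _)
    _ = ∑ t, b.lam t * ρ ^ η := Finset.sum_mul _ _ _
    _ ≤ ∑ t, b.lam t * ∑ p with b.G p t, b.μ p := by
        refine Finset.sum_le_sum fun t _ => ?_
        rcases (h.lam0 t).eq_or_lt with h1 | h1
        · rw [← h1, zero_mul, zero_mul]
        · exact mul_le_mul_of_nonneg_left (h.nbr t h1) h1.le

/-- the pin -/
theorem rst_pin (h0 : 0 < ρ) (h : b.Base ρ η A s σ) :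
    ∃ t₀, 0 < b.lam t₀ ∧ ρ ^ (4 * η) ≤ ∑ t, b.lam t * ∑ p with b.G p t₀ ∧ b.G p t, b.μ p := by
  obtain ⟨t₀, h1, h2⟩ := rt_gstar b.μ b.lam b.G (ρ ^ (2 * η)) h.μ0 h.lam0 h.μ1 h.lam1 (Real.rpow_pos_of_pos h0 _)
    (rst_mass h0 h)
  refine ⟨t₀, h1, ?_⟩
  have : (ρ ^ (2 * η)) ^ 2 = ρ ^ (4 * η) := by
    rw [← Real.rpow_natCast, ← Real.rpow_mul h0.le]; congr 1; push_cast; ring
  rwa [this] at h2

/-- the box bound with `Z` free -/
theorem rst_box_free (h0 : 0 < ρ) (h1 : ρ ≤ 1) (h : b.Is3w ρ η A x q z s σ) (t : b.Th) (x₀ y₀ w₀ r₁ r₂ : ℝ)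
    (a1 : ρ ≤ r₁) (a2 : r₁ ≤ 1) (a3 : ρ ≤ r₂) (a4 : r₂ ≤ 1) :
    ∑ p with b.G p t ∧ |b.X p - x₀| ≤ r₁ ∧ |b.Yf t p - y₀| ≤ r₂ ∧ |b.Wf t p - w₀| ≤ r₂, b.μ p ≤
      ρ ^ (-(2 * η)) * (r₁ ^ x * r₂ ^ q) := by
  obtain ⟨cov, e, c1, c2⟩ := rt_gchoose (b.Zf t) (fun p => b.G p t) 1 _ (h.covZ t 1 h1 le_rfl)
  rw [Real.one_rpow, mul_one] at c1
  have hB0 : 0 ≤ ρ ^ (-η) * (r₁ ^ x * r₂ ^ q) := by
    have e1 := Real.rpow_nonneg h0.le (-η)
    have e2 := Real.rpow_nonneg (h0.le.trans a1) x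
    have e3 := Real.rpow_nonneg (h0.le.trans a3) q
    positivity
  refine (rst_sum_cover _ cov b.μ e (ρ ^ (-η) * (r₁ ^ x * r₂ ^ q)) ?_ ?_).trans ?_
  · intro p hp
    exact (c2 p (Finset.mem_filter.1 hp).2.1).1
  · intro k _
    have := h.box t x₀ y₀ w₀ k r₁ r₂ 1 a1 a2 a3 a4 h1 le_rfl
    rw [Real.one_rpow, mul_one] at this
    refine le_trans (Finset.sum_le_sum_of_subset_of_nonneg ?_ fun p _ _ => h.μ0 p) this
    intro p hp
    obtain ⟨hp1, hp2⟩ := Finset.mem_filter.1 hp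
    obtain ⟨-, g1, g2, g3, g4⟩ := Finset.mem_filter.1 hp1
    simp only [Finset.mem_filter, Finset.mem_univ, true_and]
    exact ⟨g1, g2, g3, g4, hp2 ▸ (c2 p g1).2⟩
  · have e1 : ρ ^ (-(2 * η)) = ρ ^ (-η) * ρ ^ (-η) := by rw [← Real.rpow_add h0]; congr 1; ring
    rw [e1, mul_assoc]
    exact mul_le_mul_of_nonneg_right c1 hB0

/-- choice of a cover element in the plane -/
theorem rst_choose2 {P : Type} (f g : P → ℝ) (S : P → Prop) (r N : ℝ)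
    (h : RtCov2 {v | ∃ p, S p ∧ v = (f p, g p)} r N) :
    ∃ (cov : Finset (ℝ × ℝ)) (e : P → ℝ × ℝ), (cov.card : ℝ) ≤ N ∧
      ∀ p, S p → e p ∈ cov ∧ |f p - (e p).1| ≤ r ∧ |g p - (e p).2| ≤ r := by
  obtain ⟨cov, h1, h2⟩ := h
  have h3 : ∀ p, ∃ e : ℝ × ℝ, S p → e ∈ cov ∧ |f p - e.1| ≤ r ∧ |g p - e.2| ≤ r := by
    intro p
    by_cases hp : S p
    · obtain ⟨e, he, he'⟩ := h2 (f p, g p) ⟨p, hp, rfl⟩
      exact ⟨e, fun _ => ⟨he, he'⟩⟩
    · exact ⟨0, fun h => absurd h hp⟩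
  choose e he using h3
  exact ⟨cov, e, h1, he⟩

/-- the box bound with `U` and `Z` free -/
theorem rst_box_freeU (h0 : 0 < ρ) (h1 : ρ ≤ 1) (h : b.Is3w ρ η A x q z s σ) (t : b.Th) (x₀ r₁ : ℝ)
    (a1 : ρ ≤ r₁) (a2 : r₁ ≤ 1) :
    ∑ p with b.G p t ∧ |b.X p - x₀| ≤ r₁, b.μ p ≤ ρ ^ (-(3 * η)) * r₁ ^ x := by
  obtain ⟨cov, e, c1, c2⟩ := rst_choose2 (b.Yf t) (b.Wf t) (fun p => b.G p t) 1 _ (h.covU t 1 h1 le_rfl)
  rw [Real.one_rpow, mul_one] at c1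
  have hB0 : 0 ≤ ρ ^ (-(2 * η)) * r₁ ^ x := by
    have e1 := Real.rpow_nonneg h0.le (-(2 * η))
    have e2 := Real.rpow_nonneg (h0.le.trans a1) x
    positivity
  refine (rst_sum_cover _ cov b.μ e (ρ ^ (-(2 * η)) * r₁ ^ x) ?_ ?_).trans ?_
  · intro p hp
    exact (c2 p (Finset.mem_filter.1 hp).2.1).1
  · intro k _
    have := rst_box_free h0 h1 h t x₀ k.1 k.2 r₁ 1 a1 a2 h1 le_rfl
    rw [Real.one_rpow, mul_one] at this
    refine le_trans (Finset.sum_le_sum_of_subset_of_nonneg ?_ fun p _ _ => h.μ0 p) this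
    intro p hp
    simp only [Finset.mem_filter, Finset.mem_univ, true_and] at hp ⊢
    obtain ⟨⟨g1, g2⟩, hp2⟩ := hp
    exact ⟨g1, g2, hp2 ▸ (c2 p g1).2.1, hp2 ▸ (c2 p g1).2.2⟩
  · have e1 : ρ ^ (-(3 * η)) = ρ ^ (-η) * ρ ^ (-(2 * η)) := by rw [← Real.rpow_add h0]; congr 1; ring
    rw [e1, mul_assoc]
    exact mul_le_mul_of_nonneg_right c1 hB0

/-- the strip relation between two labels of positive weight -/
theorem rst_strip_rel (hs : b.InStrip ρ) :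
    ∃ φ : ℝ, ∀ t t', 0 < b.lam t → 0 < b.lam t' →
      |-(b.c t - b.c t') * Real.sin φ + (b.r t - b.r t') * Real.cos φ| ≤ 2 * ρ := by
  obtain ⟨p₀, φ, h⟩ := hs
  refine ⟨φ, fun t t' ht ht' => ?_⟩
  have h1 := h t ht
  have h2 := h t' ht'
  have e : -(b.c t - b.c t') * Real.sin φ + (b.r t - b.r t') * Real.cos φ =
      ip (b.pos t - p₀) (nrm φ) - ip (b.pos t' - p₀) (nrm φ) := by
    simp only [ip, nrm, RtBlk.pos, Prod.fst_sub, Prod.snd_sub]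
    ring
  rw [e]
  calc |ip (b.pos t - p₀) (nrm φ) - ip (b.pos t' - p₀) (nrm φ)|
      ≤ |ip (b.pos t - p₀) (nrm φ)| + |ip (b.pos t' - p₀) (nrm φ)| := abs_sub _ _
    _ ≤ 2 * ρ := by linarith

/-- a set of labels of small diameter (in a Frostman coordinate) has small mass -/
theorem rst_frost_diam {ι : Type} [Fintype ι] {w : ι → ℝ} {pos : ι → ℝ} {C e ρ : ℝ} (hw0 : ∀ i, 0 ≤ w i)
    (hw1 : ∑ i, w i ≤ 1) (hC : 1 ≤ C) (he : 0 ≤ e) (hF : KfFrost w pos C e ρ) (S : Finset ι) (R : ℝ) (hR : ρ ≤ R)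
    (h0 : 0 < ρ) (hS : ∀ i ∈ S, ∀ j ∈ S, |pos i - pos j| ≤ R) : ∑ i ∈ S, w i ≤ C * R ^ e := by
  rcases S.eq_empty_or_nonempty with rfl | ⟨j, hj⟩
  · rw [Finset.sum_empty]
    have := Real.rpow_nonneg (h0.le.trans hR) e
    positivity
  · refine le_trans (Finset.sum_le_sum_of_subset_of_nonneg ?_ fun i _ _ => hw0 i)
      (kf_frost_ext hw0 hw1 hC he hF (pos j) R hR)
    intro i hi
    simp only [Finset.mem_filter, Finset.mem_univ, true_and, Real.dist_eq]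
    exact hS i hi j hj

/-- sums against a restricted weight -/
theorem rst_sum_ite {ι : Type} [Fintype ι] (w : ι → ℝ) (D Q : ι → Prop) [DecidablePred D] [DecidablePred Q] :
    ∑ i with Q i, (if D i then w i else 0) = ∑ i with D i ∧ Q i, w i := by
  rw [Finset.sum_filter, Finset.sum_filter]
  refine Finset.sum_congr rfl fun i _ => ?_
  by_cases h1 : D i <;> by_cases h2 : Q i <;> simp [h1, h2]

end

end Claimed.Agent.R255
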