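-- KEEP
import Claimed.Agent.R255.Rate.StripB

/-!
# Row 255 (BR paper), Sec. 7, unit U6 (strip), file Q2: `rst_q2` = the contract `rt_test_q2_st`      (helper294)

Tied clocks, all labels in one strip of width `ρ`, `z < 1`, `q > 2 - s`: impossible.
PROOF (plan.md T2s).  Pin `t₀`.  `d = (cos φ, sin φ)`, `δ_t = d · (θ_t - θ_t₀)`, `θ_t - θ_t₀ = δ_t d + O(ρ)`, `B₀ = sin φ Yf t₀ + cos φ Wf t₀`:
  `Zf t = Zf t₀ + δ_t B₀ + Δc Δr X + O(A² ρ)`.
Slices = `X`-classes, reference classes = `U₀`-classes, points `(B₀, Zf t₀)`, slope `- δ_t` (Frostman `s`: `c_t = c_t₀ + δ_t cos φ + O(ρ)`):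
`rst_cells` with `(β,γ) = (q-1,s)`, `(es,er) = (x,q)`;  `box1` = `rst_strip_box`: a strip `{|B₀ - l| ≤ r}` of the `U`-plane is covered by `4A²/r` squares of half-side `4r`.
-/

set_option autoImplicit false

namespace Claimed.Agent.R255

open Finset Classical
open Claimed.Agent.RW (KfFrost kf_frost_ext)

/-- a strip `{|a f + c g - l| ≤ r}`, `|a| ≥ 1/2`, is covered by `⌈A'/r⌉₊` squares of half-side `4r` -/
theorem rst_strip_aux {ι : Type} [Fintype ι] (w : ι → ℝ) (S : ι → Prop) (f g : ι → ℝ) (a c l r A' B : ℝ)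
    (ha : 1 / 2 ≤ |a|) (hc : |c| ≤ 1) (hr : 0 < r) (hrA : r ≤ A') (hw : ∀ i, 0 ≤ w i) (hg : ∀ i, |g i| ≤ A')
    (hbox : ∀ y₀ w₀ : ℝ, ∑ i with S i ∧ |f i - y₀| ≤ 4 * r ∧ |g i - w₀| ≤ 4 * r, w i ≤ B) :
    ∑ i with S i ∧ |a * f i + c * g i - l| ≤ r, w i ≤ (⌈A' / r⌉₊ : ℝ) * B := by
  have key := rst_grid_sum w g (fun i => S i ∧ |a * f i + c * g i - l| ≤ r) A' r B hr hrA hw hg (fun x₀ => ?_)
  · refine le_trans (le_of_eq ?_) key
    refine Finset.sum_congr ?_ fun _ _ => rfl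
    ext i
    simp only [Finset.mem_filter, Finset.mem_univ, true_and]
  have ha0 : a ≠ 0 := by
    intro h; rw [h, abs_zero] at ha; linarith
  refine le_trans (Finset.sum_le_sum_of_subset_of_nonneg ?_ fun i _ _ => hw i) (hbox ((l - c * x₀) / a) x₀)
  intro i hi
  simp only [Finset.mem_filter, Finset.mem_univ, true_and] at hi ⊢
  obtain ⟨⟨g1, g2⟩, g3⟩ := hi
  refine ⟨g1, ?_, by linarith⟩
  have e1 : a * (f i - (l - c * x₀) / a) = (a * f i + c * g i - l) - c * (g i - x₀) := by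
    field_simp; ring
  have e2 : |a * (f i - (l - c * x₀) / a)| ≤ 2 * r := by
    rw [e1]
    have : |c * (g i - x₀)| ≤ 1 * r := by
      rw [abs_mul]; exact mul_le_mul hc g3 (abs_nonneg _) zero_le_one
    exact (abs_sub _ _).trans (by linarith)
  rw [abs_mul] at e2
  have := abs_nonneg (f i - (l - c * x₀) / a)
  nlinarith

/-- the box bound of a strip of the `U`-plane -/
theorem rst_strip_box {b : RtBlk} {ρ η A x q z s σ : ℝ} (h0 : 0 < ρ) (h1 : ρ < 1) (hA : 1 ≤ A) (hη : 0 ≤ η) (hq : 1 ≤ q)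
    (h : b.Is3w ρ η A x q z s σ) (t : b.Th) (d₁ d₂ : ℝ) (hd : d₂ ^ 2 + d₁ ^ 2 = 1) (ξ l r : ℝ) (hr : ρ ≤ r) :
    ∑ p with b.G p t ∧ |b.X p - ξ| ≤ ρ ∧ |d₂ * b.Yf t p + d₁ * b.Wf t p - l| ≤ r, b.μ p ≤
      (4 * A ^ 2 * 4 ^ q) * ρ ^ (-(3 * η)) * (ρ ^ x * r ^ (q - 1)) := by
  have hr0 : 0 < r := lt_of_lt_of_le h0 hr
  have hB := h.toBase
  have hA2 : 1 ≤ A ^ 2 := by nlinarith
  have hpx : 0 < ρ ^ x := Real.rpow_pos_of_pos h0 _
  have hp3 : 0 < ρ ^ (-(3 * η)) := Real.rpow_pos_of_pos h0 _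
  have hp2 : 0 < ρ ^ (-(2 * η)) := Real.rpow_pos_of_pos h0 _
  have hp23 : ρ ^ (-(2 * η)) ≤ ρ ^ (-(3 * η)) := Real.rpow_le_rpow_of_exponent_ge h0 h1.le (by linarith)
  have hrq : 0 < r ^ (q - 1) := Real.rpow_pos_of_pos hr0 _
  have h4q : 0 < (4 : ℝ) ^ q := by positivity
  have hd1 : |d₁| ≤ 1 := abs_le_of_sq_le_sq (by nlinarith [sq_nonneg d₂]) zero_le_one
  have hd2 : |d₂| ≤ 1 := abs_le_of_sq_le_sq (by nlinarith [sq_nonneg d₁]) zero_le_one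
  rcases le_or_gt (4 * r) 1 with h4 | h4
  · -- small radii
    have hceil : (⌈2 * A ^ 2 / r⌉₊ : ℝ) ≤ 4 * A ^ 2 / r := by
      have e1 : (1 : ℝ) ≤ 2 * A ^ 2 / r := by rw [le_div_iff₀ hr0]; linarith
      have e2 := (Nat.ceil_lt_add_one (show 0 ≤ 2 * A ^ 2 / r by positivity)).le
      have e3 : 4 * A ^ 2 / r = 2 * A ^ 2 / r + 2 * A ^ 2 / r := by ring
      linarith
    have hfin : (⌈2 * A ^ 2 / r⌉₊ : ℝ) * (ρ ^ (-(2 * η)) * (ρ ^ x * (4 * r) ^ q)) ≤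
        (4 * A ^ 2 * 4 ^ q) * ρ ^ (-(3 * η)) * (ρ ^ x * r ^ (q - 1)) := by
      have e1 : (4 * r) ^ q = 4 ^ q * (r ^ (q - 1) * r) := by
        rw [Real.mul_rpow (by norm_num) hr0.le]
        congr 1
        rw [Real.rpow_sub_one hr0.ne']
        field_simp
      rw [e1]
      calc (⌈2 * A ^ 2 / r⌉₊ : ℝ) * (ρ ^ (-(2 * η)) * (ρ ^ x * (4 ^ q * (r ^ (q - 1) * r))))
          ≤ (4 * A ^ 2 / r) * (ρ ^ (-(3 * η)) * (ρ ^ x * (4 ^ q * (r ^ (q - 1) * r)))) := by gcongr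
        _ = (4 * A ^ 2 * 4 ^ q) * ρ ^ (-(3 * η)) * (ρ ^ x * r ^ (q - 1)) := by field_simp
    have hρ4 : ρ ≤ 4 * r := by linarith
    refine le_trans ?_ hfin
    rcases le_or_gt (1 / 2) |d₂| with hc | hc
    · have := rst_strip_aux b.μ (fun p => b.G p t ∧ |b.X p - ξ| ≤ ρ) (b.Yf t) (b.Wf t) d₂ d₁ l r (2 * A ^ 2)
        (ρ ^ (-(2 * η)) * (ρ ^ x * (4 * r) ^ q)) hc hd1 hr0 (by linarith) hB.μ0 (fun p => (rst_bd hA hB t p).2.1)
        (fun y₀ w₀ => ?_)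
      · refine le_trans (le_of_eq ?_) this
        refine Finset.sum_congr ?_ fun _ _ => rfl
        ext p
        simp only [Finset.mem_filter, Finset.mem_univ, true_and, and_assoc]
      · refine le_trans (le_of_eq ?_) (rst_box_free h0 h1.le h t ξ y₀ w₀ ρ (4 * r) le_rfl h1.le hρ4 h4)
        refine Finset.sum_congr ?_ fun _ _ => rfl
        ext p
        simp only [Finset.mem_filter, Finset.mem_univ, true_and, and_assoc]
    · have hc' : 1 / 2 ≤ |d₁| := by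
        by_contra hcc
        push Not at hcc
        have a1 : d₁ ^ 2 < 1 / 4 := by
          rw [← sq_abs]; nlinarith [abs_nonneg d₁]
        have a2 : d₂ ^ 2 < 1 / 4 := by
          rw [← sq_abs]; nlinarith [abs_nonneg d₂]
        linarith
      have := rst_strip_aux b.μ (fun p => b.G p t ∧ |b.X p - ξ| ≤ ρ) (b.Wf t) (b.Yf t) d₁ d₂ l r (2 * A ^ 2)
        (ρ ^ (-(2 * η)) * (ρ ^ x * (4 * r) ^ q)) hc' hd2 hr0 (by linarith) hB.μ0 (fun p => (rst_bd hA hB t p).1)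
        (fun y₀ w₀ => ?_)
      · refine le_trans (le_of_eq ?_) this
        refine Finset.sum_congr ?_ fun _ _ => rfl
        ext p
        simp only [Finset.mem_filter, Finset.mem_univ, true_and, and_assoc]
        rw [add_comm (d₂ * b.Yf t p)]
      · refine le_trans (le_of_eq ?_) (rst_box_free h0 h1.le h t ξ w₀ y₀ ρ (4 * r) le_rfl h1.le hρ4 h4)
        refine Finset.sum_congr ?_ fun _ _ => rfl
        ext p
        simp only [Finset.mem_filter, Finset.mem_univ, true_and, and_assoc]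
        constructor
        · rintro ⟨g1, g2, g3, g4⟩; exact ⟨g1, g2, g4, g3⟩
        · rintro ⟨g1, g2, g3, g4⟩; exact ⟨g1, g2, g4, g3⟩
  · -- large radii
    refine le_trans (Finset.sum_le_sum_of_subset_of_nonneg ?_ fun p _ _ => hB.μ0 p)
      ((rst_box_freeU h0 h1.le h t ξ ρ le_rfl h1.le).trans ?_)
    · intro p hp
      simp only [Finset.mem_filter, Finset.mem_univ, true_and] at hp ⊢
      exact ⟨hp.1, hp.2.1⟩
    · have e1 : (1 : ℝ) ≤ 4 ^ q * r ^ (q - 1) := by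
        have a1 : (1 / 4 : ℝ) ^ (q - 1) ≤ r ^ (q - 1) :=
          Real.rpow_le_rpow (by norm_num) (by linarith) (by linarith)
        have a2 : (4 : ℝ) ^ q * (1 / 4 : ℝ) ^ (q - 1) = 4 := by
          rw [one_div, Real.inv_rpow (by norm_num), Real.rpow_sub_one (by norm_num)]
          field_simp
        nlinarith
      calc ρ ^ (-(3 * η)) * ρ ^ x = 1 * 1 * (ρ ^ (-(3 * η)) * ρ ^ x) := by ring
        _ ≤ (4 * A ^ 2) * (4 ^ q * r ^ (q - 1)) * (ρ ^ (-(3 * η)) * ρ ^ x) := by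
            have : (1 : ℝ) ≤ 4 * A ^ 2 := by linarith
            gcongr
        _ = (4 * A ^ 2 * 4 ^ q) * ρ ^ (-(3 * η)) * (ρ ^ x * r ^ (q - 1)) := by ring

set_option maxHeartbeats 1000000 in
/-- = `rt_test_q2_st` -/
theorem rst_q2 (A x q z s σ : ℝ) (hA : 1 ≤ A) (_hx0 : 0 ≤ x) (hs : 0 < s) (hs1 : s ≤ 1) (_hσ : 0 < σ) (_hq0 : 0 ≤ q)
    (hz0 : 0 ≤ z) (hz1 : z < 1) (hq : 2 - s < q) :
    ∃ η ρ₁ : ℝ, 0 < η ∧ 0 < ρ₁ ∧ ∀ ρ : ℝ, 0 < ρ → ρ < ρ₁ → ∀ b : RtBlk, b.Is3w ρ η A x q z s σ → ¬ b.InStrip ρ := by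
  have hA3 : 1 ≤ 4 * A ^ 3 := by nlinarith [pow_le_pow_left₀ zero_le_one hA 3]
  have hA2 : 1 ≤ A ^ 2 := by nlinarith
  have hA23 : A ^ 2 ≤ A ^ 3 := by nlinarith [sq_nonneg A]
  have hAA3 : A ≤ A ^ 3 := by nlinarith [sq_nonneg A]
  have hq1 : 1 < q := by linarith
  obtain ⟨ε, ρ₀, hε, hρ₀, hρ₀1, hcell⟩ := rst_cells (q - 1) s z (4 * A ^ 3) (13 * A ^ 2) (by linarith) hs hz0
    (lt_min hz1 (by linarith)) hA3 (by positivity)
  set η : ℝ := ε / 5 with hηdef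
  have hη : 0 < η := by positivity
  have hηε : 5 * η = ε := by rw [hηdef]; ring
  set C₁ : ℝ := 4 * A ^ 2 * 4 ^ q with hC₁
  have h4q : (1 : ℝ) ≤ 4 ^ q := Real.one_le_rpow (by norm_num) (by linarith)
  have hC₁4 : 4 ≤ C₁ := by rw [hC₁]; nlinarith
  obtain ⟨ρa, ha0, ha1, ha⟩ := rst_small η (1 / C₁) hη (by positivity)
  refine ⟨η, min ρ₀ ρa, hη, by positivity, ?_⟩
  intro ρ h0 hρ b hb' hstrip
  have hρ₀' : ρ < ρ₀ := lt_of_lt_of_le hρ (min_le_left _ _)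
  have hρa' : ρ < ρa := lt_of_lt_of_le hρ (min_le_right _ _)
  have hρ1 : ρ < 1 := lt_of_lt_of_le hρa' ha1
  have ka := ha ρ h0 hρa'
  have hpw : ∀ a : ℝ, 0 < ρ ^ a := fun a => Real.rpow_pos_of_pos h0 a
  have hmono : ∀ {a b : ℝ}, b ≤ a → ρ ^ a ≤ ρ ^ b := fun h => Real.rpow_le_rpow_of_exponent_ge h0 hρ1.le h
  have hB := hb'.toBase
  obtain ⟨φ, hrel⟩ := rst_strip_rel hstrip
  obtain ⟨t₀, ht₀, hpin⟩ := rst_pin h0 hB
  have kC : C₁ ≤ ρ ^ (-η) := by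
    rw [Real.rpow_neg h0.le, le_inv_comm₀ (by positivity) (hpw η), ← one_div]
    exact ka.le
  have hK : 1 ≤ ρ ^ (-η) := by linarith
  have hsc := Real.sin_sq_add_cos_sq φ
  have hs1' := Real.abs_sin_le_one φ
  have hc1' := Real.abs_cos_le_one φ
  set d₁ : ℝ := Real.cos φ with hd₁
  set d₂ : ℝ := Real.sin φ with hd₂
  set μ' : b.P → ℝ := fun p => if b.G p t₀ then b.μ p else 0 with hμ'
  set sl : b.Th → ℝ := fun t => -((b.c t - b.c t₀) * d₁ + (b.r t - b.r t₀) * d₂) with hsl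
  set L : b.P → ℝ := fun p => d₂ * b.Yf t₀ p + d₁ * b.Wf t₀ p with hL
  obtain ⟨cU, u, cU1, cU2⟩ := rst_choose2 (b.Yf t₀) (b.Wf t₀) (fun p => b.G p t₀) ρ _ (hb'.covU t₀ ρ le_rfl hρ1.le)
  obtain ⟨cX, ξ, cX1, cX2⟩ := rt_gchoose b.X (fun p => b.G p t₀) ρ _ (hb'.covX t₀ ρ le_rfl hρ1.le)
  have hμ'pos : ∀ p, 0 < μ' p → b.G p t₀ := by
    intro p hp
    by_contra hc
    simp only [hμ', hc, if_false, lt_irrefl] at hp
  have hμ'0 : ∀ p, 0 ≤ μ' p := by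
    intro p
    simp only [hμ']
    split_ifs
    · exact hB.μ0 p
    · exact le_rfl
  have hbdc : ∀ t, |b.c t - b.c t₀| ≤ 2 * A := fun t =>
    (abs_sub _ _).trans (by linarith [(hB.bdT t).1, (hB.bdT t₀).1])
  have hbdr : ∀ t, |b.r t - b.r t₀| ≤ 2 * A := fun t =>
    (abs_sub _ _).trans (by linarith [(hB.bdT t).2, (hB.bdT t₀).2])
  refine hcell ρ h0 hρ₀' x q b.P b.Th ℝ (ℝ × ℝ) μ' b.lam (fun p t => b.G p t ∧ 0 < b.lam t) ξ u L (b.Zf t₀) sl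
    ⟨hμ'0, hB.lam0, hB.lam1, ?_, ?_, ?_, ?_, ?_, ?_, ?_, ?_, ?_, ?_⟩
  · -- bdP
    intro p
    refine ⟨?_, (rst_bd hA hB t₀ p).2.2⟩
    simp only [hL]
    have m1 : |d₂ * b.Yf t₀ p| ≤ 1 * (2 * A ^ 2) := by
      rw [abs_mul]; exact mul_le_mul hs1' (rst_bd hA hB t₀ p).1 (abs_nonneg _) zero_le_one
    have m2 : |d₁ * b.Wf t₀ p| ≤ 1 * (2 * A ^ 2) := by
      rw [abs_mul]; exact mul_le_mul hc1' (rst_bd hA hB t₀ p).2.1 (abs_nonneg _) zero_le_one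
    exact (abs_add_le _ _).trans (by linarith)
  · -- bdT
    intro t
    simp only [hsl, abs_neg]
    have m1 : |(b.c t - b.c t₀) * d₁| ≤ 2 * A * 1 := by
      rw [abs_mul]; exact mul_le_mul (hbdc t) hc1' (abs_nonneg _) (by linarith)
    have m2 : |(b.r t - b.r t₀) * d₂| ≤ 2 * A * 1 := by
      rw [abs_mul]; exact mul_le_mul (hbdr t) hs1' (abs_nonneg _) (by linarith)
    exact (abs_add_le _ _).trans (by linarith)
  · -- fr
    intro y r hr hr1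
    have hr0 : 0 < r := lt_of_lt_of_le h0 hr
    rw [rst_sum_pos _ b.lam hB.lam0]
    refine le_trans (Finset.sum_le_sum_of_subset_of_nonneg ?_ fun t _ _ => hB.lam0 t)
      ((kf_frost_ext hB.lam0 hB.lam1 hK hs.le hB.frC (b.c t₀ - y * d₁) (3 * r) (by linarith)).trans ?_)
    · intro t ht
      simp only [Finset.mem_filter, Finset.mem_univ, true_and, Real.dist_eq] at ht ⊢
      obtain ⟨g1, g2⟩ := ht
      have hn := hrel t t₀ g2 ht₀
      have e1 : b.c t - (b.c t₀ - y * d₁) =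
          -(sl t - y) * d₁ - (-(b.c t - b.c t₀) * d₂ + (b.r t - b.r t₀) * d₁) * d₂ := by
        simp only [hsl]
        linear_combination (-(b.c t - b.c t₀)) * hsc
      rw [e1]
      have m1 : |-(sl t - y) * d₁| ≤ r * 1 := by
        rw [abs_mul, abs_neg]; exact mul_le_mul g1 hc1' (abs_nonneg _) hr0.le
      have m2 : |(-(b.c t - b.c t₀) * d₂ + (b.r t - b.r t₀) * d₁) * d₂| ≤ 2 * ρ * 1 := by
        rw [abs_mul]; exact mul_le_mul hn hs1' (abs_nonneg _) (by linarith)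
      exact (abs_sub _ _).trans (by linarith)
    · have e1 : (3 * r) ^ s = 3 ^ s * r ^ s := Real.mul_rpow (by norm_num) hr0.le
      have e2 : (3 : ℝ) ^ s ≤ 3 := by
        calc (3 : ℝ) ^ s ≤ 3 ^ (1 : ℝ) := Real.rpow_le_rpow_of_exponent_le (by norm_num) hs1
          _ = 3 := Real.rpow_one _
      have e3 : ρ ^ (-η) * ρ ^ (-η) ≤ ρ ^ (-ε) := by
        rw [← Real.rpow_add h0]; exact hmono (by linarith)
      have hrs : 0 < r ^ s := Real.rpow_pos_of_pos hr0 _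
      have p1 := hpw (-η)
      rw [e1]
      calc ρ ^ (-η) * (3 ^ s * r ^ s) = 3 ^ s * (ρ ^ (-η) * r ^ s) := by ring
        _ ≤ ρ ^ (-η) * (ρ ^ (-η) * r ^ s) := mul_le_mul_of_nonneg_right (by linarith) (by positivity)
        _ = ρ ^ (-η) * ρ ^ (-η) * r ^ s := by ring
        _ ≤ ρ ^ (-ε) * r ^ s := mul_le_mul_of_nonneg_right e3 hrs.le
  · -- mass
    refine le_trans (hmono (by linarith)) (hpin.trans (le_of_eq ?_))
    refine Finset.sum_congr rfl fun t _ => ?_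
    rcases (hB.lam0 t).eq_or_lt with g | g
    · rw [← g, zero_mul, zero_mul]
    · congr 1
      rw [rst_sum_ite]
      refine Finset.sum_congr ?_ fun _ _ => rfl
      ext p
      simp only [Finset.mem_filter, Finset.mem_univ, true_and, g, and_true]
  · -- nS
    refine ⟨cX, cX1.trans ?_, fun p hp => (cX2 p (hμ'pos p hp)).1⟩
    rw [← Real.rpow_add h0]
    exact hmono (by linarith)
  · -- nR
    refine ⟨cU, cU1.trans ?_, fun p hp => (cU2 p (hμ'pos p hp)).1⟩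
    rw [← Real.rpow_add h0]
    exact hmono (by linarith)
  · -- box1
    intro σ' l r hr hr1
    have hr0 : 0 < r := lt_of_lt_of_le h0 hr
    rw [rst_sum_ite]
    refine le_trans (Finset.sum_le_sum_of_subset_of_nonneg ?_ fun p _ _ => hB.μ0 p)
      ((rst_strip_box h0 hρ1 hA hη.le hq1.le hb' t₀ d₁ d₂ hsc σ' l r hr).trans ?_)
    · intro p hp
      simp only [Finset.mem_filter, Finset.mem_univ, true_and] at hp ⊢
      obtain ⟨g1, g2, g3⟩ := hp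
      exact ⟨g1, g2 ▸ (cX2 p g1).2, g3⟩
    · have e1 : ρ ^ (-η) * ρ ^ (-(3 * η)) * ρ ^ x ≤ ρ ^ (x - ε) := by
        rw [← Real.rpow_add h0, ← Real.rpow_add h0]; exact hmono (by linarith)
      have hrq : 0 < r ^ (q - 1) := Real.rpow_pos_of_pos hr0 _
      have p1 := hpw (-(3 * η))
      have p2 := hpw x
      calc C₁ * ρ ^ (-(3 * η)) * (ρ ^ x * r ^ (q - 1)) ≤ ρ ^ (-η) * ρ ^ (-(3 * η)) * (ρ ^ x * r ^ (q - 1)) := by
            gcongr
        _ = ρ ^ (-η) * ρ ^ (-(3 * η)) * ρ ^ x * r ^ (q - 1) := by ring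
        _ ≤ ρ ^ (x - ε) * r ^ (q - 1) := mul_le_mul_of_nonneg_right e1 hrq.le
  · -- box2
    intro σ' κ v
    rw [rst_sum_ite]
    refine le_trans (Finset.sum_le_sum_of_subset_of_nonneg ?_ fun p _ _ => hB.μ0 p)
      ((hb'.box t₀ σ' κ.1 κ.2 v ρ ρ ρ le_rfl hρ1.le le_rfl hρ1.le le_rfl hρ1.le).trans ?_)
    · intro p hp
      simp only [Finset.mem_filter, Finset.mem_univ, true_and] at hp ⊢
      obtain ⟨g1, g2, g3, g4⟩ := hp
      exact ⟨g1, g2 ▸ (cX2 p g1).2, g3 ▸ (cU2 p g1).2.1, g3 ▸ (cU2 p g1).2.2, g4⟩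
    · rw [← Real.rpow_add h0, ← Real.rpow_add h0, ← Real.rpow_add h0]
      exact hmono (by linarith)
  · -- diam
    intro p p' hp hp' hpp
    have g1 := (cU2 p (hμ'pos p hp)).2
    have g2 := (cU2 p' (hμ'pos p' hp')).2
    rw [← hpp] at g2
    have y1 : |b.Yf t₀ p - b.Yf t₀ p'| ≤ 2 * ρ := by
      calc |b.Yf t₀ p - b.Yf t₀ p'| = |(b.Yf t₀ p - (u p).1) - (b.Yf t₀ p' - (u p).1)| := by congr 1; ring
        _ ≤ |b.Yf t₀ p - (u p).1| + |b.Yf t₀ p' - (u p).1| := abs_sub _ _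
        _ ≤ 2 * ρ := by linarith [g1.1, g2.1]
    have w1 : |b.Wf t₀ p - b.Wf t₀ p'| ≤ 2 * ρ := by
      calc |b.Wf t₀ p - b.Wf t₀ p'| = |(b.Wf t₀ p - (u p).2) - (b.Wf t₀ p' - (u p).2)| := by congr 1; ring
        _ ≤ |b.Wf t₀ p - (u p).2| + |b.Wf t₀ p' - (u p).2| := abs_sub _ _
        _ ≤ 2 * ρ := by linarith [g1.2, g2.2]
    have m1 : |d₂ * (b.Yf t₀ p - b.Yf t₀ p')| ≤ 1 * (2 * ρ) := by
      rw [abs_mul]; exact mul_le_mul hs1' y1 (abs_nonneg _) zero_le_one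
    have m2 : |d₁ * (b.Wf t₀ p - b.Wf t₀ p')| ≤ 1 * (2 * ρ) := by
      rw [abs_mul]; exact mul_le_mul hc1' w1 (abs_nonneg _) zero_le_one
    simp only [hL]
    calc |d₂ * b.Yf t₀ p + d₁ * b.Wf t₀ p - (d₂ * b.Yf t₀ p' + d₁ * b.Wf t₀ p')|
        = |d₂ * (b.Yf t₀ p - b.Yf t₀ p') + d₁ * (b.Wf t₀ p - b.Wf t₀ p')| := by congr 1; ring
      _ ≤ |d₂ * (b.Yf t₀ p - b.Yf t₀ p')| + |d₁ * (b.Wf t₀ p - b.Wf t₀ p')| := abs_add_le _ _
      _ ≤ 4 * ρ := by linarith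
      _ ≤ 13 * A ^ 2 * ρ := mul_le_mul_of_nonneg_right (by linarith) h0.le
  · -- cov
    intro σ' t
    obtain ⟨cZ, c1, c2⟩ := hb'.covZ t ρ le_rfl hρ1.le
    refine ⟨cZ.image fun e => e - (b.c t - b.c t₀) * (b.r t - b.r t₀) * σ', ?_, ?_⟩
    · refine le_trans (Nat.cast_le.2 Finset.card_image_le) (c1.trans ?_)
      rw [← Real.rpow_add h0]
      exact hmono (by linarith)
    · rintro w ⟨p, hp, hsc', ⟨hG, hlam⟩, rfl⟩
      obtain ⟨e, he, he'⟩ := c2 (b.Zf t p) ⟨p, hG, rfl⟩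
      refine ⟨_, Finset.mem_image_of_mem _ he, ?_⟩
      have g0 := hμ'pos p hp
      have g1 := (cX2 p g0).2
      rw [hsc'] at g1
      have hn := hrel t t₀ hlam ht₀
      have hfr := b.frame_Z t₀ t p
      have e1 : b.Zf t₀ p - sl t * L p - (e - (b.c t - b.c t₀) * (b.r t - b.r t₀) * σ') =
          (b.Zf t p - e) - (-(b.c t - b.c t₀) * d₂ + (b.r t - b.r t₀) * d₁) * (d₁ * b.Yf t₀ p - d₂ * b.Wf t₀ p)
            - (b.c t - b.c t₀) * (b.r t - b.r t₀) * (b.X p - σ') := by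
        simp only [hsl, hL]
        rw [hfr]
        linear_combination ((b.c t - b.c t₀) * b.Wf t₀ p + (b.r t - b.r t₀) * b.Yf t₀ p) * hsc
      rw [e1]
      have k1 : |d₁ * b.Yf t₀ p - d₂ * b.Wf t₀ p| ≤ 4 * A ^ 2 := by
        have m1 : |d₁ * b.Yf t₀ p| ≤ 1 * (2 * A ^ 2) := by
          rw [abs_mul]; exact mul_le_mul hc1' (rst_bd hA hB t₀ p).1 (abs_nonneg _) zero_le_one
        have m2 : |d₂ * b.Wf t₀ p| ≤ 1 * (2 * A ^ 2) := by
          rw [abs_mul]; exact mul_le_mul hs1' (rst_bd hA hB t₀ p).2.1 (abs_nonneg _) zero_le_one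
        exact (abs_sub _ _).trans (by linarith)
      have m1 : |(-(b.c t - b.c t₀) * d₂ + (b.r t - b.r t₀) * d₁) * (d₁ * b.Yf t₀ p - d₂ * b.Wf t₀ p)| ≤
          2 * ρ * (4 * A ^ 2) := by
        rw [abs_mul]; exact mul_le_mul hn k1 (abs_nonneg _) (by linarith)
      have m2 : |(b.c t - b.c t₀) * (b.r t - b.r t₀) * (b.X p - σ')| ≤ 2 * A * (2 * A) * ρ := by
        rw [abs_mul, abs_mul]
        exact mul_le_mul (mul_le_mul (hbdc t) (hbdr t) (abs_nonneg _) (by linarith)) g1 (abs_nonneg _) (by positivity)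
      have m3 : ρ ≤ A ^ 2 * ρ := le_mul_of_one_le_left h0.le hA2
      calc |(b.Zf t p - e) - (-(b.c t - b.c t₀) * d₂ + (b.r t - b.r t₀) * d₁) * (d₁ * b.Yf t₀ p - d₂ * b.Wf t₀ p)
            - (b.c t - b.c t₀) * (b.r t - b.r t₀) * (b.X p - σ')|
          ≤ |(b.Zf t p - e) - (-(b.c t - b.c t₀) * d₂ + (b.r t - b.r t₀) * d₁) * (d₁ * b.Yf t₀ p - d₂ * b.Wf t₀ p)|
            + |(b.c t - b.c t₀) * (b.r t - b.r t₀) * (b.X p - σ')| := abs_sub _ _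
        _ ≤ |b.Zf t p - e| + |(-(b.c t - b.c t₀) * d₂ + (b.r t - b.r t₀) * d₁) * (d₁ * b.Yf t₀ p - d₂ * b.Wf t₀ p)|
            + |(b.c t - b.c t₀) * (b.r t - b.r t₀) * (b.X p - σ')| := add_le_add_left (abs_sub _ _) _
        _ ≤ 13 * A ^ 2 * ρ := by linarith

end Claimed.Agent.R255
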