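-- KEEP
import Claimed.Agent.R255.Rate.StripB

/-!
# Row 255 (BR paper), Sec. 7, unit U6 (strip), file Xz: `rst_xz` = the contract `rt_test_xz_st`      (helper294)

Tied clocks, all labels in one strip of width `ρ`, `x > 0`, `z < 1`, `z < x + s`: impossible.
PROOF (simpler than plan.md T3s: one pin, no second label, no `XzCore`).  Pin `t₀` (`rst_pin`).  In the frame `t₀`
  `Zf t = Zf t₀ + Δc Wf t₀ + Δr Yf t₀ + Δc Δr X`,  `Δ = θ_t - θ_t₀`.
Slices = `U₀`-classes (`covU t₀ ρ`), reference classes = `X`-classes (`covX t₀ ρ`), points `(X, Zf t₀)`, slope `- Δc Δr`:  `rst_cells` with `(β,γ) = (x,s)`, `(es,er) = (q,x)`.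
The slope is Frostman `s` on `{|Δc| > ρ^θ}`: in the strip `Δr cos φ = Δc sin φ + O(ρ)`, so `cos φ Δc Δr = sin φ Δc² + O(A ρ)`; two labels with the same sign of `Δc` and slopes within `2r`
have `|sin φ| |Δc - Δc'| |Δc + Δc'| ≤ 2r + 8Aρ` (`rst_prod_diam`), and `|sin φ| ≥ ρ^b` because `r` is Frostman `σ` (`rst_sin_lb`).
-/

set_option autoImplicit false

namespace Claimed.Agent.R255

open Finset Classical
open Claimed.Agent.RW (KfFrost kf_frost_ext)

/-- the strip is not horizontal -/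
theorem rst_sin_lb {b : RtBlk} {ρ η A s σ φ bb : ℝ} (h0 : 0 < ρ) (h1 : ρ < 1) (hA : 1 ≤ A) (hη : 0 ≤ η) (hσ : 0 < σ)
    (h : b.Base ρ η A s σ)
    (hrel : ∀ t t', 0 < b.lam t → 0 < b.lam t' →
      |-(b.c t - b.c t') * Real.sin φ + (b.r t - b.r t') * Real.cos φ| ≤ 2 * ρ)
    (hbb : bb ≤ 1) (hsm : ρ ^ (-η) * (6 * A * ρ ^ bb) ^ σ < ρ ^ η) : ρ ^ bb ≤ |Real.sin φ| := by
  by_contra hc
  push Not at hc
  have hρbb : ρ ≤ ρ ^ bb := by
    calc ρ = ρ ^ (1 : ℝ) := (Real.rpow_one ρ).symm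
      _ ≤ ρ ^ bb := Real.rpow_le_rpow_of_exponent_ge h0 h1.le hbb
  have hpb : 0 < ρ ^ bb := Real.rpow_pos_of_pos h0 _
  have hK : 1 ≤ ρ ^ (-η) := Real.one_le_rpow_of_pos_of_le_one_of_nonpos h0 h1.le (by linarith)
  have hdiam : ∀ t ∈ univ.filter (fun t => 0 < b.lam t), ∀ t' ∈ univ.filter (fun t => 0 < b.lam t),
      |b.r t - b.r t'| ≤ 6 * A * ρ ^ bb := by
    intro t ht t' ht'
    have hn := hrel t t' (Finset.mem_filter.1 ht).2 (Finset.mem_filter.1 ht').2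
    set u := b.c t - b.c t' with hu
    set w := b.r t - b.r t' with hw
    have hu' : |u| ≤ 2 * A := (abs_sub _ _).trans (by linarith [(h.bdT t).1, (h.bdT t').1])
    have hw' : |w| ≤ 2 * A := (abs_sub _ _).trans (by linarith [(h.bdT t).2, (h.bdT t').2])
    have hs1 := Real.abs_sin_le_one φ
    have hc1 := Real.abs_cos_le_one φ
    have e : w = (u * Real.cos φ + w * Real.sin φ) * Real.sin φ + (-u * Real.sin φ + w * Real.cos φ) * Real.cos φ := by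
      have := Real.sin_sq_add_cos_sq φ
      linear_combination (-w) * this
    have d1 : |u * Real.cos φ + w * Real.sin φ| ≤ 4 * A := by
      refine (abs_add_le _ _).trans ?_
      rw [abs_mul, abs_mul]
      have a1 : |u| * |Real.cos φ| ≤ 2 * A * 1 := mul_le_mul hu' hc1 (abs_nonneg _) (by linarith)
      have a2 : |w| * |Real.sin φ| ≤ 2 * A * 1 := mul_le_mul hw' hs1 (abs_nonneg _) (by linarith)
      linarith
    rw [e]
    refine (abs_add_le _ _).trans ?_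
    rw [abs_mul, abs_mul]
    have a1 : |u * Real.cos φ + w * Real.sin φ| * |Real.sin φ| ≤ 4 * A * ρ ^ bb :=
      mul_le_mul d1 hc.le (abs_nonneg _) (by linarith)
    have a2 : |-u * Real.sin φ + w * Real.cos φ| * |Real.cos φ| ≤ 2 * ρ * 1 :=
      mul_le_mul hn hc1 (abs_nonneg _) (by linarith)
    nlinarith
  have h2 := rst_frost_diam h.lam0 h.lam1 hK hσ.le h.frR (univ.filter fun t => 0 < b.lam t) (6 * A * ρ ^ bb)
    (by nlinarith) h0 hdiam
  rw [← rst_sum_pos _ b.lam h.lam0] at h2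
  linarith [h.mass]

/-- two labels in the strip with the same sign of `Δc`, `|Δc| > sep`, and slopes `Δc Δr` within `2r` -/
theorem rst_prod_diam {A ρ r sep sb d₁ d₂ u w u' w' y : ℝ} (hd : d₂ ^ 2 + d₁ ^ 2 = 1)
    (hu : |u| ≤ 2 * A) (hu' : |u'| ≤ 2 * A) (hn : |-u * d₂ + w * d₁| ≤ 2 * ρ) (hn' : |-u' * d₂ + w' * d₁| ≤ 2 * ρ)
    (hy : |-(u * w) - y| ≤ r) (hy' : |-(u' * w') - y| ≤ r) (hsep : sep < |u|) (hsep' : sep < |u'|)
    (hsign : 0 < u * u') (hsb : sb ≤ |d₂|) (hsep0 : 0 < sep) :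
    sb * sep * |u - u'| ≤ r + 4 * A * ρ := by
  have hd1 : |d₁| ≤ 1 := by
    refine abs_le_of_sq_le_sq (by nlinarith [sq_nonneg d₂]) zero_le_one
  have k1 : d₂ * (u - u') * (u + u') = d₁ * (u * w - u' * w') - u * (-u * d₂ + w * d₁) + u' * (-u' * d₂ + w' * d₁) := by
    ring
  have k2 : |u * w - u' * w'| ≤ 2 * r := by
    have : u * w - u' * w' = (-(u' * w') - y) - (-(u * w) - y) := by ring
    rw [this]
    exact (abs_sub _ _).trans (by linarith)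
  have hr0 : 0 ≤ r := (abs_nonneg _).trans hy
  have k3 : |d₂ * (u - u') * (u + u')| ≤ 2 * r + 8 * A * ρ := by
    rw [k1]
    have a1 : |d₁ * (u * w - u' * w')| ≤ 1 * (2 * r) := by
      rw [abs_mul]; exact mul_le_mul hd1 k2 (abs_nonneg _) zero_le_one
    have a2 : |u * (-u * d₂ + w * d₁)| ≤ 2 * A * (2 * ρ) := by
      rw [abs_mul]; exact mul_le_mul hu hn (abs_nonneg _) (by linarith)
    have a3 : |u' * (-u' * d₂ + w' * d₁)| ≤ 2 * A * (2 * ρ) := by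
      rw [abs_mul]; exact mul_le_mul hu' hn' (abs_nonneg _) (by linarith)
    calc |d₁ * (u * w - u' * w') - u * (-u * d₂ + w * d₁) + u' * (-u' * d₂ + w' * d₁)|
        ≤ |d₁ * (u * w - u' * w') - u * (-u * d₂ + w * d₁)| + |u' * (-u' * d₂ + w' * d₁)| := abs_add_le _ _
      _ ≤ |d₁ * (u * w - u' * w')| + |u * (-u * d₂ + w * d₁)| + |u' * (-u' * d₂ + w' * d₁)| :=
          add_le_add_left (abs_sub _ _) _
      _ ≤ 2 * r + 8 * A * ρ := by linarith
  have k4 : 2 * sep ≤ |u + u'| := by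
    have : |u + u'| = |u| + |u'| := abs_add_eq_add_abs_iff u u' |>.2 (by
      rcases lt_or_gt_of_ne (show u ≠ 0 by rintro rfl; simp at hsign) with h | h
      · right; exact ⟨h.le, by nlinarith⟩
      · left; exact ⟨h.le, by nlinarith⟩)
    rw [this]; linarith
  rw [abs_mul, abs_mul] at k3
  have k5 : sb * |u - u'| * (2 * sep) ≤ |d₂| * |u - u'| * |u + u'| :=
    mul_le_mul (mul_le_mul_of_nonneg_right hsb (abs_nonneg _)) k4 (by positivity)
      (mul_nonneg (abs_nonneg _) (abs_nonneg _))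
  nlinarith

/-- the slope `- Δc Δr` is Frostman on the labels with `|Δc| > sep` -/
theorem rst_prod_frost {b : RtBlk} {ρ η A s σ φ sep sb : ℝ} (h0 : 0 < ρ) (h1 : ρ < 1) (hA : 1 ≤ A) (hη : 0 ≤ η)
    (hs : 0 ≤ s) (h : b.Base ρ η A s σ)
    (hrel : ∀ t t', 0 < b.lam t → 0 < b.lam t' →
      |-(b.c t - b.c t') * Real.sin φ + (b.r t - b.r t') * Real.cos φ| ≤ 2 * ρ)
    (t₀ : b.Th) (ht₀ : 0 < b.lam t₀) (hsep0 : 0 < sep) (hsb0 : 0 < sb) (hsb : sb ≤ |Real.sin φ|) (hss : sep * sb ≤ 1)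
    (y r : ℝ) (hr : ρ ≤ r) :
    ∑ t with dist (-((b.c t - b.c t₀) * (b.r t - b.r t₀))) y ≤ r,
        (if 0 < b.lam t ∧ sep < |b.c t - b.c t₀| then b.lam t else 0)
      ≤ 2 * (ρ ^ (-η) * (5 * A * r / (sep * sb)) ^ s) := by
  have hK : 1 ≤ ρ ^ (-η) := Real.one_le_rpow_of_pos_of_le_one_of_nonpos h0 h1.le (by linarith)
  have hr0 : 0 < r := lt_of_lt_of_le h0 hr
  have hss0 : 0 < sep * sb := mul_pos hsep0 hsb0
  have hR : ρ ≤ 5 * A * r / (sep * sb) := by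
    rw [le_div_iff₀ hss0]
    nlinarith
  have hbdu : ∀ t, |b.c t - b.c t₀| ≤ 2 * A := fun t =>
    (abs_sub _ _).trans (by linarith [(h.bdT t).1, (h.bdT t₀).1])
  -- a class of labels with a fixed sign of `Δc`
  have hclass : ∀ S : Finset b.Th, (∀ t ∈ S, (0 < b.lam t ∧ sep < |b.c t - b.c t₀|) ∧
      |-((b.c t - b.c t₀) * (b.r t - b.r t₀)) - y| ≤ r) →
      (∀ t ∈ S, ∀ t' ∈ S, 0 < (b.c t - b.c t₀) * (b.c t' - b.c t₀)) →
      ∑ t ∈ S, b.lam t ≤ ρ ^ (-η) * (5 * A * r / (sep * sb)) ^ s := by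
    intro S hS hsign
    refine rst_frost_diam h.lam0 h.lam1 hK hs h.frC S _ hR h0 fun t ht t' ht' => ?_
    obtain ⟨⟨a1, a2⟩, a3⟩ := hS t ht
    obtain ⟨⟨a1', a2'⟩, a3'⟩ := hS t' ht'
    have := rst_prod_diam (A := A) (ρ := ρ) (Real.sin_sq_add_cos_sq φ) (hbdu t) (hbdu t') (hrel t t₀ a1 ht₀)
      (hrel t' t₀ a1' ht₀) a3 a3' a2 a2' (hsign t ht t' ht') hsb hsep0
    have e : b.c t - b.c t' = (b.c t - b.c t₀) - (b.c t' - b.c t₀) := by ring
    rw [e, le_div_iff₀ hss0]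
    nlinarith
  rw [rst_sum_ite]
  rw [← Finset.sum_filter_add_sum_filter_not _ (fun t => 0 < b.c t - b.c t₀), two_mul]
  refine add_le_add (hclass _ ?_ ?_) (hclass _ ?_ ?_)
  · intro t ht
    simp only [Finset.mem_filter, Finset.mem_univ, true_and, Real.dist_eq] at ht
    exact ht.1
  · intro t ht t' ht'
    simp only [Finset.mem_filter, Finset.mem_univ, true_and] at ht ht'
    exact mul_pos ht.2 ht'.2
  · intro t ht
    simp only [Finset.mem_filter, Finset.mem_univ, true_and, Real.dist_eq] at ht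
    exact ht.1
  · intro t ht t' ht'
    simp only [Finset.mem_filter, Finset.mem_univ, true_and, not_lt] at ht ht'
    have n1 : b.c t - b.c t₀ ≠ 0 := by
      intro h; rw [h, abs_zero] at ht; linarith [ht.1.1.2]
    have n2 : b.c t' - b.c t₀ ≠ 0 := by
      intro h; rw [h, abs_zero] at ht'; linarith [ht'.1.1.2]
    exact mul_pos_of_neg_of_neg (lt_of_le_of_ne ht.2 n1) (lt_of_le_of_ne ht'.2 n2)

set_option maxHeartbeats 1000000 in
/-- = `rt_test_xz_st` -/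
theorem rst_xz (A x q z s σ : ℝ) (hA : 1 ≤ A) (hx : 0 < x) (hs : 0 < s) (hs1 : s ≤ 1) (hσ : 0 < σ) (_hq0 : 0 ≤ q)
    (hz0 : 0 ≤ z) (hz1 : z < 1) (hz : z < x + s) :
    ∃ η ρ₁ : ℝ, 0 < η ∧ 0 < ρ₁ ∧ ∀ ρ : ℝ, 0 < ρ → ρ < ρ₁ → ∀ b : RtBlk, b.Is3w ρ η A x q z s σ → ¬ b.InStrip ρ := by
  have hA3 : 1 ≤ 4 * A ^ 3 := by nlinarith [pow_le_pow_left₀ zero_le_one hA 3]
  have hA23 : A ^ 2 ≤ A ^ 3 := by nlinarith [sq_nonneg A]
  have hAA3 : A ≤ A ^ 3 := by nlinarith [sq_nonneg A]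
  obtain ⟨ε, ρ₀, hε, hρ₀, hρ₀1, hcell⟩ := rst_cells x s z (4 * A ^ 3) (4 * A + 1) hx hs hz0 (lt_min hz1 hz) hA3
    (by linarith)
  set Dn : ℝ := 8 + 3 * s / σ with hDn
  have hDn0 : 0 < Dn := by positivity
  set η : ℝ := min (ε / Dn) (min (σ / 3) (s / 6)) with hηdef
  have hη : 0 < η := by positivity
  have hη1 : η * Dn ≤ ε := by
    have : η ≤ ε / Dn := min_le_left _ _
    rwa [le_div_iff₀ hDn0] at this
  have hη2 : η ≤ σ / 3 := (min_le_right _ _).trans (min_le_left _ _)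
  have hη3 : η ≤ s / 6 := (min_le_right _ _).trans (min_le_right _ _)
  have hηε : 8 * η ≤ ε := by
    have : 0 ≤ 3 * s / σ := by positivity
    nlinarith
  obtain ⟨ρa, ha0, ha1, ha⟩ := rst_small η (1 / (10 * A)) hη (by positivity)
  obtain ⟨ρb, hb0, -, hb⟩ := rst_small η (1 / (6 * A) ^ σ) hη (by positivity)
  refine ⟨η, min ρ₀ (min ρa ρb), hη, by positivity, ?_⟩
  intro ρ h0 hρ b hb' hstrip
  have hρ₀' : ρ < ρ₀ := lt_of_lt_of_le hρ (min_le_left _ _)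
  have hρa' : ρ < ρa := lt_of_lt_of_le hρ ((min_le_right _ _).trans (min_le_left _ _))
  have hρb' : ρ < ρb := lt_of_lt_of_le hρ ((min_le_right _ _).trans (min_le_right _ _))
  have hρ1 : ρ < 1 := lt_of_lt_of_le hρa' ha1
  have ka := ha ρ h0 hρa'
  have kb := hb ρ h0 hρb'
  have hpw : ∀ a : ℝ, 0 < ρ ^ a := fun a => Real.rpow_pos_of_pos h0 a
  have hmono : ∀ {a b : ℝ}, b ≤ a → ρ ^ a ≤ ρ ^ b := fun h => Real.rpow_le_rpow_of_exponent_ge h0 hρ1.le h
  have hB := hb'.toBase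
  obtain ⟨φ, hrel⟩ := rst_strip_rel hstrip
  obtain ⟨t₀, ht₀, hpin⟩ := rst_pin h0 hB
  set θ : ℝ := 6 * η / s with hθ
  set bb : ℝ := 3 * η / σ with hbb
  have hθ0 : 0 < θ := by positivity
  have hbb0 : 0 < bb := by positivity
  have hθ1 : θ ≤ 1 := by rw [hθ, div_le_one hs]; linarith
  have hbb1 : bb ≤ 1 := by rw [hbb, div_le_one hσ]; linarith
  have hθs : θ * s = 6 * η := by rw [hθ]; field_simp
  have hbbσ : bb * σ = 3 * η := by rw [hbb]; field_simp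
  have k10 : 10 * A ≤ ρ ^ (-η) := by
    rw [Real.rpow_neg h0.le, le_inv_comm₀ (by positivity) (hpw η), ← one_div]
    exact ka.le
  have khalf : ρ ^ η ≤ 1 / 2 := ka.le.trans (by
    rw [div_le_div_iff₀ (by positivity) (by norm_num)]; linarith)
  -- the strip is not horizontal
  have hsin : ρ ^ bb ≤ |Real.sin φ| := by
    refine rst_sin_lb h0 hρ1 hA hη.le hσ hB hrel hbb1 ?_
    have e1 : (6 * A * ρ ^ bb) ^ σ = (6 * A) ^ σ * ρ ^ (3 * η) := by
      rw [Real.mul_rpow (by positivity) (hpw _).le, ← Real.rpow_mul h0.le, hbbσ]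
    have e2 : ρ ^ (-η) * ρ ^ (3 * η) = ρ ^ η * ρ ^ η := by
      rw [← Real.rpow_add h0, ← Real.rpow_add h0]; congr 1; ring
    have e3 : (6 * A) ^ σ * ρ ^ η < 1 := by
      have h6 : 0 < (6 * A) ^ σ := by positivity
      have := mul_lt_mul_of_pos_left kb h6
      rwa [mul_one_div, div_self h6.ne'] at this
    calc ρ ^ (-η) * (6 * A * ρ ^ bb) ^ σ = (6 * A) ^ σ * ρ ^ η * ρ ^ η := by rw [e1]; linear_combination (6 * A) ^ σ * e2
      _ < 1 * ρ ^ η := mul_lt_mul_of_pos_right e3 (hpw _)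
      _ = ρ ^ η := one_mul _
  -- the populations
  set sep : ℝ := ρ ^ θ with hsep
  set μ' : b.P → ℝ := fun p => if b.G p t₀ then b.μ p else 0 with hμ'
  set ν : b.Th → ℝ := fun t => if 0 < b.lam t ∧ sep < |b.c t - b.c t₀| then b.lam t else 0 with hν
  set sl : b.Th → ℝ := fun t => -((b.c t - b.c t₀) * (b.r t - b.r t₀)) with hsl
  obtain ⟨cU, u, cU1, cU2⟩ := rst_choose2 (b.Yf t₀) (b.Wf t₀) (fun p => b.G p t₀) ρ _ (hb'.covU t₀ ρ le_rfl hρ1.le)
  obtain ⟨cX, ξ, cX1, cX2⟩ := rt_gchoose b.X (fun p => b.G p t₀) ρ _ (hb'.covX t₀ ρ le_rfl hρ1.le)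
  have hμ'pos : ∀ p, 0 < μ' p → b.G p t₀ := by
    intro p hp
    by_contra hc
    simp only [hμ', hc, if_false, lt_irrefl] at hp
  have hμ'0 : ∀ p, 0 ≤ μ' p := by
    intro p
    simp only [hμ']
    split_ifs
    · exact hB.μ0 p
    · exact le_rfl
  have hν0 : ∀ t, 0 ≤ ν t := by
    intro t
    simp only [hν]
    split_ifs
    · exact hB.lam0 t
    · exact le_rfl
  have hνle : ∀ t, ν t ≤ b.lam t := by
    intro t
    simp only [hν]
    split_ifs
    · exact le_rfl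
    · exact hB.lam0 t
  have hbdc : ∀ t, |b.c t - b.c t₀| ≤ 2 * A := fun t =>
    (abs_sub _ _).trans (by linarith [(hB.bdT t).1, (hB.bdT t₀).1])
  have hbdr : ∀ t, |b.r t - b.r t₀| ≤ 2 * A := fun t =>
    (abs_sub _ _).trans (by linarith [(hB.bdT t).2, (hB.bdT t₀).2])
  refine hcell ρ h0 hρ₀' q x b.P b.Th (ℝ × ℝ) ℝ μ' ν b.G u ξ b.X (b.Zf t₀) sl
    ⟨hμ'0, hν0, (Finset.sum_le_sum fun t _ => hνle t).trans hB.lam1, ?_, ?_, ?_, ?_, ?_, ?_, ?_, ?_, ?_, ?_⟩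
  · -- bdP
    intro p
    exact ⟨(hB.bdP p).1.trans (by linarith), (rst_bd hA hB t₀ p).2.2⟩
  · -- bdT
    intro t
    simp only [hsl, abs_neg, abs_mul]
    calc |b.c t - b.c t₀| * |b.r t - b.r t₀| ≤ 2 * A * (2 * A) :=
          mul_le_mul (hbdc t) (hbdr t) (abs_nonneg _) (by linarith)
      _ = 4 * A ^ 2 := by ring
      _ ≤ 4 * A ^ 3 := by linarith
  · -- fr
    intro y r hr hr1
    have hr0 : 0 < r := lt_of_lt_of_le h0 hr
    have hss : sep * ρ ^ bb = ρ ^ (θ + bb) := by rw [hsep, ← Real.rpow_add h0]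
    have hss1 : sep * ρ ^ bb ≤ 1 := by
      rw [hss]; exact Real.rpow_le_one h0.le hρ1.le (by linarith)
    refine (rst_prod_frost h0 hρ1 hA hη.le hs.le hB hrel t₀ ht₀ (hpw θ) (hpw bb) hsin hss1 y r hr).trans ?_
    rw [hss]
    have e1 : (5 * A * r / ρ ^ (θ + bb)) ^ s = (5 * A) ^ s * r ^ s * ρ ^ (-((θ + bb) * s)) := by
      rw [Real.div_rpow (by positivity) (hpw _).le, Real.mul_rpow (by positivity) hr0.le, ← Real.rpow_mul h0.le,
        Real.rpow_neg h0.le, div_eq_mul_inv]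
    have e2 : (5 * A) ^ s ≤ 5 * A := by
      calc (5 * A) ^ s ≤ (5 * A) ^ (1 : ℝ) := Real.rpow_le_rpow_of_exponent_le (by linarith) hs1
        _ = 5 * A := Real.rpow_one _
    have e3 : (θ + bb) * s = 6 * η + 3 * η * s / σ := by
      rw [add_mul, hθs, hbb]; ring
    have e4 : ρ ^ (-η) * ρ ^ (-η) * ρ ^ (-((θ + bb) * s)) ≤ ρ ^ (-ε) := by
      rw [← Real.rpow_add h0, ← Real.rpow_add h0]
      refine hmono ?_
      rw [e3]
      have : η * Dn = 8 * η + 3 * η * s / σ := by rw [hDn]; ring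
      linarith
    have hrs : 0 < r ^ s := Real.rpow_pos_of_pos hr0 _
    have p1 := hpw (-η)
    have p2 := hpw (-((θ + bb) * s))
    rw [e1]
    calc 2 * (ρ ^ (-η) * ((5 * A) ^ s * r ^ s * ρ ^ (-((θ + bb) * s))))
        = (2 * (5 * A) ^ s) * (ρ ^ (-η) * ρ ^ (-((θ + bb) * s)) * r ^ s) := by ring
      _ ≤ ρ ^ (-η) * (ρ ^ (-η) * ρ ^ (-((θ + bb) * s)) * r ^ s) := by
          refine mul_le_mul_of_nonneg_right ?_ (by positivity)
          linarith
      _ = (ρ ^ (-η) * ρ ^ (-η) * ρ ^ (-((θ + bb) * s))) * r ^ s := by ring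
      _ ≤ ρ ^ (-ε) * r ^ s := mul_le_mul_of_nonneg_right e4 hrs.le
  · -- mass
    have e0 : ∀ t, ∑ p with b.G p t, μ' p = ∑ p with b.G p t₀ ∧ b.G p t, b.μ p := fun t => rst_sum_ite _ _ _
    simp only [e0]
    have hm01 : ∀ t, 0 ≤ ∑ p with b.G p t₀ ∧ b.G p t, b.μ p ∧ ∑ p with b.G p t₀ ∧ b.G p t, b.μ p ≤ 1 := fun t =>
      ⟨Finset.sum_nonneg fun p _ => hB.μ0 p,
        (Finset.sum_le_sum_of_subset_of_nonneg (Finset.subset_univ _) fun p _ _ => hB.μ0 p).trans hB.μ1⟩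
    have e1 : ∑ t, b.lam t * ∑ p with b.G p t₀ ∧ b.G p t, b.μ p ≤
        ∑ t, ν t * ∑ p with b.G p t₀ ∧ b.G p t, b.μ p + ∑ t with dist (b.c t) (b.c t₀) ≤ sep, b.lam t := by
      rw [Finset.sum_filter, ← Finset.sum_add_distrib]
      refine Finset.sum_le_sum fun t _ => ?_
      simp only [hν, Real.dist_eq]
      by_cases g1 : 0 < b.lam t
      · by_cases g2 : sep < |b.c t - b.c t₀|
        · simp only [g1, g2, and_self, if_true, not_le.2 g2, if_false, add_zero, le_refl]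
        · simp only [g1, g2, and_false, if_false, zero_mul, zero_add, not_lt.1 g2, if_true]
          exact mul_le_of_le_one_right g1.le (hm01 t).2
      · have : b.lam t = 0 := le_antisymm (not_lt.1 g1) (hB.lam0 t)
        simp only [this, lt_irrefl, false_and, zero_mul, zero_add, ite_self, le_refl]
    have e2 : ∑ t with dist (b.c t) (b.c t₀) ≤ sep, b.lam t ≤ ρ ^ (4 * η) / 2 := by
      have hsepρ : ρ ≤ sep := by
        calc ρ = ρ ^ (1 : ℝ) := (Real.rpow_one ρ).symm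
          _ ≤ ρ ^ θ := hmono hθ1
      refine (hB.frC (b.c t₀) sep hsepρ (Real.rpow_le_one h0.le hρ1.le hθ0.le)).trans ?_
      rw [hsep, ← Real.rpow_mul h0.le, hθs, ← Real.rpow_add h0]
      have : ρ ^ (-η + 6 * η) = ρ ^ (4 * η) * ρ ^ η := by rw [← Real.rpow_add h0]; congr 1; ring
      rw [this]
      calc ρ ^ (4 * η) * ρ ^ η ≤ ρ ^ (4 * η) * (1 / 2) := mul_le_mul_of_nonneg_left khalf (hpw _).le
        _ = ρ ^ (4 * η) / 2 := by ring
    have e3 : ρ ^ ε ≤ ρ ^ (4 * η) / 2 := by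
      calc ρ ^ ε ≤ ρ ^ (5 * η) := hmono (by linarith)
        _ = ρ ^ (4 * η) * ρ ^ η := by rw [← Real.rpow_add h0]; congr 1; ring
        _ ≤ ρ ^ (4 * η) * (1 / 2) := mul_le_mul_of_nonneg_left khalf (hpw _).le
        _ = ρ ^ (4 * η) / 2 := by ring
    linarith
  · -- nS
    refine ⟨cU, cU1.trans ?_, fun p hp => (cU2 p (hμ'pos p hp)).1⟩
    rw [← Real.rpow_add h0]
    exact hmono (by linarith)
  · -- nR
    refine ⟨cX, cX1.trans ?_, fun p hp => (cX2 p (hμ'pos p hp)).1⟩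
    rw [← Real.rpow_add h0]
    exact hmono (by linarith)
  · -- box1
    intro σ' l r hr hr1
    have hr0 : 0 < r := lt_of_lt_of_le h0 hr
    rw [rst_sum_ite]
    refine le_trans (Finset.sum_le_sum_of_subset_of_nonneg ?_ fun p _ _ => hB.μ0 p)
      ((rst_box_free h0 hρ1.le hb' t₀ l σ'.1 σ'.2 r ρ hr hr1 le_rfl hρ1.le).trans ?_)
    · intro p hp
      simp only [Finset.mem_filter, Finset.mem_univ, true_and] at hp ⊢
      obtain ⟨g1, g2, g3⟩ := hp
      exact ⟨g1, g3, g2 ▸ (cU2 p g1).2.1, g2 ▸ (cU2 p g1).2.2⟩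
    · have : ρ ^ (-(2 * η)) * (r ^ x * ρ ^ q) = ρ ^ (q - 2 * η) * r ^ x := by
        have : ρ ^ (q - 2 * η) = ρ ^ (-(2 * η)) * ρ ^ q := by rw [← Real.rpow_add h0]; congr 1; ring
        rw [this]; ring
      rw [this]
      exact mul_le_mul_of_nonneg_right (hmono (by linarith)) (Real.rpow_nonneg hr0.le _)
  · -- box2
    intro σ' κ v
    rw [rst_sum_ite]
    refine le_trans (Finset.sum_le_sum_of_subset_of_nonneg ?_ fun p _ _ => hB.μ0 p)
      ((hb'.box t₀ κ σ'.1 σ'.2 v ρ ρ ρ le_rfl hρ1.le le_rfl hρ1.le le_rfl hρ1.le).trans ?_)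
    · intro p hp
      simp only [Finset.mem_filter, Finset.mem_univ, true_and] at hp ⊢
      obtain ⟨g1, g2, g3, g4⟩ := hp
      exact ⟨g1, g3 ▸ (cX2 p g1).2, g2 ▸ (cU2 p g1).2.1, g2 ▸ (cU2 p g1).2.2, g4⟩
    · rw [← Real.rpow_add h0, ← Real.rpow_add h0, ← Real.rpow_add h0]
      exact hmono (by linarith)
  · -- diam
    intro p p' hp hp' hpp
    have g1 := (cX2 p (hμ'pos p hp)).2
    have g2 := (cX2 p' (hμ'pos p' hp')).2
    rw [← hpp] at g2
    calc |b.X p - b.X p'| = |(b.X p - ξ p) - (b.X p' - ξ p)| := by congr 1; ring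
      _ ≤ |b.X p - ξ p| + |b.X p' - ξ p| := abs_sub _ _
      _ ≤ 2 * ρ := by linarith
      _ ≤ (4 * A + 1) * ρ := mul_le_mul_of_nonneg_right (by linarith) h0.le
  · -- cov
    intro σ' t
    obtain ⟨cZ, c1, c2⟩ := hb'.covZ t ρ le_rfl hρ1.le
    refine ⟨cZ.image fun e => e - ((b.c t - b.c t₀) * σ'.2 + (b.r t - b.r t₀) * σ'.1), ?_, ?_⟩
    · refine le_trans (Nat.cast_le.2 Finset.card_image_le) (c1.trans ?_)
      rw [← Real.rpow_add h0]
      exact hmono (by linarith)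
    · rintro w ⟨p, hp, hsc, hG, rfl⟩
      obtain ⟨e, he, he'⟩ := c2 (b.Zf t p) ⟨p, hG, rfl⟩
      refine ⟨_, Finset.mem_image_of_mem _ he, ?_⟩
      have g0 := hμ'pos p hp
      have g1 := (cU2 p g0).2.1
      have g2 := (cU2 p g0).2.2
      rw [hsc] at g1 g2
      have hfr := b.frame_Z t₀ t p
      have e1 : b.Zf t₀ p - sl t * b.X p - (e - ((b.c t - b.c t₀) * σ'.2 + (b.r t - b.r t₀) * σ'.1)) =
          (b.Zf t p - e) - (b.c t - b.c t₀) * (b.Wf t₀ p - σ'.2) - (b.r t - b.r t₀) * (b.Yf t₀ p - σ'.1) := by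
        simp only [hsl]
        rw [hfr]; ring
      rw [e1]
      have m1 : |(b.c t - b.c t₀) * (b.Wf t₀ p - σ'.2)| ≤ 2 * A * ρ := by
        rw [abs_mul]; exact mul_le_mul (hbdc t) g2 (abs_nonneg _) (by linarith)
      have m2 : |(b.r t - b.r t₀) * (b.Yf t₀ p - σ'.1)| ≤ 2 * A * ρ := by
        rw [abs_mul]; exact mul_le_mul (hbdr t) g1 (abs_nonneg _) (by linarith)
      calc |(b.Zf t p - e) - (b.c t - b.c t₀) * (b.Wf t₀ p - σ'.2) - (b.r t - b.r t₀) * (b.Yf t₀ p - σ'.1)|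
          ≤ |(b.Zf t p - e) - (b.c t - b.c t₀) * (b.Wf t₀ p - σ'.2)| + |(b.r t - b.r t₀) * (b.Yf t₀ p - σ'.1)| :=
            abs_sub _ _
        _ ≤ |b.Zf t p - e| + |(b.c t - b.c t₀) * (b.Wf t₀ p - σ'.2)| + |(b.r t - b.r t₀) * (b.Yf t₀ p - σ'.1)| :=
            add_le_add_left (abs_sub _ _) _
        _ ≤ (4 * A + 1) * ρ := by linarith

end Claimed.Agent.R255
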