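import Claimed.Agent.R255.Rate.Gr
import Claimed.Agent.RW.Kaufman

/-!
# Row 255 (BR paper), Section 7, unit U3: `rt_test_q_pf` = tied clocks, `x > 0 ⟹ q ≥ s` (VECTOR Kaufman).      Architect + prover: helper215.  Prefix `rtq_`.  SORRY-FREE.

Plan = origin/helper191:notes/S7/plan.md, section U3.   `K = ρ^(-η)`, `U_t = (Yf t, Wf t)`.
1. `rtq_pick`: `(μ × lam)(G) ≥ κ` gives a label `t₀` with `∑_{t₁} lam t₁ μ(G_{t₀} ∩ G_{t₁}) ≥ κ²`  (Cauchy-Schwarz + average).   `ν = μ 1_{G_{t₀}}`.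
2. `rtq_cs`: `ν(G_{t₁})² ≤ #cov · ∑_{p,y} ν p ν y 1[|U_{t₁} p - U_{t₁} y|_sup ≤ 2ρ]`  (`covU` at the scale `ρ`).
3. `rtq_energy_pt`: for fixed `p`:  `∑_y ν y lam{t : |U_t p - U_t y| ≤ 2ρ} ≤ (J+1) C(A) 4^s 2^(x+q) K² ρ^(min (x+q) s)`:
   shells `|X y - X p| ≤ 2^j ρ`; a collision forces `|U_{t₀} y - U_{t₀} p| ≤ (2A+2) 2^j ρ` (`rtq_box`: cover by boxes of the block) and `c_t` in an interval of half-length `4/2^j` (`rtq_collision`, `frC`).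
4. numbers: `ρ^(8η) ≤ ρ^(-η-q) (J+1) C K² ρ^(min (x+q) s)`; `η = min x (s-q) / 13`.
-/

set_option autoImplicit false

namespace Claimed.Agent.R255

open Finset Classical
open Claimed.Agent.RW

/-- `[a - R, a + R]` is covered by `N + 1` intervals of half-length `r` if `R ≤ (N+1) r` -/
theorem rtq_cover_int (a R r : ℝ) (hr : 0 < r) (N : ℕ) (hN : R ≤ (N + 1) * r) (v : ℝ) (hv : |v - a| ≤ R) :
    ∃ i ∈ range (N + 1), |v - (a - R + (2 * (i : ℝ) + 1) * r)| ≤ r := by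
  obtain ⟨h1, h2⟩ := abs_le.1 hv
  have hu0 : 0 ≤ (v - a + R) / (2 * r) := div_nonneg (by linarith) (by positivity)
  by_cases hc : ⌊(v - a + R) / (2 * r)⌋₊ ≤ N
  · refine ⟨⌊(v - a + R) / (2 * r)⌋₊, Finset.mem_range.2 (by omega), ?_⟩
    have h3 := Nat.floor_le hu0
    have h4 := Nat.lt_floor_add_one ((v - a + R) / (2 * r))
    rw [le_div_iff₀ (by positivity)] at h3
    rw [div_lt_iff₀ (by positivity)] at h4
    rw [abs_le]
    constructor <;> nlinarith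
  · refine ⟨N, Finset.mem_range.2 (by omega), ?_⟩
    push Not at hc
    have h3 := Nat.floor_le hu0
    have h5 : ((N : ℝ) + 1) ≤ (⌊(v - a + R) / (2 * r)⌋₊ : ℝ) := by exact_mod_cast hc
    have h6 : ((N : ℝ) + 1) ≤ (v - a + R) / (2 * r) := h5.trans h3
    rw [le_div_iff₀ (by positivity)] at h6
    rw [abs_le]
    constructor <;> nlinarith

/-- mass of a set covered by a finite family -/
theorem rtq_cover_sum {X ι : Type} {μ : X → ℝ} (hμ0 : ∀ x, 0 ≤ μ x) (S : Finset X) (I : Finset ι)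
    (Bx : ι → Finset X) (m : ℝ) (hB : ∀ i ∈ I, ∑ y ∈ Bx i, μ y ≤ m) (hcov : ∀ y ∈ S, ∃ i ∈ I, y ∈ Bx i) :
    ∑ y ∈ S, μ y ≤ I.card * m := by
  have h1 : ∀ y ∈ S, μ y ≤ ∑ i ∈ I, if y ∈ Bx i then μ y else 0 := by
    intro y hy
    obtain ⟨i, hi, hyi⟩ := hcov y hy
    have h2 : (if y ∈ Bx i then μ y else 0) ≤ ∑ i ∈ I, if y ∈ Bx i then μ y else 0 :=
      Finset.single_le_sum (f := fun i => if y ∈ Bx i then μ y else 0)
        (fun k _ => by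
          split_ifs
          · exact hμ0 y
          · exact le_rfl) hi
    rwa [if_pos hyi] at h2
  refine le_trans (Finset.sum_le_sum h1) ?_
  rw [Finset.sum_comm]
  have h3 : ∀ i ∈ I, ∑ y ∈ S, (if y ∈ Bx i then μ y else 0) ≤ m := by
    intro i hi
    rw [← Finset.sum_filter]
    refine le_trans (Finset.sum_le_sum_of_subset_of_nonneg ?_ fun y _ _ => hμ0 y) (hB i hi)
    intro y hy
    exact (Finset.mem_filter.1 hy).2
  refine le_trans (Finset.sum_le_sum h3) ?_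
  rw [Finset.sum_const, nsmul_eq_mul]

/-- Cauchy-Schwarz for a cover by squares -/
theorem rtq_cs {X : Type} [Fintype X] (ν : X → ℝ) (hν0 : ∀ x, 0 ≤ ν x) (φ : X → ℝ × ℝ) (r' : ℝ) (S : Finset X)
    (cov : Finset (ℝ × ℝ)) (hcov : ∀ x ∈ S, ∃ e ∈ cov, |(φ x).1 - e.1| ≤ r' ∧ |(φ x).2 - e.2| ≤ r') :
    (∑ x ∈ S, ν x) ^ 2 ≤ cov.card *
      ∑ x, ∑ y with |(φ x).1 - (φ y).1| ≤ 2 * r' ∧ |(φ x).2 - (φ y).2| ≤ 2 * r', ν x * ν y := by
  have hex : ∀ x, ∃ e, x ∈ S → e ∈ cov ∧ |(φ x).1 - e.1| ≤ r' ∧ |(φ x).2 - e.2| ≤ r' := by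
    intro x
    by_cases hx : x ∈ S
    · obtain ⟨e, he, h1⟩ := hcov x hx
      exact ⟨e, fun _ => ⟨he, h1⟩⟩
    · exact ⟨0, fun h => absurd h hx⟩
  choose i hi using hex
  have h1 : ∑ x ∈ S, ν x = ∑ e ∈ cov, ∑ x ∈ S with i x = e, ν x :=
    (Finset.sum_fiberwise_of_maps_to (fun x hx => (hi x hx).1) _).symm
  rw [h1]
  refine le_trans sq_sum_le_card_mul_sum_sq ?_
  refine mul_le_mul_of_nonneg_left ?_ (Nat.cast_nonneg _)
  have h2 : ∑ e ∈ cov, (∑ x ∈ S with i x = e, ν x) ^ 2 =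
      ∑ x ∈ S, ∑ y ∈ S with i y = i x, ν x * ν y := by
    rw [← Finset.sum_fiberwise_of_maps_to (s := S) (t := cov) (g := i) (fun x hx => (hi x hx).1)]
    refine Finset.sum_congr rfl fun e _ => ?_
    rw [sq, Finset.sum_mul_sum]
    refine Finset.sum_congr rfl fun x hx => ?_
    rw [(Finset.mem_filter.1 hx).2]
  rw [h2]
  refine le_trans (Finset.sum_le_sum fun x hx => ?_)
    (Finset.sum_le_sum_of_subset_of_nonneg (Finset.subset_univ S)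
      fun x _ _ => Finset.sum_nonneg fun y _ => mul_nonneg (hν0 x) (hν0 y))
  refine Finset.sum_le_sum_of_subset_of_nonneg ?_ fun y _ _ => mul_nonneg (hν0 x) (hν0 y)
  intro y hy
  rw [Finset.mem_filter] at hy ⊢
  refine ⟨Finset.mem_univ _, ?_⟩
  have hx' := hi x hx
  have hy' := hi y hy.1
  rw [hy.2] at hy'
  obtain ⟨-, a1, a2⟩ := hx'
  obtain ⟨-, b1, b2⟩ := hy'
  rw [abs_le] at a1 a2 b1 b2
  constructor <;> rw [abs_le] <;> constructor <;> linarith [a1.1, a1.2, a2.1, a2.2, b1.1, b1.2, b2.1, b2.2]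

/-- a heavy bipartite graph has a label `t₀` whose neighbourhood is seen by many labels -/
theorem rtq_pick {P T : Type} [Fintype P] [Fintype T] (μ : P → ℝ) (lam : T → ℝ) (G : P → T → Prop)
    (hμ0 : ∀ p, 0 ≤ μ p) (hl0 : ∀ t, 0 ≤ lam t) (hμ1 : ∑ p, μ p ≤ 1) (hl1 : ∑ t, lam t ≤ 1) (κ : ℝ) (hκ : 0 < κ)
    (hM : κ ≤ ∑ t, lam t * ∑ p with G p t, μ p) :
    ∃ t₀, κ ^ 2 ≤ ∑ t₁, lam t₁ * ∑ p with G p t₁, (if G p t₀ then μ p else 0) := by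
  -- `L p = lam (G^p)`
  have e1 : ∑ t, lam t * ∑ p with G p t, μ p = ∑ p, μ p * ∑ t with G p t, lam t := by
    simp only [Finset.sum_filter, Finset.mul_sum]
    rw [Finset.sum_comm]
    refine Finset.sum_congr rfl fun p _ => Finset.sum_congr rfl fun t _ => ?_
    split_ifs
    · ring
    · simp
  have e2 : (∑ p, μ p * ∑ t with G p t, lam t) ^ 2 ≤ (∑ p, μ p) * ∑ p, μ p * (∑ t with G p t, lam t) ^ 2 :=
    Finset.sum_sq_le_sum_mul_sum_of_sq_le_mul _ (fun p _ => hμ0 p)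
      (fun p _ => mul_nonneg (hμ0 p) (sq_nonneg _)) (fun p _ => le_of_eq (by ring))
  have e3 : 0 ≤ ∑ p, μ p * (∑ t with G p t, lam t) ^ 2 :=
    Finset.sum_nonneg fun p _ => mul_nonneg (hμ0 p) (sq_nonneg _)
  have e4 : κ ^ 2 ≤ ∑ p, μ p * (∑ t with G p t, lam t) ^ 2 := by
    calc κ ^ 2 ≤ (∑ p, μ p * ∑ t with G p t, lam t) ^ 2 := pow_le_pow_left₀ hκ.le (e1 ▸ hM) 2
      _ ≤ (∑ p, μ p) * ∑ p, μ p * (∑ t with G p t, lam t) ^ 2 := e2
      _ ≤ 1 * ∑ p, μ p * (∑ t with G p t, lam t) ^ 2 := mul_le_mul_of_nonneg_right hμ1 e3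
      _ = _ := one_mul _
  have e5 : ∑ p, μ p * (∑ t with G p t, lam t) ^ 2 =
      ∑ t₀, lam t₀ * ∑ t₁, lam t₁ * ∑ p with G p t₁, (if G p t₀ then μ p else 0) := by
    simp only [sq, Finset.sum_filter, Finset.mul_sum, Finset.sum_mul]
    rw [Finset.sum_comm]
    refine Finset.sum_congr rfl fun t₀ _ => ?_
    rw [Finset.sum_comm]
    refine Finset.sum_congr rfl fun t₁ _ => Finset.sum_congr rfl fun p _ => ?_
    split_ifs <;> ring
  rw [e5] at e4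
  by_contra hcon
  push Not at hcon
  have hF0 : ∀ t₀, 0 ≤ lam t₀ * (κ ^ 2 - ∑ t₁, lam t₁ * ∑ p with G p t₁, (if G p t₀ then μ p else 0)) :=
    fun t₀ => mul_nonneg (hl0 t₀) (by linarith [hcon t₀])
  have h6 : ∑ t₀, lam t₀ * (κ ^ 2 - ∑ t₁, lam t₁ * ∑ p with G p t₁, (if G p t₀ then μ p else 0)) ≤ 0 := by
    simp only [mul_sub, Finset.sum_sub_distrib]
    rw [← Finset.sum_mul]
    have : (∑ t, lam t) * κ ^ 2 ≤ 1 * κ ^ 2 := mul_le_mul_of_nonneg_right hl1 (by positivity)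
    linarith
  have h7 : ∑ t₀, lam t₀ * (κ ^ 2 - ∑ t₁, lam t₁ * ∑ p with G p t₁, (if G p t₀ then μ p else 0)) = 0 :=
    le_antisymm h6 (Finset.sum_nonneg fun t _ => hF0 t)
  have h8 := (Finset.sum_eq_zero_iff_of_nonneg fun t _ => hF0 t).1 h7
  have h9 : ∀ t₀, lam t₀ = 0 := by
    intro t₀
    have := h8 t₀ (Finset.mem_univ _)
    rcases mul_eq_zero.1 this with h | h
    · exact h
    · linarith [hcon t₀]
  have h10 : ∑ t₀, lam t₀ * ∑ t₁, lam t₁ * ∑ p with G p t₁, (if G p t₀ then μ p else 0) = 0 :=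
    Finset.sum_eq_zero fun t _ => by rw [h9 t, zero_mul]
  rw [h10] at e4
  have : 0 < κ ^ 2 := by positivity
  linarith

/-- the number of boxes of the block needed for a big box -/
noncomputable def rtqC (A : ℝ) : ℝ := ((⌈2 * A + 2⌉₊ : ℝ) + 1) ^ 2 * ((⌈A + 2 * A ^ 2 + A ^ 3⌉₊ : ℝ) + 1)

theorem rtqC_one_le (A : ℝ) : 1 ≤ rtqC A := by
  unfold rtqC
  have h1 : (1 : ℝ) ≤ (⌈2 * A + 2⌉₊ : ℝ) + 1 := by
    have := Nat.cast_nonneg (α := ℝ) ⌈2 * A + 2⌉₊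
    linarith
  have h2 : (1 : ℝ) ≤ (⌈A + 2 * A ^ 2 + A ^ 3⌉₊ : ℝ) + 1 := by
    have := Nat.cast_nonneg (α := ℝ) ⌈A + 2 * A ^ 2 + A ^ 3⌉₊
    linarith
  exact one_le_mul_of_one_le_of_one_le (one_le_pow₀ h1) h2

theorem rtq_Zf_le {b : RtBlk} {ρ η A s σ : ℝ} (hb : b.Base ρ η A s σ) (hA : 0 ≤ A) (t : b.Th) (p : b.P) :
    |b.Zf t p| ≤ A + 2 * A ^ 2 + A ^ 3 := by
  obtain ⟨hX, hY, hW, hZ⟩ := hb.bdP p
  obtain ⟨hc, hr⟩ := hb.bdT t
  unfold RtBlk.Zf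
  have h1 : |b.c t * b.W p| ≤ A * A := by
    rw [abs_mul]
    exact mul_le_mul hc hW (abs_nonneg _) hA
  have h2 : |b.r t * b.Y p| ≤ A * A := by
    rw [abs_mul]
    exact mul_le_mul hr hY (abs_nonneg _) hA
  have h3 : |b.c t * b.r t * b.X p| ≤ A * A * A := by
    rw [abs_mul, abs_mul]
    exact mul_le_mul (mul_le_mul hc hr (abs_nonneg _) hA) hX (abs_nonneg _) (by positivity)
  have a1 := abs_add_le (b.Z p + b.c t * b.W p + b.r t * b.Y p) (b.c t * b.r t * b.X p)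
  have a2 := abs_add_le (b.Z p + b.c t * b.W p) (b.r t * b.Y p)
  have a3 := abs_add_le (b.Z p) (b.c t * b.W p)
  have e : A + 2 * A ^ 2 + A ^ 3 = A + A * A + A * A + A * A * A := by ring
  rw [e]
  linarith

/-- the box bound for a box which is `(2A+2)` times longer in the directions `U` and unrestricted in `Z` -/
theorem rtq_box {b : RtBlk} {ρ η A x q z s σ : ℝ} (hb : b.Is3w ρ η A x q z s σ) (hA : 1 ≤ A) (hρ : 0 < ρ)
    (hρ1 : ρ ≤ 1) (t : b.Th) (x₀ y₀ w₀ r : ℝ) (h1 : ρ ≤ r) (h2 : r ≤ 1) :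
    ∑ p with b.G p t ∧ |b.X p - x₀| ≤ r ∧ |b.Yf t p - y₀| ≤ (2 * A + 2) * r ∧ |b.Wf t p - w₀| ≤ (2 * A + 2) * r,
      b.μ p ≤ rtqC A * (ρ ^ (-η) * r ^ (x + q)) := by
  have hr : 0 < r := lt_of_lt_of_le hρ h1
  obtain ⟨N1, hN1⟩ : ∃ N1 : ℕ, N1 = ⌈2 * A + 2⌉₊ := ⟨_, rfl⟩
  obtain ⟨N3, hN3⟩ : ∃ N3 : ℕ, N3 = ⌈A + 2 * A ^ 2 + A ^ 3⌉₊ := ⟨_, rfl⟩
  have hN1' : (2 * A + 2) * r ≤ ((N1 : ℝ) + 1) * r := by
    have : 2 * A + 2 ≤ (N1 : ℝ) := by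
      rw [hN1]
      exact Nat.le_ceil _
    nlinarith
  have hN3' : A + 2 * A ^ 2 + A ^ 3 ≤ ((N3 : ℝ) + 1) * 1 := by
    have : A + 2 * A ^ 2 + A ^ 3 ≤ (N3 : ℝ) := by
      rw [hN3]
      exact Nat.le_ceil _
    linarith
  have hmain := rtq_cover_sum (μ := b.μ) hb.μ0
    (univ.filter fun p => b.G p t ∧ |b.X p - x₀| ≤ r ∧ |b.Yf t p - y₀| ≤ (2 * A + 2) * r ∧
      |b.Wf t p - w₀| ≤ (2 * A + 2) * r)
    (range (N1 + 1) ×ˢ (range (N1 + 1) ×ˢ range (N3 + 1)))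
    (fun i => univ.filter fun p => b.G p t ∧ |b.X p - x₀| ≤ r ∧
      |b.Yf t p - (y₀ - (2 * A + 2) * r + (2 * (i.1 : ℝ) + 1) * r)| ≤ r ∧
      |b.Wf t p - (w₀ - (2 * A + 2) * r + (2 * (i.2.1 : ℝ) + 1) * r)| ≤ r ∧
      |b.Zf t p - (0 - (A + 2 * A ^ 2 + A ^ 3) + (2 * (i.2.2 : ℝ) + 1) * 1)| ≤ 1)
    (ρ ^ (-η) * r ^ (x + q)) ?_ ?_
  · refine le_trans hmain (le_of_eq ?_)
    rw [Finset.card_product, Finset.card_product, Finset.card_range, Finset.card_range]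
    unfold rtqC
    rw [← hN1, ← hN3]
    push_cast
    ring
  · intro i _
    have h3 := hb.box t x₀ (y₀ - (2 * A + 2) * r + (2 * (i.1 : ℝ) + 1) * r)
      (w₀ - (2 * A + 2) * r + (2 * (i.2.1 : ℝ) + 1) * r)
      (0 - (A + 2 * A ^ 2 + A ^ 3) + (2 * (i.2.2 : ℝ) + 1) * 1) r r 1 h1 h2 h1 h2 hρ1 le_rfl
    have e : ρ ^ (-η) * (r ^ x * r ^ q * 1 ^ z) = ρ ^ (-η) * r ^ (x + q) := by
      rw [Real.one_rpow, mul_one, Real.rpow_add hr]
    rw [e] at h3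
    exact h3
  · intro p hp
    obtain ⟨-, hG, hX, hY, hW⟩ := Finset.mem_filter.1 hp
    obtain ⟨i, hi, hi'⟩ := rtq_cover_int y₀ _ r hr N1 hN1' _ hY
    obtain ⟨j, hj, hj'⟩ := rtq_cover_int w₀ _ r hr N1 hN1' _ hW
    obtain ⟨k, hk, hk'⟩ := rtq_cover_int 0 _ 1 one_pos N3 hN3' (b.Zf t p)
      (by rw [sub_zero]; exact rtq_Zf_le hb.toBase (by linarith) t p)
    exact ⟨(i, j, k), Finset.mem_product.2 ⟨hi, Finset.mem_product.2 ⟨hj, hk⟩⟩,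
      Finset.mem_filter.2 ⟨Finset.mem_univ _, hG, hX, hi', hj', hk'⟩⟩

/-- two points with different `X` collide only for `c_t` in a short interval -/
theorem rtq_collision {b : RtBlk} {ρ δ : ℝ} (p y : b.P) (hδ : 0 < δ) (hΔ : δ < |b.X y - b.X p|) (t : b.Th)
    (hρ : 0 ≤ ρ) (hc : |b.Yf t p - b.Yf t y| ≤ 2 * ρ) :
    dist (b.c t) (-(b.Y p - b.Y y) / (b.X p - b.X y)) ≤ 2 * ρ / δ := by
  have hu : δ < |b.X p - b.X y| := by rwa [abs_sub_comm]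
  have hu0 : 0 < |b.X p - b.X y| := hδ.trans hu
  have hne : b.X p - b.X y ≠ 0 := abs_pos.1 hu0
  have e1 : b.c t - -(b.Y p - b.Y y) / (b.X p - b.X y) = (b.Yf t p - b.Yf t y) / (b.X p - b.X y) := by
    unfold RtBlk.Yf
    field_simp
    ring
  rw [Real.dist_eq, e1, abs_div]
  calc |b.Yf t p - b.Yf t y| / |b.X p - b.X y| ≤ 2 * ρ / |b.X p - b.X y| :=
        div_le_div_of_nonneg_right hc hu0.le
    _ ≤ 2 * ρ / δ := div_le_div_of_nonneg_left (by positivity) hδ hu.le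

/-- a collision forces closeness in every frame -/
theorem rtq_close {b : RtBlk} {ρ η A s σ : ℝ} (hb : b.Base ρ η A s σ) (t₀ t : b.Th) (p y : b.P) {R : ℝ}
    (hρR : ρ ≤ R) (hA : 0 ≤ A) (hΔ : |b.X y - b.X p| ≤ R)
    (hc : |b.Yf t p - b.Yf t y| ≤ 2 * ρ ∧ |b.Wf t p - b.Wf t y| ≤ 2 * ρ) :
    |b.Yf t₀ y - b.Yf t₀ p| ≤ (2 * A + 2) * R ∧ |b.Wf t₀ y - b.Wf t₀ p| ≤ (2 * A + 2) * R := by
  obtain ⟨hc0, hr0⟩ := hb.bdT t₀
  obtain ⟨hc1, hr1⟩ := hb.bdT t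
  have hR : 0 ≤ R := (abs_nonneg _).trans hΔ
  constructor
  · have e : b.Yf t₀ y - b.Yf t₀ p = -(b.Yf t p - b.Yf t y) + (b.c t₀ - b.c t) * (b.X y - b.X p) := by
      unfold RtBlk.Yf
      ring
    have h1 : |(b.c t₀ - b.c t) * (b.X y - b.X p)| ≤ (2 * A) * R := by
      rw [abs_mul]
      refine mul_le_mul ?_ hΔ (abs_nonneg _) (by positivity)
      have := abs_sub (b.c t₀) (b.c t)
      linarith
    rw [e]
    have h2 := abs_add_le (-(b.Yf t p - b.Yf t y)) ((b.c t₀ - b.c t) * (b.X y - b.X p))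
    rw [abs_neg] at h2
    nlinarith [hc.1]
  · have e : b.Wf t₀ y - b.Wf t₀ p = -(b.Wf t p - b.Wf t y) + (b.r t₀ - b.r t) * (b.X y - b.X p) := by
      unfold RtBlk.Wf
      ring
    have h1 : |(b.r t₀ - b.r t) * (b.X y - b.X p)| ≤ (2 * A) * R := by
      rw [abs_mul]
      refine mul_le_mul ?_ hΔ (abs_nonneg _) (by positivity)
      have := abs_sub (b.r t₀) (b.r t)
      linarith
    rw [e]
    have h2 := abs_add_le (-(b.Wf t p - b.Wf t y)) ((b.r t₀ - b.r t) * (b.X y - b.X p))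
    rw [abs_neg] at h2
    nlinarith [hc.2]

/-- second moment, one base point -/
theorem rtq_energy_pt {b : RtBlk} {ρ η A x q z s σ : ℝ} (hb : b.Is3w ρ η A x q z s σ) (hA : 1 ≤ A) (hρ : 0 < ρ)
    (hρ1 : ρ ≤ 1) (hη : 0 ≤ η) (hx : 0 ≤ x) (hq : 0 ≤ q) (hs : 0 ≤ s) (J : ℕ) (hJ1 : 1 ≤ 2 ^ J * ρ)
    (hJ2 : 2 ^ J * ρ ≤ 2) (t₀ : b.Th) (p : b.P) :
    ∑ y, (if b.G y t₀ then b.μ y else 0) *
        ∑ t with |b.Yf t p - b.Yf t y| ≤ 2 * ρ ∧ |b.Wf t p - b.Wf t y| ≤ 2 * ρ, b.lam t ≤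
      (J + 1) * (rtqC A * 4 ^ s * 2 ^ (x + q)) * (ρ ^ (-η)) ^ 2 * ρ ^ min (x + q) s := by
  have hK : 1 ≤ ρ ^ (-η) := Real.one_le_rpow_of_pos_of_le_one_of_nonpos hρ hρ1 (by linarith)
  have hEl := kf_frost_ext hb.lam0 hb.lam1 hK hs hb.frC
  have hC1 := rtqC_one_le A
  have hν0 : ∀ y, 0 ≤ (if b.G y t₀ then b.μ y else 0) := fun y => by
    split_ifs
    · exact hb.μ0 y
    · exact le_rfl
  have hpow : ∀ j : ℕ, (0 : ℝ) < 2 ^ j := fun j => by positivity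
  have hge : ∀ j : ℕ, ρ ≤ 2 ^ j * ρ := fun j => by
    have : (1 : ℝ) ≤ 2 ^ j := one_le_pow₀ (by norm_num)
    nlinarith
  have hmain := kf_shell (μ := fun y => if b.G y t₀ then b.μ y else 0)
    (g := fun y => ∑ t with |b.Yf t p - b.Yf t y| ≤ 2 * ρ ∧ |b.Wf t p - b.Wf t y| ≤ 2 * ρ, b.lam t) hν0 J
    (fun j => if j < J then univ.filter (fun y => |b.X y - b.X p| ≤ 2 ^ j * ρ ∧
        |b.Yf t₀ y - b.Yf t₀ p| ≤ (2 * A + 2) * (2 ^ j * ρ) ∧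
        |b.Wf t₀ y - b.Wf t₀ p| ≤ (2 * A + 2) * (2 ^ j * ρ)) else univ)
    (fun j => ρ ^ (-η) * (4 / 2 ^ j) ^ s) (fun j => rtqC A * (ρ ^ (-η) * (2 ^ j * ρ) ^ (x + q)))
    (fun j => mul_nonneg (by linarith) (Real.rpow_nonneg (by positivity) _)) ?_ ?_
  · refine le_trans hmain ?_
    have hterm : ∀ j ∈ range (J + 1),
        ρ ^ (-η) * (4 / 2 ^ j) ^ s * (rtqC A * (ρ ^ (-η) * (2 ^ j * ρ) ^ (x + q))) ≤
        (rtqC A * 4 ^ s * 2 ^ (x + q)) * (ρ ^ (-η)) ^ 2 * ρ ^ min (x + q) s := by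
      intro j hj
      have hjJ : j ≤ J := by have := Finset.mem_range.1 hj; omega
      have h2 : (2 : ℝ) ^ j * ρ ≤ 2 := by
        have : (2 : ℝ) ^ j ≤ 2 ^ J := pow_le_pow_right₀ (by norm_num) hjJ
        nlinarith
      have h3 := kf_pow (add_nonneg hx hq) hs hρ (hge j) h2
      have h4 : (4 : ℝ) / 2 ^ j = 4 * (ρ / (2 ^ j * ρ)) := by
        field_simp
      rw [h4, Real.mul_rpow (by positivity) (by positivity)]
      have h5 : 0 ≤ rtqC A * 4 ^ s * (ρ ^ (-η)) ^ 2 := by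
        have := Real.rpow_nonneg (show (0 : ℝ) ≤ 4 by norm_num) s
        have : 0 ≤ rtqC A := by linarith
        positivity
      calc ρ ^ (-η) * (4 ^ s * (ρ / (2 ^ j * ρ)) ^ s) * (rtqC A * (ρ ^ (-η) * (2 ^ j * ρ) ^ (x + q)))
          = rtqC A * 4 ^ s * (ρ ^ (-η)) ^ 2 * ((ρ / (2 ^ j * ρ)) ^ s * (2 ^ j * ρ) ^ (x + q)) := by ring
        _ ≤ rtqC A * 4 ^ s * (ρ ^ (-η)) ^ 2 * (2 ^ (x + q) * ρ ^ min (x + q) s) :=
          mul_le_mul_of_nonneg_left h3 h5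
        _ = _ := by ring
    refine le_trans (Finset.sum_le_sum hterm) ?_
    rw [Finset.sum_const, Finset.card_range, nsmul_eq_mul]
    push_cast
    apply le_of_eq
    ring
  · intro j hj
    split_ifs with hjJ
    · have h2 : (2 : ℝ) ^ j * ρ ≤ 1 := by
        have : (2 : ℝ) ^ (j + 1) ≤ 2 ^ J := pow_le_pow_right₀ (by norm_num) hjJ
        rw [pow_succ] at this
        nlinarith
      have h3 := rtq_box hb hA hρ hρ1 t₀ (b.X p) (b.Yf t₀ p) (b.Wf t₀ p) (2 ^ j * ρ) (hge j) h2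
      refine le_trans (le_of_eq ?_) h3
      rw [Finset.sum_filter, Finset.sum_filter]
      refine Finset.sum_congr rfl fun y _ => ?_
      by_cases hG : b.G y t₀ <;> simp [hG]
    · have hjJ' : j = J := by omega
      subst hjJ'
      have h3 : 1 ≤ ((2 : ℝ) ^ j * ρ) ^ (x + q) := Real.one_le_rpow hJ1 (add_nonneg hx hq)
      have h4 : ∑ y, (if b.G y t₀ then b.μ y else 0) ≤ 1 :=
        le_trans (Finset.sum_le_sum fun y _ => by
          split_ifs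
          · exact le_rfl
          · exact hb.μ0 y) hb.μ1
      have h5 : 1 ≤ rtqC A * (ρ ^ (-η) * (2 ^ j * ρ) ^ (x + q)) :=
        one_le_mul_of_one_le_of_one_le hC1 (one_le_mul_of_one_le_of_one_le hK h3)
      linarith
  · intro y
    have htriv : ∑ t with |b.Yf t p - b.Yf t y| ≤ 2 * ρ ∧ |b.Wf t p - b.Wf t y| ≤ 2 * ρ, b.lam t ≤ 1 :=
      le_trans (Finset.sum_le_sum_of_subset_of_nonneg (Finset.filter_subset _ _) fun i _ _ => hb.lam0 i) hb.lam1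
    by_cases hcol : ∃ t, |b.Yf t p - b.Yf t y| ≤ 2 * ρ ∧ |b.Wf t p - b.Wf t y| ≤ 2 * ρ
    · obtain ⟨t₁, ht₁⟩ := hcol
      have hex : ∃ j, J ≤ j ∨ |b.X y - b.X p| ≤ 2 ^ j * ρ := ⟨J, Or.inl le_rfl⟩
      have hjJ : Nat.find hex ≤ J := Nat.find_min' hex (Or.inl le_rfl)
      have hspec := Nat.find_spec hex
      have hmin : ∀ i, i < Nat.find hex → ¬ (J ≤ i ∨ |b.X y - b.X p| ≤ 2 ^ i * ρ) :=
        fun i hi => Nat.find_min hex hi
      obtain ⟨j, hjdef⟩ : ∃ j, j = Nat.find hex := ⟨_, rfl⟩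
      rw [← hjdef] at hjJ hspec hmin
      refine ⟨j, hjJ, ?_, ?_⟩
      · split_ifs with hlt
        · have hΔ : |b.X y - b.X p| ≤ 2 ^ j * ρ := by
            rcases hspec with h | h
            · omega
            · exact h
          have h3 := rtq_close hb.toBase t₀ t₁ p y (hge j) (by linarith) hΔ ht₁
          exact Finset.mem_filter.2 ⟨Finset.mem_univ _, hΔ, h3.1, h3.2⟩
        · exact Finset.mem_univ _
      · rcases Nat.eq_zero_or_pos j with h0 | h0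
        · rw [h0]
          simp only [pow_zero, div_one]
          have h3 : 1 ≤ (4 : ℝ) ^ s := Real.one_le_rpow (by norm_num) hs
          have h4 := one_le_mul_of_one_le_of_one_le hK h3
          linarith
        · obtain ⟨i, hi⟩ : ∃ i, j = i + 1 := ⟨j - 1, by omega⟩
          have hnot := hmin i (by omega)
          push Not at hnot
          obtain ⟨-, hΔ⟩ := hnot
          have hsub : ∑ t with |b.Yf t p - b.Yf t y| ≤ 2 * ρ ∧ |b.Wf t p - b.Wf t y| ≤ 2 * ρ, b.lam t ≤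
              ∑ t with dist (b.c t) (-(b.Y p - b.Y y) / (b.X p - b.X y)) ≤ 4 / 2 ^ j, b.lam t := by
            refine Finset.sum_le_sum_of_subset_of_nonneg ?_ fun t _ _ => hb.lam0 t
            intro t ht
            rw [Finset.mem_filter] at ht ⊢
            refine ⟨ht.1, ?_⟩
            have h3 := rtq_collision p y (δ := 2 ^ i * ρ) (by positivity) hΔ t hρ.le ht.2.1
            have e : 2 * ρ / (2 ^ i * ρ) = 4 / 2 ^ j := by
              rw [hi, pow_succ]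
              field_simp
              ring
            rwa [e] at h3
          refine hsub.trans (hEl _ _ ?_)
          rw [le_div_iff₀ (hpow j)]
          have h6 : (2 : ℝ) ^ j ≤ 2 ^ J := pow_le_pow_right₀ (by norm_num) hjJ
          nlinarith
    · refine ⟨J, le_rfl, by simp, ?_⟩
      have h0 : ∑ t with |b.Yf t p - b.Yf t y| ≤ 2 * ρ ∧ |b.Wf t p - b.Wf t y| ≤ 2 * ρ, b.lam t = 0 := by
        refine Finset.sum_eq_zero fun t ht => ?_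
        exact absurd ⟨t, (Finset.mem_filter.1 ht).2⟩ hcol
      rw [h0]
      exact mul_nonneg (by linarith) (Real.rpow_nonneg (by positivity) _)

/-- **unit U3**: tied clocks, `x > 0`, `q < s` is impossible -/
theorem rt_test_q_pf (A x q z s σ : ℝ) (hA : 1 ≤ A) (hx : 0 < x) (hs : 0 < s) (hq0 : 0 ≤ q) (hq : q < s) :
    ∃ η ρ₁ : ℝ, 0 < η ∧ 0 < ρ₁ ∧ ∀ ρ : ℝ, 0 < ρ → ρ < ρ₁ → ∀ b : RtBlk, ¬ b.Is3w ρ η A x q z s σ := by
  have hm : 0 < min x (s - q) := lt_min hx (by linarith)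
  obtain ⟨η, hηdef⟩ : ∃ η, η = min x (s - q) / 13 := ⟨_, rfl⟩
  have hη : 0 < η := by
    rw [hηdef]
    positivity
  have hC1 := rtqC_one_le A
  have hK0 : 0 ≤ rtqC A * 4 ^ s * 2 ^ (x + q) := by
    have h1 := Real.rpow_nonneg (show (0 : ℝ) ≤ 4 by norm_num) s
    have h2 := Real.rpow_nonneg (show (0 : ℝ) ≤ 2 by norm_num) (x + q)
    have h3 : 0 ≤ rtqC A := by linarith
    positivity
  obtain ⟨ρ₁, hρ₁0, hρ₁1, hab⟩ := kf_log_absorb (rtqC A * 4 ^ s * 2 ^ (x + q)) η hK0 hη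
  refine ⟨η, ρ₁, hη, hρ₁0, fun ρ hρ0 hρ1 b hb => ?_⟩
  have hρlt : ρ < 1 := by linarith
  obtain ⟨J, hJ1, hJ2⟩ := kf_exists_J hρ0 hρlt.le
  have hW := hab ρ hρ0 hρ1 J hJ2
  obtain ⟨P, hPdef⟩ : ∃ P, P = ρ ^ η := ⟨_, rfl⟩
  have hP : 0 < P := by
    rw [hPdef]
    exact Real.rpow_pos_of_pos hρ0 _
  have hKP : ρ ^ (-η) = P⁻¹ := by rw [hPdef, Real.rpow_neg hρ0.le]
  rw [← hPdef] at hW
  -- the mass of the graph
  have hM : P ^ 2 ≤ ∑ t, b.lam t * ∑ p with b.G p t, b.μ p := by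
    have h1 : ∑ t, b.lam t * P ≤ ∑ t, b.lam t * ∑ p with b.G p t, b.μ p := by
      refine Finset.sum_le_sum fun t _ => ?_
      rcases (hb.lam0 t).eq_or_lt with h | h
      · rw [← h]
        simp
      · exact mul_le_mul_of_nonneg_left (hPdef ▸ hb.nbr t h) h.le
    rw [← Finset.sum_mul] at h1
    have h2 : P * P ≤ (∑ t, b.lam t) * P := mul_le_mul_of_nonneg_right (hPdef ▸ hb.mass) hP.le
    nlinarith
  obtain ⟨t₀, ht₀⟩ := rtq_pick b.μ b.lam b.G hb.μ0 hb.lam0 hb.μ1 hb.lam1 (P ^ 2) (by positivity) hM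
  obtain ⟨ν, hν⟩ : ∃ ν : b.P → ℝ, ν = fun p => if b.G p t₀ then b.μ p else 0 := ⟨_, rfl⟩
  have hνa : ∀ p, (if b.G p t₀ then b.μ p else 0) = ν p := fun p => by rw [hν]
  simp only [hνa] at ht₀
  have hν0 : ∀ p, 0 ≤ ν p := fun p => by
    rw [← hνa]
    split_ifs
    · exact hb.μ0 p
    · exact le_rfl
  have hν1 : ∑ p, ν p ≤ 1 :=
    le_trans (Finset.sum_le_sum fun p _ => by
      rw [← hνa]
      split_ifs
      · exact le_rfl
      · exact hb.μ0 p) hb.μ1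
  -- the collision energy of one label
  obtain ⟨e, he⟩ : ∃ e : b.Th → ℝ, e = fun t =>
      ∑ p, ∑ y with |b.Yf t p - b.Yf t y| ≤ 2 * ρ ∧ |b.Wf t p - b.Wf t y| ≤ 2 * ρ, ν p * ν y := ⟨_, rfl⟩
  have he0 : ∀ t, 0 ≤ e t := fun t => by
    rw [he]
    exact Finset.sum_nonneg fun p _ => Finset.sum_nonneg fun y _ => mul_nonneg (hν0 p) (hν0 y)
  have hcs : ∀ t, (∑ p with b.G p t, ν p) ^ 2 ≤ (P⁻¹ * ρ ^ (-q)) * e t := by
    intro t
    obtain ⟨cov, hcard, hcov⟩ := hb.covU t ρ le_rfl hρlt.le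
    have h1 := rtq_cs ν hν0 (fun p => (b.Yf t p, b.Wf t p)) ρ (univ.filter fun p => b.G p t) cov
      (fun p hp => hcov _ ⟨p, (Finset.mem_filter.1 hp).2, rfl⟩)
    refine h1.trans ?_
    rw [hKP] at hcard
    have h2 := mul_le_mul_of_nonneg_right hcard (he0 t)
    rw [he] at h2 ⊢
    exact h2
  have h2 : (∑ t, b.lam t * ∑ p with b.G p t, ν p) ^ 2 ≤
      (∑ t, b.lam t) * ∑ t, b.lam t * (∑ p with b.G p t, ν p) ^ 2 :=
    Finset.sum_sq_le_sum_mul_sum_of_sq_le_mul _ (fun t _ => hb.lam0 t)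
      (fun t _ => mul_nonneg (hb.lam0 t) (sq_nonneg _)) (fun t _ => le_of_eq (by ring))
  have h3 : 0 ≤ ∑ t, b.lam t * (∑ p with b.G p t, ν p) ^ 2 :=
    Finset.sum_nonneg fun t _ => mul_nonneg (hb.lam0 t) (sq_nonneg _)
  have h4 : ∑ t, b.lam t * (∑ p with b.G p t, ν p) ^ 2 ≤ (P⁻¹ * ρ ^ (-q)) * ∑ t, b.lam t * e t := by
    rw [Finset.mul_sum]
    refine Finset.sum_le_sum fun t _ => ?_
    calc b.lam t * (∑ p with b.G p t, ν p) ^ 2 ≤ b.lam t * ((P⁻¹ * ρ ^ (-q)) * e t) :=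
          mul_le_mul_of_nonneg_left (hcs t) (hb.lam0 t)
      _ = _ := by ring
  -- the second moment
  obtain ⟨Bd, hBd⟩ : ∃ Bd, Bd = ((J : ℝ) + 1) * (rtqC A * 4 ^ s * 2 ^ (x + q)) * (P⁻¹) ^ 2 * ρ ^ min (x + q) s :=
    ⟨_, rfl⟩
  have hQ : 0 < ρ ^ min (x + q) s := Real.rpow_pos_of_pos hρ0 _
  have hBd0 : 0 ≤ Bd := by
    rw [hBd]
    positivity
  have hE : ∑ t, b.lam t * e t ≤ Bd := by
    have hre : ∑ t, b.lam t * e t = ∑ p, ν p * ∑ y, ν y *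
        ∑ t with |b.Yf t p - b.Yf t y| ≤ 2 * ρ ∧ |b.Wf t p - b.Wf t y| ≤ 2 * ρ, b.lam t := by
      rw [he]
      simp only [Finset.sum_filter, Finset.mul_sum]
      rw [Finset.sum_comm]
      refine Finset.sum_congr rfl fun p _ => ?_
      rw [Finset.sum_comm]
      refine Finset.sum_congr rfl fun y _ => ?_
      refine Finset.sum_congr rfl fun t _ => ?_
      split_ifs
      · ring
      · simp
    rw [hre]
    have hpt : ∀ p, ∑ y, ν y *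
        ∑ t with |b.Yf t p - b.Yf t y| ≤ 2 * ρ ∧ |b.Wf t p - b.Wf t y| ≤ 2 * ρ, b.lam t ≤ Bd := by
      intro p
      have h5 := rtq_energy_pt hb hA hρ0 hρlt.le hη.le hx.le hq0 hs.le J hJ1 hJ2 t₀ p
      simp only [hνa] at h5
      rw [hKP, ← hBd] at h5
      exact h5
    calc ∑ p, ν p * ∑ y, ν y *
          ∑ t with |b.Yf t p - b.Yf t y| ≤ 2 * ρ ∧ |b.Wf t p - b.Wf t y| ≤ 2 * ρ, b.lam t
        ≤ ∑ p, ν p * Bd := Finset.sum_le_sum fun p _ => mul_le_mul_of_nonneg_left (hpt p) (hν0 p)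
      _ = (∑ p, ν p) * Bd := by rw [Finset.sum_mul]
      _ ≤ 1 * Bd := mul_le_mul_of_nonneg_right hν1 hBd0
      _ = Bd := one_mul _
  -- numbers
  have hRq : 0 < ρ ^ (-q) := Real.rpow_pos_of_pos hρ0 _
  have h5 : (P ^ 2) ^ 2 * (P ^ 2) ^ 2 ≤ (P⁻¹ * ρ ^ (-q)) * Bd := by
    calc (P ^ 2) ^ 2 * (P ^ 2) ^ 2 = ((P ^ 2) ^ 2) ^ 2 := by ring
      _ ≤ (∑ t, b.lam t * ∑ p with b.G p t, ν p) ^ 2 := pow_le_pow_left₀ (by positivity) ht₀ 2
      _ ≤ (∑ t, b.lam t) * ∑ t, b.lam t * (∑ p with b.G p t, ν p) ^ 2 := h2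
      _ ≤ 1 * ∑ t, b.lam t * (∑ p with b.G p t, ν p) ^ 2 := mul_le_mul_of_nonneg_right hb.lam1 h3
      _ = ∑ t, b.lam t * (∑ p with b.G p t, ν p) ^ 2 := one_mul _
      _ ≤ (P⁻¹ * ρ ^ (-q)) * ∑ t, b.lam t * e t := h4
      _ ≤ (P⁻¹ * ρ ^ (-q)) * Bd := mul_le_mul_of_nonneg_left hE (by positivity)
  have h6 : P ^ 12 * ρ ^ q ≤ ρ ^ min (x + q) s := by
    have e1 : ρ ^ (-q) = (ρ ^ q)⁻¹ := Real.rpow_neg hρ0.le _
    have hq' : 0 < ρ ^ q := Real.rpow_pos_of_pos hρ0 _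
    rw [hBd, e1] at h5
    have h7 : (P ^ 2) ^ 2 * (P ^ 2) ^ 2 * (P ^ 4 * ρ ^ q) ≤
        (P⁻¹ * (ρ ^ q)⁻¹) * (((J : ℝ) + 1) * (rtqC A * 4 ^ s * 2 ^ (x + q)) * (P⁻¹) ^ 2 * ρ ^ min (x + q) s) *
          (P ^ 4 * ρ ^ q) := mul_le_mul_of_nonneg_right h5 (by positivity)
    have h8 : (P⁻¹ * (ρ ^ q)⁻¹) * (((J : ℝ) + 1) * (rtqC A * 4 ^ s * 2 ^ (x + q)) * (P⁻¹) ^ 2 * ρ ^ min (x + q) s) *
          (P ^ 4 * ρ ^ q) = (((J : ℝ) + 1) * (rtqC A * 4 ^ s * 2 ^ (x + q)) * P) * ρ ^ min (x + q) s := by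
      field_simp
    have h9 : (((J : ℝ) + 1) * (rtqC A * 4 ^ s * 2 ^ (x + q)) * P) * ρ ^ min (x + q) s ≤ 1 * ρ ^ min (x + q) s :=
      mul_le_mul_of_nonneg_right hW hQ.le
    calc P ^ 12 * ρ ^ q = (P ^ 2) ^ 2 * (P ^ 2) ^ 2 * (P ^ 4 * ρ ^ q) := by ring
      _ ≤ _ := h7
      _ = _ := h8
      _ ≤ 1 * ρ ^ min (x + q) s := h9
      _ = _ := one_mul _
  have h7 : P ^ 12 * ρ ^ q = ρ ^ (12 * η + q) := by
    rw [Real.rpow_add hρ0, hPdef, ← Real.rpow_mul_natCast hρ0.le]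
    congr 2
    push_cast
    ring
  have h8 : 12 * η + q < min (x + q) s := by
    have a1 : min x (s - q) ≤ x := min_le_left _ _
    have a2 : min x (s - q) ≤ s - q := min_le_right _ _
    refine lt_min ?_ ?_ <;> rw [hηdef] <;> linarith
  have h9 : ρ ^ min (x + q) s < ρ ^ (12 * η + q) := Real.rpow_lt_rpow_of_exponent_gt hρ0 hρlt h8
  rw [h7] at h6
  linarith

theorem rtq_eqns_cite : True := by
  have := @rtqC.eq_1
  trivial

end Claimed.Agent.R255
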