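-- KEEP
import Claimed.Agent.R255.Rate.GTest

/-!
# Row 255 (BR paper), Sec. 7, tied clocks: THE SHARED CORE of the tests `z ≥ x + s` (no strip: T3n steps 4-6; strip: T3s)      (architect helper236)

PAPER-FREE.  EXIT: `rxc_core`.  A block `b.Is3w`, a FIXED pair of labels `t0 t1` with `θ₁ - θ₀ = al d + O(C₀ ρ)`, `d` a unit vector, `al ≥ ρ^η`, a set `S2` of third labels whose slopes
`flip(d)·θ = d₂ c + d₁ r` are Frostman `γ`, triple mass `∑_{t ∈ S2} lam t μ(G_t0 ∩ G_t1 ∩ G_t) ≥ ρ^η`:  IMPOSSIBLE if `0 < x`, `z < min 1 (x + γ)` (`η` small, `ρ` small).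

## Proof   (`K` = constants depending on `A, C₀, x, q, z` only;  `Kη = ρ^(-η)`)
Coordinates: `U_i = (Yf t_i, Wf t_i)`, `U₁ = U₀ + (θ₁-θ₀) X`.   `N = d^⊥·U₁`, `L = d·U₁` (so `U₁ = L d + N d^⊥`), `d^⊥ = (-d₂, d₁)`.
 (g1) `d^⊥·U₀ = N - ε₁ X`, `d·U₀ = L - (al + ε₂) X`, `|ε_i| ≤ 2 C₀ ρ`.
 (g2) `Zf t = Zf t1 + (sl t - sl t1) L + N (d₁ Δc - d₂ Δr) + Δc Δr X`,  `sl t = d₂ c_t + d₁ r_t`, `Δ = θ_t - θ₁`.
Cells (floors at the scale `ρ`): `strip = ⌊N/ρ⌋`, `rxcX = ⌊X/ρ⌋`, `cL = ⌊L/ρ⌋`, `cU0 = (⌊Yf t0/ρ⌋, ⌊Wf t0/ρ⌋)`.  `Pp = G_t0 ∩ G_t1`.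
`E n` = the `cU0`-cells of the points of `Pp` in the strip `n`;  `W n = ρ^q |E n|`  (reference weight of the strip).
 (A) `rxc_count`      `∑_n |E n| ≤ K Kη ρ^(-q)`           (covU t0 at `ρ`: `≤ 9 Kη ρ^(-q)` cells; on one cell `N` varies by `≤ (2 + 4 C₀ A) ρ` by (g1)).
 (B) `rxc_ref_frost`  `μ{Pp, strip = n, |L - l₀| ≤ r} ≤ K Kη al^(-x) r^x W n`      (on one cell `u ∈ E n`: `|X - x_u| ≤ (3 + 2 C₀ A) r / al` by (g1); box in the frame `t0`).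
 (C) `rxc_slice_mass` `μ{Pp, strip = n, rxcX = k} ≤ K Kη ρ^x W n`                     (box in the frame `t0`).
 (D) `rxc_countX`     `|rxcX(Pp)| ≤ 3 Kη ρ^(-x)`.
 (E) `rxc_light`      `Ph θ` = points of `Pp` whose cell `(strip, cL)` has `Pp`-mass `≥ θ`:  `μ(Pp \ Ph θ) ≤ 25 Kη ρ^(-q) θ`     (covU t1: a square of half-side `ρ` meets `≤ 25` rotated cells; `rt_gprune`).
 (F) `rxc_boxU`       `μ{Pp, strip = n, rxcX = k, |L - l₀| ≤ ρ, |Zf t1 - z₀| ≤ ρ} ≤ 2^q Kη ρ^(x+q+z)`      (box in the frame `t1`, `r₂ = 2ρ`).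
 (G) `rxc_cover`      for a label `t` and a slice `(n,k)`: `{Zf t1 + (sl t - sl t1) L}` is covered by `K Kη ρ^(-z)` intervals of length `ρ`   ((g2), covZ t, `rt_gcover`).
 (S) `rxc_slice`      the ABSTRACT slice test: slices `ζ` with reference weights `w ζ`, `∑ w ≤ K₁`, reference laws `ref ζ`; pigeonhole (`RW.w2_pigeon`) + `RW.ExW1At`.
GLUE `rxc_core`: `χ` from `RW.w2_W1At x γ z (4A³)`, `η = χ/8`, `θ = ρ^q ρ^(3η)`; slices `(n,k)`, `w (n,k) = K_C Kη ρ^x W n`, `ref (n,k) = μ 1[Pp, strip = n] / W n`, points `μ 1[Ph θ]`, position `(L, Zf t1)`,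
 slopes `-(sl t - sl t1)`;  `∑ w ≤ 3 K_A K_C Kη³`;  (U): (F) and "a heavy point in the square ⟹ `μ{Pp, strip = n, |L - l₀| ≤ 2ρ} ≥ θ`".
-/

set_option autoImplicit false

namespace Claimed.Agent.R255

open Finset Classical
open Claimed.Agent.RW (KfFrost KfCov kfProj ExW1At)

/-- **(S) the abstract slice test** -/
theorem rxc_slice {P T S : Type} [Fintype P] [Fintype T] (β γ σ A χ ρ : ℝ) (hρ : 0 < ρ) (hW : ExW1At β γ σ A χ ρ)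
    (μ : P → ℝ) (ν : T → ℝ) (src tgt : P → ℝ) (sl : T → ℝ) (slc : P → S) (w : S → ℝ) (ref : S → P → ℝ)
    (Gr : Finset (P × T)) (M : ℕ) (Zs : Finset S) (m K₁ : ℝ)
    (hμ0 : ∀ p, 0 ≤ μ p) (hν0 : ∀ t, 0 ≤ ν t) (hν1 : ∑ t, ν t ≤ 1)
    (hsrc : ∀ p, |src p| ≤ A) (htgt : ∀ p, |tgt p| ≤ A) (hsl : ∀ t, |sl t| ≤ A)
    (hZs : ∀ e ∈ Gr, slc e.1 ∈ Zs)
    (hw : ∀ ζ ∈ Zs, ∑ p with slc p = ζ, μ p ≤ w ζ) (hwsum : ∑ ζ ∈ Zs, w ζ ≤ K₁)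
    (href0 : ∀ ζ p, 0 ≤ ref ζ p) (hrefF : ∀ ζ ∈ Zs, KfFrost (ref ζ) src (ρ ^ (-χ)) β ρ)
    (hU : ∀ ζ ∈ Zs, ∀ z : ℝ × ℝ, ∑ p with slc p = ζ ∧ dist ((src p, tgt p) : ℝ × ℝ) z ≤ ρ, μ p ≤
        ρ ^ (σ - χ) * w ζ * ∑ p with dist (src p) z.1 ≤ A * ρ, ref ζ p)
    (hνF : KfFrost ν sl (ρ ^ (-χ)) γ ρ)
    (hm : 0 < m) (hmass : m ≤ ∑ e ∈ Gr, μ e.1 * ν e.2) (hK : ρ ^ χ * K₁ ≤ m)
    (hcov : ∀ ζ ∈ Zs, ∀ t, ∃ cov : Finset ℝ, cov.card ≤ M ∧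
        KfCov cov ρ {v | ∃ p, (p, t) ∈ Gr ∧ slc p = ζ ∧ v = kfProj (sl t) (src p, tgt p)}) :
    ρ ^ (-σ - χ) ≤ (M : ℝ) := by
  have hq0 : 0 ≤ ρ ^ χ := Real.rpow_nonneg hρ.le _
  have hwn : ∀ ζ ∈ Zs, 0 ≤ w ζ := fun ζ hζ => (Finset.sum_nonneg fun p _ => hμ0 p).trans (hw ζ hζ)
  have hfib : ∑ ζ ∈ Zs, ∑ e ∈ Gr with slc e.1 = ζ, μ e.1 * ν e.2 = ∑ e ∈ Gr, μ e.1 * ν e.2 :=
    Finset.sum_fiberwise_of_maps_to (fun e he => hZs e he) _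
  obtain ⟨ζ, hζ, hapos, hq⟩ := RW.w2_pigeon Zs (fun ζ => ∑ e ∈ Gr with slc e.1 = ζ, μ e.1 * ν e.2) w
    (fun ζ _ => Finset.sum_nonneg fun e _ => mul_nonneg (hμ0 _) (hν0 _)) hwn (ρ ^ χ) hq0
    (by rw [hfib]; linarith)
    (by
      rw [hfib]
      calc ρ ^ χ * ∑ ζ ∈ Zs, w ζ ≤ ρ ^ χ * K₁ := mul_le_mul_of_nonneg_left hwsum hq0
        _ ≤ m := hK
        _ ≤ _ := hmass)
  have haw : ∑ e ∈ Gr with slc e.1 = ζ, μ e.1 * ν e.2 ≤ w ζ := by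
    calc ∑ e ∈ Gr with slc e.1 = ζ, μ e.1 * ν e.2
        ≤ ∑ e ∈ (univ.filter (fun p => slc p = ζ)) ×ˢ (univ : Finset T), μ e.1 * ν e.2 :=
          Finset.sum_le_sum_of_subset_of_nonneg
            (fun e he => Finset.mem_product.2
              ⟨Finset.mem_filter.2 ⟨Finset.mem_univ _, (Finset.mem_filter.1 he).2⟩, Finset.mem_univ _⟩)
            (fun e _ _ => mul_nonneg (hμ0 _) (hν0 _))
      _ = (∑ p with slc p = ζ, μ p) * ∑ t, ν t := by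
          rw [Finset.sum_product, Finset.sum_mul_sum]
      _ ≤ (∑ p with slc p = ζ, μ p) * 1 :=
          mul_le_mul_of_nonneg_left hν1 (Finset.sum_nonneg fun p _ => hμ0 p)
      _ ≤ w ζ := by
          rw [mul_one]
          exact hw ζ hζ
  have hwpos : 0 < w ζ := hapos.trans_le haw
  choose cov hcovc hcovK using hcov ζ hζ
  refine hW P T P (fun p => (if slc p = ζ then μ p else 0) / w ζ) ν (fun p => (src p, tgt p)) sl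
    (Gr.filter fun e => slc e.1 = ζ) M (ref ζ) src ?_ (href0 ζ) (hrefF ζ hζ) ?_
  · refine ⟨?_, hν0, ?_, hν1, fun p => ⟨hsrc p, htgt p⟩, hsl, hνF, ?_, cov, hcovc, ?_⟩
    · intro p
      refine div_nonneg ?_ hwpos.le
      split_ifs
      exacts [hμ0 p, le_rfl]
    · rw [← Finset.sum_div, div_le_one hwpos, ← Finset.sum_filter]
      exact hw ζ hζ
    · have e1 : ∑ e ∈ Gr with slc e.1 = ζ, (if slc e.1 = ζ then μ e.1 else 0) / w ζ * ν e.2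
          = (∑ e ∈ Gr with slc e.1 = ζ, μ e.1 * ν e.2) / w ζ := by
        rw [Finset.sum_div]
        refine Finset.sum_congr rfl fun e he => ?_
        rw [if_pos (Finset.mem_filter.1 he).2]
        ring
      rw [e1, le_div_iff₀ hwpos]
      exact hq
    · intro t v hv
      obtain ⟨p, hp, rfl⟩ := hv
      exact hcovK t _ ⟨p, (Finset.mem_filter.1 hp).1, (Finset.mem_filter.1 hp).2, rfl⟩
  · intro z
    have e2 : ∑ p with dist ((src p, tgt p) : ℝ × ℝ) z ≤ ρ, (if slc p = ζ then μ p else 0) / w ζ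
        = (∑ p with slc p = ζ ∧ dist ((src p, tgt p) : ℝ × ℝ) z ≤ ρ, μ p) / w ζ := by
      rw [← Finset.sum_div, ← Finset.sum_filter, Finset.filter_filter]
      congr 2
      ext p
      simp [and_comm]
    rw [e2, div_le_iff₀ hwpos]
    calc ∑ p with slc p = ζ ∧ dist ((src p, tgt p) : ℝ × ℝ) z ≤ ρ, μ p
        ≤ ρ ^ (σ - χ) * w ζ * ∑ p with dist (src p) z.1 ≤ A * ρ, ref ζ p := hU ζ hζ z
      _ = ρ ^ (σ - χ) * (∑ p with dist (src p) z.1 ≤ A * ρ, ref ζ p) * w ζ := by ring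

/-- the `X`-cell at the scale `ρ` -/
noncomputable def rxcX (b : RtBlk) (ρ : ℝ) (p : b.P) : ℤ := ⌊b.X p / ρ⌋

/-- a fixed pair of labels with the (approximate) polar form `θ₁ - θ₀ ≈ al d` of its difference -/
structure RxcPair (b : RtBlk) where
  t0 : b.Th
  t1 : b.Th
  d : ℝ × ℝ
  al : ℝ

namespace RxcPair

variable {b : RtBlk} (c : RxcPair b)

def Ok (C₀ ρ : ℝ) : Prop :=
  c.d.1 ^ 2 + c.d.2 ^ 2 = 1 ∧ 0 < c.al ∧ |b.c c.t1 - b.c c.t0 - c.al * c.d.1| ≤ C₀ * ρ ∧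
    |b.r c.t1 - b.r c.t0 - c.al * c.d.2| ≤ C₀ * ρ

/-- `N = d^⊥ · U₁` -/
def N (p : b.P) : ℝ := - c.d.2 * b.Yf c.t1 p + c.d.1 * b.Wf c.t1 p

/-- `L = d · U₁` -/
def L (p : b.P) : ℝ := c.d.1 * b.Yf c.t1 p + c.d.2 * b.Wf c.t1 p

/-- the slope `flip(d) · θ` of a label -/
def sl (t : b.Th) : ℝ := c.d.2 * b.c t + c.d.1 * b.r t

/-- the common neighbours of the two fixed labels -/
noncomputable def Pp : Finset b.P := univ.filter fun p => b.G p c.t0 ∧ b.G p c.t1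

noncomputable def strip (ρ : ℝ) (p : b.P) : ℤ := ⌊c.N p / ρ⌋

noncomputable def cL (ρ : ℝ) (p : b.P) : ℤ := ⌊c.L p / ρ⌋

noncomputable def cU0 (ρ : ℝ) (p : b.P) : ℤ × ℤ := (⌊b.Yf c.t0 p / ρ⌋, ⌊b.Wf c.t0 p / ρ⌋)

/-- the `U₀`-cells of the points of the strip `n` -/
noncomputable def E (ρ : ℝ) (n : ℤ) : Finset (ℤ × ℤ) := (c.Pp.filter fun p => c.strip ρ p = n).image (c.cU0 ρ)

/-- the reference weight of the strip `n` -/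
noncomputable def W (ρ q : ℝ) (n : ℤ) : ℝ := ρ ^ q * ((c.E ρ n).card : ℝ)

/-- the points whose rotated `U₁`-cell is heavy -/
noncomputable def Ph (ρ θ : ℝ) : Finset b.P :=
  c.Pp.filter fun p => θ ≤ ∑ p' ∈ c.Pp with c.strip ρ p' = c.strip ρ p ∧ c.cL ρ p' = c.cL ρ p, b.μ p'

end RxcPair

/-! ## geometry (leaf RXC-GEO) -/

theorem rxc_d_le {d₁ d₂ : ℝ} (hd : d₁ ^ 2 + d₂ ^ 2 = 1) : |d₁| ≤ 1 ∧ |d₂| ≤ 1 := by
  constructor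
  · exact abs_le_one_iff_mul_self_le_one.2 (by nlinarith [sq_nonneg d₂])
  · exact abs_le_one_iff_mul_self_le_one.2 (by nlinarith [sq_nonneg d₁])

theorem rxc_comb_le {a b e₁ e₂ B : ℝ} (ha : |a| ≤ 1) (hb : |b| ≤ 1) (h1 : |e₁| ≤ B) (h2 : |e₂| ≤ B) :
    |a * e₁ + b * e₂| ≤ 2 * B := by
  have hB : 0 ≤ B := (abs_nonneg _).trans h1
  calc |a * e₁ + b * e₂| ≤ |a * e₁| + |b * e₂| := abs_add_le _ _
    _ = |a| * |e₁| + |b| * |e₂| := by rw [abs_mul, abs_mul]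
    _ ≤ 1 * B + 1 * B := by gcongr
    _ = 2 * B := by ring

theorem rxc_g1N {b : RtBlk} (c : RxcPair b) {C₀ ρ : ℝ} (h : c.Ok C₀ ρ) (p : b.P) :
    |(- c.d.2 * b.Yf c.t0 p + c.d.1 * b.Wf c.t0 p) - c.N p| ≤ 2 * C₀ * ρ * |b.X p| := by
  obtain ⟨hd, -, h1, h2⟩ := h
  obtain ⟨hd1, hd2⟩ := rxc_d_le hd
  have e : (- c.d.2 * b.Yf c.t0 p + c.d.1 * b.Wf c.t0 p) - c.N p =
      (c.d.2 * (b.c c.t1 - b.c c.t0 - c.al * c.d.1) + (-c.d.1) * (b.r c.t1 - b.r c.t0 - c.al * c.d.2)) * b.X p := by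
    unfold RxcPair.N
    rw [b.frame_Y c.t0 c.t1, b.frame_W c.t0 c.t1]
    ring
  rw [e, abs_mul]
  have := rxc_comb_le (a := c.d.2) (b := -c.d.1) hd2 (by rwa [abs_neg]) h1 h2
  calc _ ≤ 2 * (C₀ * ρ) * |b.X p| := by gcongr
    _ = _ := by ring

theorem rxc_g1L {b : RtBlk} (c : RxcPair b) {C₀ ρ : ℝ} (h : c.Ok C₀ ρ) (p : b.P) :
    |(c.d.1 * b.Yf c.t0 p + c.d.2 * b.Wf c.t0 p) + c.al * b.X p - c.L p| ≤ 2 * C₀ * ρ * |b.X p| := by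
  obtain ⟨hd, -, h1, h2⟩ := h
  obtain ⟨hd1, hd2⟩ := rxc_d_le hd
  have e : (c.d.1 * b.Yf c.t0 p + c.d.2 * b.Wf c.t0 p) + c.al * b.X p - c.L p =
      ((-c.d.1) * (b.c c.t1 - b.c c.t0 - c.al * c.d.1) + (-c.d.2) * (b.r c.t1 - b.r c.t0 - c.al * c.d.2)) * b.X p := by
    unfold RxcPair.L
    rw [b.frame_Y c.t0 c.t1, b.frame_W c.t0 c.t1]
    have : c.al * b.X p = c.al * (c.d.1 ^ 2 + c.d.2 ^ 2) * b.X p := by rw [hd, mul_one]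
    rw [this]
    ring
  rw [e, abs_mul]
  have := rxc_comb_le (a := -c.d.1) (b := -c.d.2) (by rwa [abs_neg]) (by rwa [abs_neg]) h1 h2
  calc _ ≤ 2 * (C₀ * ρ) * |b.X p| := by gcongr
    _ = _ := by ring

theorem rxc_g2 {b : RtBlk} (c : RxcPair b) (hd : c.d.1 ^ 2 + c.d.2 ^ 2 = 1) (t : b.Th) (p : b.P) :
    b.Zf t p = b.Zf c.t1 p + (c.sl t - c.sl c.t1) * c.L p
      + c.N p * (c.d.1 * (b.c t - b.c c.t1) - c.d.2 * (b.r t - b.r c.t1))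
      + (b.c t - b.c c.t1) * (b.r t - b.r c.t1) * b.X p := by
  have hY : b.Yf c.t1 p = c.L p * c.d.1 - c.N p * c.d.2 := by
    unfold RxcPair.L RxcPair.N
    have : b.Yf c.t1 p = (c.d.1 ^ 2 + c.d.2 ^ 2) * b.Yf c.t1 p := by rw [hd, one_mul]
    calc b.Yf c.t1 p = (c.d.1 ^ 2 + c.d.2 ^ 2) * b.Yf c.t1 p := this
      _ = _ := by ring
  have hW : b.Wf c.t1 p = c.L p * c.d.2 + c.N p * c.d.1 := by
    unfold RxcPair.L RxcPair.N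
    have : b.Wf c.t1 p = (c.d.1 ^ 2 + c.d.2 ^ 2) * b.Wf c.t1 p := by rw [hd, one_mul]
    calc b.Wf c.t1 p = (c.d.1 ^ 2 + c.d.2 ^ 2) * b.Wf c.t1 p := this
      _ = _ := by ring
  rw [b.frame_Z c.t1 t, hY, hW]
  unfold RxcPair.sl
  ring

/-- bounds of all coordinates -/
theorem rxc_bd {b : RtBlk} (c : RxcPair b) (hd : c.d.1 ^ 2 + c.d.2 ^ 2 = 1) {ρ η A s σ : ℝ} (hA : 1 ≤ A)
    (hb : b.Base ρ η A s σ) :
    (∀ t p, |b.Yf t p| ≤ 2 * A ^ 2 ∧ |b.Wf t p| ≤ 2 * A ^ 2 ∧ |b.Zf t p| ≤ 4 * A ^ 3) ∧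
      (∀ p, |c.L p| ≤ 4 * A ^ 3 ∧ |c.N p| ≤ 4 * A ^ 3) ∧ (∀ t, |c.sl t| ≤ 2 * A) ∧ |c.d.1| ≤ 1 ∧ |c.d.2| ≤ 1 := by
  obtain ⟨hd1, hd2⟩ := rxc_d_le hd
  have hA0 : 0 ≤ A := by linarith
  have hA2 : A ≤ A ^ 2 := by nlinarith
  have hA3 : A ^ 2 ≤ A ^ 3 := by nlinarith [sq_nonneg A]
  have hmul : ∀ u v : ℝ, |u| ≤ A → |v| ≤ A → |u * v| ≤ A ^ 2 := by
    intro u v hu hv
    rw [abs_mul, sq]
    exact mul_le_mul hu hv (abs_nonneg _) hA0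
  have hY : ∀ t p, |b.Yf t p| ≤ 2 * A ^ 2 := by
    intro t p
    unfold RtBlk.Yf
    have h1 := (hb.bdP p).2.1
    have h2 := hmul _ _ (hb.bdT t).1 (hb.bdP p).1
    exact (abs_add_le _ _).trans (by linarith)
  have hW : ∀ t p, |b.Wf t p| ≤ 2 * A ^ 2 := by
    intro t p
    unfold RtBlk.Wf
    have h1 := (hb.bdP p).2.2.1
    have h2 := hmul _ _ (hb.bdT t).2 (hb.bdP p).1
    exact (abs_add_le _ _).trans (by linarith)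
  have hZ : ∀ t p, |b.Zf t p| ≤ 4 * A ^ 3 := by
    intro t p
    unfold RtBlk.Zf
    have h1 := (hb.bdP p).2.2.2
    have h2 := hmul _ _ (hb.bdT t).1 (hb.bdP p).2.2.1
    have h3 := hmul _ _ (hb.bdT t).2 (hb.bdP p).2.1
    have h4 : |b.c t * b.r t * b.X p| ≤ A ^ 3 := by
      rw [abs_mul]
      calc _ ≤ A ^ 2 * A := mul_le_mul (hmul _ _ (hb.bdT t).1 (hb.bdT t).2) (hb.bdP p).1 (abs_nonneg _) (by positivity)
        _ = A ^ 3 := by ring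
    have := abs_add_le (b.Z p + b.c t * b.W p + b.r t * b.Y p) (b.c t * b.r t * b.X p)
    have := abs_add_le (b.Z p + b.c t * b.W p) (b.r t * b.Y p)
    have := abs_add_le (b.Z p) (b.c t * b.W p)
    linarith
  refine ⟨fun t p => ⟨hY t p, hW t p, hZ t p⟩, fun p => ⟨?_, ?_⟩, fun t => ?_, hd1, hd2⟩
  · unfold RxcPair.L
    have := rxc_comb_le hd1 hd2 (hY c.t1 p) (hW c.t1 p)
    linarith
  · unfold RxcPair.N
    have := rxc_comb_le (a := -c.d.2) (by rwa [abs_neg]) hd1 (hY c.t1 p) (hW c.t1 p)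
    linarith
  · unfold RxcPair.sl
    exact rxc_comb_le hd2 hd1 (hb.bdT t).1 (hb.bdT t).2

/-! ## box bounds with free coordinates (leaf RXC-BOX) -/

/-- the box bound with `Z` free and arbitrary `r₁ ≥ 0`:  `min`/`max` take care of `r₁ ∉ [ρ,1]` -/
theorem rxc_box_free (A x q z : ℝ) (hA : 1 ≤ A) (hx : 0 ≤ x) :
    ∃ K : ℝ, 1 ≤ K ∧ ∀ (b : RtBlk) (ρ η s σ : ℝ), 0 < ρ → ρ ≤ 1 → b.Is3w ρ η A x q z s σ →
      ∀ (t : b.Th) (x₀ y₀ w₀ r₁ : ℝ), ρ ≤ r₁ →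
        ∑ p with b.G p t ∧ |b.X p - x₀| ≤ r₁ ∧ |b.Yf t p - y₀| ≤ ρ ∧ |b.Wf t p - w₀| ≤ ρ, b.μ p ≤
          K * ρ ^ (-η) * (r₁ ^ x * ρ ^ q) := by
  have hA0 : 0 ≤ A := by linarith
  have hA3 : 1 ≤ 4 * A ^ 3 := by nlinarith [pow_le_pow_left₀ zero_le_one hA 3]
  have hc1 : (1 : ℝ) ≤ (⌈A⌉₊ : ℝ) := hA.trans (Nat.le_ceil A)
  have hc2 : (1 : ℝ) ≤ (⌈4 * A ^ 3⌉₊ : ℝ) := hA3.trans (Nat.le_ceil _)
  refine ⟨(⌈A⌉₊ : ℝ) * (⌈4 * A ^ 3⌉₊ : ℝ), by nlinarith, ?_⟩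
  intro b ρ η s σ hρ hρ1 hb t x₀ y₀ w₀ r₁ hr₁
  have hη0 : 0 < ρ ^ (-η) := Real.rpow_pos_of_pos hρ _
  have hq0 : 0 < ρ ^ q := Real.rpow_pos_of_pos hρ _
  have hZ : ∀ p, |b.Zf t p| ≤ 4 * A ^ 3 := fun p =>
    ((rxc_bd (b := b) ⟨t, t, (1, 0), 1⟩ (by norm_num) hA hb.toBase).1 t p).2.2
  -- `Z` free
  have step1 : ∀ (x₁ r : ℝ), ρ ≤ r → r ≤ 1 →
      ∑ p with b.G p t ∧ |b.X p - x₁| ≤ r ∧ |b.Yf t p - y₀| ≤ ρ ∧ |b.Wf t p - w₀| ≤ ρ, b.μ p ≤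
        (⌈4 * A ^ 3⌉₊ : ℝ) * (ρ ^ (-η) * (r ^ x * ρ ^ q)) := by
    intro x₁ r hr hr1
    have key := rt_unit_sum b.μ (b.Zf t)
      (fun p => b.G p t ∧ |b.X p - x₁| ≤ r ∧ |b.Yf t p - y₀| ≤ ρ ∧ |b.Wf t p - w₀| ≤ ρ) (4 * A ^ 3)
      (ρ ^ (-η) * (r ^ x * ρ ^ q)) hA3 hb.μ0 hZ fun z₀ => by
        have h := hb.box t x₁ y₀ w₀ z₀ r ρ 1 hr hr1 le_rfl hρ1 hρ1 le_rfl
        rw [Real.one_rpow, mul_one] at h
        refine le_trans (le_of_eq ?_) h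
        refine Finset.sum_congr ?_ fun _ _ => rfl
        ext p
        simp only [Finset.mem_filter, Finset.mem_univ, true_and]
        tauto
    refine le_trans (le_of_eq ?_) key
    refine Finset.sum_congr ?_ fun _ _ => rfl
    ext p
    simp only [Finset.mem_filter, Finset.mem_univ, true_and]
  by_cases h1 : r₁ ≤ 1
  · refine (step1 x₀ r₁ hr₁ h1).trans ?_
    have hB : 0 ≤ ρ ^ (-η) * (r₁ ^ x * ρ ^ q) := by
      have : 0 ≤ r₁ ^ x := Real.rpow_nonneg (hρ.le.trans hr₁) _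
      positivity
    calc (⌈4 * A ^ 3⌉₊ : ℝ) * (ρ ^ (-η) * (r₁ ^ x * ρ ^ q))
        ≤ ((⌈A⌉₊ : ℝ) * (⌈4 * A ^ 3⌉₊ : ℝ)) * (ρ ^ (-η) * (r₁ ^ x * ρ ^ q)) := by
          refine mul_le_mul_of_nonneg_right ?_ hB
          nlinarith
      _ = _ := by ring
  · have h1' : 1 ≤ r₁ := (not_le.1 h1).le
    have hrx : 1 ≤ r₁ ^ x := Real.one_le_rpow h1' hx
    have h2 : ∑ p with b.G p t ∧ |b.Yf t p - y₀| ≤ ρ ∧ |b.Wf t p - w₀| ≤ ρ, b.μ p ≤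
        (⌈A⌉₊ : ℝ) * ((⌈4 * A ^ 3⌉₊ : ℝ) * (ρ ^ (-η) * ((1 : ℝ) ^ x * ρ ^ q))) := by
      have key := rt_unit_sum b.μ b.X
        (fun p => b.G p t ∧ |b.Yf t p - y₀| ≤ ρ ∧ |b.Wf t p - w₀| ≤ ρ) A
        ((⌈4 * A ^ 3⌉₊ : ℝ) * (ρ ^ (-η) * ((1 : ℝ) ^ x * ρ ^ q))) hA hb.μ0 (fun p => (hb.bdP p).1) fun x₁ => by
          refine le_trans (le_of_eq ?_) (step1 x₁ 1 hρ1 le_rfl)
          refine Finset.sum_congr ?_ fun _ _ => rfl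
          ext p
          simp only [Finset.mem_filter, Finset.mem_univ, true_and]
          tauto
      refine le_trans (le_of_eq ?_) key
      refine Finset.sum_congr ?_ fun _ _ => rfl
      ext p
      simp only [Finset.mem_filter, Finset.mem_univ, true_and]
    have h3 : ∑ p with b.G p t ∧ |b.X p - x₀| ≤ r₁ ∧ |b.Yf t p - y₀| ≤ ρ ∧ |b.Wf t p - w₀| ≤ ρ, b.μ p ≤
        ∑ p with b.G p t ∧ |b.Yf t p - y₀| ≤ ρ ∧ |b.Wf t p - w₀| ≤ ρ, b.μ p := by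
      refine Finset.sum_le_sum_of_subset_of_nonneg ?_ fun p _ _ => hb.μ0 p
      intro p hp
      simp only [Finset.mem_filter, Finset.mem_univ, true_and] at hp ⊢
      exact ⟨hp.1, hp.2.2⟩
    refine (h3.trans h2).trans ?_
    rw [Real.one_rpow, one_mul]
    calc (⌈A⌉₊ : ℝ) * ((⌈4 * A ^ 3⌉₊ : ℝ) * (ρ ^ (-η) * ρ ^ q))
        = ((⌈A⌉₊ : ℝ) * (⌈4 * A ^ 3⌉₊ : ℝ) * ρ ^ (-η)) * (1 * ρ ^ q) := by ring
      _ ≤ ((⌈A⌉₊ : ℝ) * (⌈4 * A ^ 3⌉₊ : ℝ) * ρ ^ (-η)) * (r₁ ^ x * ρ ^ q) := by gcongr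

/-! ## the seven block facts -/

theorem rxc_floor_nbr {a b ρ : ℝ} (hρ : 0 < ρ) (h : |a - b| ≤ ρ) :
    ⌊a / ρ⌋ - ⌊b / ρ⌋ ∈ Finset.Icc (-1 : ℤ) 1 := by
  obtain ⟨h1, h2⟩ := abs_le.1 h
  have e1 : a / ρ ≤ b / ρ + 1 := by
    rw [div_add_one hρ.ne']
    exact div_le_div_of_nonneg_right (by linarith) hρ.le
  have e2 : b / ρ ≤ a / ρ + 1 := by
    rw [div_add_one hρ.ne']
    exact div_le_div_of_nonneg_right (by linarith) hρ.le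
  have f1 : ⌊a / ρ⌋ ≤ ⌊b / ρ⌋ + 1 := by
    rw [← Int.floor_add_one]
    exact Int.floor_le_floor e1
  have f2 : ⌊b / ρ⌋ ≤ ⌊a / ρ⌋ + 1 := by
    rw [← Int.floor_add_one]
    exact Int.floor_le_floor e2
  rw [Finset.mem_Icc]
  constructor <;> linarith

theorem rxc_floor_range {y v R : ℝ} (h : |v - y| ≤ R) :
    ∃ k ∈ Finset.range (⌈2 * R⌉₊ + 2), ⌊v⌋ = ⌊y - R⌋ + (k : ℤ) := by
  obtain ⟨h1, h2⟩ := abs_le.1 h
  have f1 : ⌊y - R⌋ ≤ ⌊v⌋ := Int.floor_le_floor (by linarith)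
  have f2 : ⌊v⌋ < ⌊y - R⌋ + ((⌈2 * R⌉₊ + 2 : ℕ) : ℤ) := by
    rw [Int.floor_lt]
    have a1 : y - R < ⌊y - R⌋ + 1 := Int.lt_floor_add_one _
    have a2 : 2 * R ≤ (⌈2 * R⌉₊ : ℝ) := Nat.le_ceil _
    push_cast
    linarith
  refine ⟨(⌊v⌋ - ⌊y - R⌋).toNat, ?_, ?_⟩
  · rw [Finset.mem_range]
    omega
  · rw [Int.toNat_of_nonneg (by linarith)]
    ring

theorem rxc_fract_abs (a ρ : ℝ) : |a / ρ - (⌊a / ρ⌋ : ℝ)| ≤ 1 := by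
  have h1 := Int.floor_le (a / ρ)
  have h2 := Int.lt_floor_add_one (a / ρ)
  rw [abs_le]
  constructor <;> linarith

/-- on a `U₀`-cell `N / ρ` is known up to `2 + 2 C₀ A`. -/
theorem rxc_strip_near {b : RtBlk} (c : RxcPair b) {C₀ ρ A : ℝ} (hρ : 0 < ρ) (hC₀ : 0 ≤ C₀) (h : c.Ok C₀ ρ) (p : b.P)
    (hX : |b.X p| ≤ A) :
    |c.N p / ρ - (- c.d.2 * ((c.cU0 ρ p).1 : ℝ) + c.d.1 * ((c.cU0 ρ p).2 : ℝ))| ≤ 2 + 2 * C₀ * A := by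
  obtain ⟨hd1, hd2⟩ := rxc_d_le h.1
  have h1 := rxc_g1N c h p
  have h2 := rxc_comb_le (a := -c.d.2) (b := c.d.1) (by rwa [abs_neg]) hd1
    (rxc_fract_abs (b.Yf c.t0 p) ρ) (rxc_fract_abs (b.Wf c.t0 p) ρ)
  have h3 : |((- c.d.2 * b.Yf c.t0 p + c.d.1 * b.Wf c.t0 p) - c.N p) / ρ| ≤ 2 * C₀ * A := by
    rw [abs_div, abs_of_pos hρ, div_le_iff₀ hρ]
    calc _ ≤ 2 * C₀ * ρ * |b.X p| := h1
      _ ≤ 2 * C₀ * ρ * A := by gcongr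
      _ = _ := by ring
  have e : c.N p / ρ - (- c.d.2 * ((c.cU0 ρ p).1 : ℝ) + c.d.1 * ((c.cU0 ρ p).2 : ℝ)) =
      (-c.d.2 * (b.Yf c.t0 p / ρ - (⌊b.Yf c.t0 p / ρ⌋ : ℝ)) + c.d.1 * (b.Wf c.t0 p / ρ - (⌊b.Wf c.t0 p / ρ⌋ : ℝ)))
        - ((- c.d.2 * b.Yf c.t0 p + c.d.1 * b.Wf c.t0 p) - c.N p) / ρ := by
    show c.N p / ρ - (- c.d.2 * (⌊b.Yf c.t0 p / ρ⌋ : ℝ) + c.d.1 * (⌊b.Wf c.t0 p / ρ⌋ : ℝ)) = _
    field_simp
    ring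
  rw [e]
  exact (abs_sub _ _).trans (by linarith)

/-- **(A)** (leaf RXC-A) -/
theorem rxc_count (A C₀ : ℝ) (hA : 1 ≤ A) (hC₀ : 0 ≤ C₀) :
    ∃ K : ℝ, 1 ≤ K ∧ ∀ (b : RtBlk) (ρ η x q z s σ : ℝ), 0 < ρ → ρ ≤ 1 → b.Is3w ρ η A x q z s σ →
      ∀ c : RxcPair b, c.Ok C₀ ρ →
        ∑ n ∈ c.Pp.image (c.strip ρ), ((c.E ρ n).card : ℝ) ≤ K * ρ ^ (-η) * ρ ^ (-q) := by
  refine ⟨9 * ((⌈2 * (2 + 2 * C₀ * A)⌉₊ + 2 : ℕ) : ℝ), ?_, ?_⟩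
  · push_cast
    have : (0 : ℝ) ≤ (⌈2 * (2 + 2 * C₀ * A)⌉₊ : ℝ) := Nat.cast_nonneg _
    linarith
  intro b ρ η x q z s σ hρ hρ1 hb c hc
  set R : ℝ := 2 + 2 * C₀ * A with hR
  set m : ℕ := ⌈2 * R⌉₊ + 2 with hm
  obtain ⟨cov, hcard, hcov⟩ := hb.covU c.t0 ρ le_rfl hρ1
  set T : Finset (ℤ × (ℤ × ℤ)) := c.Pp.image (fun p => (c.strip ρ p, c.cU0 ρ p)) with hT
  -- step a
  have ha : ∑ n ∈ c.Pp.image (c.strip ρ), (c.E ρ n).card ≤ T.card := by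
    have hmaps : Set.MapsTo Prod.fst (T : Set (ℤ × (ℤ × ℤ))) (c.Pp.image (c.strip ρ) : Finset ℤ) := by
      intro y hy
      obtain ⟨p, hp, rfl⟩ := Finset.mem_image.1 (Finset.mem_coe.1 hy)
      exact Finset.mem_coe.2 (Finset.mem_image_of_mem _ hp)
    rw [Finset.card_eq_sum_card_fiberwise hmaps]
    refine Finset.sum_le_sum fun n _ => ?_
    have hsub : c.E ρ n ⊆ (T.filter fun y => y.1 = n).image Prod.snd := by
      intro u hu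
      obtain ⟨p, hp, rfl⟩ := Finset.mem_image.1 hu
      obtain ⟨hp1, hp2⟩ := Finset.mem_filter.1 hp
      exact Finset.mem_image.2 ⟨(c.strip ρ p, c.cU0 ρ p),
        Finset.mem_filter.2 ⟨Finset.mem_image_of_mem _ hp1, hp2⟩, rfl⟩
    exact (Finset.card_le_card hsub).trans Finset.card_image_le
  -- step b
  set g : (ℝ × ℝ) × ℤ × ℤ × ℕ → ℤ × (ℤ × ℤ) := fun y =>
    (⌊(- c.d.2 * ((⌊y.1.1 / ρ⌋ + y.2.1 : ℤ) : ℝ) + c.d.1 * ((⌊y.1.2 / ρ⌋ + y.2.2.1 : ℤ) : ℝ)) - R⌋ + (y.2.2.2 : ℤ),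
      (⌊y.1.1 / ρ⌋ + y.2.1, ⌊y.1.2 / ρ⌋ + y.2.2.1)) with hg
  have hb' : T ⊆ (cov ×ˢ Finset.Icc (-1 : ℤ) 1 ×ˢ Finset.Icc (-1 : ℤ) 1 ×ˢ Finset.range m).image g := by
    intro y hy
    obtain ⟨p, hp, rfl⟩ := Finset.mem_image.1 hy
    have hpG : b.G p c.t0 := (Finset.mem_filter.1 hp).2.1
    obtain ⟨e, he, he1, he2⟩ := hcov (b.Yf c.t0 p, b.Wf c.t0 p) ⟨p, hpG, rfl⟩
    have i1 := rxc_floor_nbr hρ he1
    have i2 := rxc_floor_nbr hρ he2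
    obtain ⟨k, hk, hk'⟩ := rxc_floor_range (rxc_strip_near c hρ hC₀ hc p (hb.bdP p).1)
    refine Finset.mem_image.2 ⟨(e, ⌊b.Yf c.t0 p / ρ⌋ - ⌊e.1 / ρ⌋, ⌊b.Wf c.t0 p / ρ⌋ - ⌊e.2 / ρ⌋, k), ?_, ?_⟩
    · simp only [Finset.mem_product]
      exact ⟨he, i1, i2, hk⟩
    · simp only [hg, add_sub_cancel]
      exact Prod.ext hk'.symm rfl
  have hc3 : (Finset.Icc (-1 : ℤ) 1).card = 3 := by decide
  have hcardT : T.card ≤ cov.card * (3 * (3 * m)) := by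
    refine (Finset.card_le_card hb').trans (Finset.card_image_le.trans ?_)
    rw [Finset.card_product, Finset.card_product, Finset.card_product, hc3, Finset.card_range]
  have h1 : (∑ n ∈ c.Pp.image (c.strip ρ), ((c.E ρ n).card : ℝ)) ≤ (cov.card : ℝ) * (3 * (3 * (m : ℝ))) := by
    have := ha.trans hcardT
    exact_mod_cast this
  calc _ ≤ (cov.card : ℝ) * (3 * (3 * (m : ℝ))) := h1
    _ ≤ (ρ ^ (-η) * ρ ^ (-q)) * (3 * (3 * (m : ℝ))) := by gcongr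
    _ = _ := by ring

/-- **(B)** (leaf RXC-B) -/
theorem rxc_ref_frost (A C₀ x q z : ℝ) (hA : 1 ≤ A) (hC₀ : 0 ≤ C₀) (hx : 0 ≤ x) :
    ∃ K : ℝ, 1 ≤ K ∧ ∀ (b : RtBlk) (ρ η s σ : ℝ), 0 < ρ → ρ ≤ 1 → b.Is3w ρ η A x q z s σ →
      ∀ c : RxcPair b, c.Ok C₀ ρ → ∀ (n : ℤ) (l₀ r : ℝ), ρ ≤ r → r ≤ 1 →
        ∑ p ∈ c.Pp with c.strip ρ p = n ∧ |c.L p - l₀| ≤ r, b.μ p ≤
          K * ρ ^ (-η) * c.al ^ (-x) * r ^ x * c.W ρ q n := by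
  obtain ⟨K₀, hK₀, hbox⟩ := rxc_box_free A x q z hA hx
  have hA0 : 0 ≤ A := by linarith
  set Q : ℝ := 3 + 2 * C₀ * A + 4 * A + 2 * C₀ with hQ
  have hQ1 : 1 ≤ Q := by
    have : 0 ≤ C₀ * A := mul_nonneg hC₀ hA0
    simp only [hQ]; linarith
  have hQ0 : 0 < Q := by linarith
  refine ⟨K₀ * Q ^ x, ?_, ?_⟩
  · have := Real.one_le_rpow hQ1 hx
    nlinarith
  intro b ρ η s σ hρ hρ1 hb c hc n l₀ r hr hr1
  obtain ⟨hd1, hd2⟩ := rxc_d_le hc.1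
  have hal : 0 < c.al := hc.2.1
  have hr0 : 0 < r := lt_of_lt_of_le hρ hr
  -- `al ≤ Q`
  have halQ : c.al ≤ Q := by
    have b1 : |c.al * c.d.1| ≤ 2 * A + C₀ := by
      have h1 := hc.2.2.1
      have h2 := (hb.bdT c.t1).1
      have h3 := (hb.bdT c.t0).1
      have h4 : C₀ * ρ ≤ C₀ := mul_le_of_le_one_right hC₀ hρ1
      rw [abs_le] at h1 h2 h3 ⊢
      constructor <;> linarith [h1.1, h1.2, h2.1, h2.2, h3.1, h3.2]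
    have b2 : |c.al * c.d.2| ≤ 2 * A + C₀ := by
      have h1 := hc.2.2.2
      have h2 := (hb.bdT c.t1).2
      have h3 := (hb.bdT c.t0).2
      have h4 : C₀ * ρ ≤ C₀ := mul_le_of_le_one_right hC₀ hρ1
      rw [abs_le] at h1 h2 h3 ⊢
      constructor <;> linarith [h1.1, h1.2, h2.1, h2.2, h3.1, h3.2]
    have b3 := rxc_comb_le hd1 hd2 b1 b2
    have e : c.d.1 * (c.al * c.d.1) + c.d.2 * (c.al * c.d.2) = c.al := by
      calc _ = c.al * (c.d.1 ^ 2 + c.d.2 ^ 2) := by ring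
        _ = c.al := by rw [hc.1, mul_one]
    rw [e] at b3
    have := le_abs_self c.al
    have : 0 ≤ C₀ * A := mul_nonneg hC₀ hA0
    simp only [hQ]; linarith
  set r₁ : ℝ := Q * r / c.al with hr₁
  have hρr₁ : ρ ≤ r₁ := by
    rw [hr₁, le_div_iff₀ hal]
    calc ρ * c.al ≤ r * Q := by gcongr
      _ = Q * r := by ring
  have hr₁x : r₁ ^ x = Q ^ x * r ^ x * c.al ^ (-x) := by
    rw [hr₁, Real.div_rpow (by positivity) hal.le, Real.mul_rpow hQ0.le hr0.le, Real.rpow_neg hal.le, div_eq_mul_inv]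
  -- partition by the cells
  have hmaps : ∀ p ∈ c.Pp.filter (fun p => c.strip ρ p = n ∧ |c.L p - l₀| ≤ r), c.cU0 ρ p ∈ c.E ρ n := by
    intro p hp
    obtain ⟨hp1, hp2, -⟩ := Finset.mem_filter.1 hp
    exact Finset.mem_image_of_mem _ (Finset.mem_filter.2 ⟨hp1, hp2⟩)
  rw [← Finset.sum_fiberwise_of_maps_to hmaps]
  have hcell : ∀ u ∈ c.E ρ n,
      ∑ p ∈ c.Pp.filter (fun p => c.strip ρ p = n ∧ |c.L p - l₀| ≤ r) with c.cU0 ρ p = u, b.μ p ≤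
        K₀ * ρ ^ (-η) * (r₁ ^ x * ρ ^ q) := by
    intro u _
    refine le_trans ?_ (hbox b ρ η s σ hρ hρ1 hb c.t0
      ((l₀ - ρ * (c.d.1 * (u.1 : ℝ) + c.d.2 * (u.2 : ℝ))) / c.al) ((u.1 : ℝ) * ρ) ((u.2 : ℝ) * ρ) r₁ hρr₁)
    refine Finset.sum_le_sum_of_subset_of_nonneg ?_ fun p _ _ => hb.μ0 p
    intro p hp
    obtain ⟨hp0, hpu⟩ := Finset.mem_filter.1 hp
    obtain ⟨hpP, -, hpL⟩ := Finset.mem_filter.1 hp0
    have hpG : b.G p c.t0 := (Finset.mem_filter.1 hpP).2.1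
    have hu1 : ⌊b.Yf c.t0 p / ρ⌋ = u.1 := congrArg Prod.fst hpu
    have hu2 : ⌊b.Wf c.t0 p / ρ⌋ = u.2 := congrArg Prod.snd hpu
    have hcl : ∀ (v : ℝ) (k : ℤ), ⌊v / ρ⌋ = k → |v - (k : ℝ) * ρ| ≤ ρ := by
      intro v k h
      have h1 : (k : ℝ) ≤ v / ρ := by rw [← h]; exact Int.floor_le _
      have h2 : v / ρ < (k : ℝ) + 1 := by rw [← h]; exact Int.lt_floor_add_one _
      rw [le_div_iff₀ hρ] at h1
      rw [div_lt_iff₀ hρ] at h2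
      rw [abs_le]
      constructor <;> nlinarith
    have hY := hcl _ _ hu1
    have hW := hcl _ _ hu2
    refine Finset.mem_filter.2 ⟨Finset.mem_univ _, hpG, ?_, hY, hW⟩
    have g1 := rxc_g1L c hc p
    have g2 : 2 * C₀ * ρ * |b.X p| ≤ 2 * C₀ * A * r := by
      calc 2 * C₀ * ρ * |b.X p| ≤ 2 * C₀ * r * A := by
            have := (hb.bdP p).1
            gcongr
        _ = _ := by ring
    have g3 := rxc_comb_le hd1 hd2 hY hW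
    have e : b.X p - (l₀ - ρ * (c.d.1 * (u.1 : ℝ) + c.d.2 * (u.2 : ℝ))) / c.al =
        (((c.d.1 * b.Yf c.t0 p + c.d.2 * b.Wf c.t0 p) + c.al * b.X p - c.L p) + (c.L p - l₀)
          - (c.d.1 * (b.Yf c.t0 p - (u.1 : ℝ) * ρ) + c.d.2 * (b.Wf c.t0 p - (u.2 : ℝ) * ρ))) / c.al := by
      field_simp
      ring
    rw [e, abs_div, abs_of_pos hal, hr₁]
    refine div_le_div_of_nonneg_right ?_ hal.le
    have t1 := abs_sub (((c.d.1 * b.Yf c.t0 p + c.d.2 * b.Wf c.t0 p) + c.al * b.X p - c.L p) + (c.L p - l₀))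
      (c.d.1 * (b.Yf c.t0 p - (u.1 : ℝ) * ρ) + c.d.2 * (b.Wf c.t0 p - (u.2 : ℝ) * ρ))
    have t2 := abs_add_le ((c.d.1 * b.Yf c.t0 p + c.d.2 * b.Wf c.t0 p) + c.al * b.X p - c.L p) (c.L p - l₀)
    have t3 : 0 ≤ (4 * A + 2 * C₀) * r := by positivity
    simp only [hQ]
    nlinarith
  refine (Finset.sum_le_sum hcell).trans ?_
  rw [Finset.sum_const, nsmul_eq_mul, hr₁x]
  unfold RxcPair.W
  exact le_of_eq (by ring)

/-- a point of the floor cell `k` at the scale `ρ` is within `ρ` of the left end point -/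
theorem rxc_floor_near {ρ v : ℝ} {k : ℤ} (hρ : 0 < ρ) (h : ⌊v / ρ⌋ = k) : |v - (k : ℝ) * ρ| ≤ ρ := by
  have h1 : (k : ℝ) ≤ v / ρ := by rw [← h]; exact Int.floor_le _
  have h2 : v / ρ < (k : ℝ) + 1 := by rw [← h]; exact Int.lt_floor_add_one _
  rw [le_div_iff₀ hρ] at h1
  rw [div_lt_iff₀ hρ] at h2
  rw [abs_le]
  constructor <;> nlinarith

/-- floors of two reals at distance `≤ 1` differ by at most one -/
theorem rxc_floor_three {a e : ℝ} (h : |a - e| ≤ 1) :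
    ⌊a⌋ ∈ ({⌊e⌋ - 1, ⌊e⌋, ⌊e⌋ + 1} : Finset ℤ) := by
  rw [abs_le] at h
  have h1 : ⌊e⌋ - 1 ≤ ⌊a⌋ := by
    rw [Int.le_floor]
    push_cast
    linarith [Int.floor_le e]
  have h2 : ⌊a⌋ < ⌊e⌋ + 2 := by
    rw [Int.floor_lt]
    push_cast
    linarith [Int.lt_floor_add_one e]
  simp only [Finset.mem_insert, Finset.mem_singleton]
  omega

/-- **(C)** (leaf RXC-C) -/
theorem rxc_slice_mass (A x q z : ℝ) (hA : 1 ≤ A) (hx : 0 ≤ x) :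
    ∃ K : ℝ, 1 ≤ K ∧ ∀ (b : RtBlk) (ρ η s σ : ℝ), 0 < ρ → ρ ≤ 1 → b.Is3w ρ η A x q z s σ →
      ∀ (c : RxcPair b) (n k : ℤ),
        ∑ p ∈ c.Pp with c.strip ρ p = n ∧ rxcX b ρ p = k, b.μ p ≤ K * ρ ^ (-η) * ρ ^ x * c.W ρ q n := by
  obtain ⟨K, hK1, hK⟩ := rxc_box_free A x q z hA hx
  refine ⟨K, hK1, fun b ρ η s σ hρ hρ1 hb c n k => ?_⟩
  have hmaps : ∀ p ∈ c.Pp.filter (fun p => c.strip ρ p = n ∧ rxcX b ρ p = k), c.cU0 ρ p ∈ c.E ρ n := by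
    intro p hp
    rw [Finset.mem_filter] at hp
    unfold RxcPair.E
    exact Finset.mem_image_of_mem _ (Finset.mem_filter.2 ⟨hp.1, hp.2.1⟩)
  rw [← Finset.sum_fiberwise_of_maps_to hmaps]
  have hcell : ∀ u ∈ c.E ρ n,
      ∑ p ∈ (c.Pp.filter (fun p => c.strip ρ p = n ∧ rxcX b ρ p = k)) with c.cU0 ρ p = u, b.μ p ≤
        K * ρ ^ (-η) * (ρ ^ x * ρ ^ q) := by
    intro u _
    refine le_trans ?_ (hK b ρ η s σ hρ hρ1 hb c.t0 ((k : ℝ) * ρ) ((u.1 : ℝ) * ρ) ((u.2 : ℝ) * ρ) ρ le_rfl)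
    refine Finset.sum_le_sum_of_subset_of_nonneg ?_ (fun p _ _ => hb.μ0 p)
    intro p hp
    rw [Finset.mem_filter, Finset.mem_filter] at hp
    obtain ⟨⟨hpP, -, hpk⟩, hpu⟩ := hp
    have hG : b.G p c.t0 := by
      unfold RxcPair.Pp at hpP
      exact (Finset.mem_filter.1 hpP).2.1
    have hu1 : ⌊b.Yf c.t0 p / ρ⌋ = u.1 := by rw [← hpu]; rfl
    have hu2 : ⌊b.Wf c.t0 p / ρ⌋ = u.2 := by rw [← hpu]; rfl
    exact Finset.mem_filter.2 ⟨Finset.mem_univ _, hG, rxc_floor_near hρ hpk, rxc_floor_near hρ hu1,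
      rxc_floor_near hρ hu2⟩
  refine (Finset.sum_le_sum hcell).trans ?_
  rw [Finset.sum_const, nsmul_eq_mul]
  unfold RxcPair.W
  apply le_of_eq
  ring

/-- **(D)** (leaf RXC-D) -/
theorem rxc_countX {b : RtBlk} {ρ η A x q z s σ : ℝ} (hρ : 0 < ρ) (hρ1 : ρ ≤ 1) (hb : b.Is3w ρ η A x q z s σ)
    (c : RxcPair b) : (((c.Pp.image (rxcX b ρ)).card : ℕ) : ℝ) ≤ 3 * ρ ^ (-η) * ρ ^ (-x) := by
  obtain ⟨cov, hcard, hcov⟩ := hb.covX c.t0 ρ le_rfl hρ1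
  have hsub : c.Pp.image (rxcX b ρ) ⊆
      cov.biUnion (fun e => ({⌊e / ρ⌋ - 1, ⌊e / ρ⌋, ⌊e / ρ⌋ + 1} : Finset ℤ)) := by
    intro j hj
    obtain ⟨p, hp, rfl⟩ := Finset.mem_image.1 hj
    have hG : b.G p c.t0 := by
      unfold RxcPair.Pp at hp
      exact (Finset.mem_filter.1 hp).2.1
    obtain ⟨e, he, hd⟩ := hcov (b.X p) ⟨p, hG, rfl⟩
    refine Finset.mem_biUnion.2 ⟨e, he, ?_⟩
    unfold rxcX
    apply rxc_floor_three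
    rw [← sub_div, abs_div, abs_of_pos hρ, div_le_one hρ]
    exact hd
  have h1 : (c.Pp.image (rxcX b ρ)).card ≤ cov.card * 3 := by
    refine (Finset.card_le_card hsub).trans ?_
    refine Finset.card_biUnion_le_card_mul _ _ _ fun e _ => ?_
    exact Finset.card_le_three
  have h2 : (((c.Pp.image (rxcX b ρ)).card : ℕ) : ℝ) ≤ (cov.card : ℝ) * 3 := by exact_mod_cast h1
  calc (((c.Pp.image (rxcX b ρ)).card : ℕ) : ℝ) ≤ (cov.card : ℝ) * 3 := h2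
    _ ≤ (ρ ^ (-η) * ρ ^ (-x)) * 3 := by gcongr
    _ = 3 * ρ ^ (-η) * ρ ^ (-x) := by ring

/-- a unit vector has coordinates of modulus at most one -/
theorem rxc_e_unit_abs {d₁ d₂ : ℝ} (hd : d₁ ^ 2 + d₂ ^ 2 = 1) : |d₁| ≤ 1 ∧ |d₂| ≤ 1 := by
  constructor
  · exact abs_le_one_iff_mul_self_le_one.2 (by nlinarith [sq_nonneg d₂])
  · exact abs_le_one_iff_mul_self_le_one.2 (by nlinarith [sq_nonneg d₁])

/-- a point of the floor cell `k` at the scale `ρ` -/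
theorem rxc_e_floor_cell {ρ v : ℝ} (hρ : 0 < ρ) {k : ℤ} (h : ⌊v / ρ⌋ = k) :
    (k : ℝ) * ρ ≤ v ∧ v < ((k : ℝ) + 1) * ρ := by
  rw [Int.floor_eq_iff] at h
  exact ⟨(le_div_iff₀ hρ).1 h.1, (div_lt_iff₀ hρ).1 h.2⟩

/-- `U₁ = L d + N d^⊥` -/
theorem rxc_e_YW_eq {b : RtBlk} (c : RxcPair b) (hd : c.d.1 ^ 2 + c.d.2 ^ 2 = 1) (p : b.P) :
    b.Yf c.t1 p = c.d.1 * c.L p - c.d.2 * c.N p ∧ b.Wf c.t1 p = c.d.2 * c.L p + c.d.1 * c.N p := by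
  unfold RxcPair.L RxcPair.N
  constructor
  · linear_combination (- b.Yf c.t1 p) * hd
  · linear_combination (- b.Wf c.t1 p) * hd

/-- floors of two numbers at distance `≤ 2ρ` at the scale `ρ` differ by at most `2` -/
theorem rxc_e_floor_two {ρ v e : ℝ} (hρ : 0 < ρ) (h : |v - e| ≤ 2 * ρ) :
    ⌊v / ρ⌋ - ⌊e / ρ⌋ ∈ Finset.Icc (-2 : ℤ) 2 := by
  rw [abs_le] at h
  have h1 : e / ρ - 2 ≤ v / ρ := by
    rw [le_div_iff₀ hρ, sub_mul, div_mul_cancel₀ _ hρ.ne']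
    linarith
  have h2 : v / ρ ≤ e / ρ + 2 := by
    rw [div_le_iff₀ hρ, add_mul, div_mul_cancel₀ _ hρ.ne']
    linarith
  have h3 : ⌊e / ρ⌋ - 2 ≤ ⌊v / ρ⌋ := by
    have := Int.floor_le_floor h1
    rwa [show e / ρ - 2 = e / ρ - ((2 : ℤ) : ℝ) by norm_num, Int.floor_sub_intCast] at this
  have h4 : ⌊v / ρ⌋ ≤ ⌊e / ρ⌋ + 2 := by
    have := Int.floor_le_floor h2
    rwa [show e / ρ + 2 = e / ρ + ((2 : ℤ) : ℝ) by norm_num, Int.floor_add_intCast] at this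
  rw [Finset.mem_Icc]
  constructor <;> linarith

/-- **(E)** (leaf RXC-E) -/
theorem rxc_light {b : RtBlk} {ρ η A x q z s σ : ℝ} (hρ : 0 < ρ) (hρ1 : ρ ≤ 1) (hb : b.Is3w ρ η A x q z s σ)
    (c : RxcPair b) (hd : c.d.1 ^ 2 + c.d.2 ^ 2 = 1) (θ : ℝ) (hθ : 0 ≤ θ) :
    ∑ p ∈ c.Pp \ c.Ph ρ θ, b.μ p ≤ 25 * ρ ^ (-η) * ρ ^ (-q) * θ := by
  obtain ⟨hd1, hd2⟩ := rxc_e_unit_abs hd
  obtain ⟨cov, hcard, hcov⟩ := hb.covU c.t1 ρ le_rfl hρ1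
  -- the cells
  set cell : b.P → ℤ × ℤ := fun p => (c.strip ρ p, c.cL ρ p) with hcell
  set C : Finset (ℤ × ℤ) := (cov ×ˢ (Finset.Icc (-2 : ℤ) 2 ×ˢ Finset.Icc (-2 : ℤ) 2)).image
    (fun u => (⌊(- c.d.2 * u.1.1 + c.d.1 * u.1.2) / ρ⌋ + u.2.1, ⌊(c.d.1 * u.1.1 + c.d.2 * u.1.2) / ρ⌋ + u.2.2))
    with hC
  have h1 : ∀ u v a a' : ℝ, |u| ≤ 1 → |v| ≤ 1 → |a| ≤ ρ → |a'| ≤ ρ → |u * a + v * a'| ≤ 2 * ρ := by
    intro u v a a' hu hv ha ha'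
    calc |u * a + v * a'| ≤ |u * a| + |v * a'| := abs_add_le _ _
      _ = |u| * |a| + |v| * |a'| := by rw [abs_mul, abs_mul]
      _ ≤ 1 * ρ + 1 * ρ := by gcongr
      _ = 2 * ρ := by ring
  have hmaps : ∀ p ∈ c.Pp \ c.Ph ρ θ, cell p ∈ C := by
    intro p hp
    have hpP : p ∈ c.Pp := (Finset.mem_sdiff.1 hp).1
    have hG : b.G p c.t1 := by
      unfold RxcPair.Pp at hpP
      exact (Finset.mem_filter.1 hpP).2.2
    obtain ⟨e, he, he1, he2⟩ := hcov (b.Yf c.t1 p, b.Wf c.t1 p) ⟨p, hG, rfl⟩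
    simp only at he1 he2
    have hN : |c.N p - (- c.d.2 * e.1 + c.d.1 * e.2)| ≤ 2 * ρ := by
      have := h1 (-c.d.2) c.d.1 _ _ (by rwa [abs_neg]) hd1 he1 he2
      convert this using 2
      unfold RxcPair.N
      ring
    have hL : |c.L p - (c.d.1 * e.1 + c.d.2 * e.2)| ≤ 2 * ρ := by
      have := h1 c.d.1 c.d.2 _ _ hd1 hd2 he1 he2
      convert this using 2
      unfold RxcPair.L
      ring
    rw [hC, Finset.mem_image]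
    refine ⟨(e, (⌊c.N p / ρ⌋ - ⌊(- c.d.2 * e.1 + c.d.1 * e.2) / ρ⌋,
      ⌊c.L p / ρ⌋ - ⌊(c.d.1 * e.1 + c.d.2 * e.2) / ρ⌋)), ?_, ?_⟩
    · rw [Finset.mem_product, Finset.mem_product]
      exact ⟨he, rxc_e_floor_two hρ hN, rxc_e_floor_two hρ hL⟩
    · simp only [hcell, RxcPair.strip, RxcPair.cL, add_sub_cancel]
  have hCcard : (C.card : ℝ) ≤ 25 * (ρ ^ (-η) * ρ ^ (-q)) := by
    have h2 : C.card ≤ cov.card * 25 := by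
      refine Finset.card_image_le.trans ?_
      rw [Finset.card_product, Finset.card_product]
      simp
    calc (C.card : ℝ) ≤ ((cov.card * 25 : ℕ) : ℝ) := by exact_mod_cast h2
      _ = 25 * (cov.card : ℝ) := by push_cast; ring
      _ ≤ 25 * (ρ ^ (-η) * ρ ^ (-q)) := by gcongr
  rw [← Finset.sum_fiberwise_of_maps_to hmaps]
  have hfib : ∀ u ∈ C, ∑ p ∈ c.Pp \ c.Ph ρ θ with cell p = u, b.μ p ≤ θ := by
    intro u _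
    by_cases hne : ((c.Pp \ c.Ph ρ θ).filter fun p => cell p = u).Nonempty
    · obtain ⟨p₀, hp₀⟩ := hne
      rw [Finset.mem_filter, Finset.mem_sdiff] at hp₀
      obtain ⟨⟨hp₀P, hp₀h⟩, hp₀u⟩ := hp₀
      have hlt : ∑ p' ∈ c.Pp with c.strip ρ p' = c.strip ρ p₀ ∧ c.cL ρ p' = c.cL ρ p₀, b.μ p' < θ := by
        by_contra hcon
        apply hp₀h
        unfold RxcPair.Ph
        rw [Finset.mem_filter]
        exact ⟨hp₀P, not_lt.1 hcon⟩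
      refine le_trans (Finset.sum_le_sum_of_subset_of_nonneg ?_ fun p _ _ => hb.μ0 p) hlt.le
      intro p hp
      rw [Finset.mem_filter, Finset.mem_sdiff] at hp
      rw [Finset.mem_filter]
      have h3 : cell p = cell p₀ := hp.2.trans hp₀u.symm
      simp only [hcell, Prod.mk.injEq] at h3
      exact ⟨hp.1.1, h3⟩
    · rw [Finset.not_nonempty_iff_eq_empty.1 hne, Finset.sum_empty]
      exact hθ
  calc ∑ u ∈ C, ∑ p ∈ c.Pp \ c.Ph ρ θ with cell p = u, b.μ p ≤ ∑ _u ∈ C, θ := Finset.sum_le_sum hfib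
    _ = (C.card : ℝ) * θ := by rw [Finset.sum_const, nsmul_eq_mul]
    _ ≤ 25 * (ρ ^ (-η) * ρ ^ (-q)) * θ := by gcongr
    _ = _ := by ring

/-- **(F)** (leaf RXC-F) -/
theorem rxc_boxU {b : RtBlk} {ρ η A x q z s σ : ℝ} (hρ : 0 < ρ) (hρ1 : ρ ≤ 1 / 2) (hq : 0 ≤ q)
    (hb : b.Is3w ρ η A x q z s σ) (c : RxcPair b) (hd : c.d.1 ^ 2 + c.d.2 ^ 2 = 1) (n k : ℤ) (l₀ z₀ : ℝ) :
    ∑ p ∈ c.Pp with c.strip ρ p = n ∧ rxcX b ρ p = k ∧ |c.L p - l₀| ≤ ρ ∧ |b.Zf c.t1 p - z₀| ≤ ρ, b.μ p ≤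
      2 ^ q * ρ ^ (-η) * (ρ ^ x * ρ ^ q * ρ ^ z) := by
  obtain ⟨hd1, hd2⟩ := rxc_e_unit_abs hd
  have hbox := hb.box c.t1 (((k : ℝ) + 1 / 2) * ρ) (c.d.1 * l₀ - c.d.2 * (((n : ℝ) + 1 / 2) * ρ))
    (c.d.2 * l₀ + c.d.1 * (((n : ℝ) + 1 / 2) * ρ)) z₀ ρ (2 * ρ) ρ le_rfl (by linarith) (by linarith)
    (by linarith) le_rfl (by linarith)
  have he : ρ ^ (-η) * (ρ ^ x * (2 * ρ) ^ q * ρ ^ z) = 2 ^ q * ρ ^ (-η) * (ρ ^ x * ρ ^ q * ρ ^ z) := by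
    rw [Real.mul_rpow (by norm_num) hρ.le]
    ring
  rw [← he]
  refine le_trans (Finset.sum_le_sum_of_subset_of_nonneg ?_ fun p _ _ => hb.μ0 p) hbox
  intro p hp
  rw [Finset.mem_filter] at hp
  obtain ⟨hpP, hn, hk, hL, hZ⟩ := hp
  have hG : b.G p c.t1 := by
    unfold RxcPair.Pp at hpP
    exact (Finset.mem_filter.1 hpP).2.2
  obtain ⟨hn1, hn2⟩ := rxc_e_floor_cell hρ (show ⌊c.N p / ρ⌋ = n from hn)
  obtain ⟨hk1, hk2⟩ := rxc_e_floor_cell hρ (show ⌊b.X p / ρ⌋ = k from hk)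
  obtain ⟨hY, hW⟩ := rxc_e_YW_eq c hd p
  have hN : |c.N p - ((n : ℝ) + 1 / 2) * ρ| ≤ ρ := by
    rw [abs_le]; constructor <;> nlinarith
  have hX : |b.X p - ((k : ℝ) + 1 / 2) * ρ| ≤ ρ := by
    rw [abs_le]; constructor <;> nlinarith
  have h1 : ∀ u v a a' : ℝ, |u| ≤ 1 → |v| ≤ 1 → |a| ≤ ρ → |a'| ≤ ρ → |u * a + v * a'| ≤ 2 * ρ := by
    intro u v a a' hu hv ha ha'
    calc |u * a + v * a'| ≤ |u * a| + |v * a'| := abs_add_le _ _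
      _ = |u| * |a| + |v| * |a'| := by rw [abs_mul, abs_mul]
      _ ≤ 1 * ρ + 1 * ρ := by gcongr
      _ = 2 * ρ := by ring
  rw [Finset.mem_filter]
  refine ⟨Finset.mem_univ _, hG, hX, ?_, ?_, hZ⟩
  · rw [hY]
    have := h1 c.d.1 (-c.d.2) (c.L p - l₀) (c.N p - ((n : ℝ) + 1 / 2) * ρ) hd1 (by rwa [abs_neg]) hL hN
    convert this using 2
    ring
  · rw [hW]
    have := h1 c.d.2 c.d.1 (c.L p - l₀) (c.N p - ((n : ℝ) + 1 / 2) * ρ) hd2 hd1 hL hN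
    convert this using 2
    ring

/-- **(G)** (leaf RXC-G) -/
theorem rxc_cover (A : ℝ) (hA : 1 ≤ A) :
    ∃ K : ℝ, 1 ≤ K ∧ ∀ (b : RtBlk) (ρ η x q z s σ : ℝ), 0 < ρ → ρ ≤ 1 → b.Is3w ρ η A x q z s σ →
      ∀ c : RxcPair b, c.d.1 ^ 2 + c.d.2 ^ 2 = 1 → ∀ (t : b.Th) (n k : ℤ),
        ∃ cov : Finset ℝ, (cov.card : ℝ) ≤ K * ρ ^ (-η) * ρ ^ (-z) ∧
          KfCov cov ρ {v | ∃ p, b.G p t ∧ c.strip ρ p = n ∧ rxcX b ρ p = k ∧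
            v = kfProj (-(c.sl t - c.sl c.t1)) (c.L p, b.Zf c.t1 p)} := by
  refine ⟨((⌈2 * (4 * A + 4 * A ^ 2) + 2⌉₊ : ℕ) : ℝ) + 1, by
    have : (0 : ℝ) ≤ ((⌈2 * (4 * A + 4 * A ^ 2) + 2⌉₊ : ℕ) : ℝ) := Nat.cast_nonneg _
    linarith, ?_⟩
  intro b ρ η x q z s σ hρ hρ1 hb c hd t n k
  obtain ⟨hd1, hd2⟩ := rxc_e_unit_abs hd
  have hcov := hb.covZ t ρ le_rfl hρ1
  have hN0 : 0 ≤ ρ ^ (-η) * ρ ^ (-z) := by positivity
  obtain ⟨cov, hcard, hK⟩ := rt_gcover {v | ∃ p, b.G p t ∧ v = b.Zf t p}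
    {v | ∃ p, b.G p t ∧ c.strip ρ p = n ∧ rxcX b ρ p = k ∧
            v = kfProj (-(c.sl t - c.sl c.t1)) (c.L p, b.Zf c.t1 p)} ρ (ρ ^ (-η) * ρ ^ (-z))
    (4 * A + 4 * A ^ 2)
    (-((n : ℝ) * ρ * (c.d.1 * (b.c t - b.c c.t1) - c.d.2 * (b.r t - b.r c.t1))
      + (b.c t - b.c c.t1) * (b.r t - b.r c.t1) * ((k : ℝ) * ρ))) hρ (by positivity) hcov (by
      rintro v' ⟨p, hG, hn, hk, rfl⟩
      refine ⟨b.Zf t p, ⟨p, hG, rfl⟩, ?_⟩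
      obtain ⟨hn1, hn2⟩ := rxc_e_floor_cell hρ (show ⌊c.N p / ρ⌋ = n from hn)
      obtain ⟨hk1, hk2⟩ := rxc_e_floor_cell hρ (show ⌊b.X p / ρ⌋ = k from hk)
      have hg2 := rxc_g2 c hd t p
      have hc : |b.c t - b.c c.t1| ≤ 2 * A := by
        have h1 := (hb.bdT t).1
        have h2 := (hb.bdT c.t1).1
        calc |b.c t - b.c c.t1| ≤ |b.c t| + |b.c c.t1| := abs_sub _ _
          _ ≤ 2 * A := by linarith
      have hr : |b.r t - b.r c.t1| ≤ 2 * A := by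
        have h1 := (hb.bdT t).2
        have h2 := (hb.bdT c.t1).2
        calc |b.r t - b.r c.t1| ≤ |b.r t| + |b.r c.t1| := abs_sub _ _
          _ ≤ 2 * A := by linarith
      have hN : |c.N p - (n : ℝ) * ρ| ≤ ρ := by
        rw [abs_le]; constructor <;> nlinarith
      have hX : |b.X p - (k : ℝ) * ρ| ≤ ρ := by
        rw [abs_le]; constructor <;> nlinarith
      have hg : |c.d.1 * (b.c t - b.c c.t1) - c.d.2 * (b.r t - b.r c.t1)| ≤ 4 * A := by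
        calc |c.d.1 * (b.c t - b.c c.t1) - c.d.2 * (b.r t - b.r c.t1)|
            ≤ |c.d.1 * (b.c t - b.c c.t1)| + |c.d.2 * (b.r t - b.r c.t1)| := abs_sub _ _
          _ = |c.d.1| * |b.c t - b.c c.t1| + |c.d.2| * |b.r t - b.r c.t1| := by rw [abs_mul, abs_mul]
          _ ≤ 1 * (2 * A) + 1 * (2 * A) := by gcongr
          _ = 4 * A := by ring
      have he : kfProj (-(c.sl t - c.sl c.t1)) (c.L p, b.Zf c.t1 p) - b.Zf t p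
          - -((n : ℝ) * ρ * (c.d.1 * (b.c t - b.c c.t1) - c.d.2 * (b.r t - b.r c.t1))
            + (b.c t - b.c c.t1) * (b.r t - b.r c.t1) * ((k : ℝ) * ρ))
          = -((c.N p - (n : ℝ) * ρ) * (c.d.1 * (b.c t - b.c c.t1) - c.d.2 * (b.r t - b.r c.t1)))
            - (b.c t - b.c c.t1) * (b.r t - b.r c.t1) * (b.X p - (k : ℝ) * ρ) := by
        rw [hg2]
        unfold kfProj
        ring
      rw [he]
      calc |-((c.N p - (n : ℝ) * ρ) * (c.d.1 * (b.c t - b.c c.t1) - c.d.2 * (b.r t - b.r c.t1)))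
            - (b.c t - b.c c.t1) * (b.r t - b.r c.t1) * (b.X p - (k : ℝ) * ρ)|
          ≤ |-((c.N p - (n : ℝ) * ρ) * (c.d.1 * (b.c t - b.c c.t1) - c.d.2 * (b.r t - b.r c.t1)))|
            + |(b.c t - b.c c.t1) * (b.r t - b.r c.t1) * (b.X p - (k : ℝ) * ρ)| := abs_sub _ _
        _ = |c.N p - (n : ℝ) * ρ| * |c.d.1 * (b.c t - b.c c.t1) - c.d.2 * (b.r t - b.r c.t1)|
            + |b.c t - b.c c.t1| * |b.r t - b.r c.t1| * |b.X p - (k : ℝ) * ρ| := by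
            rw [abs_neg, abs_mul, abs_mul, abs_mul]
        _ ≤ ρ * (4 * A) + (2 * A) * (2 * A) * ρ := by gcongr
        _ = (4 * A + 4 * A ^ 2) * ρ := by ring)
  refine ⟨cov, ?_, hK⟩
  calc (cov.card : ℝ) ≤ (((⌈2 * (4 * A + 4 * A ^ 2) + 2⌉₊ + 1) * ⌊ρ ^ (-η) * ρ ^ (-z)⌋₊ : ℕ) : ℝ) := by
        exact_mod_cast hcard
    _ = (((⌈2 * (4 * A + 4 * A ^ 2) + 2⌉₊ : ℕ) : ℝ) + 1) * ((⌊ρ ^ (-η) * ρ ^ (-z)⌋₊ : ℕ) : ℝ) := by
        push_cast; ring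
    _ ≤ (((⌈2 * (4 * A + 4 * A ^ 2) + 2⌉₊ : ℕ) : ℝ) + 1) * (ρ ^ (-η) * ρ ^ (-z)) := by
        gcongr
        exact Nat.floor_le hN0
    _ = _ := by ring

/-! ## glue lemmas -/

theorem rxc_gl_graph {P T : Type} [Fintype P] [Fintype T] (Ph : Finset P) (S2 : Finset T) (G : P → T → Prop)
    (μ : P → ℝ) (lam : T → ℝ) :
    ∑ e ∈ (univ : Finset (P × T)).filter (fun e => e.1 ∈ Ph ∧ e.2 ∈ S2 ∧ G e.1 e.2),
      (if e.1 ∈ Ph then μ e.1 else 0) * (if e.2 ∈ S2 then lam e.2 else 0) =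
      ∑ t ∈ S2, lam t * ∑ p ∈ Ph with G p t, μ p := by
  rw [Finset.sum_filter, Fintype.sum_prod_type_right]
  rw [← Finset.sum_filter_add_sum_filter_not univ (fun t => t ∈ S2)]
  have h0 : ∑ t ∈ univ.filter (fun t => ¬ t ∈ S2), ∑ p : P,
      (if (p, t).1 ∈ Ph ∧ (p, t).2 ∈ S2 ∧ G (p, t).1 (p, t).2 then
        (if (p, t).1 ∈ Ph then μ (p, t).1 else 0) * (if (p, t).2 ∈ S2 then lam (p, t).2 else 0) else 0) = 0 := by
    refine Finset.sum_eq_zero fun t ht => Finset.sum_eq_zero fun p _ => ?_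
    have h2 : t ∉ S2 := (Finset.mem_filter.1 ht).2
    simp [h2]
  rw [h0, add_zero, Finset.filter_mem_eq_inter, Finset.univ_inter]
  refine Finset.sum_congr rfl fun t ht => ?_
  rw [Finset.mul_sum, Finset.sum_filter]
  rw [← Finset.sum_filter_add_sum_filter_not univ (fun p => p ∈ Ph)]
  have h1 : ∑ p ∈ univ.filter (fun p => ¬ p ∈ Ph),
      (if (p, t).1 ∈ Ph ∧ (p, t).2 ∈ S2 ∧ G (p, t).1 (p, t).2 then
        (if (p, t).1 ∈ Ph then μ (p, t).1 else 0) * (if (p, t).2 ∈ S2 then lam (p, t).2 else 0) else 0) = 0 := by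
    refine Finset.sum_eq_zero fun p hp => ?_
    have h2 : p ∉ Ph := (Finset.mem_filter.1 hp).2
    simp [h2]
  rw [h1, add_zero, Finset.filter_mem_eq_inter, Finset.univ_inter]
  refine Finset.sum_congr rfl fun p hp => ?_
  by_cases hG : G p t
  · simp [hp, ht, hG, mul_comm]
  · simp [hG]


theorem rxc_gl_mass {P T : Type} [Fintype P] [Fintype T] (Pp Ph : Finset P) (hsub : Ph ⊆ Pp) (S2 : Finset T)
    (G : P → T → Prop) (μ : P → ℝ) (lam : T → ℝ) (hμ0 : ∀ p, 0 ≤ μ p) (hl0 : ∀ t, 0 ≤ lam t) (hl1 : ∑ t, lam t ≤ 1) :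
    ∑ t ∈ S2, lam t * ∑ p ∈ Pp with G p t, μ p ≤
      ∑ t ∈ S2, lam t * ∑ p ∈ Ph with G p t, μ p + ∑ p ∈ Pp \ Ph, μ p := by
  have hD0 : 0 ≤ ∑ p ∈ Pp \ Ph, μ p := Finset.sum_nonneg fun p _ => hμ0 p
  have h1 : ∀ t, ∑ p ∈ Pp with G p t, μ p ≤ ∑ p ∈ Ph with G p t, μ p + ∑ p ∈ Pp \ Ph, μ p := by
    intro t
    have h2 : Pp.filter (fun p => G p t) ⊆ Ph.filter (fun p => G p t) ∪ (Pp \ Ph) := by
      intro p hp
      rw [Finset.mem_filter] at hp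
      by_cases h : p ∈ Ph
      · exact Finset.mem_union_left _ (Finset.mem_filter.2 ⟨h, hp.2⟩)
      · exact Finset.mem_union_right _ (Finset.mem_sdiff.2 ⟨hp.1, h⟩)
    refine (Finset.sum_le_sum_of_subset_of_nonneg h2 fun p _ _ => hμ0 p).trans ?_
    have h4 := Finset.sum_union_inter (s₁ := Ph.filter (fun p => G p t)) (s₂ := Pp \ Ph) (f := μ)
    have h5 : 0 ≤ ∑ p ∈ Ph.filter (fun p => G p t) ∩ (Pp \ Ph), μ p := Finset.sum_nonneg fun p _ => hμ0 p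
    linarith
  have h3 : ∑ t ∈ S2, lam t ≤ 1 :=
    (Finset.sum_le_sum_of_subset_of_nonneg (Finset.subset_univ _) fun t _ _ => hl0 t).trans hl1
  calc ∑ t ∈ S2, lam t * ∑ p ∈ Pp with G p t, μ p
      ≤ ∑ t ∈ S2, (lam t * ∑ p ∈ Ph with G p t, μ p + lam t * ∑ p ∈ Pp \ Ph, μ p) := by
        refine Finset.sum_le_sum fun t _ => ?_
        rw [← mul_add]
        exact mul_le_mul_of_nonneg_left (h1 t) (hl0 t)
    _ = ∑ t ∈ S2, lam t * ∑ p ∈ Ph with G p t, μ p + (∑ t ∈ S2, lam t) * ∑ p ∈ Pp \ Ph, μ p := by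
        rw [Finset.sum_add_distrib, Finset.sum_mul]
    _ ≤ ∑ t ∈ S2, lam t * ∑ p ∈ Ph with G p t, μ p + 1 * ∑ p ∈ Pp \ Ph, μ p := by
        gcongr
    _ = _ := by rw [one_mul]


theorem rxc_gl_W_pos {b : RtBlk} (c : RxcPair b) {ρ q : ℝ} (hρ : 0 < ρ) {p : b.P} (hp : p ∈ c.Pp) :
    0 < c.W ρ q (c.strip ρ p) := by
  unfold RxcPair.W
  have h1 : (c.E ρ (c.strip ρ p)).Nonempty :=
    ⟨c.cU0 ρ p, Finset.mem_image.2 ⟨p, Finset.mem_filter.2 ⟨hp, rfl⟩, rfl⟩⟩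
  have h2 : (0 : ℝ) < ((c.E ρ (c.strip ρ p)).card : ℝ) := by exact_mod_cast Finset.card_pos.2 h1
  exact mul_pos (Real.rpow_pos_of_pos hρ _) h2

theorem rxc_gl_W_nonneg {b : RtBlk} (c : RxcPair b) {ρ : ℝ} (q : ℝ) (hρ : 0 < ρ) (n : ℤ) : 0 ≤ c.W ρ q n :=
  mul_nonneg (Real.rpow_pos_of_pos hρ _).le (Nat.cast_nonneg _)

/-- the reference sum, unnormalised -/
theorem rxc_gl_ref_sum {b : RtBlk} (c : RxcPair b) (ρ q : ℝ) (n : ℤ) (S : b.P → Prop) :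
    ∑ p with S p, (if p ∈ c.Pp ∧ c.strip ρ p = n then b.μ p / c.W ρ q n else 0) =
      (∑ p ∈ c.Pp with c.strip ρ p = n ∧ S p, b.μ p) / c.W ρ q n := by
  rw [Finset.sum_div, ← Finset.sum_filter, Finset.filter_filter]
  refine Finset.sum_congr ?_ fun _ _ => rfl
  ext p
  simp only [Finset.mem_filter, Finset.mem_univ, true_and]
  tauto

theorem rxc_gl_frost {b : RtBlk} (c : RxcPair b) (ρ q x R : ℝ) (n : ℤ) (hρ : 0 < ρ) (hR : 0 ≤ R)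
    (hB : ∀ l₀ r : ℝ, ρ ≤ r → r ≤ 1 →
      ∑ p ∈ c.Pp with c.strip ρ p = n ∧ |c.L p - l₀| ≤ r, b.μ p ≤ R * r ^ x * c.W ρ q n) :
    KfFrost (fun p => if p ∈ c.Pp ∧ c.strip ρ p = n then b.μ p / c.W ρ q n else 0) c.L R x ρ := by
  intro z r hr hr1
  rw [rxc_gl_ref_sum c ρ q n (fun p => dist (c.L p) z ≤ r)]
  have hr0 : 0 < r := hρ.trans_le hr
  have h0 : 0 ≤ R * r ^ x := mul_nonneg hR (Real.rpow_pos_of_pos hr0 _).le
  rcases (rxc_gl_W_nonneg c q hρ n).eq_or_lt with hW | hW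
  · rw [← hW, div_zero]; exact h0
  · rw [div_le_iff₀ hW]
    simpa only [Real.dist_eq] using hB z r hr hr1

theorem rxc_gl_U {b : RtBlk} (c : RxcPair b) (ρ θ q A' Bx cst : ℝ) (hρ : 0 < ρ) (hμ0 : ∀ p, 0 ≤ b.μ p) (hA' : 2 ≤ A')
    (hcst : 0 ≤ cst) (n k : ℤ) (z : ℝ × ℝ)
    (hF : ∑ p ∈ c.Pp with c.strip ρ p = n ∧ rxcX b ρ p = k ∧ |c.L p - z.1| ≤ ρ ∧ |b.Zf c.t1 p - z.2| ≤ ρ, b.μ p ≤ Bx)
    (hB : Bx ≤ cst * θ) :
    ∑ p with (c.strip ρ p, rxcX b ρ p) = (n, k) ∧ dist ((c.L p, b.Zf c.t1 p) : ℝ × ℝ) z ≤ ρ,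
        (if p ∈ c.Ph ρ θ then b.μ p else 0) ≤
      cst * c.W ρ q n * ∑ p with dist (c.L p) z.1 ≤ A' * ρ,
        (if p ∈ c.Pp ∧ c.strip ρ p = n then b.μ p / c.W ρ q n else 0) := by
  rw [rxc_gl_ref_sum c ρ q n (fun p => dist (c.L p) z.1 ≤ A' * ρ)]
  have hW0 := rxc_gl_W_nonneg c q hρ n
  have hS0 : 0 ≤ ∑ p ∈ c.Pp with c.strip ρ p = n ∧ dist (c.L p) z.1 ≤ A' * ρ, b.μ p :=
    Finset.sum_nonneg fun p _ => hμ0 p
  by_cases hex : ∃ p, p ∈ c.Ph ρ θ ∧ (c.strip ρ p, rxcX b ρ p) = (n, k) ∧ dist ((c.L p, b.Zf c.t1 p) : ℝ × ℝ) z ≤ ρ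
  · obtain ⟨p₁, hp₁, hs₁, hd₁⟩ := hex
    have hp₁' := Finset.mem_filter.1 hp₁
    have hn₁ : c.strip ρ p₁ = n := (Prod.mk.inj hs₁).1
    have hW : 0 < c.W ρ q n := hn₁ ▸ rxc_gl_W_pos c hρ hp₁'.1
    have hL₁ : |c.L p₁ - z.1| ≤ ρ := by
      have := (max_le_iff.1 (by simpa only [Prod.dist_eq] using hd₁)).1
      simpa only [Real.dist_eq] using this
    -- left side
    have h1 : ∑ p with (c.strip ρ p, rxcX b ρ p) = (n, k) ∧ dist ((c.L p, b.Zf c.t1 p) : ℝ × ℝ) z ≤ ρ,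
        (if p ∈ c.Ph ρ θ then b.μ p else 0) ≤ Bx := by
      refine le_trans ?_ hF
      rw [← Finset.sum_filter, Finset.filter_filter]
      refine Finset.sum_le_sum_of_subset_of_nonneg ?_ fun p _ _ => hμ0 p
      intro p hp
      simp only [Finset.mem_filter, Finset.mem_univ, true_and] at hp
      obtain ⟨⟨hs, hd⟩, hph⟩ := hp
      have hd' := max_le_iff.1 (by simpa only [Prod.dist_eq] using hd)
      refine Finset.mem_filter.2 ⟨(Finset.mem_filter.1 hph).1, (Prod.mk.inj hs).1, (Prod.mk.inj hs).2, ?_, ?_⟩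
      · simpa only [Real.dist_eq] using hd'.1
      · simpa only [Real.dist_eq] using hd'.2
    -- the heavy cell
    have h2 : θ ≤ ∑ p ∈ c.Pp with c.strip ρ p = n ∧ dist (c.L p) z.1 ≤ A' * ρ, b.μ p := by
      refine hp₁'.2.trans (Finset.sum_le_sum_of_subset_of_nonneg ?_ fun p _ _ => hμ0 p)
      intro p hp
      rw [Finset.mem_filter] at hp ⊢
      refine ⟨hp.1, hp.2.1.trans hn₁, ?_⟩
      have h3 : |c.L p / ρ - c.L p₁ / ρ| < 1 := Int.abs_sub_lt_one_of_floor_eq_floor hp.2.2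
      have h4 : |c.L p - c.L p₁| < ρ := by
        rw [← sub_div, abs_div, abs_of_pos hρ, div_lt_one hρ] at h3
        exact h3
      rw [Real.dist_eq]
      have h5 : |c.L p - z.1| ≤ |c.L p - c.L p₁| + |c.L p₁ - z.1| := abs_sub_le _ _ _
      nlinarith
    calc _ ≤ Bx := h1
      _ ≤ cst * θ := hB
      _ ≤ cst * ∑ p ∈ c.Pp with c.strip ρ p = n ∧ dist (c.L p) z.1 ≤ A' * ρ, b.μ p :=
          mul_le_mul_of_nonneg_left h2 hcst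
      _ = _ := by field_simp
  · have h1 : ∑ p with (c.strip ρ p, rxcX b ρ p) = (n, k) ∧ dist ((c.L p, b.Zf c.t1 p) : ℝ × ℝ) z ≤ ρ,
        (if p ∈ c.Ph ρ θ then b.μ p else 0) = 0 := by
      refine Finset.sum_eq_zero fun p hp => ?_
      rw [Finset.mem_filter] at hp
      rw [if_neg]
      intro hph
      exact hex ⟨p, hph, hp.2.1, hp.2.2⟩
    rw [h1]
    exact mul_nonneg (mul_nonneg hcst hW0) (div_nonneg hS0 hW0)

theorem rxc_gl_num (Kt η : ℝ) (hKt : 1 ≤ Kt) (hη : 0 < η) :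
    ∃ ρ₁ : ℝ, 0 < ρ₁ ∧ ∀ ρ : ℝ, 0 < ρ → ρ < ρ₁ → Kt ≤ ρ ^ (-η) := by
  have hK0 : 0 < Kt := by linarith
  refine ⟨Kt ^ (-(1 / η)), Real.rpow_pos_of_pos hK0 _, fun ρ h0 h1 => ?_⟩
  have h2 : (Kt ^ (-(1 / η))) ^ (-η) ≤ ρ ^ (-η) := Real.rpow_le_rpow_of_nonpos h0 h1.le (by linarith)
  rw [← Real.rpow_mul hK0.le] at h2
  have h3 : -(1 / η) * -η = 1 := by field_simp
  rwa [h3, Real.rpow_one] at h2


/-! ## EXIT -/

set_option maxHeartbeats 1000000 in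
/-- **the shared core** -/
theorem rxc_core (A C₀ x q z γ : ℝ) (hA : 1 ≤ A) (hC₀ : 0 ≤ C₀) (hx : 0 < x) (hq0 : 0 ≤ q) (hz0 : 0 ≤ z) (hγ : 0 < γ)
    (hz : z < min 1 (x + γ)) :
    ∃ η ρ₁ : ℝ, 0 < η ∧ 0 < ρ₁ ∧ ∀ ρ : ℝ, 0 < ρ → ρ < ρ₁ → ∀ (s σ : ℝ) (b : RtBlk), b.Is3w ρ η A x q z s σ →
      ∀ (c : RxcPair b) (S2 : Finset b.Th), c.Ok C₀ ρ → ρ ^ η ≤ c.al →
        (∀ a₀ r' : ℝ, ρ ≤ r' → r' ≤ 1 → ∑ t ∈ S2 with |c.sl t - a₀| ≤ r', b.lam t ≤ ρ ^ (-η) * r' ^ γ) →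
        ρ ^ η ≤ ∑ t ∈ S2, b.lam t * ∑ p with b.G p c.t0 ∧ b.G p c.t1 ∧ b.G p t, b.μ p → False := by
  have hA3 : 1 ≤ A ^ 3 := one_le_pow₀ hA
  have hAA3 : A ≤ A ^ 3 := by nlinarith [mul_self_nonneg (A - 1), mul_pos (by linarith : (0:ℝ) < A) (by linarith : (0:ℝ) < A)]
  obtain ⟨χ, hχ, ρW, hρW, hW⟩ := Claimed.Agent.RW.w2_W1At x γ z (4 * A ^ 3) hx hγ hz0 hz (by linarith)
  obtain ⟨KA, hKA, hcount⟩ := rxc_count A C₀ hA hC₀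
  obtain ⟨KB, hKB, hfrost⟩ := rxc_ref_frost A C₀ x q z hA hC₀ hx.le
  obtain ⟨KC, hKC, hsm⟩ := rxc_slice_mass A x q z hA hx.le
  obtain ⟨KG, hKG, hcover⟩ := rxc_cover A hA
  have h2q : (1 : ℝ) ≤ 2 ^ q := Real.one_le_rpow (by norm_num) hq0
  obtain ⟨Kt, hKt⟩ : ∃ Kt : ℝ, Kt = 50 * KA * KB * KC * KG * 2 ^ q := ⟨_, rfl⟩
  have hKt50 : 50 ≤ Kt := by
    rw [hKt]
    calc (50 : ℝ) = 50 * 1 * 1 * 1 * 1 * 1 := by ring
      _ ≤ 50 * KA * KB * KC * KG * 2 ^ q := by gcongr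
  have hKtB : KB ≤ Kt := by
    rw [hKt]
    calc KB = 1 * 1 * KB * 1 * 1 * 1 := by ring
      _ ≤ 50 * KA * KB * KC * KG * 2 ^ q := by gcongr; norm_num
  have hKtG : KG ≤ Kt := by
    rw [hKt]
    calc KG = 1 * 1 * 1 * 1 * KG * 1 := by ring
      _ ≤ 50 * KA * KB * KC * KG * 2 ^ q := by gcongr; norm_num
  have hKtq : 2 ^ q ≤ Kt := by
    rw [hKt]
    calc (2 : ℝ) ^ q = 1 * 1 * 1 * 1 * 1 * 2 ^ q := by ring
      _ ≤ 50 * KA * KB * KC * KG * 2 ^ q := by gcongr; norm_num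
  have hKtAC : 6 * KA * KC ≤ Kt := by
    rw [hKt]
    calc 6 * KA * KC = 6 * KA * 1 * KC * 1 * 1 := by ring
      _ ≤ 50 * KA * KB * KC * KG * 2 ^ q := by gcongr; norm_num
  obtain ⟨η, hη⟩ : ∃ η : ℝ, η = χ / (8 * (1 + x)) := ⟨_, rfl⟩
  have hη0 : 0 < η := by rw [hη]; positivity
  have hχη : χ = η * (8 * (1 + x)) := by rw [hη]; field_simp
  obtain ⟨ρN, hρN, hnum⟩ := rxc_gl_num Kt η (by linarith) hη0
  refine ⟨η, min (min ρN ρW) (1 / 2), hη0, lt_min (lt_min hρN hρW) (by norm_num), ?_⟩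
  intro ρ hρ0 hρlt s σ b hb c S2 hOk hal hS2 hmass
  have hρN' : ρ < ρN := lt_of_lt_of_le hρlt ((min_le_left _ _).trans (min_le_left _ _))
  have hρW' : ρ < ρW := lt_of_lt_of_le hρlt ((min_le_left _ _).trans (min_le_right _ _))
  have hρ2 : ρ ≤ 1 / 2 := (lt_of_lt_of_le hρlt (min_le_right _ _)).le
  have hρ1 : ρ ≤ 1 := by linarith
  have hd : c.d.1 ^ 2 + c.d.2 ^ 2 = 1 := hOk.1
  -- the numbers
  obtain ⟨y, hy⟩ : ∃ y : ℝ, y = ρ ^ (-η) := ⟨_, rfl⟩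
  obtain ⟨R, hR⟩ : ∃ R : ℝ, R = ρ ^ (-χ) := ⟨_, rfl⟩
  have hyK : Kt ≤ y := hy ▸ hnum ρ hρ0 hρN'
  have hy1 : 1 ≤ y := by linarith
  have hy0 : 0 < y := by linarith
  have hρη : ρ ^ η = y⁻¹ := by rw [hy, Real.rpow_neg hρ0.le, inv_inv]
  have hRy : R = y ^ (8 * (1 + x)) := by
    rw [hR, hy, ← Real.rpow_mul hρ0.le, hχη]; congr 1; ring
  have hR8 : y ^ 8 ≤ R := by
    rw [hRy, ← Real.rpow_natCast]
    exact Real.rpow_le_rpow_of_exponent_le hy1 (by push_cast; nlinarith)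
  have hR2x : y ^ 2 * y ^ x ≤ R := by
    rw [hRy, ← Real.rpow_natCast, ← Real.rpow_add hy0]
    exact Real.rpow_le_rpow_of_exponent_le hy1 (by push_cast; nlinarith)
  have hR0 : 0 < R := by rw [hR]; exact Real.rpow_pos_of_pos hρ0 _
  have hpw : ∀ a : ℕ, a ≤ 8 → y ^ a ≤ R := fun a ha => (pow_le_pow_right₀ hy1 ha).trans hR8
  rw [← hy] at hS2
  rw [hρη] at hal hmass
  have hμ0 := hb.μ0
  have hl0 := hb.lam0
  obtain ⟨hbd1, hbd2, hbd3, -, -⟩ := rxc_bd c hd hA hb.toBase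
  have hρq : 0 < ρ ^ q := Real.rpow_pos_of_pos hρ0 _
  have hρx : 0 < ρ ^ x := Real.rpow_pos_of_pos hρ0 _
  have hρz : 0 < ρ ^ z := Real.rpow_pos_of_pos hρ0 _
  have hρnq : ρ ^ (-q) = (ρ ^ q)⁻¹ := Real.rpow_neg hρ0.le _
  have hρnx : ρ ^ (-x) = (ρ ^ x)⁻¹ := Real.rpow_neg hρ0.le _
  have hρnz : ρ ^ (-z) = (ρ ^ z)⁻¹ := Real.rpow_neg hρ0.le _
  obtain ⟨θ, hθ⟩ : ∃ θ : ℝ, θ = ρ ^ q * (y⁻¹) ^ 3 := ⟨_, rfl⟩
  have hθ0 : 0 < θ := by rw [hθ]; positivity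
  -- the leaves at this block
  have hA1 := hcount b ρ η x q z s σ hρ0 hρ1 hb c hOk
  have hB1 := hfrost b ρ η s σ hρ0 hρ1 hb c hOk
  have hC1 := hsm b ρ η s σ hρ0 hρ1 hb c
  have hD1 := rxc_countX hρ0 hρ1 hb c
  have hE1 := rxc_light hρ0 hρ1 hb c hd θ hθ0.le
  have hF1 := rxc_boxU hρ0 hρ2 hq0 hb c hd
  have hG1 := hcover b ρ η x q z s σ hρ0 hρ1 hb c hd
  rw [← hy] at hA1 hB1 hC1 hD1 hE1 hF1 hG1
  -- `al^(-x) ≤ y^x`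
  have halx : c.al ^ (-x) ≤ y ^ x := by
    have h1 : c.al ^ (-x) ≤ (y⁻¹) ^ (-x) := Real.rpow_le_rpow_of_nonpos (by positivity) hal (by linarith)
    rwa [Real.inv_rpow hy0.le, Real.rpow_neg hy0.le, inv_inv] at h1
  -- application of the slice test
  have key := rxc_slice (P := b.P) (T := b.Th) (S := ℤ × ℤ) x γ z (4 * A ^ 3) χ ρ hρ0 (hW ρ hρ0 hρW')
    (fun p => if p ∈ c.Ph ρ θ then b.μ p else 0) (fun t => if t ∈ S2 then b.lam t else 0)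
    c.L (b.Zf c.t1) (fun t => -(c.sl t - c.sl c.t1)) (fun p => (c.strip ρ p, rxcX b ρ p))
    (fun ζ => KC * y * ρ ^ x * c.W ρ q ζ.1)
    (fun ζ p => if p ∈ c.Pp ∧ c.strip ρ p = ζ.1 then b.μ p / c.W ρ q ζ.1 else 0)
    ((univ : Finset (b.P × b.Th)).filter (fun e => e.1 ∈ c.Ph ρ θ ∧ e.2 ∈ S2 ∧ b.G e.1 e.2))
    ⌊KG * y * ρ ^ (-z)⌋₊ ((c.Pp.image (c.strip ρ)) ×ˢ (c.Pp.image (rxcX b ρ))) (y⁻¹ / 2) (3 * KA * KC * y ^ 3)
    (fun p => by split_ifs; exacts [hμ0 p, le_rfl]) (fun t => by split_ifs; exacts [hl0 t, le_rfl])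
    ?_ (fun p => (hbd2 p).1) (fun p => (hbd1 c.t1 p).2.2) ?_ ?_ ?_ ?_ ?_ ?_ ?_ ?_ (by positivity) ?_ ?_ ?_
  · -- contradiction
    have h1 : ρ ^ (-z - χ) = (ρ ^ z)⁻¹ * R := by
      rw [hR, ← hρnz, ← Real.rpow_add hρ0]; congr 1
    have h2 : ((⌊KG * y * ρ ^ (-z)⌋₊ : ℕ) : ℝ) ≤ KG * y * ρ ^ (-z) := Nat.floor_le (by positivity)
    rw [h1] at key
    have h2' : KG * y * ρ ^ (-z) = (ρ ^ z)⁻¹ * (KG * y) := by rw [hρnz]; ring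
    have h3 : (ρ ^ z)⁻¹ * R ≤ (ρ ^ z)⁻¹ * (KG * y) := by linarith
    have h4 : R ≤ KG * y := le_of_mul_le_mul_left h3 (by positivity)
    have h5 : KG * y ≤ y ^ 2 := by rw [sq]; gcongr; linarith
    have h6 : y ^ 2 < y ^ 3 := pow_lt_pow_right₀ (by linarith) (by norm_num)
    have h7 := hpw 3 (by norm_num)
    linarith
  · -- `∑ ν ≤ 1`
    refine le_trans (Finset.sum_le_sum fun t _ => ?_) hb.lam1
    split_ifs; exacts [le_rfl, hl0 t]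
  · -- slopes bounded
    intro t
    have h1 := hbd3 t
    have h2 := hbd3 c.t1
    rw [abs_neg]
    have h3 : |c.sl t - c.sl c.t1| ≤ |c.sl t| + |c.sl c.t1| := abs_sub _ _
    linarith
  · -- slices
    intro e he
    have h1 : e.1 ∈ c.Pp := (Finset.mem_filter.1 (Finset.mem_filter.1 he).2.1).1
    exact Finset.mem_product.2 ⟨Finset.mem_image_of_mem _ h1, Finset.mem_image_of_mem _ h1⟩
  · -- mass of a slice
    intro ζ _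
    refine le_trans ?_ (hC1 ζ.1 ζ.2)
    rw [← Finset.sum_filter, Finset.filter_filter]
    refine Finset.sum_le_sum_of_subset_of_nonneg ?_ fun p _ _ => hμ0 p
    intro p hp
    simp only [Finset.mem_filter, Finset.mem_univ, true_and] at hp
    exact Finset.mem_filter.2 ⟨(Finset.mem_filter.1 hp.2).1, by rw [← hp.1], by rw [← hp.1]⟩
  · -- total reference weight
    rw [Finset.sum_product]
    simp only [Finset.sum_const, nsmul_eq_mul]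
    rw [← Finset.mul_sum, ← Finset.mul_sum]
    unfold RxcPair.W
    rw [← Finset.mul_sum]
    rw [hρnq] at hA1
    rw [hρnx] at hD1
    have hs0 : 0 ≤ ∑ n ∈ c.Pp.image (c.strip ρ), ((c.E ρ n).card : ℝ) := Finset.sum_nonneg fun _ _ => Nat.cast_nonneg _
    calc (((c.Pp.image (rxcX b ρ)).card : ℕ) : ℝ) * (KC * y * ρ ^ x * (ρ ^ q * ∑ n ∈ c.Pp.image (c.strip ρ), ((c.E ρ n).card : ℝ)))
        ≤ (3 * y * (ρ ^ x)⁻¹) * (KC * y * ρ ^ x * (ρ ^ q * (KA * y * (ρ ^ q)⁻¹))) := by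
          refine mul_le_mul hD1 ?_ (mul_nonneg (by positivity) (mul_nonneg hρq.le hs0)) (by positivity)
          exact mul_le_mul_of_nonneg_left (mul_le_mul_of_nonneg_left hA1 hρq.le) (by positivity)
      _ = 3 * KA * KC * y ^ 3 * ((ρ ^ x)⁻¹ * ρ ^ x) * (ρ ^ q * (ρ ^ q)⁻¹) := by ring
      _ = 3 * KA * KC * y ^ 3 := by rw [inv_mul_cancel₀ hρx.ne', mul_inv_cancel₀ hρq.ne', mul_one, mul_one]
  · -- reference nonneg
    intro ζ p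
    split_ifs
    · exact div_nonneg (hμ0 p) (rxc_gl_W_nonneg c q hρ0 _)
    · exact le_rfl
  · -- reference Frostman
    intro ζ _
    rw [← hR]
    refine rxc_gl_frost c ρ q x R ζ.1 hρ0 hR0.le fun l₀ r hr hr1 => (hB1 ζ.1 l₀ r hr hr1).trans ?_
    have hr0 : 0 < r ^ x := Real.rpow_pos_of_pos (hρ0.trans_le hr) _
    have hW0 := rxc_gl_W_nonneg c q hρ0 ζ.1
    have h1 : KB * y * c.al ^ (-x) ≤ R := by
      calc KB * y * c.al ^ (-x) ≤ y * y * y ^ x := by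
            have h0 : 0 ≤ c.al ^ (-x) := Real.rpow_nonneg hOk.2.1.le _
            have h2 : KB ≤ y := by linarith
            exact mul_le_mul (mul_le_mul_of_nonneg_right h2 hy0.le) halx h0 (by positivity)
        _ = y ^ 2 * y ^ x := by ring
        _ ≤ R := hR2x
    gcongr
  · -- (U)
    intro ζ _ w
    obtain ⟨n, k⟩ := ζ
    dsimp only
    have h1 := rxc_gl_U c ρ θ q (4 * A ^ 3) (2 ^ q * y * (ρ ^ x * ρ ^ q * ρ ^ z)) (ρ ^ (z - χ) * (KC * y * ρ ^ x)) hρ0 hμ0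
      (by linarith) (by positivity) n k w (hF1 n k w.1 w.2) ?_
    · convert h1 using 1
      · exact Finset.sum_congr (by ext p; simp only [Finset.mem_filter, Finset.mem_univ, true_and]) fun _ _ => rfl
      · ring
    · have h2 : ρ ^ (z - χ) = ρ ^ z * R := by rw [hR, ← Real.rpow_add hρ0]; congr 1
      rw [h2, hθ]
      have h3 : 2 ^ q * y ^ 3 ≤ R := by
        calc (2 : ℝ) ^ q * y ^ 3 ≤ y * y ^ 3 := by gcongr; linarith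
          _ = y ^ 4 := by ring
          _ ≤ R := hpw 4 (by norm_num)
      have h4 : 2 ^ q ≤ R * (y⁻¹) ^ 3 := by
        rw [inv_pow, ← div_eq_mul_inv, le_div_iff₀ (by positivity)]; exact h3
      calc 2 ^ q * y * (ρ ^ x * ρ ^ q * ρ ^ z) ≤ (R * (y⁻¹) ^ 3) * y * (ρ ^ x * ρ ^ q * ρ ^ z) := by gcongr
        _ = 1 * (ρ ^ z * R * (y * ρ ^ x) * (ρ ^ q * (y⁻¹) ^ 3)) := by ring
        _ ≤ KC * (ρ ^ z * R * (y * ρ ^ x) * (ρ ^ q * (y⁻¹) ^ 3)) := by gcongr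
        _ = _ := by ring
  · -- tags Frostman
    intro w r hr hr1
    rw [← hR, ← Finset.sum_filter, Finset.filter_filter]
    have h1 := hS2 (c.sl c.t1 - w) r hr hr1
    have hr0 : 0 < r ^ γ := Real.rpow_pos_of_pos (hρ0.trans_le hr) _
    have h2 : y * r ^ γ ≤ R * r ^ γ := by
      have := hpw 1 (by norm_num)
      rw [pow_one] at this
      gcongr
    refine le_trans (le_of_eq ?_) (h1.trans h2)
    refine Finset.sum_congr ?_ fun _ _ => rfl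
    ext t
    simp only [Finset.mem_filter, Finset.mem_univ, true_and, Real.dist_eq]
    have h3 : |-(c.sl t - c.sl c.t1) - w| = |c.sl t - (c.sl c.t1 - w)| := by
      rw [← abs_neg]; congr 1; ring
    rw [h3]
    tauto
  · -- graph mass
    rw [rxc_gl_graph]
    have h1 := rxc_gl_mass c.Pp (c.Ph ρ θ) (Finset.filter_subset _ _) S2 b.G b.μ b.lam hμ0 hl0 hb.lam1
    have h2 : ∑ t ∈ S2, b.lam t * ∑ p with b.G p c.t0 ∧ b.G p c.t1 ∧ b.G p t, b.μ p =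
        ∑ t ∈ S2, b.lam t * ∑ p ∈ c.Pp with b.G p t, b.μ p := by
      refine Finset.sum_congr rfl fun t _ => ?_
      congr 1
      unfold RxcPair.Pp
      rw [Finset.filter_filter]
      refine Finset.sum_congr ?_ fun _ _ => rfl
      ext p
      simp only [Finset.mem_filter, Finset.mem_univ, true_and, and_assoc]
    rw [h2] at hmass
    have h3 : 25 * y * ρ ^ (-q) * θ ≤ y⁻¹ / 2 := by
      rw [hθ, hρnq]
      have h4 : 25 * y * (ρ ^ q)⁻¹ * (ρ ^ q * (y⁻¹) ^ 3) = 25 * y⁻¹ * y⁻¹ := by field_simp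
      rw [h4]
      have h5 : y⁻¹ ≤ 1 / 50 := by
        rw [inv_le_comm₀ hy0 (by norm_num)]; norm_num; linarith
      have h6 : 0 < y⁻¹ := by positivity
      nlinarith
    linarith
  · -- `ρ^χ K₁ ≤ m`
    have h1 : ρ ^ χ = R⁻¹ := by rw [hR, Real.rpow_neg hρ0.le, inv_inv]
    rw [h1, inv_mul_le_iff₀ hR0, div_eq_mul_inv, ← mul_assoc]
    have h2 : 6 * KA * KC * y ^ 4 ≤ R := by
      calc 6 * KA * KC * y ^ 4 ≤ y * y ^ 4 := by gcongr; linarith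
        _ = y ^ 5 := by ring
        _ ≤ R := hpw 5 (by norm_num)
    have h3 : 3 * KA * KC * y ^ 3 = (6 * KA * KC * y ^ 4) * y⁻¹ * 2⁻¹ := by field_simp; ring
    rw [h3]
    gcongr
  · -- covers
    intro ζ _ t
    obtain ⟨cov, h1, h2⟩ := hG1 t ζ.1 ζ.2
    refine ⟨cov, Nat.le_floor h1, fun v hv => h2 v ?_⟩
    obtain ⟨p, hp, hs, rfl⟩ := hv
    exact ⟨p, (Finset.mem_filter.1 hp).2.2.2, by rw [← hs], by rw [← hs], rfl⟩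

end Claimed.Agent.R255
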