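-- KEEP
import Claimed.Agent.R255.Rate.Gr

/-!
# Row 255 (BR paper), Sec. 7, unit U5a: tied clocks, no strip, `z ≥ x + s` (T3n, steps 1-4).  DEFINITIONS      (architect helper92)

PAPER-FREE.  EXIT: `rxz_main` (`Rate/XzMain.lean`) = the statement of `Contracts.rt_test_xz_ns` from `RxzRp` (= the statement of `Contracts.rt_rp`) and `rxc_core` (`Rate/XzCore.lean`, helper236: steps 4-6).
Plan (origin/helper191:notes/S7/plan.md, section T3n).  Block `b.Is3 ρ η`, `θ_t = b.pos t = (c,r)`, `NoStrip`.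
 1. `rxz_quad`  : `wt(t0,t1) = ∑_{p ∈ G_t0 ∩ G_t1} μ p lam(G^p)`; `∑ lam lam wt = ∑_p μ lam(G^p)³ ≥ ρ^(6η)`  (Jensen).
 2. `RxzRp`     : a relation `𝒢` of pairs with `∑_𝒢 lam lam wt ≥ ρ^η'`, separated, thin cones of exponent `s - τ'/2`.
 3. BAD-K.  For a pair `(t0,t1)`, `Δ = θ₁ - θ₀`, the third labels are projected by `θ ↦ flip(Δ)·θ = Δ.2 θ.1 + Δ.1 θ.2`; normalised in one of two charts this is `rxzU Δ θ = kfProj (rxzSl Δ) (rxzPt _ θ)`, `|rxzSl Δ| ≤ 1`.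
    `rxzBad lam u r T` = labels whose centred `r`-interval (in the coordinate `u`) has mass `> T`;  `rxzGood` = not bad at all scales `2^j ρ`, `j ≤ J`, for `T = ρ^(-χ') r^(s-τ')`.
    * `rxz_bad_cover` : the bad labels are covered by `3/T` intervals of length `r`;   * `rxz_good_frost` : on the good labels `u` is Frostman `s - τ'`;
    * `rxz_badK` (`ex_K` at the scale `r`) : the graph {(label, tag) : label bad for the tag} has mass `< r^ηK`;   * thin cones ⟹ the slopes of the tags are Frostman (`rxz_thin_slope`, `rxz_tag_frost`);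
    * `rxz_bad_mass` : sum over the scales and the two charts.
 4. `rxz_pair` : a pair `(t0,t1) ∈ 𝒢` whose GOOD third labels carry triple mass `≥ ρ^η'/4`.  `rxz_zeta_frost` : the slope `flip(d)·θ` of `rxc_core` is Frostman on the good labels.
-/

set_option autoImplicit false

namespace Claimed.Agent.R255

open Finset Classical
open Claimed.Agent.RW (KfFrost KfCov kfProj)

/-- the statement of `Contracts.rt_rp` (unit U4, helper69) -/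
def RxzRp : Prop :=
  ∀ (A s τ η' : ℝ), 1 ≤ A → 0 < s → s ≤ 1 → 0 < τ → 0 < η' →
    ∃ t₀ : ℝ, 0 < t₀ ∧ t₀ ≤ 1 ∧ ∀ κ₀ : ℝ, 0 < κ₀ → ∃ η ρ₁ : ℝ, 0 < η ∧ 0 < ρ₁ ∧ ∀ ρ : ℝ, 0 < ρ → ρ < ρ₁ →
      ∀ (ι : Type) [Fintype ι] (lam : ι → ℝ) (pos : ι → ℝ × ℝ) (wt : ι → ι → ℝ),
        (∀ i, 0 ≤ lam i) → ∑ i, lam i ≤ 1 → (∀ i, |(pos i).1| ≤ A ∧ |(pos i).2| ≤ A) →
        RtTreeHer lam pos (ρ ^ (-η)) s ρ → RtNoStrip lam pos (ρ ^ t₀) (ρ ^ κ₀) →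
        (∀ i j, 0 ≤ wt i j ∧ wt i j ≤ 1) → ρ ^ η ≤ ∑ i, ∑ j, lam i * lam j * wt i j →
        ∃ 𝒢 : ι → ι → Prop, ρ ^ η' ≤ ∑ i, ∑ j with 𝒢 i j, lam i * lam j * wt i j ∧
          (∀ i j, 𝒢 i j → ρ ^ η' ≤ dist (pos i) (pos j)) ∧ RtThin lam pos 𝒢 (ρ ^ (-η')) (s - τ) ρ

/-- the density of the pair measure: `∑_{p ∈ G_i ∩ G_j} μ p lam(G^p)` -/
noncomputable def rxzWt (b : RtBlk) (i j : b.Th) : ℝ :=
  ∑ p with b.G p i ∧ b.G p j, b.μ p * ∑ k with b.G p k, b.lam k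

/-- points whose centred `r`-interval (in the coordinate `u`) has mass `> T` -/
noncomputable def rxzBad {ι : Type} [Fintype ι] (w u : ι → ℝ) (r T : ℝ) : Finset ι :=
  univ.filter fun i => T < ∑ i' with |u i' - u i| ≤ r, w i'

/-- points which are not bad at any scale `2^j ρ`, `j ≤ J`, for the threshold `C r^γ` -/
noncomputable def rxzGood {ι : Type} [Fintype ι] (w u : ι → ℝ) (ρ C γ : ℝ) (J : ℕ) : Finset ι :=
  univ.filter fun i => ∀ j, j ≤ J → i ∉ rxzBad w u (2 ^ j * ρ) (C * (2 ^ j * ρ) ^ γ)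

/-- first chart: `|Δ.2| ≤ |Δ.1|` -/
def rxzCh (Δ : ℝ × ℝ) : Prop := |Δ.2| ≤ |Δ.1|

/-- slope of the functional `θ ↦ Δ.2 θ.1 + Δ.1 θ.2` in its chart -/
noncomputable def rxzSl (Δ : ℝ × ℝ) : ℝ := if rxzCh Δ then -(Δ.2 / Δ.1) else -(Δ.1 / Δ.2)

/-- the chart map (identity in the first chart, swap in the second) -/
noncomputable def rxzPt (ch : Prop) (θ : ℝ × ℝ) : ℝ × ℝ := if ch then θ else θ.swap

/-- the normalised functional: `θ.2 + (Δ.2/Δ.1) θ.1` in the first chart, `θ.1 + (Δ.1/Δ.2) θ.2` in the second -/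
noncomputable def rxzU (Δ θ : ℝ × ℝ) : ℝ := kfProj (rxzSl Δ) (rxzPt (rxzCh Δ) θ)

/-- the weights of the tags (= pairs of `𝒢`) of the chart `ch` -/
noncomputable def rxzNu {ι : Type} (lam : ι → ℝ) (pos : ι → ℝ × ℝ) (𝒢 : ι → ι → Prop) (ch : Prop) (b : ι × ι) : ℝ :=
  if 𝒢 b.1 b.2 ∧ (rxzCh (pos b.2 - pos b.1) ↔ ch) then lam b.1 * lam b.2 else 0

/-- the conclusion of BAD-K at one scale `r` -/
def RxzKAt (A s τ' ηK r : ℝ) : Prop :=
  ∀ (ι T : Type) [Fintype ι] [Fintype T] (lam : ι → ℝ) (pt : ι → ℝ × ℝ) (ν sl : T → ℝ) (Th : ℝ),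
    (∀ i, 0 ≤ lam i) → ∑ i, lam i ≤ 1 → (∀ b, 0 ≤ ν b) → ∑ b, ν b ≤ 1 →
    (∀ i, |(pt i).1| ≤ A ∧ |(pt i).2| ≤ A) → (∀ b, |sl b| ≤ A) →
    KfFrost lam pt (r ^ (-ηK)) s r → KfFrost ν sl (r ^ (-ηK)) (s - τ' / 2) r → 3 * r ^ (s - τ') ≤ Th →
    ∑ b, ν b * ∑ i ∈ rxzBad lam (fun i => kfProj (sl b) (pt i)) r Th, lam i < r ^ ηK

end Claimed.Agent.R255
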