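-- KEEP
import Claimed.Agent.R255.Rate.XzDefs

/-!
# Row 255, Sec. 7, unit U5a, file 2: bad and good labels (abstract, one real coordinate `u`), and BAD-K (`ex_K`)      (architect helper92)
PAPER-FREE, Mathlib + `RW/ExDefs` (`ex_K`, `ExTest`, `KfFrost`, `KfCov`, `kfProj`) + `Rate/XzDefs`.  Statements are FROZEN (ask helper92).
-/

set_option autoImplicit false

namespace Claimed.Agent.R255

open Finset Classical
open Claimed.Agent.RW (KfFrost KfCov kfProj ExTest ex_K)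

/-! ## LEAF L-RXZ-COVER -/

/-- **(BAD)** the bad points are covered by `3/T` intervals of length `r`.
Cells `κ i = ⌊u i / r⌋`.  `Kb` = image of `rxzBad` under `κ`, `cov` = image of `Kb` under `k ↦ k r` (`k r ≤ u i ≤ k r + r`).
If `k = κ i`, `i` bad, then `|u i' - u i| ≤ r` forces `κ i' ∈ {k-1,k,k+1}`, so `T < ∑_{i' : |κ i' - k| ≤ 1} w i'`.
Sum over `k ∈ Kb`: `|Kb| T ≤ ∑_{i'} w i' #{k : |κ i' - k| ≤ 1} ≤ 3 ∑ w ≤ 3`. -/
theorem rxz_bad_cover {ι : Type} [Fintype ι] (w u : ι → ℝ) (hw : ∀ i, 0 ≤ w i) (h1 : ∑ i, w i ≤ 1) (r T : ℝ) (hr : 0 < r)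
    (hT : 0 < T) :
    ∃ cov : Finset ℝ, (cov.card : ℝ) ≤ 3 / T ∧ KfCov cov r {v | ∃ i, i ∈ rxzBad w u r T ∧ v = u i} := by
  obtain ⟨κ, hκ⟩ : ∃ κ : ι → ℤ, κ = fun i => ⌊u i / r⌋ := ⟨_, rfl⟩
  have hκ1 : ∀ i, (κ i : ℝ) * r ≤ u i := by
    intro i
    have := Int.floor_le (u i / r)
    rw [hκ]
    rwa [le_div_iff₀ hr] at this
  have hκ2 : ∀ i, u i < ((κ i : ℝ) + 1) * r := by
    intro i
    have := Int.lt_floor_add_one (u i / r)
    rw [hκ]
    rwa [div_lt_iff₀ hr] at this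
  obtain ⟨Kb, hKb⟩ : ∃ Kb : Finset ℤ, Kb = (rxzBad w u r T).image κ := ⟨_, rfl⟩
  refine ⟨Kb.image (fun k : ℤ => (k : ℝ) * r), ?_, ?_⟩
  · have hnear : ∀ i i', |u i' - u i| ≤ r → κ i' ∈ Finset.Icc (κ i - 1) (κ i + 1) := by
      intro i i' h
      rw [abs_le] at h
      rw [Finset.mem_Icc]
      constructor
      · -- κ i - 1 ≤ κ i'
        by_contra hc
        have hc' : κ i' + 1 ≤ κ i - 1 := by omega
        have hc'' : ((κ i' : ℝ) + 1) ≤ (κ i : ℝ) - 1 := by exact_mod_cast hc'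
        have a1 := hκ2 i'
        have a2 := hκ1 i
        have : ((κ i' : ℝ) + 1) * r ≤ ((κ i : ℝ) - 1) * r := mul_le_mul_of_nonneg_right hc'' hr.le
        nlinarith
      · by_contra hc
        have hc' : κ i + 1 + 1 ≤ κ i' := by omega
        have hc'' : ((κ i : ℝ) + 1 + 1) ≤ (κ i' : ℝ) := by exact_mod_cast hc'
        have a1 := hκ2 i
        have a2 := hκ1 i'
        have : ((κ i : ℝ) + 1 + 1) * r ≤ (κ i' : ℝ) * r := mul_le_mul_of_nonneg_right hc'' hr.le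
        nlinarith
    have hk : ∀ k ∈ Kb, T ≤ ∑ i', if k ∈ Finset.Icc (κ i' - 1) (κ i' + 1) then w i' else 0 := by
      intro k hk
      rw [hKb, Finset.mem_image] at hk
      obtain ⟨i, hi, rfl⟩ := hk
      have hi' : T < ∑ i' with |u i' - u i| ≤ r, w i' := by
        unfold rxzBad at hi
        simpa using hi
      refine hi'.le.trans ?_
      rw [Finset.sum_filter]
      refine Finset.sum_le_sum fun i' _ => ?_
      by_cases h : |u i' - u i| ≤ r
      · have := hnear i i' h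
        rw [Finset.mem_Icc] at this
        have h2 : κ i ∈ Finset.Icc (κ i' - 1) (κ i' + 1) := by
          rw [Finset.mem_Icc]; constructor <;> omega
        rw [if_pos h, if_pos h2]
      · rw [if_neg h]
        split_ifs
        · exact hw i'
        · exact le_rfl
    have hsum : (Kb.card : ℝ) * T ≤ 3 := by
      calc (Kb.card : ℝ) * T = ∑ k ∈ Kb, T := by rw [Finset.sum_const, nsmul_eq_mul]
        _ ≤ ∑ k ∈ Kb, ∑ i', (if k ∈ Finset.Icc (κ i' - 1) (κ i' + 1) then w i' else 0) := Finset.sum_le_sum hk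
        _ = ∑ i', ∑ k ∈ Kb, (if k ∈ Finset.Icc (κ i' - 1) (κ i' + 1) then w i' else 0) := Finset.sum_comm
        _ ≤ ∑ i', 3 * w i' := by
            refine Finset.sum_le_sum fun i' _ => ?_
            rw [← Finset.sum_filter, Finset.sum_const, nsmul_eq_mul]
            refine mul_le_mul_of_nonneg_right ?_ (hw i')
            have : (Kb.filter fun k => k ∈ Finset.Icc (κ i' - 1) (κ i' + 1)).card ≤ (Finset.Icc (κ i' - 1) (κ i' + 1)).card := by
              refine Finset.card_le_card fun k hk => ?_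
              rw [Finset.mem_filter] at hk
              exact hk.2
            have h3 : (Finset.Icc (κ i' - 1) (κ i' + 1)).card = 3 := by
              rw [Int.card_Icc]
              have : κ i' + 1 + 1 - (κ i' - 1) = 3 := by ring
              rw [this]; rfl
            rw [h3] at this
            exact_mod_cast this
        _ = 3 * ∑ i', w i' := by rw [Finset.mul_sum]
        _ ≤ 3 := by linarith
    rw [le_div_iff₀ hT]
    refine le_trans (mul_le_mul_of_nonneg_right ?_ hT.le) hsum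
    exact_mod_cast Finset.card_image_le
  · intro t ht
    obtain ⟨i, hi, rfl⟩ := ht
    refine ⟨(κ i : ℝ) * r, ?_, hκ1 i, ?_⟩
    · rw [Finset.mem_image]
      exact ⟨κ i, by rw [hKb]; exact Finset.mem_image_of_mem _ hi, rfl⟩
    · have := hκ2 i
      nlinarith

/-! ## LEAF L-RXZ-GOOD -/

/-- on the good points the coordinate `u` is Frostman `γ`.
If no good `i` has `|u i - y| ≤ r` the sum is empty.  Otherwise fix such an `i₀`; let `j` be the least natural number with `2 r ≤ 2^j ρ` (`j ≤ J` by `hrJ`, `j ≥ 1` because `ρ ≤ r`), so `2^j ρ < 4 r`.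
The sum is `≤ ∑_{i : |u i - u i₀| ≤ 2^j ρ} w i ≤ C (2^j ρ)^γ ≤ C (4 r)^γ` since `i₀` is not bad at the scale `2^j ρ`. -/
theorem rxz_good_frost {ι : Type} [Fintype ι] (w u : ι → ℝ) (hw : ∀ i, 0 ≤ w i) (ρ C γ : ℝ) (J : ℕ) (hρ : 0 < ρ) (hC : 0 ≤ C)
    (hγ : 0 ≤ γ) (y r : ℝ) (hr : ρ ≤ r) (hrJ : 2 * r ≤ 2 ^ J * ρ) :
    ∑ i ∈ rxzGood w u ρ C γ J with |u i - y| ≤ r, w i ≤ C * (4 * r) ^ γ := by
  have hr0 : 0 < r := lt_of_lt_of_le hρ hr
  by_cases hne : ((rxzGood w u ρ C γ J).filter fun i => |u i - y| ≤ r).Nonempty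
  · obtain ⟨i₀, hi₀⟩ := hne
    rw [Finset.mem_filter] at hi₀
    obtain ⟨hg, hy⟩ := hi₀
    have hex : ∃ j : ℕ, 2 * r ≤ 2 ^ j * ρ := ⟨J, hrJ⟩
    obtain ⟨j, hj⟩ : ∃ j, j = Nat.find hex := ⟨_, rfl⟩
    have hj1 : 2 * r ≤ 2 ^ j * ρ := by rw [hj]; exact Nat.find_spec hex
    have hjJ : j ≤ J := by rw [hj]; exact Nat.find_min' hex hrJ
    have hj0 : j ≠ 0 := by
      intro h0
      rw [h0] at hj1
      simp at hj1
      linarith
    obtain ⟨j', rfl⟩ : ∃ j', j = j' + 1 := ⟨j - 1, by omega⟩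
    have hj2 : ¬ (2 * r ≤ 2 ^ j' * ρ) := by
      refine Nat.find_min hex ?_
      omega
    have hj3 : 2 ^ (j' + 1) * ρ < 4 * r := by
      rw [pow_succ]
      push Not at hj2
      linarith
    have hgood : i₀ ∉ rxzBad w u (2 ^ (j' + 1) * ρ) (C * (2 ^ (j' + 1) * ρ) ^ γ) := by
      unfold rxzGood at hg
      rw [Finset.mem_filter] at hg
      exact hg.2 _ hjJ
    have hgood' : ∑ i' with |u i' - u i₀| ≤ 2 ^ (j' + 1) * ρ, w i' ≤ C * (2 ^ (j' + 1) * ρ) ^ γ := by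
      unfold rxzBad at hgood
      simpa using hgood
    have hpos : (0:ℝ) < 2 ^ (j' + 1) * ρ := by positivity
    calc ∑ i ∈ rxzGood w u ρ C γ J with |u i - y| ≤ r, w i
        ≤ ∑ i' with |u i' - u i₀| ≤ 2 ^ (j' + 1) * ρ, w i' := by
          refine Finset.sum_le_sum_of_subset_of_nonneg ?_ (fun i _ _ => hw i)
          intro i hi
          rw [Finset.mem_filter] at hi
          rw [Finset.mem_filter]
          refine ⟨Finset.mem_univ _, ?_⟩
          have h1 := hi.2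
          have : u i - u i₀ = (u i - y) - (u i₀ - y) := by ring
          rw [this]
          refine (abs_sub _ _).trans ?_
          linarith
      _ ≤ C * (2 ^ (j' + 1) * ρ) ^ γ := hgood'
      _ ≤ C * (4 * r) ^ γ := by
          refine mul_le_mul_of_nonneg_left ?_ hC
          exact Real.rpow_le_rpow hpos.le hj3.le hγ
  · rw [Finset.not_nonempty_iff_eq_empty] at hne
    rw [hne, Finset.sum_empty]
    positivity

/-- the complement of the good set is the union of the bad sets -/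
theorem rxz_good_compl {ι : Type} [Fintype ι] (w u : ι → ℝ) (hw : ∀ i, 0 ≤ w i) (ρ C γ : ℝ) (J : ℕ) :
    ∑ i ∈ (rxzGood w u ρ C γ J)ᶜ, w i ≤ ∑ j ∈ range (J + 1), ∑ i ∈ rxzBad w u (2 ^ j * ρ) (C * (2 ^ j * ρ) ^ γ), w i := by
  have e1 : ∑ i ∈ (rxzGood w u ρ C γ J)ᶜ, w i = ∑ i, if i ∈ (rxzGood w u ρ C γ J)ᶜ then w i else 0 := by
    rw [Finset.sum_ite_mem, Finset.univ_inter]
  have e2 : ∀ j, ∑ i ∈ rxzBad w u (2 ^ j * ρ) (C * (2 ^ j * ρ) ^ γ), w i
      = ∑ i, if i ∈ rxzBad w u (2 ^ j * ρ) (C * (2 ^ j * ρ) ^ γ) then w i else 0 := by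
    intro j
    rw [Finset.sum_ite_mem, Finset.univ_inter]
  rw [e1, Finset.sum_congr rfl (fun j _ => e2 j), Finset.sum_comm]
  refine Finset.sum_le_sum fun i _ => ?_
  have hnn : ∀ j ∈ range (J + 1), 0 ≤ (if i ∈ rxzBad w u (2 ^ j * ρ) (C * (2 ^ j * ρ) ^ γ) then w i else 0) := by
    intro j _
    split_ifs
    · exact hw i
    · exact le_rfl
  by_cases hi : i ∈ (rxzGood w u ρ C γ J)ᶜ
  · rw [if_pos hi]
    rw [Finset.mem_compl] at hi
    unfold rxzGood at hi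
    rw [Finset.mem_filter] at hi
    push Not at hi
    obtain ⟨j, hj, hb⟩ := hi (Finset.mem_univ _)
    have := Finset.single_le_sum hnn (Finset.mem_range.2 (Nat.lt_succ_of_le hj))
    rwa [if_pos hb] at this
  · rw [if_neg hi]
    exact Finset.sum_nonneg hnn

/-- nothing is bad if the threshold is at least the total mass -/
theorem rxz_bad_empty {ι : Type} [Fintype ι] (w u : ι → ℝ) (hw : ∀ i, 0 ≤ w i) (h1 : ∑ i, w i ≤ 1) (r T : ℝ) (hT : 1 ≤ T) :
    rxzBad w u r T = ∅ := by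
  unfold rxzBad
  rw [Finset.filter_eq_empty_iff]
  intro i _
  push Not
  refine le_trans ?_ (h1.trans hT)
  exact Finset.sum_le_sum_of_subset_of_nonneg (Finset.filter_subset _ _) (fun i _ _ => hw i)

/-! ## LEAF L-RXZ-BADK -/

/-- **BAD-K**.  `ηK, ρ₁` from `ex_K (d := s) (s := s - τ'/2) (α := τ'/4) A`, `ρK = min ρ₁ 1`.
Suppose `r^ηK ≤ ∑_b ν b lam(Bad_b)`.  Graph `G = {(i,b) : i ∈ Bad_b}`, `Bad_b = rxzBad lam (kfProj (sl b) ∘ pt) r Th`, `M = ⌊3/Th⌋₊`, coverings from `rxz_bad_cover` (`Nat.le_floor`).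
`ex_K`: `r^(-(s-τ'/2)+τ'/4) ≤ M ≤ 3/Th ≤ r^(-(s-τ'))`: false because `r < 1` and `-(s-τ') > -(s-τ'/2)+τ'/4`. -/
theorem rxz_badK (A s τ' : ℝ) (hA : 1 ≤ A) (hs : 0 < s) (hτ : 0 < τ') (hτs : τ' < s) :
    ∃ ηK ρK : ℝ, 0 < ηK ∧ 0 < ρK ∧ ρK ≤ 1 ∧ ∀ r : ℝ, 0 < r → r < ρK → RxzKAt A s τ' ηK r := by
  obtain ⟨η, hη, ρ₁, hρ₁, h⟩ := ex_K s (s - τ' / 2) (τ' / 4) A hs.le (by linarith) (by linarith) hA
  refine ⟨η, min ρ₁ 1, hη, lt_min hρ₁ one_pos, min_le_right _ _, fun r hr0 hr1 => ?_⟩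
  intro ι T _ _ lam pt ν sl Th hlam hlam1 hν hν1 hpt hsl hF1 hF2 hTh
  by_contra hc
  push Not at hc
  have hrp : 0 < r ^ (s - τ') := Real.rpow_pos_of_pos hr0 _
  have hTh0 : 0 < Th := lt_of_lt_of_le (by positivity) hTh
  obtain ⟨G, hG⟩ : ∃ G : Finset (ι × T),
      G = univ.filter (fun p : ι × T => p.1 ∈ rxzBad lam (fun i => kfProj (sl p.2) (pt i)) r Th) := ⟨_, rfl⟩
  have hcov : ∀ b, ∃ cov : Finset ℝ, (cov.card : ℝ) ≤ 3 / Th ∧
      KfCov cov r {v | ∃ i, i ∈ rxzBad lam (fun i => kfProj (sl b) (pt i)) r Th ∧ v = kfProj (sl b) (pt i)} :=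
    fun b => rxz_bad_cover lam _ hlam hlam1 r Th hr0 hTh0
  choose cov hcov1 hcov2 using hcov
  have hT : ExTest r η A (s - τ' / 2) lam ν pt sl G ⌊3 / Th⌋₊ := by
    refine ⟨hlam, hν, hlam1, hν1, hpt, hsl, hF2, ?_, cov, fun b => Nat.le_floor (hcov1 b), fun b => ?_⟩
    · refine hc.trans (le_of_eq ?_)
      rw [hG, Finset.sum_filter, ← Finset.univ_product_univ, Finset.sum_product_right]
      refine Finset.sum_congr rfl fun b _ => ?_
      rw [Finset.mul_sum, ← Finset.sum_filter]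
      refine Finset.sum_congr ?_ fun i _ => ?_
      · ext i
        simp only [Finset.mem_filter, Finset.mem_univ, true_and]
      · ring
    · intro t ht
      obtain ⟨x, hx, rfl⟩ := ht
      refine hcov2 b _ ⟨x, ?_, rfl⟩
      rw [hG, Finset.mem_filter] at hx
      exact hx.2
  have key := h r hr0 (lt_of_lt_of_le hr1 (min_le_left _ _)) ι T lam ν pt sl G _ hT hF1
  rw [min_eq_right (by linarith)] at key
  have h2 : ((⌊3 / Th⌋₊ : ℕ) : ℝ) ≤ 3 / Th := Nat.floor_le (by positivity)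
  have h3 : 3 / Th ≤ r ^ (-(s - τ')) := by
    rw [Real.rpow_neg hr0.le, div_le_iff₀ hTh0, ← div_eq_inv_mul, le_div_iff₀ hrp]
    exact hTh
  have h4 : r ^ (-(s - τ')) < r ^ (-(s - τ' / 2) + τ' / 4) :=
    Real.rpow_lt_rpow_of_exponent_gt hr0 (lt_of_lt_of_le hr1 (min_le_right _ _)) (by linarith)
  linarith

end Claimed.Agent.R255
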