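-- KEEP
import Claimed.Agent.R255.Rate.XzBad

/-!
# Row 255, Sec. 7, unit U5a, file 3: charts, thin cones ⟹ Frostman slopes, the slope `flip(d)·θ` on the good labels      (architect helper92)
PAPER-FREE, Mathlib + `Rate/Gr` (`RtThin`, `ip`, `nrm`) + `Rate/XzDefs`.  Statements are FROZEN (ask helper92).
`ip u v = u.1 v.1 + u.2 v.2`, `nrm φ = (- sin φ, cos φ)`; `dist` on `ℝ × ℝ` is the sup distance (`Prod.dist_eq`, `Real.dist_eq`).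
-/

set_option autoImplicit false

namespace Claimed.Agent.R255

open Finset Classical
open Claimed.Agent.RW (KfFrost KfCov kfProj)

/-! ## LEAF L-RXZ-THIN -/

/-- every unit vector is a normal `nrm φ`  (e.g. `φ = Complex.arg ⟨v, -u⟩`, `Complex.cos_arg`, `Complex.sin_arg`; or `Real.arccos`) -/
theorem rxz_nrm_exists (u v : ℝ) (h : u ^ 2 + v ^ 2 = 1) : ∃ φ : ℝ, nrm φ = (u, v) := by
  obtain ⟨z, hz⟩ : ∃ z : ℂ, z = ⟨v, -u⟩ := ⟨_, rfl⟩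
  have hn2 : ‖z‖ ^ 2 = 1 := by
    rw [Complex.sq_norm, Complex.normSq_apply, hz]
    simp only
    nlinarith
  have hn : ‖z‖ = 1 := by
    have h0 := norm_nonneg z
    nlinarith
  have hz0 : z ≠ 0 := by
    intro h0
    rw [h0, norm_zero] at hn
    exact zero_ne_one hn
  refine ⟨Complex.arg z, ?_⟩
  unfold nrm
  rw [Complex.cos_arg hz0, Complex.sin_arg, hn, hz]
  simp

theorem rxz_sl_le (Δ : ℝ × ℝ) : |rxzSl Δ| ≤ 1 := by
  unfold rxzSl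
  split_ifs with h
  · rw [abs_neg, abs_div]
    exact div_le_one_of_le₀ h (abs_nonneg _)
  · rw [abs_neg, abs_div]
    unfold rxzCh at h
    exact div_le_one_of_le₀ (not_le.1 h).le (abs_nonneg _)

/-- the unit normal `(p, q)/√(p² + q²)` with `p² + q² ≥ 1` -/
theorem rxz_thin_normal (p q : ℝ) (h : 1 ≤ p ^ 2 + q ^ 2) :
    ∃ φ : ℝ, ∀ Δ : ℝ × ℝ, |ip Δ (nrm φ)| ≤ |Δ.1 * p + Δ.2 * q| := by
  obtain ⟨N, hN⟩ : ∃ N : ℝ, N = Real.sqrt (p ^ 2 + q ^ 2) := ⟨_, rfl⟩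
  have hN1 : 1 ≤ N := by
    rw [hN]
    exact Real.one_le_sqrt.2 h
  have hN0 : 0 < N := by linarith
  have hN2 : N ^ 2 = p ^ 2 + q ^ 2 := by
    rw [hN]
    exact Real.sq_sqrt (by linarith)
  obtain ⟨φ, hφ⟩ := rxz_nrm_exists (p / N) (q / N) (by
    rw [div_pow, div_pow, ← add_div, hN2]
    exact div_self (by linarith))
  refine ⟨φ, fun Δ => ?_⟩
  rw [hφ]
  unfold ip
  have e : Δ.1 * (p / N, q / N).1 + Δ.2 * (p / N, q / N).2 = (Δ.1 * p + Δ.2 * q) / N := by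
    simp only
    ring
  rw [e, abs_div, abs_of_pos hN0]
  exact div_le_self (abs_nonneg _) hN1

/-- thin cones from the pin `i₀` ⟹ the slopes of the chart `ch` are Frostman.
`Δ = pos i - pos i₀ ≠ 0`.  Chart 1 (`ch` true): `Δ.1 ≠ 0`, `|-(Δ.2/Δ.1) - y| ≤ w` gives `|y Δ.1 + Δ.2| ≤ w |Δ.1|`; `nrm φ = (y,1)/√(1+y²)`: `|ip Δ (nrm φ)| ≤ |y Δ.1 + Δ.2| ≤ w |Δ.1| ≤ w dist (pos i) (pos i₀)`.
Chart 2: `nrm φ = (1,y)/√(1+y²)`, `|Δ.1 + y Δ.2| ≤ w |Δ.2|`.  Then `hthin i₀ φ w` and monotonicity of the sum. -/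
theorem rxz_thin_slope {ι : Type} [Fintype ι] (lam : ι → ℝ) (pos : ι → ℝ × ℝ) (𝒢 : ι → ι → Prop) (C t ρ : ℝ)
    (hl : ∀ i, 0 ≤ lam i) (hthin : RtThin lam pos 𝒢 C t ρ) (hsep : ∀ i j, 𝒢 i j → pos i ≠ pos j) (ch : Prop) (i₀ : ι)
    (y w : ℝ) (hw : ρ ≤ w) (hw1 : w ≤ 1) :
    ∑ i with 𝒢 i₀ i ∧ (rxzCh (pos i - pos i₀) ↔ ch) ∧ |rxzSl (pos i - pos i₀) - y| ≤ w, lam i ≤ C * w ^ t := by
  have hdist : ∀ i, |(pos i - pos i₀).1| ≤ dist (pos i) (pos i₀) ∧ |(pos i - pos i₀).2| ≤ dist (pos i) (pos i₀) := by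
    intro i
    rw [Prod.dist_eq, Real.dist_eq, Real.dist_eq]
    exact ⟨le_max_left _ _, le_max_right _ _⟩
  have hne : ∀ i, 𝒢 i₀ i → pos i - pos i₀ ≠ 0 := fun i hi h0 => hsep i₀ i hi (sub_eq_zero.1 h0).symm
  have key : ∃ φ : ℝ, ∀ i, 𝒢 i₀ i → (rxzCh (pos i - pos i₀) ↔ ch) → |rxzSl (pos i - pos i₀) - y| ≤ w →
      |ip (pos i - pos i₀) (nrm φ)| ≤ w * dist (pos i) (pos i₀) := by
    by_cases hch : ch
    · obtain ⟨φ, hφ⟩ := rxz_thin_normal y 1 (by nlinarith [sq_nonneg y])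
      refine ⟨φ, fun i hG hc hs => (hφ _).trans ?_⟩
      obtain ⟨Δ, hΔ⟩ : ∃ Δ, Δ = pos i - pos i₀ := ⟨_, rfl⟩
      have h0 := hne i hG
      have hd := (hdist i).1
      rw [← hΔ] at hc hs h0 hd ⊢
      have hc1 : rxzCh Δ := hc.2 hch
      have hw0 : 0 ≤ w := (abs_nonneg _).trans hs
      have h1 : Δ.1 ≠ 0 := by
        intro h1
        unfold rxzCh at hc1
        rw [h1, abs_zero] at hc1
        have h2 : Δ.2 = 0 := abs_eq_zero.1 (le_antisymm hc1 (abs_nonneg _))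
        exact h0 (Prod.ext h1 h2)
      unfold rxzSl at hs
      rw [if_pos hc1] at hs
      have e : Δ.1 * y + Δ.2 * 1 = -((-(Δ.2 / Δ.1) - y) * Δ.1) := by
        field_simp
        ring
      rw [e, abs_neg, abs_mul]
      exact mul_le_mul hs hd (abs_nonneg _) hw0
    · obtain ⟨φ, hφ⟩ := rxz_thin_normal 1 y (by nlinarith [sq_nonneg y])
      refine ⟨φ, fun i hG hc hs => (hφ _).trans ?_⟩
      obtain ⟨Δ, hΔ⟩ : ∃ Δ, Δ = pos i - pos i₀ := ⟨_, rfl⟩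
      have hd := (hdist i).2
      rw [← hΔ] at hc hs hd ⊢
      have hc1 : ¬ rxzCh Δ := fun h => hch (hc.1 h)
      have hw0 : 0 ≤ w := (abs_nonneg _).trans hs
      have h2 : Δ.2 ≠ 0 := by
        intro h2
        apply hc1
        unfold rxzCh
        rw [h2, abs_zero]
        exact abs_nonneg _
      unfold rxzSl at hs
      rw [if_neg hc1] at hs
      have e : Δ.1 * 1 + Δ.2 * y = -((-(Δ.1 / Δ.2) - y) * Δ.2) := by
        field_simp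
        ring
      rw [e, abs_neg, abs_mul]
      exact mul_le_mul hs hd (abs_nonneg _) hw0
  obtain ⟨φ, hφ⟩ := key
  refine le_trans (Finset.sum_le_sum_of_subset_of_nonneg ?_ fun i _ _ => hl i) (hthin i₀ φ w hw hw1)
  intro i hi
  rw [Finset.mem_filter] at hi ⊢
  exact ⟨hi.1, hi.2.1, hφ i hi.2.1 hi.2.2.1 hi.2.2.2⟩

/-! ## LEAF L-RXZ-TAG -/

theorem rxz_nu_nonneg {ι : Type} (lam : ι → ℝ) (pos : ι → ℝ × ℝ) (𝒢 : ι → ι → Prop) (ch : Prop) (hl : ∀ i, 0 ≤ lam i)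
    (b : ι × ι) : 0 ≤ rxzNu lam pos 𝒢 ch b := by
  unfold rxzNu
  split_ifs
  · exact mul_nonneg (hl _) (hl _)
  · exact le_rfl

theorem rxz_nu_sum {ι : Type} [Fintype ι] (lam : ι → ℝ) (pos : ι → ℝ × ℝ) (𝒢 : ι → ι → Prop) (ch : Prop) (hl : ∀ i, 0 ≤ lam i)
    (h1 : ∑ i, lam i ≤ 1) : ∑ b, rxzNu lam pos 𝒢 ch b ≤ 1 := by
  have h0 : 0 ≤ ∑ i, lam i := Finset.sum_nonneg fun i _ => hl i
  calc ∑ b, rxzNu lam pos 𝒢 ch b ≤ ∑ b : ι × ι, lam b.1 * lam b.2 := by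
        refine Finset.sum_le_sum fun b _ => ?_
        unfold rxzNu
        split_ifs
        · exact le_rfl
        · exact mul_nonneg (hl _) (hl _)
    _ = (∑ i, lam i) * ∑ i, lam i := by
        rw [Fintype.sum_prod_type, Finset.sum_mul_sum]
    _ ≤ 1 := by nlinarith

/-- the slopes of the tags of one chart are Frostman: `∑_{i₀} lam i₀ (rxz_thin_slope at the pin i₀) ≤ C w^t`  (`Fintype.sum_prod_type`, `Finset.sum_filter`) -/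
theorem rxz_tag_frost {ι : Type} [Fintype ι] (lam : ι → ℝ) (pos : ι → ℝ × ℝ) (𝒢 : ι → ι → Prop) (C t ρ : ℝ) (hρ : 0 < ρ)
    (hC : 0 ≤ C) (hl : ∀ i, 0 ≤ lam i) (h1 : ∑ i, lam i ≤ 1) (hthin : RtThin lam pos 𝒢 C t ρ)
    (hsep : ∀ i j, 𝒢 i j → pos i ≠ pos j) (ch : Prop) :
    KfFrost (rxzNu lam pos 𝒢 ch) (fun b : ι × ι => rxzSl (pos b.2 - pos b.1)) C t ρ := by
  intro z r hr hr1
  have hr0 : 0 < r := lt_of_lt_of_le hρ hr
  have hCr : 0 ≤ C * r ^ t := mul_nonneg hC (Real.rpow_nonneg hr0.le t)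
  rw [Finset.sum_filter, Fintype.sum_prod_type]
  calc ∑ i₀, ∑ i, (if dist (rxzSl (pos (i₀, i).2 - pos (i₀, i).1)) z ≤ r then rxzNu lam pos 𝒢 ch (i₀, i) else 0)
      = ∑ i₀, lam i₀ * ∑ i with 𝒢 i₀ i ∧ (rxzCh (pos i - pos i₀) ↔ ch) ∧ |rxzSl (pos i - pos i₀) - z| ≤ r, lam i := by
        refine Finset.sum_congr rfl fun i₀ _ => ?_
        rw [Finset.sum_filter, Finset.mul_sum]
        refine Finset.sum_congr rfl fun i _ => ?_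
        simp only [rxzNu, Real.dist_eq]
        by_cases hd : |rxzSl (pos i - pos i₀) - z| ≤ r
        · by_cases hg : 𝒢 i₀ i ∧ (rxzCh (pos i - pos i₀) ↔ ch)
          · rw [if_pos hd, if_pos hg, if_pos ⟨hg.1, hg.2, hd⟩]
          · rw [if_pos hd, if_neg hg, if_neg (fun h => hg ⟨h.1, h.2.1⟩), mul_zero]
        · rw [if_neg hd, if_neg (fun h => hd h.2.2), mul_zero]
    _ ≤ ∑ i₀, lam i₀ * (C * r ^ t) :=
        Finset.sum_le_sum fun i₀ _ => mul_le_mul_of_nonneg_left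
          (rxz_thin_slope lam pos 𝒢 C t ρ hl hthin hsep ch i₀ z r hr hr1) (hl i₀)
    _ = (∑ i₀, lam i₀) * (C * r ^ t) := by rw [Finset.sum_mul]
    _ ≤ 1 * (C * r ^ t) := mul_le_mul_of_nonneg_right h1 hCr
    _ = C * r ^ t := one_mul _

/-- a sum over the pairs of `𝒢` splits into the two charts -/
theorem rxz_nu_split {ι : Type} [Fintype ι] (lam : ι → ℝ) (pos : ι → ℝ × ℝ) (𝒢 : ι → ι → Prop) (F : ι × ι → ℝ) :
    ∑ i, ∑ j with 𝒢 i j, lam i * lam j * F (i, j) =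
      ∑ b, rxzNu lam pos 𝒢 True b * F b + ∑ b, rxzNu lam pos 𝒢 False b * F b := by
  rw [← Finset.sum_add_distrib, Fintype.sum_prod_type]
  refine Finset.sum_congr rfl fun i _ => ?_
  rw [Finset.sum_filter]
  refine Finset.sum_congr rfl fun j _ => ?_
  simp only [rxzNu, iff_true, iff_false]
  by_cases hg : 𝒢 i j
  · by_cases hc : rxzCh (pos j - pos i)
    · rw [if_pos hg, if_pos ⟨hg, hc⟩, if_neg (fun h => h.2 hc)]
      ring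
    · rw [if_pos hg, if_neg (fun h => hc h.2), if_pos ⟨hg, hc⟩]
      ring
  · rw [if_neg hg, if_neg (fun h => hg h.1), if_neg (fun h => hg h.1)]
    ring

/-! ## LEAF L-RXZ-ZETA -/

/-- `flip(Δ)·θ = κ · rxzU Δ θ`, `κ = Δ.1` (first chart, `Δ.1 ≠ 0`) or `Δ.2` (second chart) -/
theorem rxz_U_eq (Δ : ℝ × ℝ) (hΔ : Δ ≠ 0) :
    ∃ κ : ℝ, |κ| = max |Δ.1| |Δ.2| ∧ ∀ θ : ℝ × ℝ, Δ.2 * θ.1 + Δ.1 * θ.2 = κ * rxzU Δ θ := by
  by_cases h : rxzCh Δ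
  · have h' : |Δ.2| ≤ |Δ.1| := h
    have h1 : Δ.1 ≠ 0 := by
      intro h0
      rw [h0, abs_zero] at h'
      exact hΔ (Prod.ext h0 (abs_eq_zero.1 (le_antisymm h' (abs_nonneg _))))
    refine ⟨Δ.1, (max_eq_left h').symm, fun θ => ?_⟩
    show Δ.2 * θ.1 + Δ.1 * θ.2 = Δ.1 * ((if rxzCh Δ then θ else θ.swap).2
      - (if rxzCh Δ then -(Δ.2 / Δ.1) else -(Δ.1 / Δ.2)) * (if rxzCh Δ then θ else θ.swap).1)
    rw [if_pos h, if_pos h]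
    field_simp
    ring
  · have h' : |Δ.1| < |Δ.2| := not_le.1 h
    have h2 : Δ.2 ≠ 0 := by
      intro h0
      rw [h0, abs_zero] at h'
      exact absurd h' (not_lt.2 (abs_nonneg _))
    refine ⟨Δ.2, (max_eq_right h'.le).symm, fun θ => ?_⟩
    show Δ.2 * θ.1 + Δ.1 * θ.2 = Δ.2 * ((if rxzCh Δ then θ else θ.swap).2
      - (if rxzCh Δ then -(Δ.2 / Δ.1) else -(Δ.1 / Δ.2)) * (if rxzCh Δ then θ else θ.swap).1)
    rw [if_neg h, if_neg h]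
    show Δ.2 * θ.1 + Δ.1 * θ.2 = Δ.2 * (θ.1 - -(Δ.1 / Δ.2) * θ.2)
    field_simp
    ring

/-- the slope `flip(d)·θ`, `d = Δ/n`, `n = |Δ|₂`, is Frostman on the good labels.
`κ' = κ/n` (`rxz_U_eq`) has `1/2 ≤ |κ'|` (`n² ≤ 2 max²`); `|κ' u - a₀| ≤ r ⟹ |u - a₀/κ'| ≤ 2 r`; `rxz_good_frost` with the radius `2 r` (`2 (2 r) ≤ 4 ≤ 2^J ρ`). -/
theorem rxz_zeta_frost {ι : Type} [Fintype ι] (lam : ι → ℝ) (pos : ι → ℝ × ℝ) (hl : ∀ i, 0 ≤ lam i) (Δ : ℝ × ℝ) (hΔ : Δ ≠ 0)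
    (n : ℝ) (hn : n = Real.sqrt (Δ.1 ^ 2 + Δ.2 ^ 2)) (ρ C γ : ℝ) (J : ℕ) (hρ : 0 < ρ) (hC : 0 ≤ C) (hγ : 0 ≤ γ)
    (hJ : 4 ≤ 2 ^ J * ρ) (a₀ r : ℝ) (hr : ρ ≤ r) (hr1 : r ≤ 1) :
    ∑ k ∈ rxzGood lam (fun k => rxzU Δ (pos k)) ρ C γ J with |Δ.2 / n * (pos k).1 + Δ.1 / n * (pos k).2 - a₀| ≤ r, lam k
      ≤ C * (8 * r) ^ γ := by
  obtain ⟨κ, hκ, hU⟩ := rxz_U_eq Δ hΔ
  have hsq : 0 < Δ.1 ^ 2 + Δ.2 ^ 2 := by
    by_contra hc
    have h1 : Δ.1 ^ 2 + Δ.2 ^ 2 = 0 := le_antisymm (not_lt.1 hc) (by positivity)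
    have h2 : Δ.1 = 0 := by nlinarith [sq_nonneg Δ.1, sq_nonneg Δ.2]
    have h3 : Δ.2 = 0 := by nlinarith [sq_nonneg Δ.1, sq_nonneg Δ.2]
    exact hΔ (Prod.ext h2 h3)
  have hn0 : 0 < n := hn ▸ Real.sqrt_pos.2 hsq
  have hn2 : n ^ 2 = Δ.1 ^ 2 + Δ.2 ^ 2 := by rw [hn, Real.sq_sqrt hsq.le]
  have hk1 : Δ.1 ^ 2 ≤ κ ^ 2 := by
    rw [← sq_abs Δ.1, ← sq_abs κ, hκ]
    exact pow_le_pow_left₀ (abs_nonneg _) (le_max_left _ _) 2
  have hk2 : Δ.2 ^ 2 ≤ κ ^ 2 := by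
    rw [← sq_abs Δ.2, ← sq_abs κ, hκ]
    exact pow_le_pow_left₀ (abs_nonneg _) (le_max_right _ _) 2
  have hκn : n ≤ 2 * |κ| := by
    refine abs_le_of_sq_le_sq' ?_ (by positivity) |>.2
    rw [mul_pow, sq_abs]
    nlinarith
  have hκ0 : 0 < |κ| := by linarith
  have hκne : κ ≠ 0 := abs_pos.1 hκ0
  have hr0 : 0 < r := lt_of_lt_of_le hρ hr
  have hgf := rxz_good_frost lam (fun k => rxzU Δ (pos k)) hl ρ C γ J hρ hC hγ (a₀ * n / κ) (2 * r)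
    (by linarith) (by linarith)
  have e8 : 4 * (2 * r) = 8 * r := by ring
  rw [e8] at hgf
  refine le_trans ?_ hgf
  refine Finset.sum_le_sum_of_subset_of_nonneg (fun k hk => ?_) fun k _ _ => hl k
  rw [Finset.mem_filter] at hk ⊢
  refine ⟨hk.1, ?_⟩
  have h1 : Δ.2 / n * (pos k).1 + Δ.1 / n * (pos k).2 - a₀ = κ / n * (rxzU Δ (pos k) - a₀ * n / κ) := by
    have := hU (pos k)
    field_simp
    linarith
  have h2 := hk.2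
  rw [h1, abs_mul, abs_div, abs_of_pos hn0] at h2
  have h3 : |rxzU Δ (pos k) - a₀ * n / κ| * |κ| ≤ r * n := by
    rw [div_mul_eq_mul_div, div_le_iff₀ hn0] at h2
    linarith
  have h4 : 0 ≤ |rxzU Δ (pos k) - a₀ * n / κ| := abs_nonneg _
  show |rxzU Δ (pos k) - a₀ * n / κ| ≤ 2 * r
  by_contra hc
  have hc' := not_le.1 hc
  nlinarith

end Claimed.Agent.R255
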