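-- KEEP
import Claimed.Agent.R255.Rate.XzSlope

/-!
# Row 255, Sec. 7, unit U5a, file 4: masses (quadruples, bad quadruples, choice of the pair)      (architect helper92)
PAPER-FREE, Mathlib + `Rate/Gr` + `Rate/XzDefs`, `XzBad`, `XzSlope` (black boxes).  Statements are FROZEN (ask helper92).
-/

set_option autoImplicit false

namespace Claimed.Agent.R255

open Finset Classical
open Claimed.Agent.RW (KfFrost KfCov kfProj)

/-! ## LEAF L-RXZ-QUAD -/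

/-- Jensen for the cube, sub-probability weights.  E.g. Cauchy-Schwarz twice: `(∑ μ g)² ≤ (∑ μ)(∑ μ g²)`, `(∑ μ g²)² ≤ (∑ μ g)(∑ μ g³)`;
or `Real.pow_arith_mean_le_arith_mean_pow` / `inner_le_Lp_mul_Lq` after normalisation. -/
theorem rxz_jensen3 {P : Type} [Fintype P] (μ g : P → ℝ) (hμ : ∀ p, 0 ≤ μ p) (hg : ∀ p, 0 ≤ g p) (h1 : ∑ p, μ p ≤ 1) :
    (∑ p, μ p * g p) ^ 3 ≤ ∑ p, μ p * g p ^ 3 := by
  -- tangent line inequality: `g³ ≥ 3 m² g - 2 m³` for `g, m ≥ 0`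
  obtain ⟨m, hm⟩ : ∃ m : ℝ, m = ∑ p, μ p * g p := ⟨_, rfl⟩
  have hm0 : 0 ≤ m := by rw [hm]; exact Finset.sum_nonneg fun p _ => mul_nonneg (hμ p) (hg p)
  have key : ∀ p, μ p * (3 * m ^ 2 * g p - 2 * m ^ 3) ≤ μ p * g p ^ 3 := by
    intro p
    refine mul_le_mul_of_nonneg_left ?_ (hμ p)
    have : 0 ≤ (g p - m) ^ 2 * (g p + 2 * m) := mul_nonneg (sq_nonneg _) (by linarith [hg p])
    nlinarith
  have h2 : ∑ p, μ p * (3 * m ^ 2 * g p - 2 * m ^ 3) = 3 * m ^ 2 * m - 2 * m ^ 3 * ∑ p, μ p := by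
    rw [hm, Finset.mul_sum, Finset.mul_sum, ← Finset.sum_sub_distrib]
    exact Finset.sum_congr rfl fun p _ => by ring
  have h3 := Finset.sum_le_sum fun p (_ : p ∈ univ) => key p
  rw [h2] at h3
  rw [← hm]
  have h4 : 2 * m ^ 3 * ∑ p, μ p ≤ 2 * m ^ 3 * 1 := mul_le_mul_of_nonneg_left h1 (by positivity)
  nlinarith

theorem rxz_wt_bd {b : RtBlk} {ρ η A s σ : ℝ} (hb : b.Base ρ η A s σ) (i j : b.Th) : 0 ≤ rxzWt b i j ∧ rxzWt b i j ≤ 1 := by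
  have hg0 : ∀ p, 0 ≤ ∑ k with b.G p k, b.lam k := fun p => Finset.sum_nonneg fun k _ => hb.lam0 k
  have hg1 : ∀ p, ∑ k with b.G p k, b.lam k ≤ 1 := fun p =>
    (Finset.sum_le_sum_of_subset_of_nonneg (Finset.filter_subset _ _) fun k _ _ => hb.lam0 k).trans hb.lam1
  refine ⟨Finset.sum_nonneg fun p _ => mul_nonneg (hb.μ0 p) (hg0 p), ?_⟩
  unfold rxzWt
  calc ∑ p with b.G p i ∧ b.G p j, b.μ p * ∑ k with b.G p k, b.lam k
      ≤ ∑ p with b.G p i ∧ b.G p j, b.μ p := Finset.sum_le_sum fun p _ => by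
        calc b.μ p * ∑ k with b.G p k, b.lam k ≤ b.μ p * 1 := mul_le_mul_of_nonneg_left (hg1 p) (hb.μ0 p)
          _ = b.μ p := mul_one _
    _ ≤ ∑ p, b.μ p := Finset.sum_le_sum_of_subset_of_nonneg (Finset.filter_subset _ _) fun p _ _ => hb.μ0 p
    _ ≤ 1 := hb.μ1

/-- exchange of the sums -/
theorem rxz_wt_swap (b : RtBlk) (i j : b.Th) :
    rxzWt b i j = ∑ k, b.lam k * ∑ p with b.G p i ∧ b.G p j ∧ b.G p k, b.μ p := by
  unfold rxzWt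
  have e1 : ∀ p, (if b.G p i ∧ b.G p j then b.μ p * ∑ k with b.G p k, b.lam k else 0) =
      ∑ k, b.lam k * (if b.G p i ∧ b.G p j ∧ b.G p k then b.μ p else 0) := by
    intro p
    rw [Finset.sum_filter, Finset.mul_sum]
    by_cases h : b.G p i ∧ b.G p j
    · rw [if_pos h]
      refine Finset.sum_congr rfl fun k _ => ?_
      by_cases h3 : b.G p k <;> simp [h.1, h.2, h3, mul_comm]
    · rw [if_neg h]
      symm
      refine Finset.sum_eq_zero fun k _ => ?_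
      rw [if_neg (fun h' => h ⟨h'.1, h'.2.1⟩), mul_zero]
  rw [Finset.sum_filter, Finset.sum_congr rfl fun p _ => e1 p, Finset.sum_comm]
  refine Finset.sum_congr rfl fun k _ => ?_
  rw [Finset.sum_filter, Finset.mul_sum]

/-- **step 1**.  `g p = ∑_{k : G p k} lam k`.  `∑_i ∑_j lam i lam j wt i j = ∑_p μ p (g p)³` (exchange of sums);  `∑_p μ p g p = ∑_t lam t μ(G_t) ≥ ∑_t lam t ρ^η ≥ ρ^(2η)`
(`nbr` for `lam t > 0`, both sides vanish for `lam t = 0`; `mass`);  `rxz_jensen3`. -/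
theorem rxz_quad {b : RtBlk} {ρ η A s σ : ℝ} (h0 : 0 < ρ) (hb : b.Base ρ η A s σ) :
    ρ ^ (6 * η) ≤ ∑ i, ∑ j, b.lam i * b.lam j * rxzWt b i j := by
  obtain ⟨g, hg⟩ : ∃ g : b.P → ℝ, g = fun p => ∑ k with b.G p k, b.lam k := ⟨_, rfl⟩
  have hg0 : ∀ p, 0 ≤ g p := fun p => by rw [hg]; exact Finset.sum_nonneg fun k _ => hb.lam0 k
  have hgi : ∀ p, g p = ∑ k, if b.G p k then b.lam k else 0 := fun p => by rw [hg]; exact Finset.sum_filter _ _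
  -- the left side is `∑ μ g³`
  have e1 : ∑ i, ∑ j, b.lam i * b.lam j * rxzWt b i j = ∑ p, b.μ p * g p ^ 3 := by
    have e2 : ∀ i j, b.lam i * b.lam j * rxzWt b i j =
        ∑ p, b.μ p * g p * ((if b.G p i then b.lam i else 0) * (if b.G p j then b.lam j else 0)) := by
      intro i j
      unfold rxzWt
      rw [Finset.sum_filter, Finset.mul_sum]
      refine Finset.sum_congr rfl fun p _ => ?_
      have : ∑ k with b.G p k, b.lam k = g p := by rw [hg]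
      rw [this]
      by_cases h1 : b.G p i <;> by_cases h2 : b.G p j <;> simp [h1, h2]
      ring
    simp only [e2]
    calc ∑ i, ∑ j, ∑ p, b.μ p * g p * ((if b.G p i then b.lam i else 0) * (if b.G p j then b.lam j else 0))
        = ∑ i, ∑ p, ∑ j, b.μ p * g p * ((if b.G p i then b.lam i else 0) * (if b.G p j then b.lam j else 0)) :=
          Finset.sum_congr rfl fun i _ => Finset.sum_comm
      _ = ∑ p, ∑ i, ∑ j, b.μ p * g p * ((if b.G p i then b.lam i else 0) * (if b.G p j then b.lam j else 0)) :=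
          Finset.sum_comm
      _ = ∑ p, b.μ p * g p ^ 3 := by
          refine Finset.sum_congr rfl fun p _ => ?_
          have : ∑ i, ∑ j, b.μ p * g p * ((if b.G p i then b.lam i else 0) * (if b.G p j then b.lam j else 0))
              = b.μ p * g p * ((∑ i, if b.G p i then b.lam i else 0) * ∑ j, if b.G p j then b.lam j else 0) := by
            rw [Finset.sum_mul_sum, Finset.mul_sum]
            refine Finset.sum_congr rfl fun i _ => ?_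
            rw [Finset.mul_sum]
          rw [this, ← hgi p]
          ring
  -- `∑ μ g ≥ ρ^(2η)`
  have e3 : ∑ p, b.μ p * g p = ∑ t, b.lam t * ∑ p with b.G p t, b.μ p := by
    simp only [hgi, Finset.sum_filter, Finset.mul_sum]
    rw [Finset.sum_comm]
    refine Finset.sum_congr rfl fun t _ => Finset.sum_congr rfl fun p _ => ?_
    by_cases h : b.G p t <;> simp [h, mul_comm]
  have hp : 0 < ρ ^ η := Real.rpow_pos_of_pos h0 _
  have e4 : ρ ^ η * ρ ^ η ≤ ∑ p, b.μ p * g p := by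
    rw [e3]
    calc ρ ^ η * ρ ^ η ≤ (∑ t, b.lam t) * ρ ^ η := mul_le_mul_of_nonneg_right hb.mass hp.le
      _ = ∑ t, b.lam t * ρ ^ η := Finset.sum_mul _ _ _
      _ ≤ ∑ t, b.lam t * ∑ p with b.G p t, b.μ p := by
          refine Finset.sum_le_sum fun t _ => ?_
          rcases (hb.lam0 t).eq_or_lt with h | h
          · rw [← h]; simp
          · exact mul_le_mul_of_nonneg_left (hb.nbr t h) h.le
  rw [e1]
  refine le_trans ?_ (rxz_jensen3 b.μ g hb.μ0 hg0 hb.μ1)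
  have e5 : ρ ^ (6 * η) = (ρ ^ η * ρ ^ η) ^ 3 := by
    rw [← Real.rpow_add h0, ← Real.rpow_natCast, ← Real.rpow_mul h0.le]
    congr 1
    push_cast
    ring
  rw [e5]
  exact pow_le_pow_left₀ (by positivity) e4 3

/-! ## LEAF L-RXZ-SCALE -/

/-- the sup metric does not see the swap -/
theorem rxz_frost_pt {ι : Type} [Fintype ι] (lam : ι → ℝ) (pos : ι → ℝ × ℝ) (C s ρ : ℝ) (h : KfFrost lam pos C s ρ) (ch : Prop) :
    KfFrost lam (fun i => rxzPt ch (pos i)) C s ρ := by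
  intro z r hr hr1
  by_cases hch : ch
  · simp only [rxzPt, if_pos hch]
    exact h z r hr hr1
  · simp only [rxzPt, if_neg hch]
    have e : ∀ i, dist (pos i).swap z = dist (pos i) z.swap := fun i => by
      rw [Prod.dist_eq, Prod.dist_eq, max_comm]
      rfl
    simp only [e]
    exact h z.swap r hr hr1

/-- a Frostman bound at the scale `ρ` is a Frostman bound at every scale `r ≥ ρ`, with any larger constant -/
theorem rxz_frost_scale {ι Y : Type} [Fintype ι] [PseudoMetricSpace Y] (w : ι → ℝ) (pos : ι → Y) (C C' e ρ r : ℝ) (hρ : 0 < ρ)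
    (hr : ρ ≤ r) (hC : C ≤ C') (h : KfFrost w pos C e ρ) : KfFrost w pos C' e r := by
  intro z r' hr' hr1
  refine (h z r' (hr.trans hr') hr1).trans ?_
  exact mul_le_mul_of_nonneg_right hC (Real.rpow_nonneg (hρ.le.trans (hr.trans hr')) _)

/-- **BAD-K for the pairs of one chart, one scale**.  `RxzKAt` with `T = ι × ι`, `ν = rxzNu … ch`, `sl b = rxzSl (pos b.2 - pos b.1)`, `pt i = rxzPt ch (pos i)`:
for a tag with `ν b ≠ 0` the chart of `b` is `ch` (`propext`), so `rxzU (pos b.2 - pos b.1) (pos k) = kfProj (sl b) (pt k)`; for `ν b = 0` both terms vanish.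
Hypotheses of `RxzKAt`: `rxz_nu_nonneg`, `rxz_nu_sum`, `rxz_sl_le` (`1 ≤ A`), `rxz_frost_pt`, `rxz_frost_scale`, `rxz_tag_frost`. -/
theorem rxz_bad_scale {A s τ' ηK r ρ Cf Ct Th : ℝ} (hA : 1 ≤ A) (hK : RxzKAt A s τ' ηK r) (hρ : 0 < ρ) (hr : ρ ≤ r)
    (hCf : Cf ≤ r ^ (-ηK)) (hCt0 : 0 ≤ Ct) (hCt : Ct ≤ r ^ (-ηK)) (hTh : 3 * r ^ (s - τ') ≤ Th)
    {ι : Type} [Fintype ι] (lam : ι → ℝ) (pos : ι → ℝ × ℝ) (𝒢 : ι → ι → Prop)
    (hl : ∀ i, 0 ≤ lam i) (h1 : ∑ i, lam i ≤ 1) (hpos : ∀ i, |(pos i).1| ≤ A ∧ |(pos i).2| ≤ A)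
    (hF : KfFrost lam pos Cf s ρ) (hthin : RtThin lam pos 𝒢 Ct (s - τ' / 2) ρ) (hsep : ∀ i j, 𝒢 i j → pos i ≠ pos j) (ch : Prop) :
    ∑ b, rxzNu lam pos 𝒢 ch b * ∑ k ∈ rxzBad lam (fun k => rxzU (pos b.2 - pos b.1) (pos k)) r Th, lam k < r ^ ηK := by
  have key := hK ι (ι × ι) lam (fun i => rxzPt ch (pos i)) (rxzNu lam pos 𝒢 ch)
    (fun b => rxzSl (pos b.2 - pos b.1)) Th hl h1 (rxz_nu_nonneg lam pos 𝒢 ch hl) (rxz_nu_sum lam pos 𝒢 ch hl h1)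
    (fun i => by
      by_cases hch : ch
      · simp only [rxzPt, if_pos hch]
        exact hpos i
      · simp only [rxzPt, if_neg hch]
        exact ⟨(hpos i).2, (hpos i).1⟩)
    (fun b => (rxz_sl_le _).trans hA)
    (rxz_frost_scale _ _ _ _ _ _ _ hρ hr hCf (rxz_frost_pt lam pos Cf s ρ hF ch))
    (rxz_frost_scale _ _ _ _ _ _ _ hρ hr hCt (rxz_tag_frost lam pos 𝒢 Ct (s - τ' / 2) ρ hρ hCt0 hl h1 hthin hsep ch))
    hTh
  refine lt_of_le_of_lt (le_of_eq ?_) key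
  refine Finset.sum_congr rfl fun b _ => ?_
  by_cases hb : 𝒢 b.1 b.2 ∧ (rxzCh (pos b.2 - pos b.1) ↔ ch)
  · have e : rxzCh (pos b.2 - pos b.1) = ch := propext hb.2
    have e2 : (fun k => rxzU (pos b.2 - pos b.1) (pos k)) =
        fun k => kfProj (rxzSl (pos b.2 - pos b.1)) (rxzPt ch (pos k)) := by
      funext k
      unfold rxzU
      rw [e]
    rw [e2]
  · have e : rxzNu lam pos 𝒢 ch b = 0 := by
      unfold rxzNu
      rw [if_neg hb]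
    rw [e, zero_mul, zero_mul]

/-! ## LEAF L-RXZ-BADMASS -/

/-- one chart, one scale -/
theorem rxz_badmass_term {A s τ' ηK ρK ρ χ' Cf Ct : ℝ} (hA : 1 ≤ A) (hs1 : s ≤ 1) (hτ : 0 < τ') (hτs : τ' < s) (hηK : 0 < ηK)
    (hK : ∀ r : ℝ, 0 < r → r < ρK → RxzKAt A s τ' ηK r) (hρ : 0 < ρ) (hρ1 : ρ < 1) (hχ : 0 < χ') (hρK : ρ ^ (χ' / 2) < ρK)
    (h3 : 3 ≤ ρ ^ (-χ')) (hCf : Cf ≤ ρ ^ (-(ηK * χ' / 2))) (hCt0 : 0 ≤ Ct) (hCt : Ct ≤ ρ ^ (-(ηK * χ' / 2)))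
    {ι : Type} [Fintype ι] (lam : ι → ℝ) (pos : ι → ℝ × ℝ) (𝒢 : ι → ι → Prop)
    (hl : ∀ i, 0 ≤ lam i) (h1 : ∑ i, lam i ≤ 1) (hpos : ∀ i, |(pos i).1| ≤ A ∧ |(pos i).2| ≤ A)
    (hF : KfFrost lam pos Cf s ρ) (hthin : RtThin lam pos 𝒢 Ct (s - τ' / 2) ρ) (hsep : ∀ i j, 𝒢 i j → pos i ≠ pos j) (ch : Prop) (j : ℕ) :
    ∑ b, rxzNu lam pos 𝒢 ch b *
        ∑ k ∈ rxzBad lam (fun k => rxzU (pos b.2 - pos b.1) (pos k)) (2 ^ j * ρ) (ρ ^ (-χ') * (2 ^ j * ρ) ^ (s - τ')), lam k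
      ≤ ρ ^ (χ' * ηK / 2) := by
  set r := (2 : ℝ) ^ j * ρ with hr
  have h2j : (1 : ℝ) ≤ 2 ^ j := one_le_pow₀ (by norm_num)
  have hr0 : 0 < r := by positivity
  have hρr : ρ ≤ r := by
    rw [hr]
    nlinarith
  have hγ0 : 0 < s - τ' := by linarith
  have hγ1 : s - τ' ≤ 1 := by linarith
  have hpow0 : 0 < ρ ^ (χ' / 2) := Real.rpow_pos_of_pos hρ _
  rcases le_or_gt (ρ ^ (χ' / 2)) r with hcase | hcase
  · -- large scale
    have hT : 1 ≤ ρ ^ (-χ') * r ^ (s - τ') := by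
      have e1 : (ρ ^ (χ' / 2)) ^ (s - τ') ≤ r ^ (s - τ') := Real.rpow_le_rpow hpow0.le hcase hγ0.le
      have e2 : ρ ^ (-χ') * (ρ ^ (χ' / 2)) ^ (s - τ') = ρ ^ (-χ' + χ' / 2 * (s - τ')) := by
        rw [← Real.rpow_mul hρ.le, ← Real.rpow_add hρ]
      have e3 : 1 ≤ ρ ^ (-χ' + χ' / 2 * (s - τ')) := by
        apply Real.one_le_rpow_of_pos_of_le_one_of_nonpos hρ hρ1.le
        nlinarith
      calc 1 ≤ ρ ^ (-χ' + χ' / 2 * (s - τ')) := e3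
        _ = ρ ^ (-χ') * (ρ ^ (χ' / 2)) ^ (s - τ') := e2.symm
        _ ≤ ρ ^ (-χ') * r ^ (s - τ') := by
            gcongr
    have : ∀ b : ι × ι, rxzNu lam pos 𝒢 ch b *
        ∑ k ∈ rxzBad lam (fun k => rxzU (pos b.2 - pos b.1) (pos k)) r (ρ ^ (-χ') * r ^ (s - τ')), lam k = 0 := by
      intro b
      rw [rxz_bad_empty lam _ hl h1 r _ hT, sum_empty, mul_zero]
    rw [sum_congr rfl fun b _ => this b, sum_const_zero]
    exact (Real.rpow_pos_of_pos hρ _).le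
  · -- small scale
    have hneg : ρ ^ (-(ηK * χ' / 2)) ≤ r ^ (-ηK) := by
      have e1 : (ρ ^ (χ' / 2)) ^ (-ηK) ≤ r ^ (-ηK) := Real.rpow_le_rpow_of_nonpos hr0 hcase.le (by linarith)
      have e2 : (ρ ^ (χ' / 2)) ^ (-ηK) = ρ ^ (-(ηK * χ' / 2)) := by
        rw [← Real.rpow_mul hρ.le]
        congr 1
        ring
      rw [← e2]
      exact e1
    have hTh : 3 * r ^ (s - τ') ≤ ρ ^ (-χ') * r ^ (s - τ') := by
      have : 0 ≤ r ^ (s - τ') := (Real.rpow_pos_of_pos hr0 _).le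
      gcongr
    have key := rxz_bad_scale hA (hK r hr0 (hcase.trans hρK)) hρ hρr (hCf.trans hneg) hCt0 (hCt.trans hneg) hTh lam pos 𝒢 hl h1 hpos hF hthin
      hsep ch
    refine key.le.trans ?_
    calc r ^ ηK ≤ (ρ ^ (χ' / 2)) ^ ηK := Real.rpow_le_rpow hr0.le hcase.le hηK.le
      _ = ρ ^ (χ' * ηK / 2) := by
          rw [← Real.rpow_mul hρ.le]
          congr 1
          ring

/-- one chart -/
theorem rxz_badmass_chart {A s τ' ηK ρK ρ χ' Cf Ct : ℝ} (hA : 1 ≤ A) (hs1 : s ≤ 1) (hτ : 0 < τ') (hτs : τ' < s) (hηK : 0 < ηK)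
    (hK : ∀ r : ℝ, 0 < r → r < ρK → RxzKAt A s τ' ηK r) (hρ : 0 < ρ) (hρ1 : ρ < 1) (hχ : 0 < χ') (hρK : ρ ^ (χ' / 2) < ρK)
    (h3 : 3 ≤ ρ ^ (-χ')) (hCf : Cf ≤ ρ ^ (-(ηK * χ' / 2))) (hCt0 : 0 ≤ Ct) (hCt : Ct ≤ ρ ^ (-(ηK * χ' / 2)))
    {ι : Type} [Fintype ι] (lam : ι → ℝ) (pos : ι → ℝ × ℝ) (𝒢 : ι → ι → Prop) (J : ℕ)
    (hl : ∀ i, 0 ≤ lam i) (h1 : ∑ i, lam i ≤ 1) (hpos : ∀ i, |(pos i).1| ≤ A ∧ |(pos i).2| ≤ A)
    (hF : KfFrost lam pos Cf s ρ) (hthin : RtThin lam pos 𝒢 Ct (s - τ' / 2) ρ) (hsep : ∀ i j, 𝒢 i j → pos i ≠ pos j) (ch : Prop) :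
    ∑ b : ι × ι, rxzNu lam pos 𝒢 ch b *
        ∑ k ∈ (rxzGood lam (fun k => rxzU (pos b.2 - pos b.1) (pos k)) ρ (ρ ^ (-χ')) (s - τ') J)ᶜ, lam k
      ≤ ((J : ℝ) + 1) * ρ ^ (χ' * ηK / 2) := by
  calc ∑ b : ι × ι, rxzNu lam pos 𝒢 ch b *
        ∑ k ∈ (rxzGood lam (fun k => rxzU (pos b.2 - pos b.1) (pos k)) ρ (ρ ^ (-χ')) (s - τ') J)ᶜ, lam k
      ≤ ∑ b : ι × ι, rxzNu lam pos 𝒢 ch b * ∑ j ∈ range (J + 1),
          ∑ k ∈ rxzBad lam (fun k => rxzU (pos b.2 - pos b.1) (pos k)) (2 ^ j * ρ) (ρ ^ (-χ') * (2 ^ j * ρ) ^ (s - τ')), lam k := by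
        refine sum_le_sum fun b _ => ?_
        exact mul_le_mul_of_nonneg_left (rxz_good_compl lam _ hl ρ _ _ J) (rxz_nu_nonneg lam pos 𝒢 ch hl b)
    _ = ∑ j ∈ range (J + 1), ∑ b : ι × ι, rxzNu lam pos 𝒢 ch b *
          ∑ k ∈ rxzBad lam (fun k => rxzU (pos b.2 - pos b.1) (pos k)) (2 ^ j * ρ) (ρ ^ (-χ') * (2 ^ j * ρ) ^ (s - τ')), lam k := by
        rw [sum_comm]
        refine sum_congr rfl fun b _ => ?_
        rw [mul_sum]
    _ ≤ ∑ _j ∈ range (J + 1), ρ ^ (χ' * ηK / 2) := by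
        refine sum_le_sum fun j _ => ?_
        exact rxz_badmass_term hA hs1 hτ hτs hηK hK hρ hρ1 hχ hρK h3 hCf hCt0 hCt lam pos 𝒢 hl h1 hpos hF hthin hsep ch j
    _ = ((J : ℝ) + 1) * ρ ^ (χ' * ηK / 2) := by
        rw [sum_const, card_range, nsmul_eq_mul]
        push_cast
        ring

/-- **step 3**: the bad quadruples.  `γ = s - τ'`, `r_j = 2^j ρ`, `T_j = ρ^(-χ') r_j^γ`.
`rxz_nu_split` + `rxz_good_compl`: the left side is `≤ ∑_{ch} ∑_{j ≤ J} ∑_b ν_ch b lam(Bad_j b)`.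
* `r_j ≥ ρ^(χ'/2)`: `T_j ≥ ρ^(-χ') ρ^(χ' γ/2) ≥ 1` (`0 ≤ γ ≤ 1`), `rxz_bad_empty`: the term is `0`.
* `r_j < ρ^(χ'/2) < ρK`: `rxz_bad_scale` (`hK r_j`; `r_j^(-ηK) ≥ ρ^(-ηK χ'/2) ≥ Cf, Ct`; `3 r_j^γ ≤ T_j`): the term is `< r_j^ηK ≤ ρ^(χ' ηK/2)`. -/
theorem rxz_bad_mass {A s τ' ηK ρK ρ χ' Cf Ct : ℝ} (hA : 1 ≤ A) (hs1 : s ≤ 1) (hτ : 0 < τ') (hτs : τ' < s) (hηK : 0 < ηK)
    (hK : ∀ r : ℝ, 0 < r → r < ρK → RxzKAt A s τ' ηK r) (hρ : 0 < ρ) (hρ1 : ρ < 1) (hχ : 0 < χ') (hρK : ρ ^ (χ' / 2) < ρK)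
    (h3 : 3 ≤ ρ ^ (-χ')) (hCf : Cf ≤ ρ ^ (-(ηK * χ' / 2))) (hCt0 : 0 ≤ Ct) (hCt : Ct ≤ ρ ^ (-(ηK * χ' / 2)))
    {ι : Type} [Fintype ι] (lam : ι → ℝ) (pos : ι → ℝ × ℝ) (𝒢 : ι → ι → Prop) (J : ℕ)
    (hl : ∀ i, 0 ≤ lam i) (h1 : ∑ i, lam i ≤ 1) (hpos : ∀ i, |(pos i).1| ≤ A ∧ |(pos i).2| ≤ A)
    (hF : KfFrost lam pos Cf s ρ) (hthin : RtThin lam pos 𝒢 Ct (s - τ' / 2) ρ) (hsep : ∀ i j, 𝒢 i j → pos i ≠ pos j) :
    ∑ i, ∑ j with 𝒢 i j, lam i * lam j *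
        ∑ k ∈ (rxzGood lam (fun k => rxzU (pos j - pos i) (pos k)) ρ (ρ ^ (-χ')) (s - τ') J)ᶜ, lam k
      ≤ 2 * ((J : ℝ) + 1) * ρ ^ (χ' * ηK / 2) := by
  have hsplit := rxz_nu_split lam pos 𝒢 (fun b : ι × ι =>
    ∑ k ∈ (rxzGood lam (fun k => rxzU (pos b.2 - pos b.1) (pos k)) ρ (ρ ^ (-χ')) (s - τ') J)ᶜ, lam k)
  simp only at hsplit
  rw [hsplit]
  have hT := rxz_badmass_chart hA hs1 hτ hτs hηK hK hρ hρ1 hχ hρK h3 hCf hCt0 hCt lam pos 𝒢 J hl h1 hpos hF hthin hsep True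
  have hFa := rxz_badmass_chart hA hs1 hτ hτs hηK hK hρ hρ1 hχ hρK h3 hCf hCt0 hCt lam pos 𝒢 J hl h1 hpos hF hthin hsep False
  linarith

/-! ## LEAF L-RXZ-PAIR -/

/-- **step 4**: choice of the pair.  Otherwise `∑_{Gd i j} < a/4` for all pairs of `𝒢`, and
`a ≤ ∑_𝒢 lam lam (∑_{Gd} lam w3 + ∑_{Gdᶜ} lam w3) ≤ (a/4) (∑ lam)² + a/2 < a`. -/
theorem rxz_pair {ι : Type} [Fintype ι] (lam : ι → ℝ) (𝒢 : ι → ι → Prop) (w3 : ι → ι → ι → ℝ) (Gd : ι → ι → Finset ι) (a : ℝ)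
    (hl : ∀ i, 0 ≤ lam i) (h1 : ∑ i, lam i ≤ 1) (hw : ∀ i j k, 0 ≤ w3 i j k ∧ w3 i j k ≤ 1) (ha : 0 < a)
    (hm : a ≤ ∑ i, ∑ j with 𝒢 i j, lam i * lam j * ∑ k, lam k * w3 i j k)
    (hb : ∑ i, ∑ j with 𝒢 i j, lam i * lam j * ∑ k ∈ (Gd i j)ᶜ, lam k ≤ a / 2) :
    ∃ i j, 𝒢 i j ∧ a / 4 ≤ ∑ k ∈ Gd i j, lam k * w3 i j k := by
  by_contra hcon
  push Not at hcon
  have key : ∀ i, ∀ j ∈ univ.filter (fun j => 𝒢 i j), lam i * lam j * ∑ k, lam k * w3 i j k ≤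
      lam i * lam j * (a / 4) + lam i * lam j * ∑ k ∈ (Gd i j)ᶜ, lam k := by
    intro i j hj
    have hij : 𝒢 i j := (Finset.mem_filter.1 hj).2
    rw [← mul_add]
    refine mul_le_mul_of_nonneg_left ?_ (mul_nonneg (hl i) (hl j))
    rw [← Finset.sum_add_sum_compl (Gd i j)]
    refine add_le_add (hcon i j hij).le (Finset.sum_le_sum fun k _ => ?_)
    calc lam k * w3 i j k ≤ lam k * 1 := mul_le_mul_of_nonneg_left (hw i j k).2 (hl k)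
      _ = lam k := mul_one _
  have h2 : ∑ i, ∑ j with 𝒢 i j, lam i * lam j * ∑ k, lam k * w3 i j k ≤
      ∑ i, ∑ j with 𝒢 i j, lam i * lam j * (a / 4) + ∑ i, ∑ j with 𝒢 i j, lam i * lam j * ∑ k ∈ (Gd i j)ᶜ, lam k := by
    rw [← Finset.sum_add_distrib]
    refine Finset.sum_le_sum fun i _ => ?_
    rw [← Finset.sum_add_distrib]
    exact Finset.sum_le_sum (key i)
  have h3 : ∑ i, ∑ j with 𝒢 i j, lam i * lam j * (a / 4) ≤ a / 4 := by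
    have h4 : ∀ i, ∑ j with 𝒢 i j, lam i * lam j * (a / 4) ≤ lam i * (a / 4) := by
      intro i
      have h5 : ∑ j with 𝒢 i j, lam i * lam j * (a / 4) ≤ ∑ j, lam i * lam j * (a / 4) :=
        Finset.sum_le_sum_of_subset_of_nonneg (Finset.filter_subset _ _)
          fun j _ _ => mul_nonneg (mul_nonneg (hl i) (hl j)) (by positivity)
      refine h5.trans ?_
      have h6 : ∑ j, lam i * lam j * (a / 4) = lam i * (a / 4) * ∑ j, lam j := by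
        rw [Finset.mul_sum]
        exact Finset.sum_congr rfl fun j _ => by ring
      rw [h6]
      calc lam i * (a / 4) * ∑ j, lam j ≤ lam i * (a / 4) * 1 :=
            mul_le_mul_of_nonneg_left h1 (mul_nonneg (hl i) (by positivity))
        _ = lam i * (a / 4) := mul_one _
    refine (Finset.sum_le_sum fun i _ => h4 i).trans ?_
    rw [← Finset.sum_mul]
    calc (∑ i, lam i) * (a / 4) ≤ 1 * (a / 4) := mul_le_mul_of_nonneg_right h1 (by positivity)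
      _ = a / 4 := one_mul _
  linarith

end Claimed.Agent.R255
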