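-- KEEP
import Claimed.Agent.R255.Rate.XzMass
import Claimed.Agent.R255.Rate.XzCore

/-!
# Row 255, Sec. 7, unit U5a, file 5: monotonicity, numerics, EXIT `rxz_main`      (architect helper92)
-/

set_option autoImplicit false

namespace Claimed.Agent.R255

open Finset Classical
open Claimed.Agent.RW (KfFrost KfCov kfProj)

/-! ## LEAF L-RXZ-MONO -/

theorem rxz_mono_cov {S : Set ℝ} {r' N N' : ℝ} (hN : N ≤ N') (h : RtCov S r' N) : RtCov S r' N' := by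
  obtain ⟨cov, h1, h2⟩ := h
  exact ⟨cov, h1.trans hN, h2⟩

theorem rxz_mono_cov2 {S : Set (ℝ × ℝ)} {r' N N' : ℝ} (hN : N ≤ N') (h : RtCov2 S r' N) : RtCov2 S r' N' := by
  obtain ⟨cov, h1, h2⟩ := h
  exact ⟨cov, h1.trans hN, h2⟩

/-- the tolerance of a block can be increased (`ρ^η' ≤ ρ^η`, `ρ^(-η) ≤ ρ^(-η')`; all right sides are products of nonnegative numbers) -/
theorem rxz_mono {b : RtBlk} {ρ η η' A x q z s σ : ℝ} (h0 : 0 < ρ) (h1 : ρ < 1) (hη : η ≤ η')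
    (h : b.Is3w ρ η A x q z s σ) : b.Is3w ρ η' A x q z s σ := by
  have e1 : ρ ^ η' ≤ ρ ^ η := Real.rpow_le_rpow_of_exponent_ge h0 h1.le hη
  have e2 : ρ ^ (-η) ≤ ρ ^ (-η') := Real.rpow_le_rpow_of_exponent_ge h0 h1.le (by linarith)
  have hp : ∀ (r' e : ℝ), ρ ≤ r' → 0 ≤ r' ^ e := fun r' e hr => Real.rpow_nonneg (h0.le.trans hr) _
  exact
    { μ0 := h.μ0
      lam0 := h.lam0
      μ1 := h.μ1
      lam1 := h.lam1
      bdP := h.bdP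
      bdT := h.bdT
      mass := e1.trans h.mass
      nbr := fun t ht => e1.trans (h.nbr t ht)
      frC := rxz_frost_scale _ _ _ _ _ _ _ h0 le_rfl e2 h.frC
      frR := rxz_frost_scale _ _ _ _ _ _ _ h0 le_rfl e2 h.frR
      box := fun t x₀ y₀ w₀ z₀ r₁ r₂ r₃ a1 a2 a3 a4 a5 a6 =>
        (h.box t x₀ y₀ w₀ z₀ r₁ r₂ r₃ a1 a2 a3 a4 a5 a6).trans
          (mul_le_mul_of_nonneg_right e2 (mul_nonneg (mul_nonneg (hp _ _ a1) (hp _ _ a3)) (hp _ _ a5)))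
      covX := fun t r' a1 a2 => rxz_mono_cov (mul_le_mul_of_nonneg_right e2 (hp _ _ a1)) (h.covX t r' a1 a2)
      covU := fun t r' a1 a2 => rxz_mono_cov2 (mul_le_mul_of_nonneg_right e2 (hp _ _ a1)) (h.covU t r' a1 a2)
      covZ := fun t r' a1 a2 => rxz_mono_cov (mul_le_mul_of_nonneg_right e2 (hp _ _ a1)) (h.covZ t r' a1 a2) }

theorem rxz_her_mono {ι : Type} [Fintype ι] {w : ι → ℝ} {pos : ι → ℝ × ℝ} {C C' s ρ : ℝ} (hw : ∀ i, 0 ≤ w i) (hC : C ≤ C')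
    (h : RtTreeHer w pos C s ρ) : RtTreeHer w pos C' s ρ := by
  intro k k' hk hρ i₀
  refine (h k k' hk hρ i₀).trans ?_
  have h1 : 0 ≤ ((1 / 2 : ℝ) ^ (k' - k)) ^ s := Real.rpow_nonneg (by positivity) _
  have h2 : 0 ≤ ∑ i with rtCell k (pos i) = rtCell k (pos i₀), w i := Finset.sum_nonneg fun i _ => hw i
  exact mul_le_mul_of_nonneg_right (mul_le_mul_of_nonneg_right hC h1) h2

/-- the planar law of `(c,r)` is Frostman because its first marginal is -/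
theorem rxz_frost_pos {b : RtBlk} {ρ η A s σ : ℝ} (hb : b.Base ρ η A s σ) : KfFrost b.lam b.pos (ρ ^ (-η)) s ρ := by
  intro z r hr hr1
  refine le_trans ?_ (hb.frC z.1 r hr hr1)
  refine Finset.sum_le_sum_of_subset_of_nonneg (fun t ht => ?_) fun t _ _ => hb.lam0 t
  rw [Finset.mem_filter] at ht ⊢
  refine ⟨ht.1, le_trans ?_ ht.2⟩
  rw [Prod.dist_eq]
  exact le_max_left _ _

/-! ## LEAF L-RXZ-NUM -/

theorem rxz_small (C ε : ℝ) (hε : 0 < ε) : ∃ ρ₁ : ℝ, 0 < ρ₁ ∧ ∀ ρ : ℝ, 0 < ρ → ρ < ρ₁ → C ≤ ρ ^ (-ε) := by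
  obtain ⟨D, hD⟩ : ∃ D : ℝ, D = max C 1 := ⟨_, rfl⟩
  have hD1 : 1 ≤ D := by rw [hD]; exact le_max_right _ _
  have hDC : C ≤ D := by rw [hD]; exact le_max_left _ _
  have hD0 : 0 < D := by linarith
  refine ⟨D ^ (-(1 / ε)), Real.rpow_pos_of_pos hD0 _, fun ρ h0 hρ => hDC.trans ?_⟩
  have h1 : (D ^ (-(1 / ε))) ^ (-ε) ≤ ρ ^ (-ε) := Real.rpow_le_rpow_of_nonpos h0 hρ.le (by linarith)
  rwa [← Real.rpow_mul hD0.le, show -(1 / ε) * -ε = 1 by field_simp, Real.rpow_one] at h1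

/-- the number of dyadic scales: `J = ⌈logb 2 (4/ρ)⌉₊`, `J + 1 ≤ logb 2 (1/ρ) + 4 ≤ ρ^(-ε)` for small `ρ` (`Real.log_le_rpow_div` or `Real.add_one_le_exp`) -/
theorem rxz_scales (ε : ℝ) (hε : 0 < ε) :
    ∃ ρ₁ : ℝ, 0 < ρ₁ ∧ ∀ ρ : ℝ, 0 < ρ → ρ < ρ₁ → ∃ J : ℕ, 4 ≤ (2 : ℝ) ^ J * ρ ∧ (J : ℝ) + 1 ≤ ρ ^ (-ε) := by
  -- `J + 1 ≤ logb 2 (4/ρ) + 2 ≤ (4/ρ)^(ε/2) * c + 2`
  obtain ⟨ρa, hρa, Ha⟩ := rxz_small (2 * (4 ^ (ε / 2) / (ε / 2) / Real.log 2)) (ε / 2) (by positivity)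
  obtain ⟨ρb, hρb, Hb⟩ := rxz_small 4 ε hε
  refine ⟨min (min ρa ρb) 1, by positivity, fun ρ h0 hρ => ?_⟩
  have hρa' : ρ < ρa := lt_of_lt_of_le hρ ((min_le_left _ _).trans (min_le_left _ _))
  have hρb' : ρ < ρb := lt_of_lt_of_le hρ ((min_le_left _ _).trans (min_le_right _ _))
  have h1 : ρ < 1 := lt_of_lt_of_le hρ (min_le_right _ _)
  have ha := Ha ρ h0 hρa'
  have hb := Hb ρ h0 hρb'
  have hl2 : 0 < Real.log 2 := Real.log_pos (by norm_num)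
  have h4ρ : 0 < 4 / ρ := by positivity
  refine ⟨⌈Real.logb 2 (4 / ρ)⌉₊, ?_, ?_⟩
  · have h2 : Real.logb 2 (4 / ρ) ≤ (⌈Real.logb 2 (4 / ρ)⌉₊ : ℝ) := Nat.le_ceil _
    have h3 : (2 : ℝ) ^ (Real.logb 2 (4 / ρ)) ≤ (2 : ℝ) ^ ((⌈Real.logb 2 (4 / ρ)⌉₊ : ℝ)) :=
      Real.rpow_le_rpow_of_exponent_le (by norm_num) h2
    rw [Real.rpow_logb (by norm_num) (by norm_num) h4ρ, Real.rpow_natCast] at h3
    rw [div_le_iff₀ h0] at h3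
    exact h3
  · have hlog0 : 0 ≤ Real.logb 2 (4 / ρ) := by
      apply Real.logb_nonneg (by norm_num)
      rw [le_div_iff₀ h0]; linarith
    have h2 : (⌈Real.logb 2 (4 / ρ)⌉₊ : ℝ) < Real.logb 2 (4 / ρ) + 1 := Nat.ceil_lt_add_one hlog0
    have h3 : Real.log (4 / ρ) ≤ (4 / ρ) ^ (ε / 2) / (ε / 2) := Real.log_le_rpow_div h4ρ.le (by positivity)
    have h5 : (4 / ρ) ^ (ε / 2) = 4 ^ (ε / 2) * ρ ^ (-(ε / 2)) := by
      rw [Real.div_rpow (by norm_num) h0.le, Real.rpow_neg h0.le, div_eq_mul_inv]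
    have h6 : Real.logb 2 (4 / ρ) ≤ 4 ^ (ε / 2) / (ε / 2) / Real.log 2 * ρ ^ (-(ε / 2)) := by
      unfold Real.logb
      rw [div_le_iff₀ hl2]
      refine h3.trans (le_of_eq ?_)
      rw [h5]
      field_simp
    have h7 : ρ ^ (-ε) = ρ ^ (-(ε / 2)) * ρ ^ (-(ε / 2)) := by
      rw [← Real.rpow_add h0]; congr 1; ring
    have hp : 0 < ρ ^ (-(ε / 2)) := Real.rpow_pos_of_pos h0 _
    have h8 : 4 ^ (ε / 2) / (ε / 2) / Real.log 2 * ρ ^ (-(ε / 2)) ≤ ρ ^ (-ε) / 2 := by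
      rw [h7]
      nlinarith
    linarith

/-! ## EXIT (glue: helper92) -/

/-- the last step: a good pair contradicts `rxc_core` -/
theorem rxz_final {A x q z s σ τ' ηc ρ η η' : ℝ} {b : RtBlk} (h0 : 0 < ρ) (h1 : ρ < 1) (hγ : 0 < s - τ') (hγ1 : s - τ' ≤ 1)
    (hηc : 0 < ηc)
    (Hcore : ∀ (s' σ' : ℝ) (b : RtBlk), b.Is3w ρ ηc A x q z s' σ' →
      ∀ (c : RxcPair b) (S2 : Finset b.Th), c.Ok 0 ρ → ρ ^ ηc ≤ c.al →
        (∀ a₀ r' : ℝ, ρ ≤ r' → r' ≤ 1 → ∑ t ∈ S2 with |c.sl t - a₀| ≤ r', b.lam t ≤ ρ ^ (-ηc) * r' ^ (s - τ')) →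
        ρ ^ ηc ≤ ∑ t ∈ S2, b.lam t * ∑ p with b.G p c.t0 ∧ b.G p c.t1 ∧ b.G p t, b.μ p → False)
    (hb : b.Is3w ρ η A x q z s σ) (hη : η ≤ ηc) (hη' : η' ≤ ηc / 2) (h8 : 8 ≤ ρ ^ (-(ηc / 2))) (J : ℕ) (hJ : 4 ≤ (2 : ℝ) ^ J * ρ)
    (i j : b.Th) (hsep : ρ ^ η' ≤ dist (b.pos i) (b.pos j))
    (hm : ρ ^ η' / 4 ≤ ∑ k ∈ rxzGood b.lam (fun k => rxzU (b.pos j - b.pos i) (b.pos k)) ρ (ρ ^ (-(ηc / 2))) (s - τ') J,
      b.lam k * ∑ p with b.G p i ∧ b.G p j ∧ b.G p k, b.μ p) : False := by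
  obtain ⟨Δ, hΔ⟩ : ∃ Δ : ℝ × ℝ, Δ = b.pos j - b.pos i := ⟨_, rfl⟩
  obtain ⟨n, hn⟩ : ∃ n : ℝ, n = Real.sqrt (Δ.1 ^ 2 + Δ.2 ^ 2) := ⟨_, rfl⟩
  have hpos : 0 < ρ ^ η' := Real.rpow_pos_of_pos h0 _
  have hdist : dist (b.pos i) (b.pos j) = max |Δ.1| |Δ.2| := by
    rw [dist_comm, Prod.dist_eq, Real.dist_eq, Real.dist_eq, hΔ]
    rfl
  have hn1 : |Δ.1| ≤ n := by
    rw [hn]; exact Real.abs_le_sqrt (by nlinarith [sq_nonneg Δ.2])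
  have hn2 : |Δ.2| ≤ n := by
    rw [hn]; exact Real.abs_le_sqrt (by nlinarith [sq_nonneg Δ.1])
  have hnd : ρ ^ η' ≤ n := hsep.trans (by rw [hdist]; exact max_le hn1 hn2)
  have hn0 : 0 < n := lt_of_lt_of_le hpos hnd
  have hnsq : n ^ 2 = Δ.1 ^ 2 + Δ.2 ^ 2 := by
    rw [hn]; exact Real.sq_sqrt (by positivity)
  have hΔ0 : Δ ≠ 0 := by
    intro h
    rw [h] at hnsq
    simp at hnsq
    exact hn0.ne' hnsq
  have e1 : ρ ^ ηc ≤ ρ ^ η' := Real.rpow_le_rpow_of_exponent_ge h0 h1.le (by linarith)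
  have e2 : ρ ^ (ηc / 2) ≤ ρ ^ η' := Real.rpow_le_rpow_of_exponent_ge h0 h1.le hη'
  have e3 : ρ ^ (-ηc) = ρ ^ (-(ηc / 2)) * ρ ^ (-(ηc / 2)) := by
    rw [← Real.rpow_add h0]; congr 1; ring
  have e4 : ρ ^ ηc = ρ ^ (ηc / 2) * ρ ^ (ηc / 2) := by
    rw [← Real.rpow_add h0]; congr 1; ring
  have e5 : ρ ^ (ηc / 2) * ρ ^ (-(ηc / 2)) = 1 := by
    rw [← Real.rpow_add h0]; simp
  have hp2 : 0 < ρ ^ (ηc / 2) := Real.rpow_pos_of_pos h0 _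
  have hm2 : 0 < ρ ^ (-(ηc / 2)) := Real.rpow_pos_of_pos h0 _
  refine Hcore s σ b (rxz_mono h0 h1 hη hb) ⟨i, j, (Δ.1 / n, Δ.2 / n), n⟩
    (rxzGood b.lam (fun k => rxzU Δ (b.pos k)) ρ (ρ ^ (-(ηc / 2))) (s - τ') J) ?_ ?_ ?_ ?_
  · refine ⟨?_, hn0, ?_, ?_⟩
    · show (Δ.1 / n) ^ 2 + (Δ.2 / n) ^ 2 = 1
      rw [div_pow, div_pow, ← add_div, ← hnsq, div_self (by positivity)]
    · show |b.c j - b.c i - n * (Δ.1 / n)| ≤ 0 * ρ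
      have : b.c j - b.c i = Δ.1 := by rw [hΔ]; rfl
      rw [this, mul_div_cancel₀ _ hn0.ne']
      simp
    · show |b.r j - b.r i - n * (Δ.2 / n)| ≤ 0 * ρ
      have : b.r j - b.r i = Δ.2 := by rw [hΔ]; rfl
      rw [this, mul_div_cancel₀ _ hn0.ne']
      simp
  · exact e1.trans hnd
  · intro a₀ r' hr hr1
    have hr0 : 0 < r' := lt_of_lt_of_le h0 hr
    have := rxz_zeta_frost b.lam b.pos hb.lam0 Δ hΔ0 n hn ρ (ρ ^ (-(ηc / 2))) (s - τ') J h0 hm2.le hγ.le hJ a₀ r' hr hr1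
    refine le_trans this ?_
    rw [Real.mul_rpow (by norm_num) hr0.le, e3]
    have h88 : (8 : ℝ) ^ (s - τ') ≤ 8 := by
      calc (8 : ℝ) ^ (s - τ') ≤ 8 ^ (1 : ℝ) := Real.rpow_le_rpow_of_exponent_le (by norm_num) hγ1
        _ = 8 := Real.rpow_one _
    have hrγ : 0 < r' ^ (s - τ') := Real.rpow_pos_of_pos hr0 _
    calc ρ ^ (-(ηc / 2)) * (8 ^ (s - τ') * r' ^ (s - τ')) ≤ ρ ^ (-(ηc / 2)) * (ρ ^ (-(ηc / 2)) * r' ^ (s - τ')) := by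
          gcongr
          exact h88.trans h8
      _ = ρ ^ (-(ηc / 2)) * ρ ^ (-(ηc / 2)) * r' ^ (s - τ') := by ring
  · show ρ ^ ηc ≤ ∑ t ∈ rxzGood b.lam (fun k => rxzU Δ (b.pos k)) ρ (ρ ^ (-(ηc / 2))) (s - τ') J,
      b.lam t * ∑ p with b.G p i ∧ b.G p j ∧ b.G p t, b.μ p
    rw [hΔ]
    refine le_trans ?_ hm
    have : ρ ^ (ηc / 2) ≤ 1 / 4 := by
      have h9 : ρ ^ (ηc / 2) * 8 ≤ 1 := by
        calc ρ ^ (ηc / 2) * 8 ≤ ρ ^ (ηc / 2) * ρ ^ (-(ηc / 2)) := by gcongr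
          _ = 1 := e5
      linarith
    rw [e4]
    nlinarith

/-- **T3n** = the statement of `Contracts.rt_test_xz_ns`, from the statement of `rt_rp` -/
theorem rxz_main (hrp : RxzRp) (A x q z s σ : ℝ) (hA : 1 ≤ A) (hx : 0 < x) (hs : 0 < s) (hs1 : s ≤ 1) (hσ : 0 < σ) (hq0 : 0 ≤ q)
    (hz0 : 0 ≤ z) (hz1 : z < 1) (hz : z < x + s) :
    ∃ t₀ : ℝ, 0 < t₀ ∧ t₀ ≤ 1 ∧ ∀ κ₀ : ℝ, 0 < κ₀ → ∃ η ρ₁ : ℝ, 0 < η ∧ 0 < ρ₁ ∧ ∀ ρ : ℝ, 0 < ρ → ρ < ρ₁ →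
      ∀ b : RtBlk, b.Is3 ρ η A x q z s σ → ¬ RtNoStrip b.lam b.pos (ρ ^ t₀) (ρ ^ κ₀) := by
  obtain ⟨τ', hτdef⟩ : ∃ τ' : ℝ, τ' = min ((x + s - z) / 2) (s / 2) := ⟨_, rfl⟩
  have hτ : 0 < τ' := by rw [hτdef]; exact lt_min (by linarith) (by linarith)
  have hτ1 : τ' ≤ (x + s - z) / 2 := by rw [hτdef]; exact min_le_left _ _
  have hτ2 : τ' ≤ s / 2 := by rw [hτdef]; exact min_le_right _ _
  have hτs : τ' < s := by linarith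
  have hγ : 0 < s - τ' := by linarith
  have hγ1 : s - τ' ≤ 1 := by linarith
  have hzmin : z < min 1 (x + (s - τ')) := lt_min hz1 (by linarith)
  obtain ⟨ηc, ρc, hηc, hρc, Hcore⟩ := rxc_core A 0 x q z (s - τ') hA le_rfl hx hq0 hz0 hγ hzmin
  obtain ⟨ηK, ρK, hηK, hρK, hρK1, HK⟩ := rxz_badK A s τ' hA hs hτ hτs
  obtain ⟨χ', hχdef⟩ : ∃ χ' : ℝ, χ' = ηc / 2 := ⟨_, rfl⟩
  have hχ : 0 < χ' := by rw [hχdef]; positivity
  obtain ⟨η', hη'def⟩ : ∃ η' : ℝ, η' = min (ηc / 2) (χ' * ηK / 4) := ⟨_, rfl⟩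
  have hη' : 0 < η' := by rw [hη'def]; exact lt_min (by positivity) (by positivity)
  have hη'1 : η' ≤ ηc / 2 := by rw [hη'def]; exact min_le_left _ _
  have hη'2 : η' ≤ χ' * ηK / 4 := by rw [hη'def]; exact min_le_right _ _
  obtain ⟨t₀, ht0, ht1, Hrp⟩ := hrp A s (τ' / 2) η' hA hs hs1 (by positivity) hη'
  refine ⟨t₀, ht0, ht1, fun κ₀ hκ₀ => ?_⟩
  obtain ⟨ηr, ρr, hηr, hρr, Hrp⟩ := Hrp κ₀ hκ₀
  obtain ⟨ρa, hρa, Ha⟩ := rxz_small 8 (ηc / 2) (by positivity)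
  obtain ⟨ρb, hρb, Hb⟩ := rxz_small 4 (χ' * ηK / 8) (by positivity)
  obtain ⟨ρs, hρs, Hs⟩ := rxz_scales (χ' * ηK / 8) (by positivity)
  refine ⟨min (min (ηr / 6) ηc) (ηK * χ' / 2), min (min (min ρc ρr) (min ρa ρb)) (min (min ρs 1) (ρK ^ (2 / χ'))),
    by positivity, by positivity, ?_⟩
  intro ρ h0 hρ b hb hns
  obtain ⟨η, hηdef⟩ : ∃ η : ℝ, η = min (min (ηr / 6) ηc) (ηK * χ' / 2) := ⟨_, rfl⟩
  rw [← hηdef] at hb
  have hη1 : η ≤ ηr / 6 := by rw [hηdef]; exact (min_le_left _ _).trans (min_le_left _ _)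
  have hη2 : η ≤ ηc := by rw [hηdef]; exact (min_le_left _ _).trans (min_le_right _ _)
  have hη3 : η ≤ ηK * χ' / 2 := by rw [hηdef]; exact min_le_right _ _
  have hρc' : ρ < ρc := lt_of_lt_of_le hρ ((min_le_left _ _).trans ((min_le_left _ _).trans (min_le_left _ _)))
  have hρr' : ρ < ρr := lt_of_lt_of_le hρ ((min_le_left _ _).trans ((min_le_left _ _).trans (min_le_right _ _)))
  have hρa' : ρ < ρa := lt_of_lt_of_le hρ ((min_le_left _ _).trans ((min_le_right _ _).trans (min_le_left _ _)))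
  have hρb' : ρ < ρb := lt_of_lt_of_le hρ ((min_le_left _ _).trans ((min_le_right _ _).trans (min_le_right _ _)))
  have hρs' : ρ < ρs := lt_of_lt_of_le hρ ((min_le_right _ _).trans ((min_le_left _ _).trans (min_le_left _ _)))
  have h1 : ρ < 1 := lt_of_lt_of_le hρ ((min_le_right _ _).trans ((min_le_left _ _).trans (min_le_right _ _)))
  have hρK' : ρ < ρK ^ (2 / χ') := lt_of_lt_of_le hρ ((min_le_right _ _).trans (min_le_right _ _))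
  have h8 := Ha ρ h0 hρa'
  have h4 := Hb ρ h0 hρb'
  obtain ⟨J, hJ4, hJ⟩ := Hs ρ h0 hρs'
  have hbase : b.Base ρ η A s σ := hb.toIs3w.toBase
  -- step 1
  have hq := rxz_quad h0 hbase
  have hq' : ρ ^ ηr ≤ ∑ i, ∑ j, b.lam i * b.lam j * rxzWt b i j :=
    le_trans (Real.rpow_le_rpow_of_exponent_ge h0 h1.le (by linarith)) hq
  have hher : RtTreeHer b.lam b.pos (ρ ^ (-ηr)) s ρ :=
    rxz_her_mono hbase.lam0 (Real.rpow_le_rpow_of_exponent_ge h0 h1.le (by linarith)) hb.her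
  -- step 2
  obtain ⟨𝒢, hmass, hsep, hthin⟩ := Hrp ρ h0 hρr' b.Th b.lam b.pos (rxzWt b) hbase.lam0 hbase.lam1
    (fun i => hbase.bdT i) hher hns (fun i j => rxz_wt_bd hbase i j) hq'
  have hsep' : ∀ i j, 𝒢 i j → b.pos i ≠ b.pos j := fun i j h e => by
    have h2 := hsep i j h
    rw [e, dist_self] at h2
    exact absurd h2 (not_le.2 (Real.rpow_pos_of_pos h0 _))
  -- step 3
  have hρK2 : ρ ^ (χ' / 2) < ρK := by
    have h3 : ρ ^ (χ' / 2) < (ρK ^ (2 / χ')) ^ (χ' / 2) := Real.rpow_lt_rpow h0.le hρK' (by positivity)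
    rwa [← Real.rpow_mul hρK.le, show 2 / χ' * (χ' / 2) = 1 by field_simp, Real.rpow_one] at h3
  have h3 : 3 ≤ ρ ^ (-χ') := by rw [hχdef]; linarith
  have hbad := rxz_bad_mass (Cf := ρ ^ (-η)) (Ct := ρ ^ (-η')) hA hs1 hτ hτs hηK HK h0 h1 hχ hρK2 h3
    (Real.rpow_le_rpow_of_exponent_ge h0 h1.le (by linarith)) (Real.rpow_nonneg h0.le _)
    (Real.rpow_le_rpow_of_exponent_ge h0 h1.le (by nlinarith)) b.lam b.pos 𝒢 J hbase.lam0 hbase.lam1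
    (fun i => hbase.bdT i) (rxz_frost_pos hbase) hthin hsep'
  have hbad' : 2 * ((J : ℝ) + 1) * ρ ^ (χ' * ηK / 2) ≤ ρ ^ η' / 2 := by
    have a1 : ρ ^ (χ' * ηK / 2) = ρ ^ (χ' * ηK / 4) * ρ ^ (χ' * ηK / 8) * ρ ^ (χ' * ηK / 8) := by
      rw [← Real.rpow_add h0, ← Real.rpow_add h0]; congr 1; ring
    have a2 : ρ ^ (χ' * ηK / 8) * ρ ^ (-(χ' * ηK / 8)) = 1 := by
      rw [← Real.rpow_add h0]; simp
    have a3 : ρ ^ (χ' * ηK / 4) ≤ ρ ^ η' := Real.rpow_le_rpow_of_exponent_ge h0 h1.le hη'2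
    have p8 : 0 < ρ ^ (χ' * ηK / 8) := Real.rpow_pos_of_pos h0 _
    have p4 : 0 < ρ ^ (χ' * ηK / 4) := Real.rpow_pos_of_pos h0 _
    have a4 : ((J : ℝ) + 1) * ρ ^ (χ' * ηK / 8) ≤ 1 := by
      calc ((J : ℝ) + 1) * ρ ^ (χ' * ηK / 8) ≤ ρ ^ (-(χ' * ηK / 8)) * ρ ^ (χ' * ηK / 8) := by gcongr
        _ = 1 := by rw [mul_comm]; exact a2
    have a5 : 4 * ρ ^ (χ' * ηK / 8) ≤ 1 := by
      calc 4 * ρ ^ (χ' * ηK / 8) ≤ ρ ^ (-(χ' * ηK / 8)) * ρ ^ (χ' * ηK / 8) := by gcongr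
        _ = 1 := by rw [mul_comm]; exact a2
    rw [a1]
    have hJ0 : (0 : ℝ) ≤ (J : ℝ) + 1 := by positivity
    calc 2 * ((J : ℝ) + 1) * (ρ ^ (χ' * ηK / 4) * ρ ^ (χ' * ηK / 8) * ρ ^ (χ' * ηK / 8))
        = ρ ^ (χ' * ηK / 4) / 2 * ((((J : ℝ) + 1) * ρ ^ (χ' * ηK / 8)) * (4 * ρ ^ (χ' * ηK / 8))) := by ring
      _ ≤ ρ ^ (χ' * ηK / 4) / 2 * (1 * 1) := by
          gcongr
      _ ≤ ρ ^ η' / 2 := by linarith
  -- step 4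
  have hmass' : ρ ^ η' ≤ ∑ i, ∑ j with 𝒢 i j, b.lam i * b.lam j *
      ∑ k, b.lam k * ∑ p with b.G p i ∧ b.G p j ∧ b.G p k, b.μ p := by
    refine hmass.trans (le_of_eq ?_)
    refine Finset.sum_congr rfl fun i _ => Finset.sum_congr rfl fun j _ => ?_
    rw [rxz_wt_swap]
  obtain ⟨i, j, hij, hm⟩ := rxz_pair b.lam 𝒢 (fun i j k => ∑ p with b.G p i ∧ b.G p j ∧ b.G p k, b.μ p)
    (fun i j => rxzGood b.lam (fun k => rxzU (b.pos j - b.pos i) (b.pos k)) ρ (ρ ^ (-χ')) (s - τ') J) (ρ ^ η')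
    hbase.lam0 hbase.lam1
    (fun i j k => ⟨Finset.sum_nonneg fun p _ => hbase.μ0 p,
      (Finset.sum_le_sum_of_subset_of_nonneg (Finset.filter_subset _ _) fun p _ _ => hbase.μ0 p).trans hbase.μ1⟩)
    (Real.rpow_pos_of_pos h0 _) hmass' (hbad.trans hbad')
  rw [hχdef] at hm
  exact rxz_final h0 h1 hγ hγ1 hηc (Hcore ρ h0 hρc') hb.toIs3w hη2 hη'1 h8 J hJ4 i j (hsep i j hij) hm

end Claimed.Agent.R255
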