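-- KEEP
import Claimed.Agent.R255.Rate.Trace
import Claimed.Agent.R255.Rate.Blk
import Claimed.Agent.R255.Rate.Gr
import Claimed.Agent.R255.Rate.TestQ
import Claimed.Agent.R255.Rate.ExtLab
import Claimed.Agent.R255.Rate.Chains
import Claimed.Agent.R255.Rate.Core3
import Claimed.Agent.R255.Rate.RpFinal
import Claimed.Agent.R255.Rate.XzMain
import Claimed.Agent.R255.Rate.Q2Top
import Claimed.Agent.R255.Rate.StripA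
import Claimed.Agent.R255.Rate.ExtSeqT
import Claimed.Agent.R255.Rate.StripXz
import Claimed.Agent.R255.Rate.StripQ2

/-!
# Row 255 (BR paper), Section 7 (rate transfer): CONTRACTS AND GLUE      (chief S7: helper191)

EXIT (consumed by S8, helper7): `rt_distinct`, `rt_tied` = Proposition 7.1, POINTWISE at a trace point (`Rate/Trace.lean`): no "almost every" inside Section 7.
NOBODY IMPORTS THIS FILE except the consumer S8.  Unit files import `Rate/Trace`, `Rate/Blk` (helper163: `BLaw`, `Tol`, `BlkSupply`), `Rate/Gr` (`RtBlk`, `Is3w`, `Is3`).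
UNITS (each contract = one unit; at the end the `sorry` is replaced by a citation of the unit file):
* U1a EXTRACT (helper34)   `rt_s_bounds`, `rt_supply4`, `rt_supply3` : matched process + trace point ⟹ `BlkSupply` (law level, tolerance in probability).
* U2  CHAINS  (helper163)  `rt_chains4` : the four chains at distinct clocks, from `BlkSupply` by `rt_chain` (ex_W1).
* U1b CORE3                `rt_core3`   : `BlkSupply` at `m = 1` ⟹ graph blocks `RtHas3` (finite, paper-free: trims, floors on the parameter tree).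
* U3                       `rt_test_q`  : tied clocks, `x > 0 ⟹ q ≥ s`: VECTOR Kaufman (replaces the profile `g` of the paper l.760-816).
* U4  RP                   `rt_rp`      : directions between parameter samples = Prop 7.3 (directional bootstrap), finite form  (ex_W2 + two-pin argument).
* U5                       `rt_test_xz_ns`, `rt_test_q2_ns` : tied clocks, no strip  (rt_rp, ex_K, ex_W1, ex_F).
* U6                       `rt_strip_restrict`, `rt_test_xz_st`, `rt_test_q2_st`, `Is3.mono`, `Is3w.mono` : tied clocks, concentration in a strip  (ex_W1).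
Proof plans: origin/helper191:notes/S7/plan.md.
-/

set_option autoImplicit false

namespace Claimed.Agent.R255

open Filter Topology Finset Classical

/-! ## U1a: extraction (helper34) -/

/-- `κ ≤ S' ≤ 1` -/
theorem rt_s_bounds {γ m : ℝ} (hm : 0 < m) (M : Matched γ m) (hM : M.Good) (u s : ℝ) (h0 : 0 < u) (h1 : u < 1)
    (dS : HasDerivAt M.Sp s u) : M.κ ≤ s ∧ s ≤ 1 :=
  rxl_s_bounds hm M hM u s h0 h1 dS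

theorem rt_supply4 {γ m : ℝ} (hm : 0 < m) (hm1 : m ≠ 1) (M : Matched γ m) (hM : M.Good)
    (i u x y w z D s : ℝ) (tp : RtTrace4 M i u x y w z D s) : ∃ A : ℝ, 1 ≤ A ∧ BlkSupply m x y w z s M.sig A :=
  rxu_supply4 hm M hM i u x y w z D s tp

/-- at tied clocks only `tY = tW` is tested, so the joint rate `q` is carried by the slot `y` (and `w = 0`) -/
theorem rt_supply3 {γ m : ℝ} (hm1 : m = 1) (M : Matched γ m) (hM : M.Good)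
    (i u x q z D s : ℝ) (tp : RtTrace3 M i u x q z D s) : ∃ A : ℝ, 1 ≤ A ∧ BlkSupply 1 x q 0 z s M.sig A := by
  subst hm1
  exact rxu_supply3 M hM i u x q z D s tp

/-! ## U2: distinct clocks (helper163) -/

theorem rt_chains4 (m x y w z s σ A : ℝ) (hm1 : m ≠ 1) (hA : 1 ≤ A) (hs : 0 < s) (hσ : 0 < σ)
    (cap : 0 ≤ x ∧ x ≤ 1 ∧ 0 ≤ y ∧ y ≤ 1 ∧ 0 ≤ w ∧ w ≤ 1 ∧ 0 ≤ z ∧ z ≤ 1) (H : BlkSupply m x y w z s σ A) :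
    (0 < x → min 1 (x + s) ≤ y) ∧ (0 < w → min 1 (w + s) ≤ z) ∧
      (0 < x → min 1 (x + σ) ≤ w) ∧ (0 < y → min 1 (y + σ) ≤ z) :=
  rt_u2_chains4 m x y w z s σ A hm1 hA hs hσ cap H

/-! ## U1b: from block laws to graph blocks, tied clocks -/

theorem rt_core3 (x q z s σ A : ℝ) (hA : 1 ≤ A) (hs : 0 < s) (hs1 : s ≤ 1) (hσ : 0 < σ)
    (cap : 0 ≤ x ∧ x ≤ 1 ∧ 0 ≤ q ∧ q ≤ 2 ∧ 0 ≤ z ∧ z ≤ 1) (H : BlkSupply 1 x q 0 z s σ A) : RtHas3 x q z s σ :=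
  rc3_core3 x q z s σ A hA hs hs1 hσ cap H

/-! ## U3: tied clocks, the joint rate -/

theorem rt_test_q (A x q z s σ : ℝ) (hA : 1 ≤ A) (hx : 0 < x) (hs : 0 < s) (hq0 : 0 ≤ q) (hz0 : 0 ≤ z) (hq : q < s) :
    ∃ η ρ₁ : ℝ, 0 < η ∧ 0 < ρ₁ ∧ ∀ ρ : ℝ, 0 < ρ → ρ < ρ₁ → ∀ b : RtBlk, ¬ b.Is3w ρ η A x q z s σ :=
  rt_test_q_pf A x q z s σ hA hx hs hq0 hq

/-! ## U4: directions between parameter samples -/

/-- **Proposition 7.3**, finite form.  `wt` = density of the pair measure with respect to `lam ⊗ lam`. -/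
theorem rt_rp (A s τ η' : ℝ) (hA : 1 ≤ A) (hs : 0 < s) (hs1 : s ≤ 1) (hτ : 0 < τ) (hη' : 0 < η') :
    ∃ t₀ : ℝ, 0 < t₀ ∧ t₀ ≤ 1 ∧ ∀ κ₀ : ℝ, 0 < κ₀ → ∃ η ρ₁ : ℝ, 0 < η ∧ 0 < ρ₁ ∧ ∀ ρ : ℝ, 0 < ρ → ρ < ρ₁ →
      ∀ (ι : Type) [Fintype ι] (lam : ι → ℝ) (pos : ι → ℝ × ℝ) (wt : ι → ι → ℝ),
        (∀ i, 0 ≤ lam i) → ∑ i, lam i ≤ 1 → (∀ i, |(pos i).1| ≤ A ∧ |(pos i).2| ≤ A) →
        RtTreeHer lam pos (ρ ^ (-η)) s ρ → RtNoStrip lam pos (ρ ^ t₀) (ρ ^ κ₀) →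
        (∀ i j, 0 ≤ wt i j ∧ wt i j ≤ 1) → ρ ^ η ≤ ∑ i, ∑ j, lam i * lam j * wt i j →
        ∃ 𝒢 : ι → ι → Prop, ρ ^ η' ≤ ∑ i, ∑ j with 𝒢 i j, lam i * lam j * wt i j ∧
          (∀ i j, 𝒢 i j → ρ ^ η' ≤ dist (pos i) (pos j)) ∧ RtThin lam pos 𝒢 (ρ ^ (-η')) (s - τ) ρ :=
  rp_main A s τ η' hA hs hs1 hτ hη'

/-! ## U5: tied clocks, no strip -/

theorem rt_test_xz_ns (A x q z s σ : ℝ) (hA : 1 ≤ A) (hx : 0 < x) (hs : 0 < s) (hs1 : s ≤ 1) (hσ : 0 < σ) (hq0 : 0 ≤ q)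
    (hz0 : 0 ≤ z) (hz1 : z < 1) (hz : z < x + s) :
    ∃ t₀ : ℝ, 0 < t₀ ∧ t₀ ≤ 1 ∧ ∀ κ₀ : ℝ, 0 < κ₀ → ∃ η ρ₁ : ℝ, 0 < η ∧ 0 < ρ₁ ∧ ∀ ρ : ℝ, 0 < ρ → ρ < ρ₁ →
      ∀ b : RtBlk, b.Is3 ρ η A x q z s σ → ¬ RtNoStrip b.lam b.pos (ρ ^ t₀) (ρ ^ κ₀) :=
  rxz_main rt_rp A x q z s σ hA hx hs hs1 hσ hq0 hz0 hz1 hz

theorem rt_test_q2_ns (A x q z s σ : ℝ) (hA : 1 ≤ A) (hx0 : 0 ≤ x) (hs : 0 < s) (hs1 : s ≤ 1) (hσ : 0 < σ) (hq0 : 0 ≤ q)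
    (hz0 : 0 ≤ z) (hz1 : z < 1) (hq : 2 - s < q) :
    ∃ t₀ : ℝ, 0 < t₀ ∧ t₀ ≤ 1 ∧ ∀ κ₀ : ℝ, 0 < κ₀ → ∃ η ρ₁ : ℝ, 0 < η ∧ 0 < ρ₁ ∧ ∀ ρ : ℝ, 0 < ρ → ρ < ρ₁ →
      ∀ b : RtBlk, b.Is3 ρ η A x q z s σ → ¬ RtNoStrip b.lam b.pos (ρ ^ t₀) (ρ ^ κ₀) :=
  rq2_main rt_rp A x q z s σ hA hx0 hs hs1 hσ hq0 hz0 hz1 hq

/-! ## U6: tied clocks, concentration in a strip -/

theorem RtBlk.Is3.mono {b : RtBlk} {ρ η η' A x q z s σ : ℝ} (h0 : 0 < ρ) (h1 : ρ < 1) (hη : η ≤ η')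
    (h : b.Is3 ρ η A x q z s σ) : b.Is3 ρ η' A x q z s σ :=
  rst_is3_mono h0 h1 hη h

theorem RtBlk.Is3w.mono {b : RtBlk} {ρ η η' A x q z s σ : ℝ} (h0 : 0 < ρ) (h1 : ρ < 1) (hη : η ≤ η')
    (h : b.Is3w ρ η A x q z s σ) : b.Is3w ρ η' A x q z s σ :=
  rst_is3w_mono h0 h1 hη h

/-- restriction of the labels to a heavy strip and shortening of the block to the width of the strip -/
theorem rt_strip_restrict {b : RtBlk} {ρ η A x q z s σ t₀ κ₀ : ℝ} (h0 : 0 < ρ) (h1 : ρ < 1) (ht : 0 < t₀) (ht1 : t₀ ≤ 1)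
    (hη : 0 < η) (hκ : 0 < κ₀) (h : b.Is3 ρ η A x q z s σ) (hs : ¬ RtNoStrip b.lam b.pos (ρ ^ t₀) (ρ ^ κ₀)) :
    ∃ b' : RtBlk, b'.Is3w (ρ ^ t₀) ((η + κ₀) / t₀) A x q z s σ ∧ b'.InStrip (ρ ^ t₀) :=
  rst_restrict h0 h1 ht ht1 hη hκ h hs

theorem rt_test_xz_st (A x q z s σ : ℝ) (hA : 1 ≤ A) (hx : 0 < x) (hs : 0 < s) (hs1 : s ≤ 1) (hσ : 0 < σ) (hq0 : 0 ≤ q)
    (hz0 : 0 ≤ z) (hz1 : z < 1) (hz : z < x + s) :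
    ∃ η ρ₁ : ℝ, 0 < η ∧ 0 < ρ₁ ∧ ∀ ρ : ℝ, 0 < ρ → ρ < ρ₁ → ∀ b : RtBlk, b.Is3w ρ η A x q z s σ → ¬ b.InStrip ρ :=
  rst_xz A x q z s σ hA hx hs hs1 hσ hq0 hz0 hz1 hz

theorem rt_test_q2_st (A x q z s σ : ℝ) (hA : 1 ≤ A) (hx0 : 0 ≤ x) (hs : 0 < s) (hs1 : s ≤ 1) (hσ : 0 < σ) (hq0 : 0 ≤ q)
    (hz0 : 0 ≤ z) (hz1 : z < 1) (hq : 2 - s < q) :
    ∃ η ρ₁ : ℝ, 0 < η ∧ 0 < ρ₁ ∧ ∀ ρ : ℝ, 0 < ρ → ρ < ρ₁ → ∀ b : RtBlk, b.Is3w ρ η A x q z s σ → ¬ b.InStrip ρ :=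
  rst_q2 A x q z s σ hA hx0 hs hs1 hσ hq0 hz0 hz1 hq

/-! ## glue -/

/-- the strip / no strip dichotomy -/
theorem rt_dichotomy (A x q z s σ : ℝ)
    (hns : ∃ t₀ : ℝ, 0 < t₀ ∧ t₀ ≤ 1 ∧ ∀ κ₀ : ℝ, 0 < κ₀ → ∃ η ρ₁ : ℝ, 0 < η ∧ 0 < ρ₁ ∧ ∀ ρ : ℝ, 0 < ρ → ρ < ρ₁ →
      ∀ b : RtBlk, b.Is3 ρ η A x q z s σ → ¬ RtNoStrip b.lam b.pos (ρ ^ t₀) (ρ ^ κ₀))
    (hst : ∃ η ρ₁ : ℝ, 0 < η ∧ 0 < ρ₁ ∧ ∀ ρ : ℝ, 0 < ρ → ρ < ρ₁ → ∀ b : RtBlk, b.Is3w ρ η A x q z s σ → ¬ b.InStrip ρ) :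
    ∃ η ρ₁ : ℝ, 0 < η ∧ 0 < ρ₁ ∧ ∀ ρ : ℝ, 0 < ρ → ρ < ρ₁ → ∀ b : RtBlk, ¬ b.Is3 ρ η A x q z s σ := by
  obtain ⟨t₀, ht0, ht1, hns⟩ := hns
  obtain ⟨ηs, ρs, hηs, hρs, hst⟩ := hst
  obtain ⟨ηn, ρn, hηn, hρn, hns⟩ := hns (t₀ * ηs / 2) (by positivity)
  refine ⟨min ηn (t₀ * ηs / 2), min (min ρn 1) (ρs ^ (1 / t₀)), by positivity, by positivity, ?_⟩
  intro ρ h0 hρ b hb
  have hρn' : ρ < ρn := lt_of_lt_of_le hρ (le_trans (min_le_left _ _) (min_le_left _ _))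
  have hρ1 : ρ < 1 := lt_of_lt_of_le hρ (le_trans (min_le_left _ _) (min_le_right _ _))
  have hρs' : ρ < ρs ^ (1 / t₀) := lt_of_lt_of_le hρ (min_le_right _ _)
  have hstrip := hns ρ h0 hρn' b (hb.mono h0 hρ1 (min_le_left _ _))
  obtain ⟨b', hb', hin⟩ := rt_strip_restrict h0 hρ1 ht0 ht1 (by positivity) (by positivity) hb hstrip
  have h2 : ρ ^ t₀ < ρs := by
    have h3 : ρ ^ t₀ < (ρs ^ (1 / t₀)) ^ t₀ := Real.rpow_lt_rpow h0.le hρs' ht0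
    rwa [← Real.rpow_mul hρs.le, one_div_mul_cancel ht0.ne', Real.rpow_one] at h3
  have h4 : (min ηn (t₀ * ηs / 2) + t₀ * ηs / 2) / t₀ ≤ ηs := by
    rw [div_le_iff₀ ht0]
    have := min_le_right ηn (t₀ * ηs / 2)
    linarith
  have h5 : ρ ^ t₀ < 1 := Real.rpow_lt_one h0.le hρ1 ht0
  exact hst (ρ ^ t₀) (Real.rpow_pos_of_pos h0 _) h2 b' (hb'.mono (Real.rpow_pos_of_pos h0 _) h5 h4) hin

theorem rt_no3 {x q z s σ : ℝ} (H : RtHas3 x q z s σ)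
    (T : ∀ A : ℝ, 1 ≤ A → ∃ η ρ₁ : ℝ, 0 < η ∧ 0 < ρ₁ ∧ ∀ ρ : ℝ, 0 < ρ → ρ < ρ₁ → ∀ b : RtBlk, ¬ b.Is3 ρ η A x q z s σ) :
    False := by
  obtain ⟨A, hA, H⟩ := H
  obtain ⟨η, ρ₁, hη, hρ₁, T⟩ := T A hA
  obtain ⟨ρ, h0, h1, b, hb⟩ := H η ρ₁ hη hρ₁
  exact T ρ h0 h1 b hb

theorem Matched.sig_pos {γ m : ℝ} (hm : 0 < m) (M : Matched γ m) : 0 < M.sig := by
  unfold Matched.sig
  have := M.κpos
  positivity

/-- **Proposition 7.1 (1)**, pointwise -/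
theorem rt_distinct {γ m : ℝ} (hm : 0 < m) (hm1 : m ≠ 1) (M : Matched γ m) (hM : M.Good)
    (i u x y w z D s : ℝ) (tp : RtTrace4 M i u x y w z D s) :
    0 < s ∧ s ≤ 1 ∧ (0 < x → min 1 (x + s) ≤ y) ∧ (0 < w → min 1 (w + s) ≤ z) ∧
      (0 < x → min 1 (x + M.sig) ≤ w) ∧ (0 < y → min 1 (y + M.sig) ≤ z) := by
  obtain ⟨hs0, hs1⟩ := rt_s_bounds hm M hM u s tp.upos tp.ult tp.dS
  have hs : 0 < s := lt_of_lt_of_le M.κpos hs0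
  obtain ⟨A, hA, H⟩ := rt_supply4 hm hm1 M hM i u x y w z D s tp
  exact ⟨hs, hs1, rt_chains4 m x y w z s M.sig A hm1 hA hs (M.sig_pos hm) tp.cap H⟩

/-- **Proposition 7.1 (2)**, pointwise -/
theorem rt_tied {γ m : ℝ} (hm1 : m = 1) (M : Matched γ m) (hM : M.Good)
    (i u x q z D s : ℝ) (tp : RtTrace3 M i u x q z D s) :
    0 < s ∧ s ≤ 1 ∧ (0 < x → s ≤ q) ∧ (0 < x → z < 1 → x + s ≤ z) ∧ (z < 1 → q ≤ 2 - s) := by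
  have hm : 0 < m := by rw [hm1]; exact one_pos
  obtain ⟨hs0, hs1⟩ := rt_s_bounds hm M hM u s tp.upos tp.ult tp.dS
  have hs : 0 < s := lt_of_lt_of_le M.κpos hs0
  have hσ := M.sig_pos hm
  obtain ⟨A₀, hA₀, H₀⟩ := rt_supply3 hm1 M hM i u x q z D s tp
  have H := rt_core3 x q z s M.sig A₀ hA₀ hs hs1 hσ tp.cap H₀
  obtain ⟨x0, -, q0, -, z0, -⟩ := tp.cap
  refine ⟨hs, hs1, fun hx => ?_, fun hx hz1 => ?_, fun hz1 => ?_⟩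
  · by_contra h
    push Not at h
    refine rt_no3 H fun A hA => ?_
    obtain ⟨η, ρ₁, hη, hρ₁, T⟩ := rt_test_q A x q z s M.sig hA hx hs q0 z0 h
    exact ⟨η, ρ₁, hη, hρ₁, fun ρ h0 h1 b hb => T ρ h0 h1 b hb.toIs3w⟩
  · by_contra h
    push Not at h
    exact rt_no3 H fun A hA => rt_dichotomy A x q z s M.sig
      (rt_test_xz_ns A x q z s M.sig hA hx hs hs1 hσ q0 z0 hz1 h)
      (rt_test_xz_st A x q z s M.sig hA hx hs hs1 hσ q0 z0 hz1 h)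
  · by_contra h
    push Not at h
    exact rt_no3 H fun A hA => rt_dichotomy A x q z s M.sig
      (rt_test_q2_ns A x q z s M.sig hA x0 hs hs1 hσ q0 z0 hz1 h)
      (rt_test_q2_st A x q z s M.sig hA x0 hs hs1 hσ q0 z0 hz1 h)

end Claimed.Agent.R255
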