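import Claimed.Agent.R255.Rate.RpDefs

/-!
# U4 (`rt_rp`): small tools of the glue files `RpStep.lean`, `RpBase.lean`, `RpFinal.lean`.   (helper69)
-/

set_option autoImplicit false

namespace Claimed.Agent.R255

open Finset Classical

theorem rt_treeher_mono {ι : Type} [Fintype ι] {w : ι → ℝ} {pos : ι → ℝ × ℝ} {C C' s ρ : ℝ} (hw : ∀ i, 0 ≤ w i) (hC : C ≤ C')
    (h : RtTreeHer w pos C s ρ) : RtTreeHer w pos C' s ρ := by
  intro k k' hk hρ i₀
  refine (h k k' hk hρ i₀).trans ?_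
  have h1 : 0 ≤ ((1 / 2 : ℝ) ^ (k' - k)) ^ s := Real.rpow_nonneg (by positivity) _
  have h2 : 0 ≤ ∑ i with rtCell k (pos i) = rtCell k (pos i₀), w i := Finset.sum_nonneg fun i _ => hw i
  gcongr

/-- union bound for pair masses -/
theorem rp_split_mass {ι : Type} [Fintype ι] {lam : ι → ℝ} (hlam : ∀ i, 0 ≤ lam i) (P Q R : ι → ι → Prop)
    (h : ∀ i j, P i j → Q i j ∨ R i j) :
    ∑ i, ∑ j with P i j, lam i * lam j
      ≤ ∑ i, ∑ j with Q i j, lam i * lam j + ∑ i, ∑ j with R i j, lam i * lam j := by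
  rw [← Finset.sum_add_distrib]
  refine Finset.sum_le_sum fun i _ => ?_
  simp only [Finset.sum_filter]
  rw [← Finset.sum_add_distrib]
  refine Finset.sum_le_sum fun j _ => ?_
  have h0 : 0 ≤ lam i * lam j := mul_nonneg (hlam i) (hlam j)
  by_cases hP : P i j
  · rcases h i j hP with hQ | hR
    · by_cases hR : R i j <;> simp [hP, hQ, hR, h0]
    · by_cases hQ : Q i j <;> simp [hP, hQ, hR, h0]
  · by_cases hQ : Q i j <;> by_cases hR : R i j <;> simp [hP, hQ, hR, h0]

end Claimed.Agent.R255
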