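import Claimed.Agent.R255.Rate.RpDefs

/-!
# U4 (`rt_rp`), leaf L-RP-LEVEL: summation over the cells (finite sums only).   (architect helper69)
`∑_i ∑_{j : Bad i j} lam i lam j = ∑_j ∑_{i : Bad i j} lam j lam i` (`Finset.sum_comm'` or indicator form + `Finset.sum_comm`), then group `j` by `rtCell k (pos j)`
(`Finset.sum_fiberwise_of_maps_to` onto `univ.image`), apply `hcell`, and regroup: `∑_q ∑_{a ∈ q} lam a = ∑ lam ≤ 1`.
-/

set_option autoImplicit false

namespace Claimed.Agent.R255

open Finset Classical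

variable {ι : Type} [Fintype ι]

theorem rp_level_of_cells {lam : ι → ℝ} {pos : ι → ℝ × ℝ} {A : ℝ} (hp : RpPop lam pos A) (k : ℕ) (Bad : ι → ι → Prop) (β : ℝ)
    (hβ : 0 ≤ β)
    (hcell : ∀ q : ℤ × ℤ, ∑ a with rtCell k (pos a) = q, ∑ b with Bad b a, lam a * lam b
      ≤ β * ∑ a with rtCell k (pos a) = q, lam a) :
    ∑ i, ∑ j with Bad i j, lam i * lam j ≤ β := by
  have h1 : ∑ i, ∑ j with Bad i j, lam i * lam j = ∑ a, ∑ b with Bad b a, lam a * lam b := by
    simp only [Finset.sum_filter]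
    rw [Finset.sum_comm]
    refine Finset.sum_congr rfl fun a _ => Finset.sum_congr rfl fun b _ => ?_
    split_ifs
    · ring
    · rfl
  rw [h1]
  have hm : ∀ a ∈ (Finset.univ : Finset ι), rtCell k (pos a) ∈ Finset.univ.image (fun a => rtCell k (pos a)) :=
    fun a _ => Finset.mem_image_of_mem _ (Finset.mem_univ a)
  rw [← Finset.sum_fiberwise_of_maps_to hm (fun a => ∑ b with Bad b a, lam a * lam b)]
  calc ∑ q ∈ Finset.univ.image (fun a => rtCell k (pos a)),
        ∑ a with rtCell k (pos a) = q, ∑ b with Bad b a, lam a * lam b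
      ≤ ∑ q ∈ Finset.univ.image (fun a => rtCell k (pos a)),
        β * ∑ a with rtCell k (pos a) = q, lam a := Finset.sum_le_sum fun q _ => hcell q
    _ = β * ∑ a, lam a := by
        rw [← Finset.mul_sum, Finset.sum_fiberwise_of_maps_to hm lam]
    _ ≤ β * 1 := mul_le_mul_of_nonneg_left hp.lam1 hβ
    _ = β := mul_one β

end Claimed.Agent.R255
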