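import Claimed.Agent.R255.Rate.RpRefMass

/-!
# U4 (`rt_rp`), leaf L-RP-TELE (this file: `rp_chain`, `rp_tele`): the refined graph (finite sums only).   (architect helper69)
* `rp_ref_gr`: `RpRef` is symmetric and contained in `𝒢`.
* `rp_ref_mass`: union bound, `1[𝒢 ∧ ¬Ref](i,j) ≤ ∑_{n<L} (1[Bad_n i j] + 1[Bad_n j i])`; the transposed sum equals the direct one (`Finset.sum_comm`, `mul_comm`).
* `rp_chain`: for a refined pair, `rpM i₀ i (W n) ≤ ∏_{m<n} l m` for `n ≤ L` (induction; `rpM i₀ i (W 0) ≤ ∑ lam ≤ 1`).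
* `rp_tele`: thinness.  If `W 0 ≤ w` use `hW0` and `∑ lam ≤ 1`.  Otherwise let `n+1` be the least index with `W (n+1) ≤ w` (`Nat.find`; `W L ≤ ρ ≤ w`), so `w < W n`, `n < L`.
  Split `{|sl - z| ≤ w}` into `{z - w ≤ sl ≤ z}` and `{z ≤ sl ≤ z + w}`; in each half pick a point `i*` of the set (if any): the half is contained in the cone `{|sl - sl(i*)| ≤ W n}`,
  whose mass is `rpM i₀ i* (W n) ≤ ∏_{m<n} l m`.
-/

set_option autoImplicit false

namespace Claimed.Agent.R255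

open Finset Classical

variable {ι : Type} [Fintype ι]

theorem rp_chain {lam : ι → ℝ} {pos : ι → ℝ × ℝ} {𝒢 : ι → ι → Prop} {A : ℝ} (hp : RpPop lam pos A) (L : ℕ) (W l : ℕ → ℝ)
    (hl : ∀ n, 0 ≤ l n) (i₀ i : ι) (h : RpRef lam pos 𝒢 L W l i₀ i) (n : ℕ) (hn : n ≤ L) :
    rpM lam pos 𝒢 i₀ i (W n) ≤ ∏ m ∈ range n, l m := by
  induction n with
  | zero =>
    simp only [range_zero, prod_empty]
    refine le_trans ?_ hp.lam1
    unfold rpM
    exact Finset.sum_le_sum_of_subset_of_nonneg (Finset.filter_subset _ _) (fun i _ _ => hp.lam0 i)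
  | succ n ih =>
    have h1 := (h.2 n (by omega)).1
    have h2 : rpM lam pos 𝒢 i₀ i (W (n + 1)) ≤ l n * rpM lam pos 𝒢 i₀ i (W n) := by
      by_contra hc
      exact h1 ⟨h.1, not_le.1 hc⟩
    rw [Finset.prod_range_succ, mul_comm]
    exact h2.trans (mul_le_mul_of_nonneg_left (ih (by omega)) (hl n))

/-- a set of refined neighbours of `i₀` whose slopes have diameter `≤ W n` has mass `≤ ∏_{m<n} l m` -/
theorem rp_tele_half {lam : ι → ℝ} {pos : ι → ℝ × ℝ} {𝒢 : ι → ι → Prop} {A : ℝ} (hp : RpPop lam pos A) (L : ℕ) (W l : ℕ → ℝ)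
    (hl : ∀ n, 0 ≤ l n) (i₀ : ι) (n : ℕ) (hn : n ≤ L) (S : Finset ι)
    (hS : ∀ i ∈ S, RpRef lam pos 𝒢 L W l i₀ i)
    (hSS : ∀ i ∈ S, ∀ j ∈ S, |rpSl pos i₀ i - rpSl pos i₀ j| ≤ W n) :
    ∑ i ∈ S, lam i ≤ ∏ m ∈ range n, l m := by
  rcases S.eq_empty_or_nonempty with rfl | ⟨j, hj⟩
  · rw [Finset.sum_empty]
    exact Finset.prod_nonneg (fun m _ => hl m)
  · refine le_trans ?_ (rp_chain hp L W l hl i₀ j (hS j hj) n hn)
    unfold rpM
    refine Finset.sum_le_sum_of_subset_of_nonneg ?_ (fun i _ _ => hp.lam0 i)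
    intro i hi
    simp only [mem_filter, mem_univ, true_and]
    exact ⟨(hS i hi).1, hSS i hi j hj⟩

theorem rp_tele {lam : ι → ℝ} {pos : ι → ℝ × ℝ} {𝒢 : ι → ι → Prop} {A : ℝ} (hp : RpPop lam pos A) (L : ℕ) (W l : ℕ → ℝ)
    (hl : ∀ n, 0 ≤ l n) (ρ C u' : ℝ) (hWL : W L ≤ ρ)
    (hW0 : ∀ w, W 0 ≤ w → w ≤ 1 → 1 ≤ C * w ^ u')
    (hprod : ∀ n < L, ∀ w, W (n + 1) ≤ w → w ≤ W n → 2 * ∏ m ∈ range n, l m ≤ C * w ^ u') :
    RpThin lam pos (RpRef lam pos 𝒢 L W l) C u' ρ := by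
  intro i₀ z w hρw hw1
  by_cases h0 : W 0 ≤ w
  · refine le_trans ?_ (hW0 w h0 hw1)
    refine le_trans ?_ hp.lam1
    exact Finset.sum_le_sum_of_subset_of_nonneg (Finset.filter_subset _ _) (fun i _ _ => hp.lam0 i)
  · have hex : ∃ n, W n ≤ w := ⟨L, hWL.trans hρw⟩
    have hNs : W (Nat.find hex) ≤ w := Nat.find_spec hex
    have hNL : Nat.find hex ≤ L := Nat.find_min' hex (hWL.trans hρw)
    have hN0 : Nat.find hex ≠ 0 := by
      intro h
      rw [h] at hNs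
      exact h0 hNs
    obtain ⟨n, hn⟩ := Nat.exists_eq_succ_of_ne_zero hN0
    have hnw : w < W n := by
      have := Nat.find_min hex (m := n) (by omega)
      exact not_le.1 this
    have hfin := hprod n (by omega) w (by rw [← Nat.succ_eq_add_one, ← hn]; exact hNs) hnw.le
    refine le_trans ?_ hfin
    have hsub : (univ.filter (fun i => RpRef lam pos 𝒢 L W l i₀ i ∧ |rpSl pos i₀ i - z| ≤ w)) ⊆
        (univ.filter (fun i => RpRef lam pos 𝒢 L W l i₀ i ∧ |rpSl pos i₀ i - z| ≤ w ∧ rpSl pos i₀ i ≤ z)) ∪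
        (univ.filter (fun i => RpRef lam pos 𝒢 L W l i₀ i ∧ |rpSl pos i₀ i - z| ≤ w ∧ z ≤ rpSl pos i₀ i)) := by
      intro i hi
      simp only [mem_filter, mem_univ, true_and, mem_union] at hi ⊢
      rcases le_total (rpSl pos i₀ i) z with h | h
      · exact Or.inl ⟨hi.1, hi.2, h⟩
      · exact Or.inr ⟨hi.1, hi.2, h⟩
    have h1 := rp_tele_half hp L W l hl i₀ n (by omega)
      (univ.filter (fun i => RpRef lam pos 𝒢 L W l i₀ i ∧ |rpSl pos i₀ i - z| ≤ w ∧ rpSl pos i₀ i ≤ z))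
      (fun i hi => (mem_filter.1 hi).2.1) (fun i hi j hj => by
        have hi' := (mem_filter.1 hi).2.2
        have hj' := (mem_filter.1 hj).2.2
        have a1 := abs_le.1 hi'.1
        have a2 := abs_le.1 hj'.1
        rw [abs_le]
        constructor <;> linarith [hi'.2, hj'.2])
    have h2 := rp_tele_half hp L W l hl i₀ n (by omega)
      (univ.filter (fun i => RpRef lam pos 𝒢 L W l i₀ i ∧ |rpSl pos i₀ i - z| ≤ w ∧ z ≤ rpSl pos i₀ i))
      (fun i hi => (mem_filter.1 hi).2.1) (fun i hi j hj => by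
        have hi' := (mem_filter.1 hi).2.2
        have hj' := (mem_filter.1 hj).2.2
        have a1 := abs_le.1 hi'.1
        have a2 := abs_le.1 hj'.1
        rw [abs_le]
        constructor <;> linarith [hi'.2, hj'.2])
    have h3 := Finset.sum_le_sum_of_subset_of_nonneg hsub (f := lam) (fun i _ _ => hp.lam0 i)
    have h4 := Finset.sum_union_inter (f := lam)
      (s₁ := univ.filter (fun i => RpRef lam pos 𝒢 L W l i₀ i ∧ |rpSl pos i₀ i - z| ≤ w ∧ rpSl pos i₀ i ≤ z))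
      (s₂ := univ.filter (fun i => RpRef lam pos 𝒢 L W l i₀ i ∧ |rpSl pos i₀ i - z| ≤ w ∧ z ≤ rpSl pos i₀ i))
    have h5 : 0 ≤ ∑ i ∈ (univ.filter (fun i => RpRef lam pos 𝒢 L W l i₀ i ∧ |rpSl pos i₀ i - z| ≤ w ∧ rpSl pos i₀ i ≤ z)) ∩
        (univ.filter (fun i => RpRef lam pos 𝒢 L W l i₀ i ∧ |rpSl pos i₀ i - z| ≤ w ∧ z ≤ rpSl pos i₀ i)), lam i :=
      Finset.sum_nonneg (fun i _ => hp.lam0 i)
    linarith

end Claimed.Agent.R255
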