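import Claimed.Agent.R255.Rate.RpCellPin
import Claimed.Agent.R255.Rate.RpTele
import Claimed.Agent.R255.Rate.RpLevel
import Claimed.Agent.R255.Rate.RpPar
import Claimed.Agent.R255.Rate.RpGlue

/-!
# U4 (`rt_rp`), GLUE L-RP-BASE: stage 0 of the bootstrap.   (architect helper69)
Given `η₁`: `θ = 1/3`, `L` with `j₁ = rpE θ L 0 ≤ η₁/8`, `a = θ j₁/2`, `ηin = min (θ j₁/8) (η₁/(8 (L+1)))`, `t₀ = a s/12`.
Given `κ₀`: `c₂ = min κ₀ (a s/6)/4`, `c = min (s ηin/2) c₂/2`, `η = min (a s/12) (s ηin/2)`, `ρ₁ = min` of the thresholds of `rp_lev_exists`, `rp_par_tele` (`v = s/3`, `u' = s/4`), `rp_par_base`.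
For `ρ < ρ₁`: `𝒢₀ = RpH pos (ρ^ηin)` (symmetric), levels `k n, δ n`, `W n = ρ^rpE θ L n`, `l n = (δ n)^(s/3)`, `𝒢 = RpRef lam pos 𝒢₀ L W l`.
* mass: `Hor ∧ ¬𝒢 ⊆ (Hor ∧ ¬𝒢₀) ∪ (𝒢₀ ∧ ¬𝒢)`; `rp_close` (`K = ρ^(-η)`), `rp_ref_mass` with `β = ρ^c₂`; each level by `rp_level_of_cells` + `rp_cell_pin`
  (`ϑ = ρ^t₀/(2A+1)`, `wd = ρ^t₀`, `κs = ρ^κ₀`).
* thin: `rp_tele` + `rp_par_tele`.
-/

set_option autoImplicit false

namespace Claimed.Agent.R255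

open Finset Classical

theorem rp_H_gr {ι : Type} [Fintype ι] (pos : ι → ℝ × ℝ) (σ : ℝ) : RpGr pos (RpH pos σ) σ := by
  refine ⟨fun i j h => ?_, fun i j h => h⟩
  obtain ⟨h1, h2⟩ := h
  unfold RpHor at h1
  refine ⟨?_, ?_⟩
  · unfold RpHor
    rw [abs_sub_comm (pos i).2, abs_sub_comm (pos i).1]
    exact h1
  · rw [abs_sub_comm (pos i).1]
    exact h2

theorem rp_base (A s : ℝ) (hA : 1 ≤ A) (hs : 0 < s) (hs1 : s ≤ 1) : RpStage A s (s / 4) := by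
  intro η₁ hη₁
  obtain ⟨θ, hθdef⟩ : ∃ θ : ℝ, θ = 1 / 3 := ⟨_, rfl⟩
  have hθ : 0 < θ := by rw [hθdef]; positivity
  have hθ1 : θ ≤ 1 / 3 := hθdef.le
  obtain ⟨L, hL⟩ := rp_E_small θ (η₁ / 8) hθ (by positivity)
  have hj₁ : 0 < rpE θ L 0 := rp_E_pos θ hθ L 0
  have hj₁1 : rpE θ L 0 ≤ 1 := (rp_E_mono θ hθ L (Nat.zero_le L)).trans (rp_E_top θ hθ L).le
  obtain ⟨a, hadef⟩ : ∃ a : ℝ, a = θ * rpE θ L 0 / 2 := ⟨_, rfl⟩
  have ha : 0 < a := by rw [hadef]; positivity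
  have ha1 : a ≤ 1 := by rw [hadef]; nlinarith
  obtain ⟨ηin, hηdef⟩ : ∃ ηin : ℝ, ηin = min (θ * rpE θ L 0 / 8) (η₁ / (8 * ((L : ℝ) + 1))) := ⟨_, rfl⟩
  have hL1 : (0 : ℝ) < 8 * ((L : ℝ) + 1) := by positivity
  have hηin0 : 0 < ηin := by
    rw [hηdef]
    exact lt_min (by positivity) (by positivity)
  have hηin1 : ηin ≤ θ * rpE θ L 0 / 8 := by
    rw [hηdef]; exact min_le_left _ _
  have hηin3' : ηin ≤ η₁ / (8 * ((L : ℝ) + 1)) := by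
    rw [hηdef]; exact min_le_right _ _
  have hηin5 : ηin * (8 * ((L : ℝ) + 1)) ≤ η₁ := (le_div_iff₀ hL1).1 hηin3'
  have hLnn : (0 : ℝ) ≤ (L : ℝ) := Nat.cast_nonneg L
  have hηin3 : ηin * L ≤ η₁ / 8 := by nlinarith
  have hηin4 : ηin ≤ η₁ := by nlinarith
  have hηin6 : ηin ≤ 1 := by nlinarith
  have hast : 0 < a * s / 12 := by positivity
  have hast1 : a * s / 12 ≤ 1 := by nlinarith
  refine ⟨a * s / 12, hast, hast1, fun κ₀ hκ₀ => ?_⟩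
  obtain ⟨ρa, hρa0, hρa1, hlev⟩ := rp_lev_exists A θ ηin L hA hθ hθ1 hηin0 hηin1
  have huv : s / 4 * (1 + θ) ≤ s / 3 := by
    rw [hθdef]; linarith
  obtain ⟨ρb, hρb0, hρb1, htele⟩ := rp_par_tele A θ ηin η₁ (s / 3) (s / 4) L hA hθ hηin0 hη₁ (by positivity)
    (by linarith) (by positivity) huv hL hηin3
  obtain ⟨ρc, hρc0, hρc1, hpar⟩ := rp_par_base A a s κ₀ ηin L hA ha ha1 hs hs1 hκ₀ hηin0
  obtain ⟨η, hηd⟩ : ∃ η : ℝ, η = min (a * s / 12) (s * ηin / 2) := ⟨_, rfl⟩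
  obtain ⟨c₂, hc₂d⟩ : ∃ c₂ : ℝ, c₂ = min κ₀ (a * s / 6) / 4 := ⟨_, rfl⟩
  rw [← hηd, ← hc₂d] at hpar
  have hη0 : 0 < η := by rw [hηd]; exact lt_min hast (by positivity)
  have hc₂0 : 0 < c₂ := by
    have : 0 < min κ₀ (a * s / 6) := lt_min hκ₀ (by positivity)
    rw [hc₂d]; positivity
  refine ⟨min (s * ηin / 2) c₂ / 2, η, min (min ρa ρb) ρc, ?_, hη0, lt_min (lt_min hρa0 hρb0) hρc0, ?_⟩
  · have : 0 < min (s * ηin / 2) c₂ := lt_min (by positivity) hc₂0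
    positivity
  intro ρ hρ0 hρlt ι _ lam pos hp her hns
  have hρ_a : ρ < ρa := lt_of_lt_of_le hρlt ((min_le_left _ _).trans (min_le_left _ _))
  have hρ_b : ρ < ρb := lt_of_lt_of_le hρlt ((min_le_left _ _).trans (min_le_right _ _))
  have hρ_c : ρ < ρc := lt_of_lt_of_le hρlt (min_le_right _ _)
  have hρ1 : ρ < 1 := lt_of_lt_of_le hρ_a hρa1
  obtain ⟨k, δ, hδpos, hlev⟩ := hlev ρ hρ0 hρ_a
  obtain ⟨hsum, hpar⟩ := hpar ρ hρ0 hρ_c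
  obtain ⟨hW0, hprod⟩ := htele ρ hρ0 hρ_b δ (fun n hn => ⟨hδpos n, (hlev n hn).2.1⟩)
  have hK1 : 1 ≤ ρ ^ (-η) := Real.one_le_rpow_of_pos_of_le_one_of_nonpos hρ0 hρ1.le (by linarith)
  have hg₀ : RpGr pos (RpH pos (ρ ^ ηin)) (ρ ^ ηin) := rp_H_gr pos _
  obtain ⟨W, hW⟩ : ∃ W : ℕ → ℝ, ∀ n, W n = ρ ^ rpE θ L n := ⟨_, fun _ => rfl⟩
  obtain ⟨l, hl⟩ : ∃ l : ℕ → ℝ, ∀ n, l n = δ n ^ (s / 3) := ⟨_, fun _ => rfl⟩
  have hr := rp_ref_gr (lam := lam) hg₀ L W l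
  have hA2 : (0 : ℝ) < 2 * A + 1 := by linarith
  have hρt : 0 < ρ ^ (a * s / 12) := Real.rpow_pos_of_pos hρ0 _
  have hbad : ∀ n < L, ∑ i, ∑ j with RpBad lam pos (RpH pos (ρ ^ ηin)) (W n) (W (n + 1)) (l n) i j, lam i * lam j
      ≤ ρ ^ c₂ := by
    intro n hn
    obtain ⟨hlv, -, hδa⟩ := hlev n hn
    rw [← hadef] at hδa
    obtain ⟨p1, p2⟩ := hpar (δ n) (hδpos n) hδa
    rw [hW n, hW (n + 1), hl n]
    refine rp_level_of_cells hp (k n) _ (ρ ^ c₂) (Real.rpow_pos_of_pos hρ0 _).le (fun q => ?_)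
    refine rp_cell_pin hp hg₀ hlv s (s / 3) (ρ ^ (-η)) (ρ ^ (a * s / 12) / (2 * A + 1)) (ρ ^ (a * s / 12)) (ρ ^ κ₀) (ρ ^ c₂)
      hs.le hs1 hK1 her hns (by positivity) ?_ ?_ p1 (Real.rpow_pos_of_pos hρ0 _).le p2 q
    · rw [div_le_one hA2]
      exact (Real.rpow_le_one hρ0.le hρ1.le hast.le).trans (by linarith)
    · rw [div_mul_cancel₀ _ hA2.ne']
  have hm := rp_ref_mass hp.lam0 L W l _ hbad
  have hcl := rp_close hp (ρ ^ (-η)) s ρ (ρ ^ ηin) (by positivity) hs.le hs1 hρ0 her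
    (by
      calc ρ = ρ ^ (1 : ℝ) := (Real.rpow_one ρ).symm
        _ ≤ ρ ^ ηin := Real.rpow_le_rpow_of_exponent_ge hρ0 hρ1.le hηin6)
    (Real.rpow_le_one hρ0.le hρ1.le hηin0.le)
  have hsplit := rp_split_mass hp.lam0 (fun i j => RpHor pos i j ∧ ¬ RpRef lam pos (RpH pos (ρ ^ ηin)) L W l i j)
    (fun i j => RpHor pos i j ∧ ¬ RpH pos (ρ ^ ηin) i j)
    (fun i j => RpH pos (ρ ^ ηin) i j ∧ ¬ RpRef lam pos (RpH pos (ρ ^ ηin)) L W l i j) (by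
      intro i j hij
      by_cases h0 : RpH pos (ρ ^ ηin) i j
      · exact Or.inr ⟨h0, hij.2⟩
      · exact Or.inl ⟨hij.1, h0⟩)
  refine ⟨RpRef lam pos (RpH pos (ρ ^ ηin)) L W l, ?_, ?_, ?_⟩
  · exact ⟨hr.symm, fun i j hij => ⟨(hr.sub i j hij).1,
      (Real.rpow_le_rpow_of_exponent_ge hρ0 hρ1.le hηin4).trans (hr.sub i j hij).2⟩⟩
  · refine le_trans ?_ hsum
    refine le_trans ?_ (add_le_add hcl hm)
    convert hsplit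
    rfl
  · refine rp_tele hp L W l (fun n => ?_) ρ _ _ ?_ ?_ ?_
    · rw [hl n]; exact (Real.rpow_pos_of_pos (hδpos n) _).le
    · rw [hW L, rp_E_top θ hθ L, Real.rpow_one]
    · intro w; rw [hW 0]; exact hW0 w
    · intro n hn w
      rw [hW n, hW (n + 1), Finset.prod_congr rfl (fun m _ => hl m)]
      exact hprod n hn w

end Claimed.Agent.R255
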