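import Claimed.Agent.R255.Rate.RpPinB

/-!
# U4 (`rt_rp`), leaf L-RP-PIN-C (this file: `rp_cell_pin`); plan of all three leaves L-RP-PIN-*: the bad pairs over one cell, by two transversal pins (stage 0 of the bootstrap).   (architect helper69)
`Λ = ∑_{a ∈ q} lam a > 0` (else trivial), `μ = rpMu lam pos k q (1/Λ)`, `Bad = RpBad lam pos 𝒢 W W' (δ^v)`, `g a = ∑_{b : Bad b a} lam b`, `S = ∑_a μ a g a`; LHS `= Λ S`.
Cauchy-Schwarz: `S² ≤ ∑_a μ a (g a)² = ∑_b ∑_b' lam b lam b' m(b,b')`, `m(b,b') = ∑_{a : Bad b a ∧ Bad b' a} μ a ≤ 1`.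
* NEAR pairs `|σ_b - σ_b'| ≤ ϑ` (`σ_b = rpTs k q (pos b)`) with `m(b,b') ≠ 0`: `b'` lies in the strip of half-width `ϑ (2A+1) ≤ wd` around the line through the corner of `q` of slope `σ_b`
  (`rp_pin_strip`), so `∑_{b'} ≤ κs` by `RtNoStrip`, and `∑_b lam b ≤ 1`.
* FAR pairs: by `rp_cover` (`l = δ^v`) the set `{a : Bad b a ∧ Bad b' a}` is covered by `< δ^(-v) δ^(-v)` parallelograms `{π_σ ∈ [e,e+δ], π_σ' ∈ [e',e'+δ]}`, each of which lies in a
  square of half-side `5δ/ϑ` centred at one of its points (`rp_pin_par`), of `μ`-mass `≤ 100 K (5δ/ϑ)^s` (`rp_child_frost`).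
So `S² ≤ κs + δ^(-2v) 100 K (5δ/ϑ)^s ≤ β²`.
-/

set_option autoImplicit false

namespace Claimed.Agent.R255

open Finset Classical
open Claimed.Agent.RW (KfFrost KfCov kfProj)

variable {ι : Type} [Fintype ι]

theorem rp_cell_pin {lam : ι → ℝ} {pos : ι → ℝ × ℝ} {𝒢 : ι → ι → Prop} {A ρ σ₀ W W' δ : ℝ} {k : ℕ}
    (hp : RpPop lam pos A) (hg : RpGr pos 𝒢 σ₀) (hl : RpLev A ρ σ₀ W W' δ k)
    (s v K ϑ wd κs β : ℝ) (hs0 : 0 ≤ s) (hs1 : s ≤ 1) (hK : 1 ≤ K) (her : RtTreeHer lam pos K s ρ)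
    (hns : RtNoStrip lam pos wd κs) (hϑ0 : 0 < ϑ) (hϑ1 : ϑ ≤ 1) (hϑwd : ϑ * (2 * A + 1) ≤ wd) (h5 : 5 * δ / ϑ ≤ 1)
    (hβ0 : 0 ≤ β) (hβ : κs + δ ^ (-(2 * v)) * (100 * K) * (5 * δ / ϑ) ^ s ≤ β ^ 2) (q : ℤ × ℤ) :
    ∑ a with rtCell k (pos a) = q, ∑ b with RpBad lam pos 𝒢 W W' (δ ^ v) b a, lam a * lam b
      ≤ β * ∑ a with rtCell k (pos a) = q, lam a := by
  set Bad : ι → ι → Prop := RpBad lam pos 𝒢 W W' (δ ^ v) with hBad
  set Λ : ℝ := ∑ a with rtCell k (pos a) = q, lam a with hΛ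
  have hΛ0 : 0 ≤ Λ := Finset.sum_nonneg fun i _ => hp.lam0 i
  have hW'0 : 0 < W' := lt_of_lt_of_le hl.hρ hl.hρW
  have hA0 : 0 < A := lt_of_lt_of_le one_pos hl.hA
  have hδ0 : 0 < δ := by rw [hl.hδ]; positivity
  set F : ℝ := δ ^ (-(2 * v)) * (100 * K) * (5 * δ / ϑ) ^ s with hF
  have hF0 : 0 ≤ F := by
    have h1 := Real.rpow_pos_of_pos hδ0 (-(2 * v))
    have h2 : 0 < 5 * δ / ϑ := by positivity
    have h3 := Real.rpow_pos_of_pos h2 s
    positivity
  have hκ0 : 0 ≤ κs := le_trans (Finset.sum_nonneg fun i _ => hp.lam0 i) (hns (0, 0) 0)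
  rcases hΛ0.eq_or_lt with h0 | hpos
  · rw [← h0, mul_zero]
    apply le_of_eq
    apply Finset.sum_eq_zero
    intro a ha
    have h1 : lam a = 0 := (Finset.sum_eq_zero_iff_of_nonneg (fun i _ => hp.lam0 i)).1 h0.symm a ha
    simp [h1]
  · set c : ℝ := 1 / Λ with hc
    have hc0 : 0 ≤ c := by positivity
    have hcΛ : Λ * c = 1 := by rw [hc]; field_simp
    set μ : ι → ℝ := rpMu lam pos k q c with hμ
    have hμ0 : ∀ a, 0 ≤ μ a := by
      intro a
      rw [hμ]; unfold rpMu
      split_ifs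
      · exact mul_nonneg hc0 (hp.lam0 a)
      · exact le_rfl
    have hμ1 : ∑ i, μ i = 1 := by
      rw [hμ]; unfold rpMu
      rw [← Finset.sum_filter, ← Finset.mul_sum, ← hΛ, mul_comm]
      exact hcΛ
    set g : ι → ℝ := fun a => ∑ b, (if Bad b a then lam b else 0) with hg_def
    have hg0 : ∀ a, 0 ≤ g a := by
      intro a
      apply Finset.sum_nonneg
      intro b _
      split_ifs
      · exact hp.lam0 b
      · exact le_rfl
    have hLHS : ∑ a with rtCell k (pos a) = q, ∑ b with Bad b a, lam a * lam b = Λ * ∑ a, μ a * g a := by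
      rw [Finset.mul_sum, Finset.sum_filter]
      apply Finset.sum_congr rfl
      intro a _
      rw [hμ]; unfold rpMu
      split_ifs with h
      · rw [← Finset.mul_sum, Finset.sum_filter]
        have : Λ * (c * lam a * g a) = (Λ * c) * (lam a * g a) := by ring
        rw [this, hcΛ, one_mul]
      · simp
    rw [hLHS, mul_comm β Λ]
    apply mul_le_mul_of_nonneg_left _ hΛ0
    set S : ℝ := ∑ a, μ a * g a with hS
    have hS0 : 0 ≤ S := Finset.sum_nonneg fun a _ => mul_nonneg (hμ0 a) (hg0 a)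
    set m : ι → ι → ℝ := fun b b' => ∑ a with Bad b a ∧ Bad b' a, μ a with hm_def
    have hm0 : ∀ b b', 0 ≤ m b b' := fun b b' => Finset.sum_nonneg fun a _ => hμ0 a
    have hm1 : ∀ b b', m b b' ≤ 1 := by
      intro b b'
      rw [← hμ1]
      exact Finset.sum_le_sum_of_subset_of_nonneg (Finset.filter_subset _ _) fun a _ _ => hμ0 a
    have hCS : S ^ 2 ≤ ∑ a, μ a * (g a) ^ 2 := by
      have := Finset.sum_sq_le_sum_mul_sum_of_sq_le_mul (Finset.univ : Finset ι)
        (r := fun a => μ a * g a) (f := μ) (g := fun a => μ a * (g a) ^ 2)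
        (fun a _ => hμ0 a) (fun a _ => mul_nonneg (hμ0 a) (sq_nonneg _)) (fun a _ => le_of_eq (by ring))
      rw [hμ1, one_mul] at this
      exact this
    have hmm : ∀ b b', ∑ a, μ a * ((if Bad b a then lam b else 0) * (if Bad b' a then lam b' else 0))
        = lam b * (lam b' * m b b') := by
      intro b b'
      rw [hm_def]
      simp only
      rw [Finset.mul_sum, Finset.mul_sum, Finset.sum_filter]
      apply Finset.sum_congr rfl
      intro a _
      by_cases h1 : Bad b a <;> by_cases h2 : Bad b' a <;> simp [h1, h2] <;> ring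
    have hexp : ∑ a, μ a * (g a) ^ 2 = ∑ b, lam b * ∑ b', lam b' * m b b' := by
      have e1 : ∀ a, μ a * (g a) ^ 2 =
          ∑ b, ∑ b', μ a * ((if Bad b a then lam b else 0) * (if Bad b' a then lam b' else 0)) := by
        intro a
        rw [sq, hg_def]
        simp only
        rw [Finset.sum_mul_sum, Finset.mul_sum]
        apply Finset.sum_congr rfl
        intro b _
        rw [Finset.mul_sum]
      simp_rw [e1]
      rw [Finset.sum_comm]
      apply Finset.sum_congr rfl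
      intro b _
      rw [Finset.sum_comm, Finset.mul_sum]
      apply Finset.sum_congr rfl
      intro b' _
      exact hmm b b'
    have hb : ∀ b, ∑ b', lam b' * m b b' ≤ κs + F := by
      intro b
      have hpt : ∀ b', lam b' * m b b' ≤
          (if (∃ a, rtCell k (pos a) = q ∧ 𝒢 b' a) ∧ |rpTs k q (pos b') - rpTs k q (pos b)| ≤ ϑ
            then lam b' else 0) + lam b' * F := by
        intro b'
        have hl0 := hp.lam0 b'
        by_cases hnear : |rpTs k q (pos b') - rpTs k q (pos b)| ≤ ϑ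
        · by_cases hex : ∃ a, rtCell k (pos a) = q ∧ 𝒢 b' a
          · rw [if_pos ⟨hex, hnear⟩]
            have h1 : lam b' * m b b' ≤ lam b' * 1 := mul_le_mul_of_nonneg_left (hm1 b b') hl0
            have h2 : 0 ≤ lam b' * F := mul_nonneg hl0 hF0
            linarith
          · rw [if_neg (fun h => hex h.1)]
            have h1 : m b b' = 0 := by
              apply Finset.sum_eq_zero
              intro a ha
              rw [Finset.mem_filter] at ha
              rw [hμ]; unfold rpMu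
              rw [if_neg]
              intro hq
              exact hex ⟨a, hq, ha.2.2.1⟩
            rw [h1, mul_zero, zero_add]
            exact mul_nonneg hl0 hF0
        · rw [if_neg (fun h => hnear h.2), zero_add]
          apply mul_le_mul_of_nonneg_left _ hl0
          have hbb : ϑ < |rpTs k q (pos b) - rpTs k q (pos b')| := by
            rw [abs_sub_comm]
            exact not_le.1 hnear
          exact rp_pin_far hp hg hl s v K ϑ c hs0 hs1 hK her hϑ0 hϑ1 h5 q hc0 hμ1.le b b' hbb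
      calc ∑ b', lam b' * m b b' ≤ ∑ b',
          ((if (∃ a, rtCell k (pos a) = q ∧ 𝒢 b' a) ∧ |rpTs k q (pos b') - rpTs k q (pos b)| ≤ ϑ
            then lam b' else 0) + lam b' * F) := Finset.sum_le_sum fun b' _ => hpt b'
        _ = ∑ b' with (∃ a, rtCell k (pos a) = q ∧ 𝒢 b' a) ∧ |rpTs k q (pos b') - rpTs k q (pos b)| ≤ ϑ, lam b'
            + (∑ b', lam b') * F := by
          rw [Finset.sum_add_distrib, Finset.sum_filter, Finset.sum_mul]
        _ ≤ κs + 1 * F := by
          apply add_le_add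
          · exact rp_pin_near hp hg hl ϑ wd κs (rpTs k q (pos b)) hns hϑ0 hϑwd q
          · exact mul_le_mul_of_nonneg_right hp.lam1 hF0
        _ = κs + F := by ring
    have hfin : S ^ 2 ≤ β ^ 2 := by
      calc S ^ 2 ≤ ∑ b, lam b * ∑ b', lam b' * m b b' := hCS.trans hexp.le
        _ ≤ ∑ b, lam b * (κs + F) := Finset.sum_le_sum fun b _ =>
            mul_le_mul_of_nonneg_left (hb b) (hp.lam0 b)
        _ = (∑ b, lam b) * (κs + F) := by rw [Finset.sum_mul]
        _ ≤ 1 * (κs + F) := mul_le_mul_of_nonneg_right hp.lam1 (by linarith)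
        _ ≤ β ^ 2 := by rw [one_mul]; exact hβ
    exact (pow_le_pow_iff_left₀ hS0 hβ0 (by norm_num)).1 hfin

end Claimed.Agent.R255
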