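import Claimed.Agent.R255.Rate.RpDefs

/-!
# U4 (`rt_rp`), leaf L-RP-GEOM: a small dyadic cell seen from a far pin (elementary real inequalities).   (architect helper69)
`a` a point of the cell with corner `a₀` and side `h ≤ σ₀ W / 16`, `b` a pin with `|a₂-b₂| ≤ |a₁-b₁|`, `|a₁-b₁| ≥ σ₀`.
`|a₀₁-b₁| ≥ |a₁-b₁| - h ≥ (15/16)|a₁-b₁|`, `|a₀₂-b₂| ≤ |a₁-b₁| + h`, so the slope `σ_b` to the corner is at most `17/15`;
the identity (4) is algebra (`field_simp`), and (3) follows from (4): `|a₁-b₁| |sl - σ_b| ≤ h (1 + |σ_b|) ≤ 3 h ≤ 3 σ₀ W / 16`.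
-/

set_option autoImplicit false

namespace Claimed.Agent.R255

open Finset Classical
open Claimed.Agent.RW (kfProj)

/-- the pure real form: `u = a₁-b₁`, `v = a₂-b₂`, `x = a₁-a₀₁`, `y = a₂-a₀₂` -/
theorem rp_geom_aux (u v x y h σ₀ W : ℝ) (hσ : 0 < σ₀) (hW0 : 0 < W) (hW : W ≤ 1) (hh : h ≤ σ₀ * W / 16)
    (hx0 : 0 ≤ x) (hx : x ≤ h) (hy0 : 0 ≤ y) (hy : y ≤ h) (hor : |v| ≤ |u|) (sep : σ₀ ≤ |u|) :
    σ₀ / 2 ≤ |u - x| ∧ |(v - y) / (u - x)| ≤ 2 ∧ |v / u - (v - y) / (u - x)| ≤ W / 4 ∧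
      y - (v - y) / (u - x) * x = u * (v / u - (v - y) / (u - x)) := by
  have hh1 : h ≤ σ₀ / 16 := by nlinarith
  have hu : 0 < |u| := lt_of_lt_of_le hσ sep
  have hu0 : u ≠ 0 := abs_pos.1 hu
  have h1 : |u| - h ≤ |u - x| := by
    have := abs_sub_abs_le_abs_sub u x
    rw [abs_of_nonneg hx0] at this
    linarith
  have hd : 0 < |u - x| := by linarith
  have hd0 : u - x ≠ 0 := abs_pos.1 hd
  have h2 : |v - y| ≤ |u| + h := by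
    have := abs_sub v y
    rw [abs_of_nonneg hy0] at this
    linarith
  have hs : |(v - y) / (u - x)| ≤ 2 := by
    rw [abs_div, div_le_iff₀ hd]
    linarith
  have hid : y - (v - y) / (u - x) * x = u * (v / u - (v - y) / (u - x)) := by
    field_simp
    ring
  refine ⟨by linarith, hs, ?_, hid⟩
  have h3 : |u| * |v / u - (v - y) / (u - x)| ≤ 3 * h := by
    rw [← abs_mul, ← hid]
    calc |y - (v - y) / (u - x) * x| ≤ |y| + |(v - y) / (u - x) * x| := abs_sub _ _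
      _ = y + |(v - y) / (u - x)| * x := by rw [abs_of_nonneg hy0, abs_mul, abs_of_nonneg hx0]
      _ ≤ h + 2 * h := by
        have : |(v - y) / (u - x)| * x ≤ 2 * h := mul_le_mul hs hx hx0 (by norm_num)
        linarith
      _ = 3 * h := by ring
  by_contra hc
  push_neg at hc
  have h4 : |u| * (W / 4) < |u| * |v / u - (v - y) / (u - x)| := mul_lt_mul_of_pos_left hc hu
  have h5 : σ₀ * W ≤ |u| * W := mul_le_mul_of_nonneg_right sep hW0.le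
  nlinarith

theorem rp_geom (a b a₀ : ℝ × ℝ) (h σ₀ W : ℝ) (hσ : 0 < σ₀) (hW0 : 0 < W) (hW : W ≤ 1) (hh : h ≤ σ₀ * W / 16)
    (h1 : 0 ≤ a.1 - a₀.1 ∧ a.1 - a₀.1 ≤ h) (h2 : 0 ≤ a.2 - a₀.2 ∧ a.2 - a₀.2 ≤ h)
    (hor : |a.2 - b.2| ≤ |a.1 - b.1|) (sep : σ₀ ≤ |a.1 - b.1|) :
    σ₀ / 2 ≤ |a₀.1 - b.1| ∧ |(a₀.2 - b.2) / (a₀.1 - b.1)| ≤ 2 ∧
    |(a.2 - b.2) / (a.1 - b.1) - (a₀.2 - b.2) / (a₀.1 - b.1)| ≤ W / 4 ∧
    (a.2 - a₀.2) - (a₀.2 - b.2) / (a₀.1 - b.1) * (a.1 - a₀.1)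
      = (a.1 - b.1) * ((a.2 - b.2) / (a.1 - b.1) - (a₀.2 - b.2) / (a₀.1 - b.1)) := by
  have key := rp_geom_aux (a.1 - b.1) (a.2 - b.2) (a.1 - a₀.1) (a.2 - a₀.2) h σ₀ W hσ hW0 hW hh h1.1 h1.2 h2.1 h2.2 hor sep
  have e1 : a.1 - b.1 - (a.1 - a₀.1) = a₀.1 - b.1 := by ring
  have e2 : a.2 - b.2 - (a.2 - a₀.2) = a₀.2 - b.2 := by ring
  rw [e1, e2] at key
  exact key

/-- one coordinate of a point of a dyadic cell -/
theorem rp_cell_coord1 (k : ℕ) (n : ℤ) (t : ℝ) (h : ⌊t * 2 ^ k⌋ = n) :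
    0 ≤ t - (n : ℝ) / 2 ^ k ∧ t - (n : ℝ) / 2 ^ k ≤ (1 / 2 : ℝ) ^ k := by
  have hp : (0 : ℝ) < 2 ^ k := by positivity
  have h1 : (n : ℝ) ≤ t * 2 ^ k := h ▸ Int.floor_le _
  have h2 : t * 2 ^ k < (n : ℝ) + 1 := h ▸ Int.lt_floor_add_one _
  have e : t - (n : ℝ) / 2 ^ k = (t * 2 ^ k - n) / 2 ^ k := by
    field_simp
  have e2 : (1 / 2 : ℝ) ^ k = 1 / 2 ^ k := by
    rw [div_pow, one_pow]
  rw [e, e2]
  constructor
  · exact div_nonneg (by linarith) hp.le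
  · exact div_le_div_of_nonneg_right (by linarith) hp.le

/-- a point of the cell `q` of level `k`, relative to the corner -/
theorem rp_cell_coord (k : ℕ) (q : ℤ × ℤ) (v : ℝ × ℝ) (h : rtCell k v = q) :
    (0 ≤ v.1 - (q.1 : ℝ) / 2 ^ k ∧ v.1 - (q.1 : ℝ) / 2 ^ k ≤ (1 / 2 : ℝ) ^ k) ∧
    (0 ≤ v.2 - (q.2 : ℝ) / 2 ^ k ∧ v.2 - (q.2 : ℝ) / 2 ^ k ≤ (1 / 2 : ℝ) ^ k) :=
  ⟨rp_cell_coord1 k q.1 v.1 (congrArg Prod.fst h), rp_cell_coord1 k q.2 v.2 (congrArg Prod.snd h)⟩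

theorem rp_xi_mem (k : ℕ) (q : ℤ × ℤ) (v : ℝ × ℝ) (h : rtCell k v = q) :
    0 ≤ (rpXi k q v).1 ∧ (rpXi k q v).1 < 1 ∧ 0 ≤ (rpXi k q v).2 ∧ (rpXi k q v).2 < 1 := by
  have h1 : ⌊v.1 * 2 ^ k⌋ = q.1 := congrArg Prod.fst h
  have h2 : ⌊v.2 * 2 ^ k⌋ = q.2 := congrArg Prod.snd h
  have a1 : (q.1 : ℝ) ≤ v.1 * 2 ^ k := h1 ▸ Int.floor_le _
  have a2 : v.1 * 2 ^ k < (q.1 : ℝ) + 1 := h1 ▸ Int.lt_floor_add_one _
  have b1 : (q.2 : ℝ) ≤ v.2 * 2 ^ k := h2 ▸ Int.floor_le _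
  have b2 : v.2 * 2 ^ k < (q.2 : ℝ) + 1 := h2 ▸ Int.lt_floor_add_one _
  unfold rpXi
  exact ⟨by simpa using a1, by show v.1 * 2 ^ k - q.1 < 1; linarith, by simpa using b1, by show v.2 * 2 ^ k - q.2 < 1; linarith⟩

theorem rp_proj_xi (k : ℕ) (q : ℤ × ℤ) (v : ℝ × ℝ) (σ : ℝ) :
    kfProj σ (rpXi k q v) = 2 ^ k * ((v.2 - (q.2 : ℝ) / 2 ^ k) - σ * (v.1 - (q.1 : ℝ) / 2 ^ k)) := by
  have hp : (2 : ℝ) ^ k ≠ 0 := by positivity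
  unfold kfProj rpXi
  show v.2 * 2 ^ k - (q.2 : ℝ) - σ * (v.1 * 2 ^ k - (q.1 : ℝ)) = _
  field_simp

theorem rp_lev_W_pos {A ρ σ₀ W W' δ : ℝ} {k : ℕ} (hl : RpLev A ρ σ₀ W W' δ k) : 0 < W := by
  have h1 := hl.hρ
  have h2 := hl.hρW
  have h3 := hl.hWW
  linarith

/-- the population form: `a` in the cell `q`, `(b,a)` a separated horizontal pair -/
theorem rp_geom_pop {ι : Type} [Fintype ι] {pos : ι → ℝ × ℝ} {A ρ σ₀ W W' δ : ℝ} {k : ℕ} (hl : RpLev A ρ σ₀ W W' δ k)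
    (q : ℤ × ℤ) (a b : ι) (ha : rtCell k (pos a) = q) (hab : RpH pos σ₀ b a) :
    σ₀ / 2 ≤ |(q.1 : ℝ) / 2 ^ k - (pos b).1| ∧ |rpTs k q (pos b)| ≤ 2 ∧ |rpSl pos b a - rpTs k q (pos b)| ≤ W / 4 ∧
    kfProj (rpTs k q (pos b)) (rpXi k q (pos a))
      = 2 ^ k * (((pos a).1 - (pos b).1) * (rpSl pos b a - rpTs k q (pos b))) := by
  obtain ⟨c1, c2⟩ := rp_cell_coord k q (pos a) ha
  obtain ⟨g1, g2, g3, g4⟩ := rp_geom (pos a) (pos b) ((q.1 : ℝ) / 2 ^ k, (q.2 : ℝ) / 2 ^ k) ((1 / 2 : ℝ) ^ k) σ₀ W hl.hσ0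
    (rp_lev_W_pos hl) hl.hW1 hl.hk c1 c2 hab.1 hab.2
  refine ⟨g1, g2, g3, ?_⟩
  rw [rp_proj_xi]
  exact congrArg (fun t => (2 : ℝ) ^ k * t) g4

/-- two points of the same cell seen from the same pin: the projections differ by the difference of the slopes, up to `W/4` -/
theorem rp_geom_two {ι : Type} [Fintype ι] {pos : ι → ℝ × ℝ} {A ρ σ₀ W W' δ : ℝ} {k : ℕ} (hl : RpLev A ρ σ₀ W W' δ k)
    (hbd : ∀ i, |(pos i).1| ≤ A ∧ |(pos i).2| ≤ A)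
    (q : ℤ × ℤ) (a a' b : ι) (ha : rtCell k (pos a) = q) (ha' : rtCell k (pos a') = q)
    (hab : RpH pos σ₀ b a) (hab' : RpH pos σ₀ b a') :
    |kfProj (rpTs k q (pos b)) (rpXi k q (pos a)) - kfProj (rpTs k q (pos b)) (rpXi k q (pos a'))|
      ≤ 2 ^ k * (2 * A) * |rpSl pos b a - rpSl pos b a'| + W / 4 := by
  obtain ⟨-, -, -, e⟩ := rp_geom_pop hl q a b ha hab
  obtain ⟨-, -, g3, e'⟩ := rp_geom_pop hl q a' b ha' hab'
  obtain ⟨c1, -⟩ := rp_cell_coord k q (pos a) ha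
  obtain ⟨c1', -⟩ := rp_cell_coord k q (pos a') ha'
  have hp : (0 : ℝ) < 2 ^ k := by positivity
  have hW := rp_lev_W_pos hl
  rw [e, e']
  set σ := rpTs k q (pos b) with hσ
  set s := rpSl pos b a with hs
  set s' := rpSl pos b a' with hs'
  have hid : 2 ^ k * (((pos a).1 - (pos b).1) * (s - σ)) - 2 ^ k * (((pos a').1 - (pos b).1) * (s' - σ)) =
      2 ^ k * ((pos a).1 - (pos b).1) * (s - s') + 2 ^ k * ((pos a).1 - (pos a').1) * (s' - σ) := by ring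
  have hu : |(pos a).1 - (pos b).1| ≤ 2 * A := by
    have := abs_sub (pos a).1 (pos b).1
    have h1 := (hbd a).1
    have h2 := (hbd b).1
    linarith
  have hd : |(pos a).1 - (pos a').1| ≤ (1 / 2 : ℝ) ^ k := by
    rw [abs_le]
    constructor <;> linarith [c1.1, c1.2, c1'.1, c1'.2]
  have hone : (2 : ℝ) ^ k * (1 / 2 : ℝ) ^ k = 1 := by
    rw [← mul_pow]
    norm_num
  rw [hid]
  calc |2 ^ k * ((pos a).1 - (pos b).1) * (s - s') + 2 ^ k * ((pos a).1 - (pos a').1) * (s' - σ)|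
      ≤ |2 ^ k * ((pos a).1 - (pos b).1) * (s - s')| + |2 ^ k * ((pos a).1 - (pos a').1) * (s' - σ)| := abs_add_le _ _
    _ = 2 ^ k * |(pos a).1 - (pos b).1| * |s - s'| + 2 ^ k * |(pos a).1 - (pos a').1| * |s' - σ| := by
        rw [abs_mul, abs_mul, abs_mul, abs_mul, abs_of_pos hp]
    _ ≤ 2 ^ k * (2 * A) * |s - s'| + 2 ^ k * (1 / 2 : ℝ) ^ k * (W / 4) := by
        refine add_le_add ?_ ?_
        · exact mul_le_mul_of_nonneg_right (mul_le_mul_of_nonneg_left hu hp.le) (abs_nonneg _)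
        · exact mul_le_mul (mul_le_mul_of_nonneg_left hd hp.le) g3 (abs_nonneg _) (by positivity)
    _ = 2 ^ k * (2 * A) * |s - s'| + W / 4 := by rw [hone, one_mul]

end Claimed.Agent.R255
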