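import Claimed.Agent.R255.Rate.RpNine
import Claimed.Agent.R255.Rate.RpGeom

/-!
# U4 (`rt_rp`), leaf L-RP-CHILD: the rescaled child law of a dyadic cell is hereditarily Frostman (concentric squares).   (architect helper69)
`μ = rpMu lam pos k q c` (weight `c lam` on the cell `q` of level `k`, `0` outside), `pt = rpPt pos k q` (`ξ = 2^k pos - q ∈ [0,1)²` on the cell).
Let `δ ≤ r₂ ≤ r₁ ≤ 1`, `z` arbitrary.
* If `r₁ < 4 r₂`: monotonicity of the sum and `(r₂/r₁)^s ≥ (1/4)^s ≥ 1/4`.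
* If `4 r₂ ≤ r₁`: `n₂` with `r₂ ≤ (1/2)^n₂ < 2 r₂`, `n₁` with `r₁/4 ≤ (1/2)^n₁ < r₁/2` (`exists_nat_pow_near_of_lt_one`); then `n₁ ≤ n₂`.
  `rp_nine` for the weight `μ`, the positions `pt` and the level `n₂` (or in the original coordinates at the level `k + n₂`:
  `⌊pos * 2^(k+n)⌋ = ⌊ξ * 2^n⌋ + q * 2^n`).  For `i₀` in the cell with `dist ξ(i₀) z ≤ r₂`: `RtTreeHer` at the levels `k + n₁ ≤ k + n₂` (`ρ ≤ δ (1/2)^k ≤ (1/2)^(k+n₂)`) gives
  `lam(cell_{k+n₂}(i₀)) ≤ K ((1/2)^(n₂-n₁))^s lam(cell_{k+n₁}(i₀))`, `(1/2)^(n₂-n₁) ≤ 8 r₂/r₁`; the points of `cell_{k+n₁}(i₀)` lie in the cell `q` (nested floors)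
  and satisfy `dist ξ z ≤ (1/2)^n₁ + r₂ ≤ r₁`.  Total constant `9 * 8^s K ≤ 72 K`.
-/

set_option autoImplicit false

namespace Claimed.Agent.R255

open Finset Classical
open Claimed.Agent.RW (KfFrost ExHered)

variable {ι : Type} [Fintype ι]

/-- nested floors, one coordinate -/
theorem rp_child_floor1 (k n : ℕ) (x y : ℝ) (h : ⌊x * 2 ^ (k + n)⌋ = ⌊y * 2 ^ (k + n)⌋) :
    ⌊x * 2 ^ k⌋ = ⌊y * 2 ^ k⌋ := by
  have hn : (0 : ℝ) < 2 ^ n := by positivity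
  symm
  rw [Int.floor_eq_iff]
  obtain ⟨a, ha⟩ : ∃ a : ℤ, a = ⌊x * 2 ^ k⌋ := ⟨_, rfl⟩
  rw [← ha]
  have h1 : (a : ℝ) ≤ x * 2 ^ k := ha ▸ Int.floor_le _
  have h2 : x * 2 ^ k < (a : ℝ) + 1 := ha ▸ Int.lt_floor_add_one _
  have e : ∀ t : ℝ, t * 2 ^ (k + n) = t * 2 ^ k * 2 ^ n := fun t => by rw [pow_add]; ring
  have h3 : a * 2 ^ n ≤ ⌊x * 2 ^ (k + n)⌋ := by
    rw [Int.le_floor, e]
    push_cast
    exact mul_le_mul_of_nonneg_right h1 hn.le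
  have h4 : ⌊x * 2 ^ (k + n)⌋ < (a + 1) * 2 ^ n := by
    rw [Int.floor_lt, e]
    push_cast
    exact mul_lt_mul_of_pos_right h2 hn
  rw [h] at h3 h4
  rw [Int.le_floor, e] at h3
  rw [Int.floor_lt, e] at h4
  push_cast at h3 h4
  exact ⟨le_of_mul_le_mul_right h3 hn, lt_of_mul_lt_mul_right h4 hn.le⟩

/-- nested cells -/
theorem rp_child_nest (k N : ℕ) (hkN : k ≤ N) (u v : ℝ × ℝ) (h : rtCell N u = rtCell N v) :
    rtCell k u = rtCell k v := by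
  obtain ⟨n, rfl⟩ := Nat.exists_eq_add_of_le hkN
  unfold rtCell at h ⊢
  rw [Prod.mk.injEq] at h ⊢
  exact ⟨rp_child_floor1 k n _ _ h.1, rp_child_floor1 k n _ _ h.2⟩

/-- two points of one cell are close -/
theorem rp_child_diam (N : ℕ) (u v : ℝ × ℝ) (h : rtCell N u = rtCell N v) :
    dist u v ≤ (1 / 2 : ℝ) ^ N := by
  have hu := rp_cell_coord N (rtCell N v) u h
  have hv := rp_cell_coord N (rtCell N v) v rfl
  rw [Prod.dist_eq, max_le_iff, Real.dist_eq, Real.dist_eq, abs_le, abs_le]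
  refine ⟨⟨?_, ?_⟩, ⟨?_, ?_⟩⟩ <;>
    linarith [hu.1.1, hu.1.2, hu.2.1, hu.2.2, hv.1.1, hv.1.2, hv.2.1, hv.2.2]

theorem rp_child_mu_nonneg {lam : ι → ℝ} {pos : ι → ℝ × ℝ} (hlam : ∀ i, 0 ≤ lam i) (c : ℝ) (k : ℕ) (q : ℤ × ℤ)
    (hc : 0 ≤ c) (i : ι) : 0 ≤ rpMu lam pos k q c i := by
  unfold rpMu
  split_ifs
  · exact mul_nonneg hc (hlam i)
  · exact le_rfl

/-- the child law is hereditary on the tree below the level `k` -/
theorem rp_child_tree {lam : ι → ℝ} {pos : ι → ℝ × ℝ} (K s ρ c : ℝ) (k : ℕ) (q : ℤ × ℤ)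
    (hc : 0 ≤ c) (her : RtTreeHer lam pos K s ρ) (N₁ N₂ : ℕ) (hk : k ≤ N₁) (hN : N₁ ≤ N₂)
    (hρ : ρ ≤ (1 / 2 : ℝ) ^ N₂) (i₀ : ι) :
    ∑ i with rtCell N₂ (pos i) = rtCell N₂ (pos i₀), rpMu lam pos k q c i ≤
      K * ((1 / 2 : ℝ) ^ (N₂ - N₁)) ^ s * ∑ i with rtCell N₁ (pos i) = rtCell N₁ (pos i₀), rpMu lam pos k q c i := by
  by_cases hq : rtCell k (pos i₀) = q
  · have e : ∀ N : ℕ, k ≤ N → ∑ i with rtCell N (pos i) = rtCell N (pos i₀), rpMu lam pos k q c i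
        = c * ∑ i with rtCell N (pos i) = rtCell N (pos i₀), lam i := by
      intro N hkN
      rw [Finset.mul_sum]
      refine Finset.sum_congr rfl fun i hi => ?_
      rw [Finset.mem_filter] at hi
      have := rp_child_nest k N hkN _ _ hi.2
      unfold rpMu
      rw [if_pos (this.trans hq)]
    rw [e N₂ (hk.trans hN), e N₁ hk]
    calc c * ∑ i with rtCell N₂ (pos i) = rtCell N₂ (pos i₀), lam i
        ≤ c * (K * ((1 / 2 : ℝ) ^ (N₂ - N₁)) ^ s * ∑ i with rtCell N₁ (pos i) = rtCell N₁ (pos i₀), lam i) :=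
          mul_le_mul_of_nonneg_left (her N₁ N₂ hN hρ i₀) hc
      _ = _ := by ring
  · have e : ∀ N : ℕ, k ≤ N → ∑ i with rtCell N (pos i) = rtCell N (pos i₀), rpMu lam pos k q c i = 0 := by
      intro N hkN
      refine Finset.sum_eq_zero fun i hi => ?_
      rw [Finset.mem_filter] at hi
      have := rp_child_nest k N hkN _ _ hi.2
      unfold rpMu
      rw [if_neg (fun h => hq (this.symm.trans h))]
    rw [e N₂ (hk.trans hN), e N₁ hk, mul_zero]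

/-- transfer of a square from the cell coordinates to the original coordinates -/
theorem rp_child_transfer (lam : ι → ℝ) (pos : ι → ℝ × ℝ) (c : ℝ) (k : ℕ) (q : ℤ × ℤ) (z : ℝ × ℝ) (r : ℝ) :
    ∑ i with dist (rpPt pos k q i) z ≤ r, rpMu lam pos k q c i
      = ∑ i with dist (pos i) ((z.1 + q.1) / 2 ^ k, (z.2 + q.2) / 2 ^ k) ≤ r / 2 ^ k, rpMu lam pos k q c i := by
  have hD : (0 : ℝ) < 2 ^ k := by positivity
  rw [Finset.sum_filter, Finset.sum_filter]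
  refine Finset.sum_congr rfl fun i _ => ?_
  by_cases hq : rtCell k (pos i) = q
  · have key : dist (rpPt pos k q i) z ≤ r ↔
        dist (pos i) ((z.1 + q.1) / 2 ^ k, (z.2 + q.2) / 2 ^ k) ≤ r / 2 ^ k := by
      unfold rpPt
      rw [if_pos hq]
      unfold rpXi
      rw [Prod.dist_eq, Prod.dist_eq, max_le_iff, max_le_iff, Real.dist_eq, Real.dist_eq, Real.dist_eq,
        Real.dist_eq]
      have e : ∀ (v a : ℝ) (b : ℤ), |v - (a + b) / 2 ^ k| ≤ r / 2 ^ k ↔ |v * 2 ^ k - b - a| ≤ r := by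
        intro v a b
        have : v - (a + b) / 2 ^ k = (v * 2 ^ k - b - a) / 2 ^ k := by field_simp; ring
        rw [this, abs_div, abs_of_pos hD, div_le_div_iff_of_pos_right hD]
      rw [e, e]
    by_cases h : dist (rpPt pos k q i) z ≤ r
    · rw [if_pos h, if_pos (key.1 h)]
    · rw [if_neg h, if_neg (fun h' => h (key.2 h'))]
  · have : rpMu lam pos k q c i = 0 := by unfold rpMu; rw [if_neg hq]
    rw [this, ite_self, ite_self]

/-- the main case, in the original coordinates -/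
theorem rp_child_orig {lam : ι → ℝ} {pos : ι → ℝ × ℝ} (hlam : ∀ i, 0 ≤ lam i) (K s ρ c : ℝ) (k : ℕ) (q : ℤ × ℤ)
    (hK : 1 ≤ K) (hs0 : 0 ≤ s) (hs1 : s ≤ 1) (hρ : 0 < ρ) (hc : 0 ≤ c)
    (her : RtTreeHer lam pos K s ρ) (z : ℝ × ℝ) (R₂ R₁ : ℝ) (h2 : ρ ≤ R₂) (h21 : 4 * R₂ ≤ R₁)
    (h1 : R₁ ≤ (1 / 2 : ℝ) ^ k) :
    ∑ i with dist (pos i) z ≤ R₂, rpMu lam pos k q c i
      ≤ 72 * K * (R₂ / R₁) ^ s * ∑ i with dist (pos i) z ≤ R₁, rpMu lam pos k q c i := by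
  have hμ := rp_child_mu_nonneg hlam c k q hc (pos := pos)
  have hR2 : 0 < R₂ := lt_of_lt_of_le hρ h2
  have hR1 : 0 < R₁ := by linarith
  have hk1 : (1 / 2 : ℝ) ^ k ≤ 1 := pow_le_one₀ (by norm_num) (by norm_num)
  obtain ⟨N₂, hn1, hn2⟩ := exists_nat_pow_near_of_lt_one hR2 (by linarith : R₂ ≤ 1) (by norm_num : (0 : ℝ) < 1 / 2)
    (by norm_num : (1 / 2 : ℝ) < 1)
  obtain ⟨m, hm1, hm2⟩ := exists_nat_pow_near_of_lt_one (by linarith : 0 < R₁ / 2) (by linarith : R₁ / 2 ≤ 1)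
    (by norm_num : (0 : ℝ) < 1 / 2) (by norm_num : (1 / 2 : ℝ) < 1)
  obtain ⟨N₁, hN₁⟩ : ∃ N₁ : ℕ, N₁ = m + 1 := ⟨_, rfl⟩
  rw [← hN₁] at hm1
  have hm3 : R₁ / 4 ≤ (1 / 2 : ℝ) ^ N₁ := by
    rw [hN₁, pow_succ]; linarith
  have hlt : ∀ a b : ℕ, (1 / 2 : ℝ) ^ a < (1 / 2 : ℝ) ^ b → b < a := by
    intro a b hab
    by_contra hcon
    exact absurd hab (not_lt.2 (pow_le_pow_of_le_one (by norm_num) (by norm_num) (not_lt.1 hcon)))
  have hkN : k ≤ N₁ := (hlt N₁ k (by linarith)).le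
  have hNN : N₁ ≤ N₂ := Nat.lt_succ_iff.1 (hlt (N₂ + 1) N₁ (by linarith))
  obtain ⟨S₁, hS₁⟩ : ∃ S₁ : ℝ, S₁ = ∑ i with dist (pos i) z ≤ R₁, rpMu lam pos k q c i := ⟨_, rfl⟩
  rw [← hS₁]
  have hS0 : 0 ≤ S₁ := hS₁ ▸ Finset.sum_nonneg fun i _ => hμ i
  have hrs : 0 ≤ (R₂ / R₁) ^ s := Real.rpow_nonneg (by positivity) _
  have key := rp_nine (rpMu lam pos k q c) pos hμ N₂ z R₂ (8 * K * (R₂ / R₁) ^ s * S₁) hn2 (by positivity)
    (fun i₀ hi₀ => by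
      refine (rp_child_tree K s ρ c k q hc her N₁ N₂ hkN hNN (h2.trans hn2) i₀).trans ?_
      have a1 : ∑ i with rtCell N₁ (pos i) = rtCell N₁ (pos i₀), rpMu lam pos k q c i ≤ S₁ := by
        rw [hS₁]
        refine Finset.sum_le_sum_of_subset_of_nonneg ?_ fun i _ _ => hμ i
        intro i hi
        rw [Finset.mem_filter] at hi ⊢
        refine ⟨Finset.mem_univ _, ?_⟩
        have := rp_child_diam N₁ _ _ hi.2
        calc dist (pos i) z ≤ dist (pos i) (pos i₀) + dist (pos i₀) z := dist_triangle _ _ _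
          _ ≤ R₁ := by linarith
      have a2 : (1 / 2 : ℝ) ^ (N₂ - N₁) ≤ 8 * (R₂ / R₁) := by
        have e1 : (1 / 2 : ℝ) ^ (N₂ - N₁) * (1 / 2 : ℝ) ^ N₁ = (1 / 2 : ℝ) ^ N₂ := by
          rw [← pow_add, Nat.sub_add_cancel hNN]
        have e2 : (1 / 2 : ℝ) ^ N₂ ≤ 2 * R₂ := by
          rw [pow_succ] at hn1; linarith
        have e3 : (0 : ℝ) ≤ (1 / 2 : ℝ) ^ (N₂ - N₁) := by positivity
        have e4 : (1 / 2 : ℝ) ^ (N₂ - N₁) * (R₁ / 4) ≤ 2 * R₂ :=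
          (mul_le_mul_of_nonneg_left hm3 e3).trans (e1.le.trans e2)
        rw [show 8 * (R₂ / R₁) = 8 * R₂ / R₁ by ring, le_div_iff₀ hR1]
        linarith
      have a3 : ((1 / 2 : ℝ) ^ (N₂ - N₁)) ^ s ≤ 8 * (R₂ / R₁) ^ s := by
        calc ((1 / 2 : ℝ) ^ (N₂ - N₁)) ^ s ≤ (8 * (R₂ / R₁)) ^ s := Real.rpow_le_rpow (by positivity) a2 hs0
          _ = 8 ^ s * (R₂ / R₁) ^ s := Real.mul_rpow (by norm_num) (by positivity)
          _ ≤ 8 * (R₂ / R₁) ^ s := by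
            refine mul_le_mul_of_nonneg_right ?_ hrs
            calc (8 : ℝ) ^ s ≤ 8 ^ (1 : ℝ) := Real.rpow_le_rpow_of_exponent_le (by norm_num) hs1
              _ = 8 := Real.rpow_one 8
      have a4 : 0 ≤ K * ((1 / 2 : ℝ) ^ (N₂ - N₁)) ^ s :=
        mul_nonneg (by linarith) (Real.rpow_nonneg (by positivity) _)
      calc K * ((1 / 2 : ℝ) ^ (N₂ - N₁)) ^ s * ∑ i with rtCell N₁ (pos i) = rtCell N₁ (pos i₀), rpMu lam pos k q c i
          ≤ K * ((1 / 2 : ℝ) ^ (N₂ - N₁)) ^ s * S₁ := mul_le_mul_of_nonneg_left a1 a4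
        _ ≤ K * (8 * (R₂ / R₁) ^ s) * S₁ := by
            refine mul_le_mul_of_nonneg_right ?_ hS0
            exact mul_le_mul_of_nonneg_left a3 (by linarith)
        _ = 8 * K * (R₂ / R₁) ^ s * S₁ := by ring)
  calc _ ≤ 9 * (8 * K * (R₂ / R₁) ^ s * S₁) := key
    _ = 72 * K * (R₂ / R₁) ^ s * S₁ := by ring

theorem rp_child_hered {lam : ι → ℝ} {pos : ι → ℝ × ℝ} (hlam : ∀ i, 0 ≤ lam i) (K s ρ δ c : ℝ) (k : ℕ) (q : ℤ × ℤ)
    (hK : 1 ≤ K) (hs0 : 0 ≤ s) (hs1 : s ≤ 1) (hρ : 0 < ρ) (hc : 0 ≤ c)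
    (her : RtTreeHer lam pos K s ρ) (hδ : ρ ≤ δ * (1 / 2 : ℝ) ^ k) :
    ExHered (rpMu lam pos k q c) (rpPt pos k q) (100 * K) s δ := by
  intro z r₂ r₁ h2 h21 h1
  have hμ := rp_child_mu_nonneg hlam c k q hc (pos := pos)
  have hD : (0 : ℝ) < 2 ^ k := by positivity
  have hhk : (0 : ℝ) < (1 / 2 : ℝ) ^ k := by positivity
  have hinv : (1 / 2 : ℝ) ^ k = 1 / 2 ^ k := by rw [div_pow, one_pow]
  have hδ0 : 0 < δ := by
    by_contra hcon
    have : δ * (1 / 2 : ℝ) ^ k ≤ 0 := mul_nonpos_of_nonpos_of_nonneg (not_lt.1 hcon) hhk.le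
    linarith
  have hr2 : 0 < r₂ := lt_of_lt_of_le hδ0 h2
  have hr1 : 0 < r₁ := lt_of_lt_of_le hr2 h21
  have hS0 : 0 ≤ ∑ i with dist (rpPt pos k q i) z ≤ r₁, rpMu lam pos k q c i :=
    Finset.sum_nonneg fun i _ => hμ i
  have hrs : 0 ≤ (r₂ / r₁) ^ s := Real.rpow_nonneg (by positivity) _
  by_cases hcase : 4 * r₂ ≤ r₁
  · rw [rp_child_transfer, rp_child_transfer] at *
    have key := rp_child_orig hlam K s ρ c k q hK hs0 hs1 hρ hc her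
      ((z.1 + q.1) / 2 ^ k, (z.2 + q.2) / 2 ^ k) (r₂ / 2 ^ k) (r₁ / 2 ^ k)
      (by
        refine hδ.trans ?_
        rw [hinv, mul_one_div]
        exact div_le_div_of_nonneg_right h2 hD.le)
      (by
        rw [← mul_div_assoc]
        exact div_le_div_of_nonneg_right hcase hD.le)
      (by
        rw [hinv]
        exact div_le_div_of_nonneg_right h1 hD.le)
    rw [div_div_div_cancel_right₀ hD.ne'] at key
    refine key.trans ?_
    refine mul_le_mul_of_nonneg_right ?_ hS0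
    refine mul_le_mul_of_nonneg_right ?_ hrs
    linarith
  · have a1 : ∑ i with dist (rpPt pos k q i) z ≤ r₂, rpMu lam pos k q c i
        ≤ ∑ i with dist (rpPt pos k q i) z ≤ r₁, rpMu lam pos k q c i := by
      refine Finset.sum_le_sum_of_subset_of_nonneg ?_ fun i _ _ => hμ i
      intro i hi
      rw [Finset.mem_filter] at hi ⊢
      exact ⟨hi.1, hi.2.trans h21⟩
    have a2 : (1 / 4 : ℝ) ≤ (r₂ / r₁) ^ s := by
      have b1 : (1 / 4 : ℝ) ≤ r₂ / r₁ := by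
        rw [le_div_iff₀ hr1]; linarith [not_le.1 hcase]
      have b2 : r₂ / r₁ ≤ 1 := by rw [div_le_one hr1]; exact h21
      calc (1 / 4 : ℝ) ≤ r₂ / r₁ := b1
        _ = (r₂ / r₁) ^ (1 : ℝ) := (Real.rpow_one _).symm
        _ ≤ (r₂ / r₁) ^ s := Real.rpow_le_rpow_of_exponent_ge (by positivity) b2 hs1
    refine a1.trans ?_
    have a3 : 1 ≤ 100 * K * (r₂ / r₁) ^ s := by nlinarith
    nlinarith

/-- consequence: Frostman bound of the normalised child law -/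
theorem rp_child_frost {lam : ι → ℝ} {pos : ι → ℝ × ℝ} (hlam : ∀ i, 0 ≤ lam i) (K s ρ δ c : ℝ) (k : ℕ) (q : ℤ × ℤ)
    (hK : 1 ≤ K) (hs0 : 0 ≤ s) (hs1 : s ≤ 1) (hρ : 0 < ρ) (hc : 0 ≤ c)
    (her : RtTreeHer lam pos K s ρ) (hδ : ρ ≤ δ * (1 / 2 : ℝ) ^ k) (hμ1 : ∑ i, rpMu lam pos k q c i ≤ 1) :
    KfFrost (rpMu lam pos k q c) (rpPt pos k q) (100 * K) s δ := by
  intro z r h2 h1
  have hμ := rp_child_mu_nonneg hlam c k q hc (pos := pos)
  have key := rp_child_hered hlam K s ρ δ c k q hK hs0 hs1 hρ hc her hδ z r 1 h2 h1 le_rfl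
  rw [div_one] at key
  refine key.trans ?_
  have hhk : (0 : ℝ) < (1 / 2 : ℝ) ^ k := by positivity
  have hδ0 : 0 < δ := by
    by_contra hcon
    have : δ * (1 / 2 : ℝ) ^ k ≤ 0 := mul_nonpos_of_nonpos_of_nonneg (not_lt.1 hcon) hhk.le
    linarith
  have hr : 0 ≤ r ^ s := Real.rpow_nonneg (by linarith) _
  have a1 : ∑ i with dist (rpPt pos k q i) z ≤ 1, rpMu lam pos k q c i ≤ 1 :=
    (Finset.sum_le_sum_of_subset_of_nonneg (Finset.filter_subset _ _) fun i _ _ => hμ i).trans hμ1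
  calc 100 * K * r ^ s * ∑ i with dist (rpPt pos k q i) z ≤ 1, rpMu lam pos k q c i
      ≤ 100 * K * r ^ s * 1 := mul_le_mul_of_nonneg_left a1 (by positivity)
    _ = 100 * K * r ^ s := mul_one _

end Claimed.Agent.R255
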