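import Claimed.Agent.R255.Rate.RpGeom

/-!
# U4 (`rt_rp`), leaf L-RP-TAGS: reciprocity.  The slopes of the tags of a cell are Frostman `u`.   (architect helper69)
`μ = rpMu lam pos k q c` = (sub)normalised law of the cell `q`; a TAG is a pin `b` which sees at least the fraction `κ` of the cell in the graph `𝒢`; slope of the tag = `rpTs k q (pos b)` (to the corner).
For `z`, `r ∈ [δ,1]`:
`κ * ∑_{b tag, |σ_b - z| ≤ r} lam b ≤ ∑_b 1[..] lam b ∑_{a : 𝒢 b a} μ a = ∑_a μ a ∑_{b tag, 𝒢 b a, |σ_b - z| ≤ r} lam b`  (`Finset.sum_comm`).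
For `a` in the cell (otherwise `μ a = 0`) and `𝒢 b a`: `|rpSl pos a b - σ_b| ≤ W/4 ≤ r` (`rp_geom_pop`, `rpSl` is symmetric), so `|rpSl pos a b - z| ≤ 2r`, i.e.
`|rpSl pos a b - (z - r)| ≤ r` or `|rpSl pos a b - (z + r)| ≤ r`; `𝒢 a b` by symmetry; thinness from the pin `a` (twice): inner sum `≤ 2 Kin r^u`.  `ρ ≤ W' ≤ W ≤ δ ≤ r`.
-/

set_option autoImplicit false

namespace Claimed.Agent.R255

open Finset Classical
open Claimed.Agent.RW (KfFrost)

variable {ι : Type} [Fintype ι]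

theorem rp_sl_symm (pos : ι → ℝ × ℝ) (i j : ι) : rpSl pos i j = rpSl pos j i := by
  unfold rpSl
  rw [← neg_sub (pos j).2, ← neg_sub (pos j).1, neg_div_neg_eq]

theorem rp_tags_frost {lam : ι → ℝ} {pos : ι → ℝ × ℝ} {𝒢 : ι → ι → Prop} {A ρ σ₀ W W' δ : ℝ} {k : ℕ}
    (hp : RpPop lam pos A) (hg : RpGr pos 𝒢 σ₀) (hl : RpLev A ρ σ₀ W W' δ k)
    (Kin u κ c : ℝ) (hKin : 0 ≤ Kin) (hthin : RpThin lam pos 𝒢 Kin u ρ) (hκ : 0 < κ) (q : ℤ × ℤ) (hc : 0 ≤ c)
    (hμ1 : ∑ i, rpMu lam pos k q c i ≤ 1)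
    (T : ι → Prop) (hT : ∀ b, T b → κ ≤ ∑ a with 𝒢 b a, rpMu lam pos k q c a) :
    KfFrost (fun b => if T b then lam b else 0) (fun b => if T b then rpTs k q (pos b) else 0) (2 * Kin / κ) u δ := by
  intro z r hδr hr1
  have hW0 : 0 < W := by
    have h1 := hl.hρ
    have h2 := hl.hρW
    have h3 := hl.hWW
    linarith
  have hWδ := hl.hWδ
  have hr0 : 0 < r := by linarith
  have hρr : ρ ≤ r := by
    have h2 := hl.hρW
    have h3 := hl.hWW
    linarith
  have hWr : W / 4 ≤ r := by linarith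
  have hru : 0 ≤ r ^ u := (Real.rpow_pos_of_pos hr0 u).le
  have hμ0 : ∀ a, 0 ≤ rpMu lam pos k q c a := fun a => by
    unfold rpMu
    split_ifs
    exacts [mul_nonneg hc (hp.lam0 a), le_rfl]
  have h1 : ∑ b with dist (if T b then rpTs k q (pos b) else 0) z ≤ r, (if T b then lam b else 0) =
      ∑ b with T b ∧ |rpTs k q (pos b) - z| ≤ r, lam b := by
    rw [Finset.sum_filter, Finset.sum_filter]
    refine Finset.sum_congr rfl fun b _ => ?_
    by_cases hTb : T b
    · simp only [hTb, if_true, true_and, Real.dist_eq]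
    · simp [hTb]
  rw [h1]
  have h2 : ∀ a, rpMu lam pos k q c a *
      ∑ b with (T b ∧ |rpTs k q (pos b) - z| ≤ r) ∧ 𝒢 b a, lam b ≤
      rpMu lam pos k q c a * (2 * Kin * r ^ u) := by
    intro a
    by_cases ha : rtCell k (pos a) = q
    · refine mul_le_mul_of_nonneg_left ?_ (hμ0 a)
      have t1 := hthin a (z - r) r hρr hr1
      have t2 := hthin a (z + r) r hρr hr1
      have t3 : ∑ b with (T b ∧ |rpTs k q (pos b) - z| ≤ r) ∧ 𝒢 b a, lam b ≤
          ∑ b ∈ (univ.filter fun b => 𝒢 a b ∧ |rpSl pos a b - (z - r)| ≤ r) ∪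
            (univ.filter fun b => 𝒢 a b ∧ |rpSl pos a b - (z + r)| ≤ r), lam b := by
        refine Finset.sum_le_sum_of_subset_of_nonneg (fun b hb => ?_) fun b _ _ => hp.lam0 b
        obtain ⟨⟨-, hbz⟩, hba⟩ := (Finset.mem_filter.1 hb).2
        have hab := hg.symm b a hba
        have g3 := (rp_geom_pop hl q a b ha (hg.sub b a hba)).2.2.1
        rw [rp_sl_symm pos b a] at g3
        rw [abs_le] at g3 hbz
        rw [Finset.mem_union, Finset.mem_filter, Finset.mem_filter]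
        by_cases hs : rpSl pos a b ≤ z
        · left
          refine ⟨Finset.mem_univ _, hab, ?_⟩
          rw [abs_le]
          constructor <;> linarith [g3.1, g3.2, hbz.1, hbz.2]
        · right
          push Not at hs
          refine ⟨Finset.mem_univ _, hab, ?_⟩
          rw [abs_le]
          constructor <;> linarith [g3.1, g3.2, hbz.1, hbz.2]
      have t4 := Finset.sum_union_inter (f := lam)
        (s₁ := univ.filter fun b => 𝒢 a b ∧ |rpSl pos a b - (z - r)| ≤ r)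
        (s₂ := univ.filter fun b => 𝒢 a b ∧ |rpSl pos a b - (z + r)| ≤ r)
      have t5 : 0 ≤ ∑ b ∈ (univ.filter fun b => 𝒢 a b ∧ |rpSl pos a b - (z - r)| ≤ r) ∩
            (univ.filter fun b => 𝒢 a b ∧ |rpSl pos a b - (z + r)| ≤ r), lam b :=
        Finset.sum_nonneg fun b _ => hp.lam0 b
      linarith
    · have : rpMu lam pos k q c a = 0 := by
        unfold rpMu
        rw [if_neg ha]
      rw [this, zero_mul, zero_mul]
  have h3 : κ * ∑ b with T b ∧ |rpTs k q (pos b) - z| ≤ r, lam b ≤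
      ∑ b with T b ∧ |rpTs k q (pos b) - z| ≤ r, lam b * ∑ a with 𝒢 b a, rpMu lam pos k q c a := by
    rw [Finset.mul_sum]
    refine Finset.sum_le_sum fun b hb => ?_
    rw [mul_comm]
    exact mul_le_mul_of_nonneg_left (hT b (Finset.mem_filter.1 hb).2.1) (hp.lam0 b)
  have h4 : ∑ b with T b ∧ |rpTs k q (pos b) - z| ≤ r, lam b * ∑ a with 𝒢 b a, rpMu lam pos k q c a =
      ∑ a, rpMu lam pos k q c a * ∑ b with (T b ∧ |rpTs k q (pos b) - z| ≤ r) ∧ 𝒢 b a, lam b := by
    simp only [Finset.mul_sum, Finset.sum_filter]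
    rw [Finset.sum_comm]
    refine Finset.sum_congr rfl fun b _ => ?_
    by_cases c1 : T b ∧ |rpTs k q (pos b) - z| ≤ r
    · rw [if_pos c1]
      refine Finset.sum_congr rfl fun a _ => ?_
      by_cases c2 : 𝒢 b a
      · rw [if_pos c2, if_pos ⟨c1, c2⟩, mul_comm]
      · rw [if_neg c2, if_neg fun hh => c2 hh.2, mul_zero, mul_zero]
    · rw [if_neg c1]
      symm
      refine Finset.sum_eq_zero fun a _ => ?_
      rw [if_neg fun hh => c1 hh.1, mul_zero]
  have h5 : ∑ a, rpMu lam pos k q c a * (2 * Kin * r ^ u) ≤ 2 * Kin * r ^ u := by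
    rw [← Finset.sum_mul]
    exact mul_le_of_le_one_left (by positivity) hμ1
  have h6 : κ * ∑ b with T b ∧ |rpTs k q (pos b) - z| ≤ r, lam b ≤ 2 * Kin * r ^ u := by
    refine h3.trans ?_
    rw [h4]
    exact (Finset.sum_le_sum fun a _ => h2 a).trans h5
  rw [div_mul_eq_mul_div, le_div_iff₀ hκ, mul_comm]
  exact h6

end Claimed.Agent.R255
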