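import Claimed.Agent.R255.Rate.RpCover
import Claimed.Agent.R255.Rate.RpChild
import Claimed.Agent.R255.Rate.RpTags

/-!
# U4 (`rt_rp`), leaf L-RP-CELLW2: the bad pairs over one cell, by the projection theorem `RpW2` (= `ex_W2` at the scale `δ`).   (architect helper69)
`Λ = ∑_{a ∈ q} lam a`.  If `Λ = 0` both sides vanish.  Otherwise `c = 1/Λ`, `μ = rpMu lam pos k q c` (`∑ μ = 1`), `pt = rpPt pos k q`, `Bad = RpBad lam pos 𝒢 W W' (δ^(u+ε))`,
`f b = ∑_{a : Bad b a} μ a`, tags `T b := κ ≤ f b`, `ν b = if T b then lam b else 0`, `sl b = if T b then rpTs k q (pos b) else 0`,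
`G = {(a,b) : a ∈ q, T b, Bad b a}`.   LHS `= Λ ∑_b lam b f b ≤ Λ (∑_G μ ν + κ)`.
CLAIM `∑_G μ ν < δ^ηW`.  Otherwise `ExTest δ ηW 2 u μ ν pt sl G M` holds with `M = sup_b card (cov b)`, `cov b` from `rp_cover` (`l = δ^(u+ε)`; `cov b = ∅` if `¬ T b`):
 `|pt| ≤ 1` (`rp_xi_mem`), `|sl| ≤ 2` (`rp_geom_pop`; a tag has a bad partner in the cell because `f b ≥ κ > 0`), Frostman: `rp_tags_frost` (`f b ≤ ∑_{a : 𝒢 b a} μ a`) and `h1`,
 and `ExHered μ pt (δ^(-ηW)) s δ` by `rp_child_hered` and `h2` (`δ (1/2)^k = 16 A W' ≥ ρ`).  `RpW2` gives `δ^(-u-ε) ≤ M`, but `card (cov b) * δ^(u+ε) < 1` for all `b`.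
-/

set_option autoImplicit false

namespace Claimed.Agent.R255

open Finset Classical
open Claimed.Agent.RW (KfFrost KfCov kfProj ExTest ExHered)

variable {ι : Type} [Fintype ι]

theorem rp_cell_w2 {lam : ι → ℝ} {pos : ι → ℝ × ℝ} {𝒢 : ι → ι → Prop} {A ρ σ₀ W W' δ : ℝ} {k : ℕ}
    (hp : RpPop lam pos A) (hg : RpGr pos 𝒢 σ₀) (hl : RpLev A ρ σ₀ W W' δ k)
    (s u ε ηW Kin K κ : ℝ) (hs0 : 0 ≤ s) (hs1 : s ≤ 1) (hK : 1 ≤ K) (hKin : 0 ≤ Kin)
    (hthin : RpThin lam pos 𝒢 Kin u ρ) (her : RtTreeHer lam pos K s ρ)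
    (hW2 : RpW2 s u ε ηW δ) (hκ : 0 < κ) (h1 : 2 * Kin / κ ≤ δ ^ (-ηW)) (h2 : 100 * K ≤ δ ^ (-ηW)) (q : ℤ × ℤ) :
    ∑ a with rtCell k (pos a) = q, ∑ b with RpBad lam pos 𝒢 W W' (δ ^ (u + ε)) b a, lam a * lam b
      ≤ (δ ^ ηW + κ) * ∑ a with rtCell k (pos a) = q, lam a := by
  have hW'0 : 0 < W' := lt_of_lt_of_le hl.hρ hl.hρW
  have hW0 : 0 < W := by linarith [hl.hWW]
  have hδ0 : 0 < δ := lt_of_lt_of_le hW0 hl.hWδ
  obtain ⟨Λ, hΛ⟩ : ∃ Λ : ℝ, Λ = ∑ a with rtCell k (pos a) = q, lam a := ⟨_, rfl⟩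
  rw [← hΛ]
  have hΛ0 : 0 ≤ Λ := by rw [hΛ]; exact Finset.sum_nonneg fun i _ => hp.lam0 i
  rcases hΛ0.eq_or_lt with h0 | hpos
  · have hz : ∀ a ∈ univ.filter (fun a => rtCell k (pos a) = q), lam a = 0 :=
      (Finset.sum_eq_zero_iff_of_nonneg (fun i _ => hp.lam0 i)).1 (hΛ.symm.trans h0.symm)
    rw [← h0, mul_zero]
    refine le_of_eq (Finset.sum_eq_zero fun a ha => Finset.sum_eq_zero fun b _ => ?_)
    rw [hz a ha, zero_mul]
  obtain ⟨Bad, hBad⟩ : ∃ Bad : ι → ι → Prop, Bad = RpBad lam pos 𝒢 W W' (δ ^ (u + ε)) := ⟨_, rfl⟩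
  rw [← hBad]
  obtain ⟨μ, hμ⟩ : ∃ μ : ι → ℝ, μ = rpMu lam pos k q (1 / Λ) := ⟨_, rfl⟩
  have hc0 : 0 ≤ 1 / Λ := by positivity
  have hμin : ∀ a, rtCell k (pos a) = q → μ a = 1 / Λ * lam a := by
    intro a ha; rw [hμ]; unfold rpMu; rw [if_pos ha]
  have hμout : ∀ a, rtCell k (pos a) ≠ q → μ a = 0 := by
    intro a ha; rw [hμ]; unfold rpMu; rw [if_neg ha]
  have hμ0 : ∀ a, 0 ≤ μ a := by
    intro a
    by_cases ha : rtCell k (pos a) = q
    · rw [hμin a ha]; exact mul_nonneg hc0 (hp.lam0 a)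
    · rw [hμout a ha]
  have hμ1 : ∑ a, μ a = 1 := by
    have e : ∑ a, μ a = ∑ a with rtCell k (pos a) = q, 1 / Λ * lam a := by
      rw [Finset.sum_filter]
      refine Finset.sum_congr rfl fun a _ => ?_
      by_cases ha : rtCell k (pos a) = q
      · rw [if_pos ha, hμin a ha]
      · rw [if_neg ha, hμout a ha]
    rw [e, ← Finset.mul_sum, ← hΛ]
    field_simp
  have hlamμ : ∀ a, rtCell k (pos a) = q → lam a = Λ * μ a := by
    intro a ha; rw [hμin a ha]; field_simp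
  obtain ⟨f, hf⟩ : ∃ f : ι → ℝ, f = fun b => ∑ a with Bad b a, μ a := ⟨_, rfl⟩
  have hf0 : ∀ b, 0 ≤ f b := by intro b; rw [hf]; exact Finset.sum_nonneg fun a _ => hμ0 a
  -- the left side
  have hfb : ∀ b, f b = ∑ a, if Bad b a then μ a else 0 := by
    intro b; rw [hf]; exact Finset.sum_filter _ _
  have e1 : ∑ a with rtCell k (pos a) = q, ∑ b with Bad b a, lam a * lam b = Λ * ∑ b, lam b * f b := by
    have e0 : ∑ a with rtCell k (pos a) = q, ∑ b with Bad b a, lam a * lam b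
        = ∑ a, ∑ b, Λ * (lam b * if Bad b a then μ a else 0) := by
      rw [Finset.sum_filter]
      refine Finset.sum_congr rfl fun a _ => ?_
      by_cases ha : rtCell k (pos a) = q
      · rw [if_pos ha, Finset.sum_filter]
        refine Finset.sum_congr rfl fun b _ => ?_
        by_cases hb : Bad b a
        · rw [if_pos hb, if_pos hb, hlamμ a ha]; ring
        · rw [if_neg hb, if_neg hb]; ring
      · rw [if_neg ha]
        refine (Finset.sum_eq_zero fun b _ => ?_).symm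
        rw [hμout a ha]; simp
    rw [e0, Finset.sum_comm, Finset.mul_sum]
    refine Finset.sum_congr rfl fun b _ => ?_
    rw [hfb b, Finset.mul_sum, Finset.mul_sum]
  rw [e1, mul_comm (δ ^ ηW + κ) Λ]
  refine mul_le_mul_of_nonneg_left ?_ hΛ0
  -- tags
  obtain ⟨T, hT⟩ : ∃ T : ι → Prop, T = fun b => κ ≤ f b := ⟨_, rfl⟩
  have hTiff : ∀ b, T b ↔ κ ≤ f b := by intro b; rw [hT]
  obtain ⟨ν, hν⟩ : ∃ ν : ι → ℝ, ν = fun b => if T b then lam b else 0 := ⟨_, rfl⟩
  obtain ⟨sl, hsl⟩ : ∃ sl : ι → ℝ, sl = fun b => if T b then rpTs k q (pos b) else 0 := ⟨_, rfl⟩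
  obtain ⟨G, hG⟩ : ∃ G : Finset (ι × ι), G = univ.filter (fun p : ι × ι => rtCell k (pos p.1) = q ∧ T p.2 ∧ Bad p.2 p.1) :=
    ⟨_, rfl⟩
  have hν0 : ∀ b, 0 ≤ ν b := by
    intro b; rw [hν]
    by_cases hb : T b
    · simp only [if_pos hb]; exact hp.lam0 b
    · simp only [if_neg hb]; exact le_rfl
  have hνle : ∀ b, ν b ≤ lam b := by
    intro b; rw [hν]
    by_cases hb : T b
    · simp only [if_pos hb]; exact le_rfl
    · simp only [if_neg hb]; exact hp.lam0 b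
  have hν1 : ∑ b, ν b ≤ 1 := (Finset.sum_le_sum fun b _ => hνle b).trans hp.lam1
  have e2 : ∑ p ∈ G, μ p.1 * ν p.2 = ∑ b, ν b * f b := by
    rw [hG, Finset.sum_filter, Fintype.sum_prod_type, Finset.sum_comm]
    refine Finset.sum_congr rfl fun b _ => ?_
    rw [hfb b, Finset.mul_sum]
    refine Finset.sum_congr rfl fun a _ => ?_
    show (if rtCell k (pos a) = q ∧ T b ∧ Bad b a then μ a * ν b else 0) = ν b * if Bad b a then μ a else 0
    by_cases hb : Bad b a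
    · by_cases ha : rtCell k (pos a) = q
      · by_cases ht : T b
        · rw [if_pos ⟨ha, ht, hb⟩, if_pos hb]; ring
        · rw [if_neg (fun h => ht h.2.1), if_pos hb, hν]; simp only [if_neg ht]; ring
      · rw [if_neg (fun h => ha h.1), if_pos hb, hμout a ha]; ring
    · rw [if_neg (fun h => hb h.2.2), if_neg hb]; ring
  have e3 : ∑ b, lam b * f b ≤ ∑ b, ν b * f b + κ := by
    have : ∑ b, lam b * f b ≤ ∑ b, (ν b * f b + κ * lam b) := by
      refine Finset.sum_le_sum fun b _ => ?_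
      by_cases hb : T b
      · have : ν b = lam b := by rw [hν]; simp only [if_pos hb]
        rw [this]
        have := mul_nonneg hκ.le (hp.lam0 b)
        linarith
      · have h3 : f b < κ := not_le.1 (fun h => hb ((hTiff b).2 h))
        have : ν b = 0 := by rw [hν]; simp only [if_neg hb]
        rw [this, zero_mul, zero_add, mul_comm]
        exact mul_le_mul_of_nonneg_right h3.le (hp.lam0 b)
    refine this.trans ?_
    rw [Finset.sum_add_distrib, ← Finset.mul_sum]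
    have := mul_le_mul_of_nonneg_left hp.lam1 hκ.le
    linarith
  refine e3.trans ?_
  rw [← e2]
  refine add_le_add_left (le_of_lt ?_) κ
  by_contra hcon
  push Not at hcon
  -- the coverings
  have hlpos : 0 < δ ^ (u + ε) := Real.rpow_pos_of_pos hδ0 _
  choose cov hcard hcov using fun b => rp_cover hp hg hl (δ ^ (u + ε)) hlpos q b
  obtain ⟨M, hM⟩ : ∃ M : ℕ, M = univ.sup (fun b => (cov b).card) := ⟨_, rfl⟩
  have hMle : ∀ b, (cov b).card ≤ M := by
    intro b; rw [hM]; exact Finset.le_sup (f := fun b => (cov b).card) (Finset.mem_univ b)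
  have hx : 0 < δ ^ (-u - ε) := Real.rpow_pos_of_pos hδ0 _
  have hxl : δ ^ (-u - ε) * δ ^ (u + ε) = 1 := by
    rw [← Real.rpow_add hδ0]
    have : -u - ε + (u + ε) = 0 := by ring
    rw [this, Real.rpow_zero]
  have hMlt : (M : ℝ) < δ ^ (-u - ε) := by
    have h3 : M < ⌈δ ^ (-u - ε)⌉₊ := by
      rw [hM, Finset.sup_lt_iff (by simpa using Nat.ceil_pos.2 hx)]
      intro b _
      rw [Nat.lt_ceil]
      have := hcard b
      rw [← hxl] at this
      exact lt_of_mul_lt_mul_right this hlpos.le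
    exact Nat.lt_ceil.1 h3
  -- a tag sees a point of the cell
  have htag : ∀ b, T b → ∃ a, rtCell k (pos a) = q ∧ Bad b a := by
    intro b hb
    have h3 : 0 < f b := lt_of_lt_of_le hκ ((hTiff b).1 hb)
    rw [hf] at h3
    obtain ⟨a, ha, hne⟩ := Finset.exists_ne_zero_of_sum_ne_zero h3.ne'
    refine ⟨a, ?_, (Finset.mem_filter.1 ha).2⟩
    by_contra hq
    exact hne (hμout a hq)
  have hBadG : ∀ b a, Bad b a → 𝒢 b a := by
    intro b a h; rw [hBad] at h; exact h.1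
  have htest : ExTest δ ηW 2 u μ ν (rpPt pos k q) sl G M := by
    refine ⟨hμ0, hν0, hμ1.le, hν1, ?_, ?_, ?_, hcon, cov, hMle, ?_⟩
    · intro x
      unfold rpPt
      by_cases hx : rtCell k (pos x) = q
      · rw [if_pos hx]
        obtain ⟨a1, a2, a3, a4⟩ := rp_xi_mem k q (pos x) hx
        exact ⟨by rw [abs_of_nonneg a1]; linarith, by rw [abs_of_nonneg a3]; linarith⟩
      · rw [if_neg hx]; simp
    · intro b
      rw [hsl]
      by_cases hb : T b
      · simp only [if_pos hb]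
        obtain ⟨a, ha, hba⟩ := htag b hb
        exact (rp_geom_pop hl q a b ha (hg.sub b a (hBadG b a hba))).2.1
      · simp only [if_neg hb]; simp
    · have hfr := rp_tags_frost hp hg hl Kin u κ (1 / Λ) hKin hthin hκ q hc0 (by rw [← hμ]; exact hμ1.le) T (by
        intro b hb
        refine ((hTiff b).1 hb).trans ?_
        rw [hf, ← hμ]
        refine Finset.sum_le_sum_of_subset_of_nonneg ?_ (fun a _ _ => hμ0 a)
        intro a ha
        rw [Finset.mem_filter] at ha ⊢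
        exact ⟨ha.1, hBadG b a ha.2⟩)
      rw [hν, hsl]
      intro z r hr hr1
      refine (hfr z r hr hr1).trans ?_
      exact mul_le_mul_of_nonneg_right h1 (Real.rpow_nonneg (hδ0.le.trans hr) _)
    · intro b t ht
      obtain ⟨x, hxG, rfl⟩ := ht
      rw [hG, Finset.mem_filter] at hxG
      obtain ⟨-, hxq, hTb, hbx⟩ := hxG
      refine hcov b _ ⟨x, hxq, by rw [← hBad]; exact hbx, ?_⟩
      rw [hsl]
      simp only [if_pos hTb]
      unfold rpPt
      rw [if_pos hxq]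
  have hher : ExHered μ (rpPt pos k q) (δ ^ (-ηW)) s δ := by
    have hδk : ρ ≤ δ * (1 / 2 : ℝ) ^ k := by
      rw [hl.hδ]
      have : (2 : ℝ) ^ k * (16 * A * W') * (1 / 2 : ℝ) ^ k = 16 * A * W' := by
        rw [one_div, inv_pow]; field_simp
      rw [this]
      have := hl.hA
      have := hl.hρW
      nlinarith
    have hh := rp_child_hered hp.lam0 K s ρ δ (1 / Λ) k q hK hs0 hs1 hl.hρ hc0 her hδk
    rw [← hμ] at hh
    intro z r₂ r₁ a1 a2 a3
    refine (hh z r₂ r₁ a1 a2 a3).trans ?_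
    have b1 : 0 ≤ (r₂ / r₁) ^ s :=
      Real.rpow_nonneg (div_nonneg (hδ0.le.trans a1) ((hδ0.le.trans a1).trans a2)) _
    have b2 : 0 ≤ ∑ i with dist (rpPt pos k q i) z ≤ r₁, μ i := Finset.sum_nonneg fun i _ => hμ0 i
    gcongr
  exact absurd (hW2 ι ι μ ν (rpPt pos k q) sl G M htest hher) (not_le.2 hMlt)

end Claimed.Agent.R255
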