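import Claimed.Agent.R255.Rate.RpDefs

/-!
# U4 (`rt_rp`), leaf L-RP-COUNT: fewer than `1/l` heavy subcones (one-dimensional statement).   (architect helper69)
`f` = slope seen from a fixed pin, `S` = neighbours of the pin, `R` = the points whose narrow cone (half-width `w'`) carries more than the fraction `l` of the reference cone
(centre `c`, half-width `w`), which contains all these narrow cones.
PROOF.  `F` = a maximal subset of `R` with `|f a - f e| > 2 w'` for distinct `a, e ∈ F` (finite: take a subset of maximal cardinality among the separated subsets of `univ.filter R`).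
The narrow cones of the points of `F` are pairwise disjoint and contained in the reference cone, so `card F * (l * Mref) < Mref` if `F ≠ ∅`; maximality gives the covering.
-/

set_option autoImplicit false

namespace Claimed.Agent.R255

open Finset Classical

theorem rp_heavy_count {ι : Type} [Fintype ι] (lam f : ι → ℝ) (S R : ι → Prop)
    (hlam : ∀ i, 0 ≤ lam i) (c w w' l : ℝ) (hw' : 0 < w') (hl : 0 < l)
    (hR : ∀ a, R a → |f a - c| + w' ≤ w)
    (hheavy : ∀ a, R a → l * ∑ i with S i ∧ |f i - c| ≤ w, lam i < ∑ i with S i ∧ |f i - f a| ≤ w', lam i) :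
    ∃ F : Finset ι, (∀ e ∈ F, R e) ∧ (F.card : ℝ) * l < 1 ∧ ∀ a, R a → ∃ e ∈ F, |f a - f e| ≤ 2 * w' := by
  -- a separated subset of maximal cardinality
  obtain ⟨F, hFmem, hFmax⟩ := Finset.exists_max_image
    ((univ : Finset ι).powerset.filter fun F : Finset ι =>
      (∀ e ∈ F, R e) ∧ ∀ a ∈ F, ∀ e ∈ F, a ≠ e → 2 * w' < |f a - f e|) Finset.card
    ⟨∅, by simp⟩
  obtain ⟨-, hFR, hFsep⟩ := Finset.mem_filter.1 hFmem
  refine ⟨F, hFR, ?_, fun a ha => ?_⟩
  · rcases F.eq_empty_or_nonempty with he | hne
    · rw [he]
      simp
    · obtain ⟨Mref, hMref⟩ : ∃ M, M = ∑ i with S i ∧ |f i - c| ≤ w, lam i := ⟨_, rfl⟩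
      rw [← hMref] at hheavy
      have h1 : ∑ e ∈ F, l * Mref < ∑ e ∈ F, ∑ i with S i ∧ |f i - f e| ≤ w', lam i :=
        Finset.sum_lt_sum_of_nonempty hne fun e he => hheavy e (hFR e he)
      have hdisj : Set.PairwiseDisjoint (F : Set ι)
          (fun e => univ.filter fun i => S i ∧ |f i - f e| ≤ w') := by
        intro e he e' he' hee
        rw [Function.onFun, Finset.disjoint_left]
        intro i hi hi'
        have a1 := (Finset.mem_filter.1 hi).2.2
        have a2 := (Finset.mem_filter.1 hi').2.2
        have a3 := hFsep e he e' he' hee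
        have a4 : |f e - f e'| ≤ |f i - f e| + |f i - f e'| := by
          have : f e - f e' = (f i - f e') - (f i - f e) := by ring
          rw [this]
          exact (abs_sub _ _).trans (by linarith)
        linarith
      have h2 : ∑ e ∈ F, ∑ i with S i ∧ |f i - f e| ≤ w', lam i ≤ Mref := by
        rw [← Finset.sum_biUnion hdisj, hMref]
        refine Finset.sum_le_sum_of_subset_of_nonneg (fun i hi => ?_) fun i _ _ => hlam i
        obtain ⟨e, he, hie⟩ := Finset.mem_biUnion.1 hi
        obtain ⟨-, hS, hd⟩ := Finset.mem_filter.1 hie
        refine Finset.mem_filter.2 ⟨Finset.mem_univ _, hS, ?_⟩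
        have a1 := hR e (hFR e he)
        have a2 : |f i - c| ≤ |f i - f e| + |f e - c| := by
          have : f i - c = (f i - f e) + (f e - c) := by ring
          rw [this]
          exact abs_add_le _ _
        linarith
      rw [Finset.sum_const, nsmul_eq_mul] at h1
      have h3 : (F.card : ℝ) * (l * Mref) < Mref := h1.trans_le h2
      have hM0 : 0 ≤ Mref := by
        rw [hMref]
        exact Finset.sum_nonneg fun i _ => hlam i
      have hMpos : 0 < Mref := by
        rcases hM0.eq_or_lt with h0 | h0
        · rw [← h0] at h3
          simp at h3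
        · exact h0
      have h4 : (F.card : ℝ) * l * Mref < 1 * Mref := by
        rw [one_mul, mul_assoc]
        exact h3
      exact lt_of_mul_lt_mul_right h4 hMpos.le
  · by_contra hcon
    push Not at hcon
    have haF : a ∉ F := fun h => by
      have := hcon a h
      rw [sub_self, abs_zero] at this
      linarith
    have hmem : insert a F ∈ (univ : Finset ι).powerset.filter fun F : Finset ι =>
        (∀ e ∈ F, R e) ∧ ∀ a ∈ F, ∀ e ∈ F, a ≠ e → 2 * w' < |f a - f e| := by
      refine Finset.mem_filter.2 ⟨Finset.mem_powerset.2 (Finset.subset_univ _), ?_, ?_⟩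
      · intro e he
        rcases Finset.mem_insert.1 he with rfl | he
        · exact ha
        · exact hFR e he
      · intro x hx y hy hxy
        rcases Finset.mem_insert.1 hx with hxa | hxF
        · rcases Finset.mem_insert.1 hy with hya | hyF
          · exact absurd (hxa.trans hya.symm) hxy
          · rw [hxa]
            exact hcon y hyF
        · rcases Finset.mem_insert.1 hy with hya | hyF
          · rw [hya, abs_sub_comm]
            exact hcon x hxF
          · exact hFsep x hxF y hyF hxy
    have := hFmax _ hmem
    rw [Finset.card_insert_of_notMem haF] at this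
    omega

end Claimed.Agent.R255
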