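import Claimed.Agent.R255.Rate.RpCount
import Claimed.Agent.R255.Rate.RpGeom

/-!
# U4 (`rt_rp`), leaf L-RP-COVER: the bad points of a cell project into fewer than `1/l` intervals.   (architect helper69)
Fix the pin `B` and the cell `q`.  Apply `rp_heavy_count` with `f = rpSl pos B`, `S = 𝒢 B`, `R a = (a in q and RpBad B a)`, `c = rpTs k q (pos B)`, `w = W/2`, `w' = W'`:
* `|f a - c| ≤ W/4` (`rp_geom_pop`), `W' ≤ W/4`;
* the reference cone `{|f i - c| ≤ W/2}` is contained in `{|f i - f a| ≤ W}`, so `RpBad` gives `hheavy`.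
`cov = F.image (fun e => π(e) - δ/2)`, `π(a) = kfProj c (rpXi k q (pos a))`: if `|f a - f e| ≤ 2 W'` then by `rp_geom_two`
`|π(a) - π(e)| ≤ 2^k 2A 2W' + W/4 = δ/4 + W/4 ≤ δ/2`.
-/

set_option autoImplicit false

namespace Claimed.Agent.R255

open Finset Classical
open Claimed.Agent.RW (KfCov kfProj)

theorem rp_cover {ι : Type} [Fintype ι] {lam : ι → ℝ} {pos : ι → ℝ × ℝ} {𝒢 : ι → ι → Prop} {A ρ σ₀ W W' δ : ℝ} {k : ℕ}
    (hp : RpPop lam pos A) (hg : RpGr pos 𝒢 σ₀) (hl : RpLev A ρ σ₀ W W' δ k) (l : ℝ) (hl0 : 0 < l) (q : ℤ × ℤ) (B : ι) :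
    ∃ cov : Finset ℝ, (cov.card : ℝ) * l < 1 ∧
      KfCov cov δ {t | ∃ a, rtCell k (pos a) = q ∧ RpBad lam pos 𝒢 W W' l B a ∧
        t = kfProj (rpTs k q (pos B)) (rpXi k q (pos a))} := by
  have hW'0 : 0 < W' := lt_of_lt_of_le hl.hρ hl.hρW
  have hWW := hl.hWW
  have hW0 : 0 < W := by linarith
  have hgeo : ∀ a, rtCell k (pos a) = q → 𝒢 B a → |rpSl pos B a - rpTs k q (pos B)| ≤ W / 4 := fun a ha hG =>
    (rp_geom_pop hl q a B ha (hg.sub B a hG)).2.2.1
  obtain ⟨F, hFR, hFc, hFcov⟩ := rp_heavy_count lam (rpSl pos B) (𝒢 B)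
    (fun a => rtCell k (pos a) = q ∧ RpBad lam pos 𝒢 W W' l B a) hp.lam0 (rpTs k q (pos B)) (W / 2) W' l hW'0 hl0
    (fun a ha => by
      have := hgeo a ha.1 ha.2.1
      linarith)
    (fun a ha => by
      have h1 := hgeo a ha.1 ha.2.1
      refine lt_of_le_of_lt (mul_le_mul_of_nonneg_left ?_ hl0.le) ha.2.2
      unfold rpM
      refine Finset.sum_le_sum_of_subset_of_nonneg ?_ fun i _ _ => hp.lam0 i
      intro i hi
      rw [Finset.mem_filter] at hi ⊢
      refine ⟨hi.1, hi.2.1, ?_⟩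
      have h2 := hi.2.2
      have h3 : rpSl pos B i - rpSl pos B a
          = (rpSl pos B i - rpTs k q (pos B)) - (rpSl pos B a - rpTs k q (pos B)) := by ring
      rw [h3]
      refine (abs_sub _ _).trans ?_
      linarith)
  refine ⟨F.image fun e => kfProj (rpTs k q (pos B)) (rpXi k q (pos e)) - δ / 2, ?_, ?_⟩
  · refine lt_of_le_of_lt (mul_le_mul_of_nonneg_right ?_ hl0.le) hFc
    exact_mod_cast Finset.card_image_le
  · rintro t ⟨a, haq, hbad, rfl⟩
    obtain ⟨e, heF, hae⟩ := hFcov a ⟨haq, hbad⟩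
    have heR := hFR e heF
    refine ⟨_, Finset.mem_image_of_mem _ heF, ?_⟩
    have h2 := rp_geom_two hl hp.bd q a e B haq heR.1 (hg.sub B a hbad.1) (hg.sub B e heR.2.1)
    have hk0 : (0 : ℝ) < 2 ^ k := by positivity
    have hA0 : (0 : ℝ) < A := lt_of_lt_of_le one_pos hl.hA
    have h3 : 2 ^ k * (2 * A) * |rpSl pos B a - rpSl pos B e| ≤ 2 ^ k * (2 * A) * (2 * W') :=
      mul_le_mul_of_nonneg_left hae (by positivity)
    have h4 : 2 ^ k * (2 * A) * (2 * W') = δ / 4 := by rw [hl.hδ]; ring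
    have h5 := hl.hWδ
    have h6 := abs_le.mp (h2.trans (by linarith : _ ≤ δ / 2))
    constructor <;> linarith [h6.1, h6.2]

end Claimed.Agent.R255
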