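-- KEEP
import Claimed.Agent.R255.Rate.Gr

/-!
# Row 255 (BR paper), Section 7, unit U4 (`rt_rp` = Prop 7.3, directional bootstrap, finite form).  File 1: DEFINITIONS.   (architect helper69)

PAPER-FREE finite proof (thin-cone bootstrap).  Everything is a finite weighted population `(lam, pos)` in the plane.
* We work with SLOPES of HORIZONTAL pairs (`|Δ₂| ≤ |Δ₁|`); vertical pairs: interchange the coordinates (`RpFinal.lean`).
* `RpThin 𝒢 C u ρ`: from every pin `i₀` the slopes of its `𝒢`-neighbours are Frostman `u` (constant `C`, scales `[ρ,1]`).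
* `RpStage A s u`: for every loss `η₁` there is a symmetric graph `𝒢` of `ρ^η₁`-separated horizontal pairs, which misses only a set of horizontal pairs of
  `lam ⊗ lam`-mass `≤ ρ^c`, and is thin with exponent `u` and constant `ρ^(-η₁)`.
* BASE `RpStage A s (s/4)` (two pins + no strip), STEP `RpStage A s u → RpStage A s (u + ε/2)` (`ex_W2`), finitely many steps reach `s - τ`.
* ONE REFINEMENT (common to base and step).  Mesh of cone widths `W 0 > W 1 > ... > W L = ρ`, `W (n+1) = (W n)^(1+θ)`.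
  `rpM i₀ i w` = mass of the cone of half-width `w` around the slope of `(i₀,i)`, seen from the pin `i₀`.
  `(i₀,i)` is BAD at the level `n` if `rpM i₀ i (W (n+1)) > l n * rpM i₀ i (W n)`.  Deleting all bad pairs (and their transposes) gives `RpRef`;
  good pairs telescope: `rpM i₀ i (W n) ≤ ∏_{m<n} l m`  (`RpTele.lean`).
  The bad pairs have small mass: cut the SECOND point `a` into dyadic cells `q` of side `2^(-k) ≈ σ₀ W / 16`.  Seen from a pin `b` the cell is inside one cone of width `W/4`;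
  there are `< 1/l` disjoint heavy subcones, hence in the cell coordinates `ξ = 2^k (a - corner)` the projections `π_{σ_b}(ξ_a)`, `σ_b` = slope from `b` to the corner,
  of the bad `a` are covered by `< 1/l` intervals of length `δ = 2^k 16 A W'`  (`RpCover.lean`).  This contradicts a projection theorem for the child law of the cell
  (hereditarily Frostman `s` by `RtTreeHer`, `RpChild.lean`) unless the bad set is small: `RpCellPin.lean` (two transversal pins), `RpCellW2.lean` (`ex_W2`, the slopes `σ_b` of the tags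
  are Frostman `u` because the graph is thin from the pins `a` of the cell: reciprocity, `RpTags.lean`).
Definitions are FROZEN (ask helper69).
-/

set_option autoImplicit false

namespace Claimed.Agent.R255

open Finset Classical
open Claimed.Agent.RW (KfFrost KfCov kfProj ExTest ExHered)

section

variable {ι : Type} [Fintype ι]

/-- slope of the pair `(i,j)` -/
noncomputable def rpSl (pos : ι → ℝ × ℝ) (i j : ι) : ℝ :=
  ((pos j).2 - (pos i).2) / ((pos j).1 - (pos i).1)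

/-- horizontal pair -/
def RpHor (pos : ι → ℝ × ℝ) (i j : ι) : Prop :=
  |(pos j).2 - (pos i).2| ≤ |(pos j).1 - (pos i).1|

/-- horizontal pair at distance at least `σ` -/
def RpH (pos : ι → ℝ × ℝ) (σ : ℝ) (i j : ι) : Prop :=
  RpHor pos i j ∧ σ ≤ |(pos j).1 - (pos i).1|

/-- thin cones in terms of slopes -/
def RpThin (lam : ι → ℝ) (pos : ι → ℝ × ℝ) (𝒢 : ι → ι → Prop) (C u ρ : ℝ) : Prop :=
  ∀ (i₀ : ι) (z w : ℝ), ρ ≤ w → w ≤ 1 →
    ∑ i with 𝒢 i₀ i ∧ |rpSl pos i₀ i - z| ≤ w, lam i ≤ C * w ^ u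

/-- mass of the cone of half-width `w` with vertex `i₀` around the slope of `(i₀,i)` -/
noncomputable def rpM (lam : ι → ℝ) (pos : ι → ℝ × ℝ) (𝒢 : ι → ι → Prop) (i₀ i : ι) (w : ℝ) : ℝ :=
  ∑ i' with 𝒢 i₀ i' ∧ |rpSl pos i₀ i' - rpSl pos i₀ i| ≤ w, lam i'

/-- the narrow cone carries more than the fraction `l` of the wide cone -/
def RpBad (lam : ι → ℝ) (pos : ι → ℝ × ℝ) (𝒢 : ι → ι → Prop) (W W' l : ℝ) (i₀ i : ι) : Prop :=
  𝒢 i₀ i ∧ l * rpM lam pos 𝒢 i₀ i W < rpM lam pos 𝒢 i₀ i W'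

/-- the refined graph: no level is bad, in either order -/
def RpRef (lam : ι → ℝ) (pos : ι → ℝ × ℝ) (𝒢 : ι → ι → Prop) (L : ℕ) (W l : ℕ → ℝ) (i j : ι) : Prop :=
  𝒢 i j ∧ ∀ n < L, ¬ RpBad lam pos 𝒢 (W n) (W (n + 1)) (l n) i j ∧ ¬ RpBad lam pos 𝒢 (W n) (W (n + 1)) (l n) j i

/-- population: sub-probability in a bounded box -/
structure RpPop (lam : ι → ℝ) (pos : ι → ℝ × ℝ) (A : ℝ) : Prop where
  lam0 : ∀ i, 0 ≤ lam i
  lam1 : ∑ i, lam i ≤ 1
  bd : ∀ i, |(pos i).1| ≤ A ∧ |(pos i).2| ≤ A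

/-- symmetric graph of `σ₀`-separated horizontal pairs -/
structure RpGr (pos : ι → ℝ × ℝ) (𝒢 : ι → ι → Prop) (σ₀ : ℝ) : Prop where
  symm : ∀ i j, 𝒢 i j → 𝒢 j i
  sub : ∀ i j, 𝒢 i j → RpH pos σ₀ i j

/-- cell coordinates `2^k (v - corner of q)` -/
noncomputable def rpXi (k : ℕ) (q : ℤ × ℤ) (v : ℝ × ℝ) : ℝ × ℝ := (v.1 * 2 ^ k - q.1, v.2 * 2 ^ k - q.2)

/-- slope from `b` to the corner of the cell `q` -/
noncomputable def rpTs (k : ℕ) (q : ℤ × ℤ) (b : ℝ × ℝ) : ℝ :=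
  ((q.2 : ℝ) / 2 ^ k - b.2) / ((q.1 : ℝ) / 2 ^ k - b.1)

/-- positions of the child law of the cell `q` (points outside the cell are parked at the origin, they have weight `0`) -/
noncomputable def rpPt (pos : ι → ℝ × ℝ) (k : ℕ) (q : ℤ × ℤ) (i : ι) : ℝ × ℝ :=
  if rtCell k (pos i) = q then rpXi k q (pos i) else (0, 0)

/-- weights of the child law of the cell `q`, multiplied by `c` -/
noncomputable def rpMu (lam : ι → ℝ) (pos : ι → ℝ × ℝ) (k : ℕ) (q : ℤ × ℤ) (c : ℝ) (i : ι) : ℝ :=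
  if rtCell k (pos i) = q then c * lam i else 0

end

/-- numerical data of one level: wide cone `W`, narrow cone `W'`, separation `σ₀`, cells of level `k`, relative scale `δ` -/
structure RpLev (A ρ σ₀ W W' δ : ℝ) (k : ℕ) : Prop where
  hA : 1 ≤ A
  hρ : 0 < ρ
  hσ0 : 0 < σ₀
  hσ1 : σ₀ ≤ 1
  hρW : ρ ≤ W'
  hWW : W' ≤ W / 4
  hW1 : W ≤ 1
  hk : (1 / 2 : ℝ) ^ k ≤ σ₀ * W / 16
  hδ : δ = 2 ^ k * (16 * A * W')
  hWδ : W ≤ δ
  hδ1 : δ ≤ 1

/-- the conclusion of `ex_W2` at one scale `δ` and one exponent `u` (box `A = 2`) -/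
def RpW2 (s u ε ηW δ : ℝ) : Prop :=
  ∀ (X T : Type) [Fintype X] [Fintype T] (μ : X → ℝ) (ν : T → ℝ) (pt : X → ℝ × ℝ) (sl : T → ℝ)
    (G : Finset (X × T)) (M : ℕ),
    ExTest δ ηW 2 u μ ν pt sl G M → ExHered μ pt (δ ^ (-ηW)) s δ → δ ^ (-u - ε) ≤ (M : ℝ)

/-- the stage predicate of the bootstrap -/
def RpStage (A s u : ℝ) : Prop :=
  ∀ η₁ : ℝ, 0 < η₁ → ∃ t₀ : ℝ, 0 < t₀ ∧ t₀ ≤ 1 ∧ ∀ κ₀ : ℝ, 0 < κ₀ → ∃ c η ρ₁ : ℝ, 0 < c ∧ 0 < η ∧ 0 < ρ₁ ∧
    ∀ ρ : ℝ, 0 < ρ → ρ < ρ₁ → ∀ (ι : Type) [Fintype ι] (lam : ι → ℝ) (pos : ι → ℝ × ℝ),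
      RpPop lam pos A → RtTreeHer lam pos (ρ ^ (-η)) s ρ → RtNoStrip lam pos (ρ ^ t₀) (ρ ^ κ₀) →
      ∃ 𝒢 : ι → ι → Prop, RpGr pos 𝒢 (ρ ^ η₁) ∧
        ∑ i, ∑ j with RpHor pos i j ∧ ¬ 𝒢 i j, lam i * lam j ≤ ρ ^ c ∧
        RpThin lam pos 𝒢 (ρ ^ (-η₁)) u ρ

/-- exponents of the mesh: `e 0 = (1+θ)^(-L)`, `e (n+1) = (1+θ) e n`, `e L = 1` -/
noncomputable def rpE (θ : ℝ) (L n : ℕ) : ℝ := (1 + θ) ^ n / (1 + θ) ^ L

end Claimed.Agent.R255
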