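import Claimed.Agent.R255.Rate.RpStep
import Claimed.Agent.R255.Rate.RpBase

/-!
# U4 (`rt_rp`), GLUE L-RP-IND: finitely many steps.   (architect helper69)
`τW = min τ (s/4)`; `ex_W2 s τW 2` gives `ε, ηW, ρW`; `ε' = min ε 1` (`δ^(-u-ε') ≤ δ^(-u-ε)` for `δ < 1`; use the threshold `min ρW 1`).
`u_n = s/4 + n ε'/2`.  By induction on `n`: `u_n ≤ s - τW + ε'/2 → RpStage A s u_n` (`rp_base`, `rp_step` at `u_n ∈ [τW, s - τW]`).
Take `n = ⌈(3s/4 - τW)/(ε'/2)⌉₊`: `s - τ ≤ s - τW ≤ u_n ≤ s - τW + ε'/2`; conclude by `rp_stage_mono`.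
-/

set_option autoImplicit false

namespace Claimed.Agent.R255

open Finset Classical

theorem rp_stage_mono {A s u u' : ℝ} (h : u' ≤ u) (hst : RpStage A s u) : RpStage A s u' := by
  intro η₁ hη₁
  obtain ⟨t₀, ht0, ht1, H⟩ := hst η₁ hη₁
  refine ⟨t₀, ht0, ht1, fun κ₀ hκ₀ => ?_⟩
  obtain ⟨c, η, ρ₁, hc, hη, hρ₁, H2⟩ := H κ₀ hκ₀
  refine ⟨c, η, ρ₁, hc, hη, hρ₁, fun ρ hρ hρ1 ι _ lam pos hp hh hn => ?_⟩
  obtain ⟨𝒢, hg, hm, hthin⟩ := H2 ρ hρ hρ1 ι lam pos hp hh hn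
  refine ⟨𝒢, hg, hm, fun i₀ z w hw hw1 => (hthin i₀ z w hw hw1).trans ?_⟩
  have hw0 : 0 < w := lt_of_lt_of_le hρ hw
  exact mul_le_mul_of_nonneg_left (Real.rpow_le_rpow_of_exponent_ge hw0 hw1 h)
    (Real.rpow_nonneg hρ.le _)

theorem rp_stage_top (A s τ : ℝ) (hA : 1 ≤ A) (hs : 0 < s) (hs1 : s ≤ 1) (hτ : 0 < τ) : RpStage A s (s - τ) := by
  obtain ⟨τW, hτW⟩ : ∃ τW, τW = min τ (s / 4) := ⟨_, rfl⟩
  have hτW0 : 0 < τW := by rw [hτW]; exact lt_min hτ (by linarith)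
  have hτW1 : τW ≤ τ := by rw [hτW]; exact min_le_left _ _
  have hτW2 : τW ≤ s / 4 := by rw [hτW]; exact min_le_right _ _
  obtain ⟨ε, hε, ηW, hηW, ρW, hρW, hW⟩ := RW.ex_W2 s τW 2 hτW0 hs1 (by norm_num)
  obtain ⟨ε', hε'⟩ : ∃ ε', ε' = min ε 1 := ⟨_, rfl⟩
  have hε'0 : 0 < ε' := by rw [hε']; exact lt_min hε one_pos
  have hε'1 : ε' ≤ 1 := by rw [hε']; exact min_le_right _ _
  have hε'2 : ε' ≤ ε := by rw [hε']; exact min_le_left _ _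
  have hW2 : ∀ u : ℝ, τW ≤ u → u ≤ s - τW → ∀ δ : ℝ, 0 < δ → δ < min ρW 1 → RpW2 s u ε' ηW δ := by
    intro u hu1 hu2 δ hδ0 hδ1 X T _ _ μ ν pt sl G M h1 h2
    have h3 := hW u hu1 hu2 δ hδ0 (lt_of_lt_of_le hδ1 (min_le_left _ _)) X T μ ν pt sl G M h1 h2
    refine le_trans ?_ h3
    exact Real.rpow_le_rpow_of_exponent_ge hδ0 (lt_of_lt_of_le hδ1 (min_le_right _ _)).le
      (by linarith)
  have hind : ∀ n : ℕ, s / 4 + n * (ε' / 2) ≤ s - τW + ε' / 2 → RpStage A s (s / 4 + n * (ε' / 2)) := by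
    intro n
    induction n with
    | zero =>
      intro _
      simpa using rp_base A s hA hs hs1
    | succ n ih =>
      intro hn
      push_cast at hn ⊢
      have hn0 : (0 : ℝ) ≤ n * (ε' / 2) := by positivity
      have h1 : s / 4 + n * (ε' / 2) ≤ s - τW := by linarith
      have h2 := rp_step A s ε' ηW (min ρW 1) (s / 4 + n * (ε' / 2)) hA hs hs1 hε'0 hε'1 hηW
        (lt_min hρW one_pos) (by linarith) (by linarith) (hW2 _ (by linarith) h1) (ih (by linarith))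
      have h3 : s / 4 + n * (ε' / 2) + ε' / 2 = s / 4 + ((n : ℝ) + 1) * (ε' / 2) := by ring
      rw [h3] at h2
      exact h2
  have hpos : 0 ≤ (3 * s / 4 - τW) / (ε' / 2) := by
    apply div_nonneg <;> linarith
  have hn1 := Nat.le_ceil ((3 * s / 4 - τW) / (ε' / 2))
  have hn2 := Nat.ceil_lt_add_one hpos
  rw [div_le_iff₀ (by linarith)] at hn1
  rw [← sub_lt_iff_lt_add, lt_div_iff₀ (by linarith)] at hn2
  refine rp_stage_mono ?_ (hind ⌈(3 * s / 4 - τW) / (ε' / 2)⌉₊ ?_)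
  · linarith
  · linarith

end Claimed.Agent.R255
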