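import Claimed.Agent.R255.Rate.RpDefs

/-!
# U4 (`rt_rp`), leaf L-RP-NINE: a square of half-side `r ≤ 2^(-n)` meets at most nine dyadic cells of level `n`; Frostman bound; close pairs.   (architect helper69)
* `rp_nine`: group the sum by the value of `rtCell n (pos i)` (`Finset.sum_fiberwise_of_maps_to` onto the image, or onto the explicit set
  `Finset.Icc ⌊(z.1-r)2^n⌋ ⌊(z.1+r)2^n⌋ ×ˢ Finset.Icc ⌊(z.2-r)2^n⌋ ⌊(z.2+r)2^n⌋`, which has at most `3 * 3` elements because `2 r 2^n ≤ 2`); `dist` on `ℝ × ℝ` is the sup distance.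
* `rp_frost`: `r ∈ [ρ,1]`, `n` with `(1/2)^(n+1) < r ≤ (1/2)^n` (`exists_nat_pow_near_of_lt_one`); `RtTreeHer` with `k = 0`, `k' = n`: cell mass `≤ K ((1/2)^n)^s ≤ K (2r)^s ≤ 2 K r^s`.
* `rp_close`: a horizontal pair which is not `σ₀`-separated has `dist (pos j) (pos i) ≤ σ₀`.
-/

set_option autoImplicit false

namespace Claimed.Agent.R255

open Finset Classical
open Claimed.Agent.RW (KfFrost)

variable {ι : Type} [Fintype ι]

theorem rp_floor_card (x y : ℝ) (h : y ≤ x + 2) : (Finset.Icc ⌊x⌋ ⌊y⌋).card ≤ 3 := by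
  have h1 : ⌊y⌋ ≤ ⌊x⌋ + 2 := by
    have : ⌊y⌋ ≤ ⌊x + 2⌋ := Int.floor_le_floor h
    rwa [show x + 2 = x + ((2 : ℤ) : ℝ) by norm_num, Int.floor_add_intCast] at this
  rw [Int.card_Icc]
  omega

theorem rp_nine (w : ι → ℝ) (pos : ι → ℝ × ℝ) (hw : ∀ i, 0 ≤ w i) (n : ℕ) (z : ℝ × ℝ) (r M : ℝ) (hr : r ≤ (1 / 2 : ℝ) ^ n)
    (hM0 : 0 ≤ M)
    (hM : ∀ i₀, dist (pos i₀) z ≤ r → ∑ i with rtCell n (pos i) = rtCell n (pos i₀), w i ≤ M) :
    ∑ i with dist (pos i) z ≤ r, w i ≤ 9 * M := by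
  have h2n : (0 : ℝ) < 2 ^ n := by positivity
  have hr2 : r * 2 ^ n ≤ 1 := by
    have : (1 / 2 : ℝ) ^ n * 2 ^ n = 1 := by rw [← mul_pow]; norm_num
    calc r * 2 ^ n ≤ (1 / 2 : ℝ) ^ n * 2 ^ n := mul_le_mul_of_nonneg_right hr h2n.le
      _ = 1 := this
  obtain ⟨T, hT⟩ : ∃ T : Finset (ℤ × ℤ), T = Finset.Icc ⌊(z.1 - r) * 2 ^ n⌋ ⌊(z.1 + r) * 2 ^ n⌋ ×ˢ
    Finset.Icc ⌊(z.2 - r) * 2 ^ n⌋ ⌊(z.2 + r) * 2 ^ n⌋ := ⟨_, rfl⟩
  have hTc : T.card ≤ 9 := by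
    rw [hT, Finset.card_product]
    have a1 := rp_floor_card ((z.1 - r) * 2 ^ n) ((z.1 + r) * 2 ^ n) (by nlinarith)
    have a2 := rp_floor_card ((z.2 - r) * 2 ^ n) ((z.2 + r) * 2 ^ n) (by nlinarith)
    calc _ ≤ 3 * 3 := Nat.mul_le_mul a1 a2
      _ = 9 := by norm_num
  have hmaps : ∀ i ∈ Finset.univ.filter (fun i => dist (pos i) z ≤ r), rtCell n (pos i) ∈ T := by
    intro i hi
    rw [Finset.mem_filter] at hi
    have hd := hi.2
    rw [Prod.dist_eq, max_le_iff, Real.dist_eq, Real.dist_eq, abs_le, abs_le] at hd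
    rw [hT, Finset.mem_product, Finset.mem_Icc, Finset.mem_Icc]
    unfold rtCell
    refine ⟨⟨Int.floor_le_floor ?_, Int.floor_le_floor ?_⟩,
      ⟨Int.floor_le_floor ?_, Int.floor_le_floor ?_⟩⟩ <;>
    · refine mul_le_mul_of_nonneg_right ?_ h2n.le
      linarith [hd.1.1, hd.1.2, hd.2.1, hd.2.2]
  rw [← Finset.sum_fiberwise_of_maps_to hmaps]
  have hfib : ∀ q ∈ T, ∑ i ∈ (Finset.univ.filter (fun i => dist (pos i) z ≤ r)).filter
      (fun i => rtCell n (pos i) = q), w i ≤ M := by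
    intro q _
    by_cases hne : ((Finset.univ.filter (fun i => dist (pos i) z ≤ r)).filter
      (fun i => rtCell n (pos i) = q)).Nonempty
    · obtain ⟨i₀, hi₀⟩ := hne
      rw [Finset.mem_filter, Finset.mem_filter] at hi₀
      refine le_trans ?_ (hM i₀ hi₀.1.2)
      refine Finset.sum_le_sum_of_subset_of_nonneg ?_ fun i _ _ => hw i
      intro i hi
      rw [Finset.mem_filter] at hi
      rw [Finset.mem_filter]
      exact ⟨Finset.mem_univ _, hi.2.trans hi₀.2.symm⟩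
    · rw [Finset.not_nonempty_iff_eq_empty.1 hne, Finset.sum_empty]
      exact hM0
  refine (Finset.sum_le_card_nsmul _ _ _ hfib).trans ?_
  rw [nsmul_eq_mul]
  have : (T.card : ℝ) ≤ 9 := by exact_mod_cast hTc
  exact mul_le_mul_of_nonneg_right this hM0

theorem rp_frost {lam : ι → ℝ} {pos : ι → ℝ × ℝ} {A : ℝ} (hp : RpPop lam pos A) (K s ρ : ℝ) (hK : 0 ≤ K) (hs0 : 0 ≤ s) (hs1 : s ≤ 1)
    (hρ : 0 < ρ) (her : RtTreeHer lam pos K s ρ) : KfFrost lam pos (18 * K) s ρ := by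
  intro z r hρr hr1
  have hr0 : 0 < r := lt_of_lt_of_le hρ hρr
  obtain ⟨n, hn1, hn2⟩ := exists_nat_pow_near_of_lt_one hr0 hr1 (by norm_num : (0 : ℝ) < 1 / 2)
    (by norm_num : (1 / 2 : ℝ) < 1)
  have hrs : 0 ≤ r ^ s := Real.rpow_nonneg hr0.le _
  have key := rp_nine lam pos hp.lam0 n z r (2 * K * r ^ s) hn2 (by positivity) (fun i₀ _ => by
    have h1 := her 0 n (Nat.zero_le n) (hρr.trans hn2) i₀
    rw [Nat.sub_zero] at h1
    refine h1.trans ?_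
    have h2 : ∑ i with rtCell 0 (pos i) = rtCell 0 (pos i₀), lam i ≤ 1 :=
      (Finset.sum_le_sum_of_subset_of_nonneg (Finset.filter_subset _ _)
        fun i _ _ => hp.lam0 i).trans hp.lam1
    have h3 : ((1 / 2 : ℝ) ^ n) ^ s ≤ 2 * r ^ s := by
      have h4 : (1 / 2 : ℝ) ^ n ≤ 2 * r := by
        have : (1 / 2 : ℝ) ^ (n + 1) = (1 / 2 : ℝ) ^ n / 2 := by rw [pow_succ]; ring
        rw [this] at hn1
        linarith
      calc ((1 / 2 : ℝ) ^ n) ^ s ≤ (2 * r) ^ s := Real.rpow_le_rpow (by positivity) h4 hs0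
        _ = 2 ^ s * r ^ s := Real.mul_rpow (by norm_num) hr0.le
        _ ≤ 2 * r ^ s := by
          refine mul_le_mul_of_nonneg_right ?_ hrs
          calc (2 : ℝ) ^ s ≤ 2 ^ (1 : ℝ) := Real.rpow_le_rpow_of_exponent_le (by norm_num) hs1
            _ = 2 := Real.rpow_one 2
    have h5 : 0 ≤ K * ((1 / 2 : ℝ) ^ n) ^ s := mul_nonneg hK (Real.rpow_nonneg (by positivity) _)
    calc K * ((1 / 2 : ℝ) ^ n) ^ s * ∑ i with rtCell 0 (pos i) = rtCell 0 (pos i₀), lam i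
        ≤ K * ((1 / 2 : ℝ) ^ n) ^ s * 1 := mul_le_mul_of_nonneg_left h2 h5
      _ ≤ K * (2 * r ^ s) * 1 := by gcongr
      _ = 2 * K * r ^ s := by ring)
  calc ∑ i with dist (pos i) z ≤ r, lam i ≤ 9 * (2 * K * r ^ s) := key
    _ = 18 * K * r ^ s := by ring

theorem rp_close {lam : ι → ℝ} {pos : ι → ℝ × ℝ} {A : ℝ} (hp : RpPop lam pos A) (K s ρ σ₀ : ℝ) (hK : 0 ≤ K) (hs0 : 0 ≤ s) (hs1 : s ≤ 1)
    (hρ : 0 < ρ) (her : RtTreeHer lam pos K s ρ) (hρσ : ρ ≤ σ₀) (hσ1 : σ₀ ≤ 1) :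
    ∑ i, ∑ j with RpHor pos i j ∧ ¬ RpH pos σ₀ i j, lam i * lam j ≤ 18 * K * σ₀ ^ s := by
  have hF := rp_frost hp K s ρ hK hs0 hs1 hρ her
  have hσ0 : 0 < σ₀ := lt_of_lt_of_le hρ hρσ
  have hB : 0 ≤ 18 * K * σ₀ ^ s := by
    have := Real.rpow_nonneg hσ0.le s
    positivity
  have h1 : ∀ i, ∑ j with RpHor pos i j ∧ ¬ RpH pos σ₀ i j, lam i * lam j
      ≤ lam i * (18 * K * σ₀ ^ s) := by
    intro i
    rw [← Finset.mul_sum]
    refine mul_le_mul_of_nonneg_left ?_ (hp.lam0 i)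
    refine le_trans ?_ (hF (pos i) σ₀ hρσ hσ1)
    refine Finset.sum_le_sum_of_subset_of_nonneg ?_ fun j _ _ => hp.lam0 j
    intro j hj
    rw [Finset.mem_filter] at hj ⊢
    refine ⟨Finset.mem_univ _, ?_⟩
    obtain ⟨-, hh, hn⟩ := hj
    have h2 : |(pos j).1 - (pos i).1| < σ₀ := by
      by_contra hcon
      exact hn ⟨hh, not_lt.1 hcon⟩
    rw [Prod.dist_eq, max_le_iff, Real.dist_eq, Real.dist_eq]
    exact ⟨h2.le, (le_trans hh h2.le)⟩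
  calc ∑ i, ∑ j with RpHor pos i j ∧ ¬ RpH pos σ₀ i j, lam i * lam j
      ≤ ∑ i, lam i * (18 * K * σ₀ ^ s) := Finset.sum_le_sum fun i _ => h1 i
    _ = (∑ i, lam i) * (18 * K * σ₀ ^ s) := by rw [Finset.sum_mul]
    _ ≤ 1 * (18 * K * σ₀ ^ s) := mul_le_mul_of_nonneg_right hp.lam1 hB
    _ = 18 * K * σ₀ ^ s := one_mul _

end Claimed.Agent.R255
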