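import Claimed.Agent.R255.Rate.RpParE

/-!
# U4 (`rt_rp`), leaf L-RP-PAR-A (this file: `rp_lev_exists`): choice of the parameters (real powers only; no populations).   (architect helper69)
Mesh `W n = ρ ^ rpE θ L n`, `rpE θ L n = (1+θ)^n/(1+θ)^L` (`e_0 = j₁`, `e_{n+1} = (1+θ) e_n`, `e_L = 1`), separation `σ₀ = ρ^ηin`.
All statements have the form "there is `ρ₁ > 0` such that for `0 < ρ < ρ₁` ...": every single inequality reduces to `C * ρ^a ≤ 1` with `a > 0` (`rp_small`); take the minimum of the thresholds.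
-/

set_option autoImplicit false

namespace Claimed.Agent.R255

open Finset Classical

/-- the algebra of one level -/
theorem rp_lev_alg {A σ W r K : ℝ} (hA : 1 ≤ A) (hσ0 : 0 < σ) (hσ1 : σ ≤ 1) (hr : 0 < r)
    (hK1 : 16 ≤ K * (σ * W)) (hK2 : K * (σ * W) ≤ 32) :
    K * (16 * A * (W * r)) ≤ 512 * A * σ⁻¹ * r ∧ r ≤ K * (16 * A * (W * r)) := by
  have hi : 0 < σ⁻¹ := inv_pos.2 hσ0
  have e : σ⁻¹ * σ = 1 := inv_mul_cancel₀ hσ0.ne'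
  have hKW : K * W = σ⁻¹ * (K * (σ * W)) := by
    calc K * W = (σ⁻¹ * σ) * (K * W) := by rw [e, one_mul]
      _ = σ⁻¹ * (K * (σ * W)) := by ring
  have hi1 : 1 ≤ σ⁻¹ := (one_le_inv₀ hσ0).2 hσ1
  have h1 : K * W ≤ σ⁻¹ * 32 := by rw [hKW]; exact mul_le_mul_of_nonneg_left hK2 hi.le
  have h2 : 16 ≤ K * W := by
    rw [hKW]
    calc (16 : ℝ) = 1 * 16 := by ring
      _ ≤ σ⁻¹ * (K * (σ * W)) := mul_le_mul hi1 hK1 (by norm_num) hi.le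
  have hAr : 0 < 16 * A * r := by positivity
  constructor
  · calc K * (16 * A * (W * r)) = (16 * A * r) * (K * W) := by ring
      _ ≤ (16 * A * r) * (σ⁻¹ * 32) := mul_le_mul_of_nonneg_left h1 hAr.le
      _ = 512 * A * σ⁻¹ * r := by ring
  · calc r = r * 1 := by ring
      _ ≤ (16 * A * r) * (K * W) := by nlinarith
      _ = K * (16 * A * (W * r)) := by ring

/-- LEVELS.  `k n` = the least `k` with `(1/2)^k ≤ σ₀ W_n / 16`, so `16/(σ₀ W_n) ≤ 2^k < 32/(σ₀ W_n)`; `δ n = 2^k 16 A W_{n+1} ∈ [256 A W_n^θ/σ₀, 512 A W_n^θ/σ₀)`.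
`W_{n+1}/W_n = ρ^(θ e_n) ≤ ρ^(θ j₁)`;  `W_n ≤ W_n^θ ≤ δ n`;  `δ n ≤ 512 A ρ^(θ j₁ - ηin) ≤ 512 A ρ^(7 θ j₁/8) ≤ ρ^(θ j₁/2)` for small `ρ`. -/
theorem rp_lev_exists (A θ ηin : ℝ) (L : ℕ) (hA : 1 ≤ A) (hθ : 0 < θ) (hθ1 : θ ≤ 1 / 3) (hη : 0 < ηin)
    (hη' : ηin ≤ θ * rpE θ L 0 / 8) :
    ∃ ρ₁ : ℝ, 0 < ρ₁ ∧ ρ₁ ≤ 1 ∧ ∀ ρ : ℝ, 0 < ρ → ρ < ρ₁ → ∃ (k : ℕ → ℕ) (δ : ℕ → ℝ), (∀ n, 0 < δ n) ∧ ∀ n < L,
      RpLev A ρ (ρ ^ ηin) (ρ ^ rpE θ L n) (ρ ^ rpE θ L (n + 1)) (δ n) (k n) ∧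
      δ n ≤ 512 * A * ρ ^ (-ηin) * (ρ ^ rpE θ L (n + 1) / ρ ^ rpE θ L n) ∧
      δ n ≤ ρ ^ (θ * rpE θ L 0 / 2) := by
  set j := rpE θ L 0 with hj
  have hj0 : 0 < j := rp_E_pos θ hθ L 0
  obtain ⟨ρa, ha0, ha1, ha⟩ := rp_small 4 (θ * j) (by positivity)
  obtain ⟨ρb, hb0, hb1, hb⟩ := rp_small (512 * A) (3 * θ * j / 8) (by positivity)
  refine ⟨min ρa ρb, lt_min ha0 hb0, (min_le_left _ _).trans ha1, fun ρ hρ0 hρ => ?_⟩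
  have hρ1 : ρ < 1 := hρ.trans_le ((min_le_left _ _).trans ha1)
  have h4 := ha ρ hρ0 (hρ.trans_le (min_le_left _ _))
  have h512 := hb ρ hρ0 (hρ.trans_le (min_le_right _ _))
  have hσ0 : 0 < ρ ^ ηin := Real.rpow_pos_of_pos hρ0 _
  have hσ1 : ρ ^ ηin ≤ 1 := Real.rpow_le_one hρ0.le hρ1.le hη.le
  have hW0 : ∀ n, 0 < ρ ^ rpE θ L n := fun n => Real.rpow_pos_of_pos hρ0 _
  have hW1 : ∀ n, ρ ^ rpE θ L n ≤ 1 := fun n => Real.rpow_le_one hρ0.le hρ1.le (rp_E_pos θ hθ L n).le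
  have hex : ∀ n, ∃ k : ℕ, 16 ≤ (2 : ℝ) ^ k * (ρ ^ ηin * ρ ^ rpE θ L n) ∧
      (2 : ℝ) ^ k * (ρ ^ ηin * ρ ^ rpE θ L n) ≤ 32 := by
    intro n
    have hp : 0 < ρ ^ ηin * ρ ^ rpE θ L n := mul_pos hσ0 (hW0 n)
    have hp1 : ρ ^ ηin * ρ ^ rpE θ L n ≤ 1 := mul_le_one₀ hσ1 (hW0 n).le (hW1 n)
    obtain ⟨m, hm1, hm2⟩ := exists_nat_pow_near_of_lt_one (x := ρ ^ ηin * ρ ^ rpE θ L n / 16) (by positivity)
      (by linarith) (by norm_num : (0 : ℝ) < 1 / 2) (by norm_num)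
    have e1 : ∀ i : ℕ, (2 : ℝ) ^ i * (1 / 2) ^ i = 1 := fun i => by
      rw [← mul_pow]; norm_num
    have h2m : (0 : ℝ) < 2 ^ m := by positivity
    have h2m1 : (0 : ℝ) < 2 ^ (m + 1) := by positivity
    refine ⟨m + 1, ?_, ?_⟩
    · have := mul_le_mul_of_nonneg_left hm1.le h2m1.le
      rw [e1] at this
      linarith
    · have := mul_le_mul_of_nonneg_left hm2 h2m.le
      rw [e1] at this
      rw [pow_succ]
      linarith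
  choose k hk1 hk2 using hex
  refine ⟨k, fun n => 2 ^ (k n) * (16 * A * ρ ^ rpE θ L (n + 1)), fun n => ?_, fun n hn => ?_⟩
  · have := hW0 (n + 1)
    positivity
  have he0 : 0 < rpE θ L n := rp_E_pos θ hθ L n
  have hje : j ≤ rpE θ L n := rp_E_mono θ hθ L (Nat.zero_le n)
  have hr0 : 0 < ρ ^ (θ * rpE θ L n) := Real.rpow_pos_of_pos hρ0 _
  have hWr : ρ ^ rpE θ L (n + 1) = ρ ^ rpE θ L n * ρ ^ (θ * rpE θ L n) := by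
    rw [rp_E_succ θ hθ, ← Real.rpow_add hρ0]
    congr 1
    ring
  have hrr : ρ ^ (θ * rpE θ L n) ≤ ρ ^ (θ * j) :=
    Real.rpow_le_rpow_of_exponent_ge hρ0 hρ1.le (mul_le_mul_of_nonneg_left hje hθ.le)
  have hWle : ρ ^ rpE θ L n ≤ ρ ^ (θ * rpE θ L n) :=
    Real.rpow_le_rpow_of_exponent_ge hρ0 hρ1.le (by nlinarith)
  obtain ⟨hu, hl⟩ := rp_lev_alg hA hσ0 hσ1 hr0 (hk1 n) (hk2 n)
  rw [← hWr] at hu hl
  have hratio : ρ ^ rpE θ L (n + 1) / ρ ^ rpE θ L n = ρ ^ (θ * rpE θ L n) := by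
    rw [hWr, mul_div_cancel_left₀ _ (hW0 n).ne']
  have hfin : 2 ^ (k n) * (16 * A * ρ ^ rpE θ L (n + 1)) ≤ ρ ^ (θ * j / 2) := by
    have hq0 : 0 < ρ ^ (θ * j / 2) := Real.rpow_pos_of_pos hρ0 _
    have e2 : (ρ ^ ηin)⁻¹ * ρ ^ (θ * j) = ρ ^ (θ * j - ηin) := by
      rw [← Real.rpow_neg hρ0.le, ← Real.rpow_add hρ0]
      congr 1
      ring
    have e3 : ρ ^ (θ * j - ηin) ≤ ρ ^ (3 * θ * j / 8) * ρ ^ (θ * j / 2) := by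
      rw [← Real.rpow_add hρ0]
      exact Real.rpow_le_rpow_of_exponent_ge hρ0 hρ1.le (by linarith)
    calc 2 ^ (k n) * (16 * A * ρ ^ rpE θ L (n + 1)) ≤ 512 * A * (ρ ^ ηin)⁻¹ * ρ ^ (θ * rpE θ L n) := hu
      _ ≤ 512 * A * (ρ ^ ηin)⁻¹ * ρ ^ (θ * j) := mul_le_mul_of_nonneg_left hrr (by positivity)
      _ = 512 * A * ((ρ ^ ηin)⁻¹ * ρ ^ (θ * j)) := by ring
      _ ≤ 512 * A * (ρ ^ (3 * θ * j / 8) * ρ ^ (θ * j / 2)) := by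
          rw [e2]; exact mul_le_mul_of_nonneg_left e3 (by positivity)
      _ = (512 * A * ρ ^ (3 * θ * j / 8)) * ρ ^ (θ * j / 2) := by ring
      _ ≤ 1 * ρ ^ (θ * j / 2) := mul_le_mul_of_nonneg_right h512 hq0.le
      _ = ρ ^ (θ * j / 2) := one_mul _
  refine ⟨⟨hA, hρ0, hσ0, hσ1, ?_, ?_, hW1 n, ?_, rfl, hWle.trans hl, ?_⟩, ?_, hfin⟩
  · have h1 : rpE θ L (n + 1) ≤ 1 := by
      rw [← rp_E_top θ hθ L]
      exact rp_E_mono θ hθ L hn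
    calc ρ = ρ ^ (1 : ℝ) := (Real.rpow_one ρ).symm
      _ ≤ ρ ^ rpE θ L (n + 1) := Real.rpow_le_rpow_of_exponent_ge hρ0 hρ1.le h1
  · rw [hWr]
    have := hW0 n
    nlinarith
  · have e1 : (2 : ℝ) ^ (k n) * (1 / 2) ^ (k n) = 1 := by
      rw [← mul_pow]; norm_num
    have h2k : (0 : ℝ) < (1 / 2) ^ (k n) := by positivity
    have := mul_le_mul_of_nonneg_left (hk1 n) h2k.le
    rw [← mul_assoc, mul_comm ((1 / 2 : ℝ) ^ (k n)) (2 ^ (k n)), e1, one_mul] at this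
    linarith
  · exact hfin.trans (Real.rpow_le_one hρ0.le hρ1.le (by positivity))
  · rw [hratio, Real.rpow_neg hρ0.le]
    exact hu

end Claimed.Agent.R255
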