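import Claimed.Agent.R255.Rate.RpParE

/-!
# U4 (`rt_rp`), leaf L-RP-PAR-B (this file: `rp_par_tele`): choice of the parameters (real powers only; no populations).   (architect helper69)
Mesh `W n = ρ ^ rpE θ L n`, `rpE θ L n = (1+θ)^n/(1+θ)^L` (`e_0 = j₁`, `e_{n+1} = (1+θ) e_n`, `e_L = 1`), separation `σ₀ = ρ^ηin`.
All statements have the form "there is `ρ₁ > 0` such that for `0 < ρ < ρ₁` ...": every single inequality reduces to `C * ρ^a ≤ 1` with `a > 0` (`rp_small`); take the minimum of the thresholds.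
-/

set_option autoImplicit false

namespace Claimed.Agent.R255

open Finset Classical

/-- telescoping product in a field -/
theorem rp_prod_tele (F : ℕ → ℝ) (hF : ∀ m, F m ≠ 0) (n : ℕ) :
    ∏ m ∈ range n, F (m + 1) / F m = F n / F 0 := by
  induction n with
  | zero => rw [Finset.prod_range_zero, div_self (hF 0)]
  | succ n ih =>
    rw [Finset.prod_range_succ, ih]
    have h1 := hF n
    have h2 := hF 0
    field_simp

/-- TELESCOPING.  `∏_{m<n} δ_m ≤ D^n W_n/W_0`, `D = 512 A ρ^(-ηin) ≥ 1`; `(W_n)^v = ρ^(e_n v) ≤ ρ^((1+θ) e_n u') = (W_{n+1})^u' ≤ w^u'`;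
`2 D^(L v) W_0^(-v) ≤ 2 (512 A)^(2L) ρ^(-2 L ηin - 2 j₁) ≤ 2 (512 A)^(2L) ρ^(-η₁/2) ≤ ρ^(-η₁)` for small `ρ`. -/
theorem rp_par_tele (A θ ηin η₁ v u' : ℝ) (L : ℕ) (hA : 1 ≤ A) (hθ : 0 < θ) (hη : 0 < ηin) (hη₁ : 0 < η₁)
    (hv : 0 < v) (hv2 : v ≤ 2) (hu0 : 0 ≤ u') (hu' : u' * (1 + θ) ≤ v) (hj : rpE θ L 0 ≤ η₁ / 8) (hηL : ηin * L ≤ η₁ / 8) :
    ∃ ρ₁ : ℝ, 0 < ρ₁ ∧ ρ₁ ≤ 1 ∧ ∀ ρ : ℝ, 0 < ρ → ρ < ρ₁ → ∀ δ : ℕ → ℝ,
      (∀ n < L, 0 < δ n ∧ δ n ≤ 512 * A * ρ ^ (-ηin) * (ρ ^ rpE θ L (n + 1) / ρ ^ rpE θ L n)) →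
      (∀ w : ℝ, ρ ^ rpE θ L 0 ≤ w → w ≤ 1 → 1 ≤ ρ ^ (-η₁) * w ^ u') ∧
      ∀ n < L, ∀ w : ℝ, ρ ^ rpE θ L (n + 1) ≤ w → w ≤ ρ ^ rpE θ L n →
        2 * ∏ m ∈ range n, δ m ^ v ≤ ρ ^ (-η₁) * w ^ u' := by
  set j := rpE θ L 0 with hjdef
  have hj0 : 0 < j := rp_E_pos θ hθ L 0
  set C : ℝ := 512 * A with hC
  have hC1 : 1 ≤ C := by rw [hC]; linarith
  have hC0 : 0 < C := by linarith
  obtain ⟨ρ₁, h0, h1, hs⟩ := rp_small (2 * (C ^ 2) ^ L) (η₁ / 2) (by positivity)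
  refine ⟨ρ₁, h0, h1, fun ρ hρ0 hρ δ hδ => ?_⟩
  have hρ1 : ρ < 1 := hρ.trans_le h1
  have hsm := hs ρ hρ0 hρ
  have hu2 : u' ≤ 2 := by nlinarith
  have hpos : ∀ x : ℝ, 0 < ρ ^ x := fun x => Real.rpow_pos_of_pos hρ0 x
  have hanti : ∀ {x y : ℝ}, y ≤ x → ρ ^ x ≤ ρ ^ y := fun h =>
    Real.rpow_le_rpow_of_exponent_ge hρ0 hρ1.le h
  constructor
  · intro w hw hw1
    have h2 : (ρ ^ j) ^ u' ≤ w ^ u' := Real.rpow_le_rpow (hpos _).le hw hu0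
    rw [← Real.rpow_mul hρ0.le] at h2
    have h3 : 1 ≤ ρ ^ (-η₁ + j * u') :=
      Real.one_le_rpow_of_pos_of_le_one_of_nonpos hρ0 hρ1.le (by nlinarith)
    rw [Real.rpow_add hρ0] at h3
    exact h3.trans (mul_le_mul_of_nonneg_left h2 (hpos _).le)
  · intro n hn w hw hw'
    set F : ℕ → ℝ := fun m => ρ ^ (rpE θ L m * v) with hF
    have hF0 : ∀ m, 0 < F m := fun m => hpos _
    set B : ℝ := C ^ 2 * ρ ^ (-(2 * ηin)) with hB
    have hB1 : 1 ≤ B := by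
      have h2 : 1 ≤ ρ ^ (-(2 * ηin)) :=
        Real.one_le_rpow_of_pos_of_le_one_of_nonpos hρ0 hρ1.le (by linarith)
      have h3 : 1 ≤ C ^ 2 := one_le_pow₀ hC1
      calc (1 : ℝ) = 1 * 1 := by ring
        _ ≤ B := mul_le_mul h3 h2 zero_le_one (by positivity)
    have hterm : ∀ m ∈ range n, δ m ^ v ≤ B * (F (m + 1) / F m) := by
      intro m hm
      have hmL : m < L := (mem_range.1 hm).trans hn
      obtain ⟨hd0, hd1⟩ := hδ m hmL
      have e1 : (C * ρ ^ (-ηin) * (ρ ^ rpE θ L (m + 1) / ρ ^ rpE θ L m)) ^ v =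
          C ^ v * ρ ^ (-ηin * v) * (F (m + 1) / F m) := by
        rw [Real.mul_rpow (mul_pos hC0 (hpos _)).le (div_pos (hpos _) (hpos _)).le,
          Real.mul_rpow hC0.le (hpos _).le, Real.div_rpow (hpos _).le (hpos _).le,
          ← Real.rpow_mul hρ0.le, ← Real.rpow_mul hρ0.le, ← Real.rpow_mul hρ0.le]
      have e2 : C ^ v ≤ C ^ 2 := by
        have := Real.rpow_le_rpow_of_exponent_le hC1 hv2
        rwa [Real.rpow_two] at this
      have e3 : ρ ^ (-ηin * v) ≤ ρ ^ (-(2 * ηin)) := hanti (by nlinarith)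
      calc δ m ^ v ≤ (C * ρ ^ (-ηin) * (ρ ^ rpE θ L (m + 1) / ρ ^ rpE θ L m)) ^ v :=
            Real.rpow_le_rpow hd0.le hd1 hv.le
        _ = C ^ v * ρ ^ (-ηin * v) * (F (m + 1) / F m) := e1
        _ ≤ B * (F (m + 1) / F m) :=
            mul_le_mul_of_nonneg_right (mul_le_mul e2 e3 (hpos _).le (by positivity))
              (div_pos (hF0 _) (hF0 _)).le
    have hprod : ∏ m ∈ range n, δ m ^ v ≤ B ^ n * (F n / F 0) := by
      calc ∏ m ∈ range n, δ m ^ v ≤ ∏ m ∈ range n, B * (F (m + 1) / F m) :=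
            Finset.prod_le_prod (fun m hm =>
              Real.rpow_nonneg (hδ m ((mem_range.1 hm).trans hn)).1.le _) hterm
        _ = B ^ n * (F n / F 0) := by
            rw [Finset.prod_mul_distrib, Finset.prod_const, card_range, rp_prod_tele F fun m => (hF0 m).ne']
    have hBL : B ^ n ≤ (C ^ 2) ^ L * ρ ^ (-(2 * ηin * L)) := by
      calc B ^ n ≤ B ^ L := pow_le_pow_right₀ hB1 hn.le
        _ = (C ^ 2) ^ L * ρ ^ (-(2 * ηin * L)) := by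
            rw [hB, mul_pow, ← Real.rpow_natCast (ρ ^ (-(2 * ηin))) L, ← Real.rpow_mul hρ0.le]
            congr 2
            ring
    have hFn : F n ≤ w ^ u' := by
      have h2 : (ρ ^ rpE θ L (n + 1)) ^ u' ≤ w ^ u' := Real.rpow_le_rpow (hpos _).le hw hu0
      rw [← Real.rpow_mul hρ0.le] at h2
      refine le_trans (hanti ?_) h2
      rw [rp_E_succ θ hθ]
      have := rp_E_pos θ hθ L n
      nlinarith
    have hF0' : (F 0)⁻¹ ≤ ρ ^ (-(2 * j)) := by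
      rw [hF, ← Real.rpow_neg hρ0.le]
      exact hanti (by nlinarith)
    have hw0 : 0 ≤ w ^ u' := (hF0 n).le.trans hFn
    have hconst : 2 * ((C ^ 2) ^ L * ρ ^ (-(2 * ηin * L))) * ρ ^ (-(2 * j)) ≤ ρ ^ (-η₁) := by
      have e1 : ρ ^ (-(2 * ηin * L)) * ρ ^ (-(2 * j)) ≤ ρ ^ (η₁ / 2) * ρ ^ (-η₁) := by
        rw [← Real.rpow_add hρ0, ← Real.rpow_add hρ0]
        exact hanti (by linarith)
      calc 2 * ((C ^ 2) ^ L * ρ ^ (-(2 * ηin * L))) * ρ ^ (-(2 * j))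
          = (2 * (C ^ 2) ^ L) * (ρ ^ (-(2 * ηin * L)) * ρ ^ (-(2 * j))) := by ring
        _ ≤ (2 * (C ^ 2) ^ L) * (ρ ^ (η₁ / 2) * ρ ^ (-η₁)) :=
            mul_le_mul_of_nonneg_left e1 (by positivity)
        _ = (2 * (C ^ 2) ^ L * ρ ^ (η₁ / 2)) * ρ ^ (-η₁) := by ring
        _ ≤ 1 * ρ ^ (-η₁) := mul_le_mul_of_nonneg_right hsm (hpos _).le
        _ = ρ ^ (-η₁) := one_mul _
    calc 2 * ∏ m ∈ range n, δ m ^ v ≤ 2 * (B ^ n * (F n / F 0)) :=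
          mul_le_mul_of_nonneg_left hprod (by norm_num)
      _ = 2 * B ^ n * (F 0)⁻¹ * F n := by rw [div_eq_mul_inv]; ring
      _ ≤ 2 * ((C ^ 2) ^ L * ρ ^ (-(2 * ηin * L))) * ρ ^ (-(2 * j)) * w ^ u' := by
          refine mul_le_mul (mul_le_mul (by linarith) hF0' (inv_pos.2 (hF0 0)).le ?_) hFn (hF0 n).le ?_
          · have := hpos (-(2 * ηin * L))
            positivity
          · have h3 := hpos (-(2 * ηin * L))
            have h4 := hpos (-(2 * j))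
            positivity
      _ ≤ ρ ^ (-η₁) * w ^ u' := mul_le_mul_of_nonneg_right hconst hw0

end Claimed.Agent.R255
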