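import Claimed.Agent.R255.Rate.RpParE

/-!
# U4 (`rt_rp`), leaf L-RP-PAR-C (this file: `rp_par_step`, `rp_par_base`): choice of the parameters (real powers only; no populations).   (architect helper69)
Mesh `W n = ρ ^ rpE θ L n`, `rpE θ L n = (1+θ)^n/(1+θ)^L` (`e_0 = j₁`, `e_{n+1} = (1+θ) e_n`, `e_L = 1`), separation `σ₀ = ρ^ηin`.
All statements have the form "there is `ρ₁ > 0` such that for `0 < ρ < ρ₁` ...": every single inequality reduces to `C * ρ^a ≤ 1` with `a > 0` (`rp_small`); take the minimum of the thresholds.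
-/

set_option autoImplicit false

namespace Claimed.Agent.R255

open Finset Classical

/-- `C ρ^m ≤ ρ^(m/2)` as soon as `C ρ^(m/2) ≤ 1` -/
theorem rp_parC_half {C ρ m : ℝ} (hρ : 0 < ρ) (h : C * ρ ^ (m / 2) ≤ 1) : C * ρ ^ m ≤ ρ ^ (m / 2) := by
  have e3 : ρ ^ m = ρ ^ (m / 2) * ρ ^ (m / 2) := by
    rw [← Real.rpow_add hρ]
    congr 1
    ring
  have p : 0 < ρ ^ (m / 2) := Real.rpow_pos_of_pos hρ _
  calc C * ρ ^ m = (C * ρ ^ (m / 2)) * ρ ^ (m / 2) := by rw [e3]; ring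
    _ ≤ 1 * ρ ^ (m / 2) := mul_le_mul_of_nonneg_right h p.le
    _ = _ := one_mul _

/-- parameters of the STEP (`a = θ j₁/2`) -/
theorem rp_par_step (a ηW ηin ρW c₀ : ℝ) (L : ℕ) (ha : 0 < a) (hηW : 0 < ηW) (hη : 0 < ηin) (hηin : ηin ≤ a * ηW / 4)
    (hρW : 0 < ρW) (hc₀ : 0 < c₀) :
    ∃ ρ₁ : ℝ, 0 < ρ₁ ∧ ρ₁ ≤ 1 ∧ ∀ ρ : ℝ, 0 < ρ → ρ < ρ₁ →
      ρ ^ c₀ + 2 * L * (2 * ρ ^ (a * ηW / 2)) ≤ ρ ^ (min c₀ (a * ηW / 4) / 2) ∧
      ∀ δ : ℝ, 0 < δ → δ ≤ ρ ^ a →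
        δ < ρW ∧ 2 * ρ ^ (-ηin) / δ ^ (ηW / 2) ≤ δ ^ (-ηW) ∧ 100 * ρ ^ (-ηin) ≤ δ ^ (-ηW) ∧
        δ ^ ηW + δ ^ (ηW / 2) ≤ 2 * ρ ^ (a * ηW / 2) := by
  obtain ⟨m, hm⟩ : ∃ m, m = min c₀ (a * ηW / 4) := ⟨_, rfl⟩
  have hb : 0 < a * ηW / 4 := by positivity
  have hm0 : 0 < m := by rw [hm]; exact lt_min hc₀ hb
  have hm1 : m ≤ c₀ := by rw [hm]; exact min_le_left _ _
  have hm2 : m ≤ a * ηW / 4 := by rw [hm]; exact min_le_right _ _
  obtain ⟨r1, r1p, r1l, h1⟩ := rp_small (1 + 4 * L) (m / 2) (by positivity)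
  obtain ⟨r2, r2p, r2l, h2⟩ := rp_small (2 / ρW) a ha
  obtain ⟨r3, r3p, r3l, h3⟩ := rp_small 100 (a * ηW / 4) hb
  refine ⟨min r1 (min r2 r3), lt_min r1p (lt_min r2p r3p), (min_le_left _ _).trans r1l, fun ρ hρ hlt => ?_⟩
  have hρ1 : ρ ≤ 1 := (hlt.le.trans (min_le_left _ _)).trans r1l
  have k1 := h1 ρ hρ (hlt.trans_le (min_le_left _ _))
  have k2 := h2 ρ hρ (hlt.trans_le ((min_le_right _ _).trans (min_le_left _ _)))
  have k3 := h3 ρ hρ (hlt.trans_le ((min_le_right _ _).trans (min_le_right _ _)))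
  rw [← hm]
  constructor
  · have e1 : ρ ^ c₀ ≤ ρ ^ m := Real.rpow_le_rpow_of_exponent_ge hρ hρ1 hm1
    have e2 : ρ ^ (a * ηW / 2) ≤ ρ ^ m := Real.rpow_le_rpow_of_exponent_ge hρ hρ1 (by linarith)
    have hL : (0 : ℝ) ≤ L := Nat.cast_nonneg _
    refine le_trans ?_ (rp_parC_half hρ k1)
    have e4 : (L : ℝ) * ρ ^ (a * ηW / 2) ≤ L * ρ ^ m := mul_le_mul_of_nonneg_left e2 hL
    linarith
  · intro δ hδ hδle
    obtain ⟨u, hu⟩ : ∃ u, u = δ ^ (ηW / 2) := ⟨_, rfl⟩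
    obtain ⟨w, hw⟩ : ∃ w, w = ρ ^ (-ηin) := ⟨_, rfl⟩
    obtain ⟨U, hU⟩ : ∃ U, U = ρ ^ (a * ηW / 2) := ⟨_, rfl⟩
    have hu0 : 0 < u := by rw [hu]; exact Real.rpow_pos_of_pos hδ _
    have hw0 : 0 < w := by rw [hw]; exact Real.rpow_pos_of_pos hρ _
    have hρa1 : ρ ^ a ≤ 1 := Real.rpow_le_one hρ.le hρ1 ha.le
    have huU : u ≤ U := by
      rw [hu, hU]
      calc δ ^ (ηW / 2) ≤ (ρ ^ a) ^ (ηW / 2) := Real.rpow_le_rpow hδ.le hδle (by positivity)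
        _ = ρ ^ (a * ηW / 2) := by rw [← Real.rpow_mul hρ.le]; congr 1; ring
    have hu1 : u ≤ 1 := by
      rw [hu]
      exact Real.rpow_le_one hδ.le (hδle.trans hρa1) (by positivity)
    have hwU : w * U ≤ ρ ^ (a * ηW / 4) := by
      rw [hw, hU, ← Real.rpow_add hρ]
      exact Real.rpow_le_rpow_of_exponent_ge hρ hρ1 (by linarith)
    have hwu : 100 * (w * u) ≤ 1 := by
      have : w * u ≤ w * U := mul_le_mul_of_nonneg_left huU hw0.le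
      linarith
    have e : δ ^ (-ηW) = u⁻¹ * u⁻¹ := by
      rw [hu, ← Real.rpow_neg hδ.le, ← Real.rpow_add hδ]
      congr 1
      ring
    have e' : δ ^ ηW = u * u := by
      rw [hu, ← Real.rpow_add hδ]
      congr 1
      ring
    have hinv : 100 * w ≤ u⁻¹ := by
      rw [← one_div, le_div_iff₀ hu0]
      linarith
    have hinv1 : 1 ≤ u⁻¹ := (one_le_inv₀ hu0).2 hu1
    rw [← hu, ← hw, ← hU, e, e']
    refine ⟨?_, ?_, ?_, ?_⟩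
    · have : ρ ^ a ≤ ρW / 2 := by
        rw [div_mul_eq_mul_div, div_le_one hρW] at k2
        linarith
      linarith
    · rw [div_le_iff₀ hu0, mul_assoc, inv_mul_cancel₀ hu0.ne', mul_one]
      linarith
    · have : u⁻¹ * 1 ≤ u⁻¹ * u⁻¹ := mul_le_mul_of_nonneg_left hinv1 (by positivity)
      linarith
    · have : u * u ≤ u * 1 := mul_le_mul_of_nonneg_left hu1 hu0.le
      linarith

/-- parameters of the BASE (`a = θ j₁/2`, `t₀ = a s/12`, `η = min (a s/12) (s ηin/2)`, `ϑ = ρ^t₀/(2A+1)`, `v = s/3`):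
`δ^(-2s/3) δ^s = δ^(s/3) ≤ ρ^(a s/3)`, `(5/ϑ)^s ≤ 5 (2A+1) ρ^(-t₀)`, so the second term is `≤ 500 (2A+1) ρ^(a s/6)`. -/
theorem rp_par_base (A a s κ₀ ηin : ℝ) (L : ℕ) (hA : 1 ≤ A) (ha : 0 < a) (ha1 : a ≤ 1) (hs : 0 < s) (hs1 : s ≤ 1) (hκ : 0 < κ₀)
    (hη : 0 < ηin) :
    ∃ ρ₁ : ℝ, 0 < ρ₁ ∧ ρ₁ ≤ 1 ∧ ∀ ρ : ℝ, 0 < ρ → ρ < ρ₁ →
      18 * ρ ^ (-(min (a * s / 12) (s * ηin / 2))) * (ρ ^ ηin) ^ s + 2 * L * ρ ^ (min κ₀ (a * s / 6) / 4)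
        ≤ ρ ^ (min (s * ηin / 2) (min κ₀ (a * s / 6) / 4) / 2) ∧
      ∀ δ : ℝ, 0 < δ → δ ≤ ρ ^ a →
        5 * δ / (ρ ^ (a * s / 12) / (2 * A + 1)) ≤ 1 ∧
        ρ ^ κ₀ + δ ^ (-(2 * (s / 3))) * (100 * ρ ^ (-(min (a * s / 12) (s * ηin / 2))))
            * (5 * δ / (ρ ^ (a * s / 12) / (2 * A + 1))) ^ s ≤ (ρ ^ (min κ₀ (a * s / 6) / 4)) ^ 2 := by
  obtain ⟨η, hη'⟩ : ∃ η, η = min (a * s / 12) (s * ηin / 2) := ⟨_, rfl⟩
  obtain ⟨m, hm⟩ : ∃ m, m = min κ₀ (a * s / 6) := ⟨_, rfl⟩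
  obtain ⟨n, hn⟩ : ∃ n, n = min (s * ηin / 2) (m / 4) := ⟨_, rfl⟩
  rw [← hη', ← hm, ← hn]
  have has : 0 < a * s := by positivity
  have hsη : 0 < s * ηin := by positivity
  have hη1 : η ≤ a * s / 12 := by rw [hη']; exact min_le_left _ _
  have hη2 : η ≤ s * ηin / 2 := by rw [hη']; exact min_le_right _ _
  have hm0 : 0 < m := by rw [hm]; exact lt_min hκ (by positivity)
  have hm1 : m ≤ κ₀ := by rw [hm]; exact min_le_left _ _
  have hm2 : m ≤ a * s / 6 := by rw [hm]; exact min_le_right _ _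
  have hn0 : 0 < n := by rw [hn]; exact lt_min (by positivity) (by positivity)
  have hn1 : n ≤ s * ηin / 2 := by rw [hn]; exact min_le_left _ _
  have hn2 : n ≤ m / 4 := by rw [hn]; exact min_le_right _ _
  have hA0 : 0 < 2 * A + 1 := by linarith
  obtain ⟨r1, r1p, r1l, h1⟩ := rp_small (18 + 2 * L) (n / 2) (by positivity)
  obtain ⟨r2, r2p, r2l, h2⟩ := rp_small (5 * (2 * A + 1)) (a / 2) (by positivity)
  obtain ⟨r3, r3p, r3l, h3⟩ := rp_small (1 + 500 * (2 * A + 1)) (m / 2) (by positivity)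
  refine ⟨min r1 (min r2 r3), lt_min r1p (lt_min r2p r3p), (min_le_left _ _).trans r1l, fun ρ hρ hlt => ?_⟩
  have hρ1 : ρ ≤ 1 := (hlt.le.trans (min_le_left _ _)).trans r1l
  have k1 := h1 ρ hρ (hlt.trans_le (min_le_left _ _))
  have k2 := h2 ρ hρ (hlt.trans_le ((min_le_right _ _).trans (min_le_left _ _)))
  have k3 := h3 ρ hρ (hlt.trans_le ((min_le_right _ _).trans (min_le_right _ _)))
  have hL : (0 : ℝ) ≤ L := Nat.cast_nonneg _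
  constructor
  · refine le_trans ?_ (rp_parC_half hρ k1)
    have e1 : ρ ^ (-η) * (ρ ^ ηin) ^ s ≤ ρ ^ n := by
      rw [← Real.rpow_mul hρ.le, ← Real.rpow_add hρ]
      exact Real.rpow_le_rpow_of_exponent_ge hρ hρ1 (by nlinarith)
    have e2 : ρ ^ (m / 4) ≤ ρ ^ n := Real.rpow_le_rpow_of_exponent_ge hρ hρ1 hn2
    have e3 : (L : ℝ) * ρ ^ (m / 4) ≤ L * ρ ^ n := mul_le_mul_of_nonneg_left e2 hL
    nlinarith
  · intro δ hδ hδle
    obtain ⟨T, hT⟩ : ∃ T, T = ρ ^ (a * s / 12) := ⟨_, rfl⟩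
    have hT0 : 0 < T := by rw [hT]; exact Real.rpow_pos_of_pos hρ _
    have hT1 : T ≤ 1 := by rw [hT]; exact Real.rpow_le_one hρ.le hρ1 (by positivity)
    rw [← hT]
    obtain ⟨h, hh⟩ : ∃ h, h = ρ ^ (a / 2) := ⟨_, rfl⟩
    have hh0 : 0 < h := by rw [hh]; exact Real.rpow_pos_of_pos hρ _
    have hhT : h ≤ T := by
      rw [hh, hT]
      exact Real.rpow_le_rpow_of_exponent_ge hρ hρ1 (by nlinarith)
    have hρa : ρ ^ a = h * h := by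
      rw [hh, ← Real.rpow_add hρ]
      congr 1
      ring
    rw [← hh] at k2
    have hX : 5 * δ / (T / (2 * A + 1)) = (5 * (2 * A + 1)) * (δ * T⁻¹) := by
      field_simp
    have hTi1 : 1 ≤ T⁻¹ := (one_le_inv₀ hT0).2 hT1
    constructor
    · rw [div_le_one (by positivity), le_div_iff₀ hA0]
      have c1 : 5 * δ * (2 * A + 1) ≤ 5 * (h * h) * (2 * A + 1) := by
        rw [hρa] at hδle
        have : 5 * δ ≤ 5 * (h * h) := by linarith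
        exact mul_le_mul_of_nonneg_right this hA0.le
      have c2 : (5 * (2 * A + 1) * h) * h ≤ 1 * h := mul_le_mul_of_nonneg_right k2 hh0.le
      nlinarith
    · rw [hX]
      have x1 : ((5 * (2 * A + 1)) * (δ * T⁻¹)) ^ s = (5 * (2 * A + 1)) ^ s * (δ ^ s * (T⁻¹) ^ s) := by
        rw [Real.mul_rpow (by positivity) (by positivity), Real.mul_rpow hδ.le (by positivity)]
      have x2 : (5 * (2 * A + 1)) ^ s ≤ 5 * (2 * A + 1) := by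
        calc (5 * (2 * A + 1)) ^ s ≤ (5 * (2 * A + 1)) ^ (1 : ℝ) :=
              Real.rpow_le_rpow_of_exponent_le (by linarith) hs1
          _ = _ := Real.rpow_one _
      have x3 : (T⁻¹) ^ s ≤ T⁻¹ := by
        calc (T⁻¹) ^ s ≤ (T⁻¹) ^ (1 : ℝ) := Real.rpow_le_rpow_of_exponent_le hTi1 hs1
          _ = _ := Real.rpow_one _
      have x4 : δ ^ (-(2 * (s / 3))) * δ ^ s ≤ ρ ^ (a * s / 3) := by
        rw [← Real.rpow_add hδ]
        calc δ ^ (-(2 * (s / 3)) + s) = δ ^ (s / 3) := by congr 1; ring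
          _ ≤ (ρ ^ a) ^ (s / 3) := Real.rpow_le_rpow hδ.le hδle (by positivity)
          _ = ρ ^ (a * s / 3) := by rw [← Real.rpow_mul hρ.le]; congr 1; ring
      have x5 : ρ ^ (-η) ≤ T⁻¹ := by
        rw [hT, ← Real.rpow_neg hρ.le]
        exact Real.rpow_le_rpow_of_exponent_ge hρ hρ1 (by linarith)
      have x6 : ρ ^ (a * s / 3) * (T⁻¹ * T⁻¹) ≤ ρ ^ m := by
        rw [hT, ← Real.rpow_neg hρ.le, ← Real.rpow_add hρ, ← Real.rpow_add hρ]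
        exact Real.rpow_le_rpow_of_exponent_ge hρ hρ1 (by linarith)
      have x7 : ρ ^ κ₀ ≤ ρ ^ m := Real.rpow_le_rpow_of_exponent_ge hρ hρ1 hm1
      have x8 : (ρ ^ (m / 4)) ^ 2 = ρ ^ (m / 2) := by
        rw [sq, ← Real.rpow_add hρ]
        congr 1
        ring
      rw [x1, x8]
      refine le_trans ?_ (rp_parC_half hρ k3)
      obtain ⟨p1, hp1⟩ : ∃ p1, p1 = δ ^ (-(2 * (s / 3))) := ⟨_, rfl⟩
      obtain ⟨p2, hp2⟩ : ∃ p2, p2 = δ ^ s := ⟨_, rfl⟩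
      have hp10 : 0 < p1 := by rw [hp1]; exact Real.rpow_pos_of_pos hδ _
      have hp20 : 0 < p2 := by rw [hp2]; exact Real.rpow_pos_of_pos hδ _
      have hw0 : 0 < ρ ^ (-η) := Real.rpow_pos_of_pos hρ _
      have hc0 : 0 < (5 * (2 * A + 1)) ^ s := Real.rpow_pos_of_pos (by positivity) _
      have ht0 : 0 < (T⁻¹) ^ s := Real.rpow_pos_of_pos (by positivity) _
      rw [← hp1, ← hp2] at x4 ⊢
      have y1 : p1 * (100 * ρ ^ (-η)) * ((5 * (2 * A + 1)) ^ s * (p2 * (T⁻¹) ^ s))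
          = 100 * (p1 * p2) * (ρ ^ (-η) * ((5 * (2 * A + 1)) ^ s * (T⁻¹) ^ s)) := by ring
      have y2 : ρ ^ (-η) * ((5 * (2 * A + 1)) ^ s * (T⁻¹) ^ s) ≤ T⁻¹ * ((5 * (2 * A + 1)) * T⁻¹) :=
        mul_le_mul x5 (mul_le_mul x2 x3 ht0.le (by positivity)) (by positivity) (by positivity)
      have y3 : 100 * (p1 * p2) * (ρ ^ (-η) * ((5 * (2 * A + 1)) ^ s * (T⁻¹) ^ s))
          ≤ 100 * ρ ^ (a * s / 3) * (T⁻¹ * ((5 * (2 * A + 1)) * T⁻¹)) :=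
        mul_le_mul (by linarith) y2 (by positivity) (by positivity)
      have y4 : 100 * ρ ^ (a * s / 3) * (T⁻¹ * ((5 * (2 * A + 1)) * T⁻¹))
          = 500 * (2 * A + 1) * (ρ ^ (a * s / 3) * (T⁻¹ * T⁻¹)) := by ring
      have y5 : 500 * (2 * A + 1) * (ρ ^ (a * s / 3) * (T⁻¹ * T⁻¹)) ≤ 500 * (2 * A + 1) * ρ ^ m :=
        mul_le_mul_of_nonneg_left x6 (by positivity)
      rw [y1]
      linarith

end Claimed.Agent.R255
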