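import Claimed.Agent.R255.Rate.RpDefs

/-!
# U4 (`rt_rp`), leaf L-RP-PAR-E (this file: `rp_small`, `rp_E_*`): choice of the parameters (real powers only; no populations).   (architect helper69)
Mesh `W n = ρ ^ rpE θ L n`, `rpE θ L n = (1+θ)^n/(1+θ)^L` (`e_0 = j₁`, `e_{n+1} = (1+θ) e_n`, `e_L = 1`), separation `σ₀ = ρ^ηin`.
All statements have the form "there is `ρ₁ > 0` such that for `0 < ρ < ρ₁` ...": every single inequality reduces to `C * ρ^a ≤ 1` with `a > 0` (`rp_small`); take the minimum of the thresholds.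
-/

set_option autoImplicit false

namespace Claimed.Agent.R255

open Finset Classical

/-- the basic smallness statement -/
theorem rp_small (C a : ℝ) (ha : 0 < a) : ∃ ρ₁ : ℝ, 0 < ρ₁ ∧ ρ₁ ≤ 1 ∧ ∀ ρ : ℝ, 0 < ρ → ρ < ρ₁ → C * ρ ^ a ≤ 1 := by
  obtain ⟨D, hD⟩ : ∃ D, D = max C 1 := ⟨_, rfl⟩
  have hD1 : 1 ≤ D := hD ▸ le_max_right _ _
  have hCD : C ≤ D := hD ▸ le_max_left _ _
  have hDpos : 0 < D := by linarith
  have hinv : 0 < 1 / D := by positivity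
  refine ⟨min 1 ((1 / D) ^ (1 / a)), lt_min one_pos (Real.rpow_pos_of_pos hinv _), min_le_left _ _,
    fun ρ h0 h1 => ?_⟩
  have h2 : ρ ≤ (1 / D) ^ (1 / a) := (h1.trans_le (min_le_right _ _)).le
  have h3 : ρ ^ a ≤ ((1 / D) ^ (1 / a)) ^ a := Real.rpow_le_rpow h0.le h2 ha.le
  rw [← Real.rpow_mul hinv.le, one_div_mul_cancel ha.ne', Real.rpow_one] at h3
  calc C * ρ ^ a ≤ D * ρ ^ a := mul_le_mul_of_nonneg_right hCD (Real.rpow_nonneg h0.le _)
    _ ≤ D * (1 / D) := mul_le_mul_of_nonneg_left h3 hDpos.le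
    _ = 1 := by field_simp

theorem rp_E_pos (θ : ℝ) (hθ : 0 < θ) (L n : ℕ) : 0 < rpE θ L n := by
  have h : 0 < 1 + θ := by linarith
  exact div_pos (pow_pos h _) (pow_pos h _)

theorem rp_E_succ (θ : ℝ) (hθ : 0 < θ) (L n : ℕ) : rpE θ L (n + 1) = (1 + θ) * rpE θ L n := by
  unfold rpE
  rw [pow_succ]
  ring

theorem rp_E_top (θ : ℝ) (hθ : 0 < θ) (L : ℕ) : rpE θ L L = 1 := by
  have h : 0 < 1 + θ := by linarith
  exact div_self (pow_pos h _).ne'

theorem rp_E_mono (θ : ℝ) (hθ : 0 < θ) (L : ℕ) {n m : ℕ} (h : n ≤ m) : rpE θ L n ≤ rpE θ L m := by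
  have h0 : 0 < 1 + θ := by linarith
  have h1 : 1 ≤ 1 + θ := by linarith
  exact div_le_div_of_nonneg_right (pow_le_pow_right₀ h1 h) (pow_pos h0 _).le

/-- the mesh can start at an arbitrarily small exponent -/
theorem rp_E_small (θ x : ℝ) (hθ : 0 < θ) (hx : 0 < x) : ∃ L : ℕ, rpE θ L 0 ≤ x := by
  have h0 : 0 < 1 + θ := by linarith
  obtain ⟨L, hL⟩ := pow_unbounded_of_one_lt (1 / x) (by linarith : 1 < 1 + θ)
  refine ⟨L, ?_⟩
  unfold rpE
  rw [pow_zero, div_le_iff₀ (pow_pos h0 _)]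
  rw [div_lt_iff₀ hx] at hL
  linarith

end Claimed.Agent.R255
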