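import Claimed.Agent.R255.Rate.RpGeom

/-!
# U4 (`rt_rp`), leaf L-RP-PIN-A (this file: `rp_pin_par`, `rp_pin_strip`, `rp_pin_near`); plan of all three leaves L-RP-PIN-*: the bad pairs over one cell, by two transversal pins (stage 0 of the bootstrap).   (architect helper69)
`Λ = ∑_{a ∈ q} lam a > 0` (else trivial), `μ = rpMu lam pos k q (1/Λ)`, `Bad = RpBad lam pos 𝒢 W W' (δ^v)`, `g a = ∑_{b : Bad b a} lam b`, `S = ∑_a μ a g a`; LHS `= Λ S`.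
Cauchy-Schwarz: `S² ≤ ∑_a μ a (g a)² = ∑_b ∑_b' lam b lam b' m(b,b')`, `m(b,b') = ∑_{a : Bad b a ∧ Bad b' a} μ a ≤ 1`.
* NEAR pairs `|σ_b - σ_b'| ≤ ϑ` (`σ_b = rpTs k q (pos b)`) with `m(b,b') ≠ 0`: `b'` lies in the strip of half-width `ϑ (2A+1) ≤ wd` around the line through the corner of `q` of slope `σ_b`
  (`rp_pin_strip`), so `∑_{b'} ≤ κs` by `RtNoStrip`, and `∑_b lam b ≤ 1`.
* FAR pairs: by `rp_cover` (`l = δ^v`) the set `{a : Bad b a ∧ Bad b' a}` is covered by `< δ^(-v) δ^(-v)` parallelograms `{π_σ ∈ [e,e+δ], π_σ' ∈ [e',e'+δ]}`, each of which lies in a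
  square of half-side `5δ/ϑ` centred at one of its points (`rp_pin_par`), of `μ`-mass `≤ 100 K (5δ/ϑ)^s` (`rp_child_frost`).
So `S² ≤ κs + δ^(-2v) 100 K (5δ/ϑ)^s ≤ β²`.
-/

set_option autoImplicit false

namespace Claimed.Agent.R255

open Finset Classical
open Claimed.Agent.RW (KfFrost KfCov kfProj)

/-- two transversal projections locate a point -/
theorem rp_pin_par (x y : ℝ × ℝ) (σ σ' e e' δ ϑ : ℝ) (hϑ0 : 0 < ϑ) (hϑ1 : ϑ ≤ 1) (hδ : 0 ≤ δ) (hσ : |σ| ≤ 2) (hσσ : ϑ < |σ - σ'|)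
    (hx : e ≤ kfProj σ x ∧ kfProj σ x ≤ e + δ) (hx' : e' ≤ kfProj σ' x ∧ kfProj σ' x ≤ e' + δ)
    (hy : e ≤ kfProj σ y ∧ kfProj σ y ≤ e + δ) (hy' : e' ≤ kfProj σ' y ∧ kfProj σ' y ≤ e' + δ) :
    dist x y ≤ 5 * δ / ϑ := by
  unfold kfProj at hx hx' hy hy'
  obtain ⟨u, hu⟩ : ∃ u, u = x.1 - y.1 := ⟨_, rfl⟩
  obtain ⟨v, hv⟩ : ∃ v, v = x.2 - y.2 := ⟨_, rfl⟩
  have h1 : |v - σ * u| ≤ δ := by
    rw [abs_le, hu, hv]
    constructor <;> nlinarith [hx.1, hx.2, hy.1, hy.2]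
  have h2 : |v - σ' * u| ≤ δ := by
    rw [abs_le, hu, hv]
    constructor <;> nlinarith [hx'.1, hx'.2, hy'.1, hy'.2]
  have h3 : |(σ - σ') * u| ≤ 2 * δ := by
    have e : (σ - σ') * u = (v - σ' * u) - (v - σ * u) := by ring
    rw [e]
    exact (abs_sub _ _).trans (by linarith)
  have h4 : |u| * ϑ ≤ 2 * δ := by
    rw [abs_mul] at h3
    nlinarith [abs_nonneg u]
  have h5 : |u| ≤ 2 * δ / ϑ := (le_div_iff₀ hϑ0).2 h4
  have h6 : δ ≤ δ / ϑ := by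
    rw [le_div_iff₀ hϑ0]
    nlinarith
  have h7 : |v| ≤ 5 * δ / ϑ := by
    have e : v = (v - σ * u) + σ * u := by ring
    have h8 : |v| ≤ |v - σ * u| + |σ * u| := by
      conv_lhs => rw [e]
      exact abs_add_le _ _
    rw [abs_mul] at h8
    have h9 : |σ| * |u| ≤ 2 * (2 * δ / ϑ) := mul_le_mul hσ h5 (abs_nonneg _) (by norm_num)
    have e2 : 5 * δ / ϑ = δ / ϑ + 2 * (2 * δ / ϑ) := by ring
    rw [e2]
    linarith
  have h10 : |u| ≤ 5 * δ / ϑ := by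
    refine h5.trans ?_
    have : 0 ≤ δ / ϑ := div_nonneg hδ hϑ0.le
    have e1 : 2 * δ / ϑ = 2 * (δ / ϑ) := by ring
    have e2 : 5 * δ / ϑ = 5 * (δ / ϑ) := by ring
    rw [e1, e2]
    linarith
  rw [Prod.dist_eq, Real.dist_eq, Real.dist_eq, ← hu, ← hv]
  exact max_le h10 h7

/-- points whose slope to `a₀` is close to `σ` lie in a strip through `a₀`  (`φ = arctan σ`: `nrm φ = (-σ, 1)/√(1+σ²)`, `Real.cos_arctan`, `Real.sin_arctan`) -/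
theorem rp_pin_strip (a₀ b : ℝ × ℝ) (σ ϑ D : ℝ) (hD : |a₀.1 - b.1| ≤ D) (h0 : a₀.1 - b.1 ≠ 0)
    (h : |(a₀.2 - b.2) / (a₀.1 - b.1) - σ| ≤ ϑ) :
    |ip (b - a₀) (nrm (Real.arctan σ))| ≤ ϑ * D := by
  have hs : 0 < Real.sqrt (1 + σ ^ 2) := Real.sqrt_pos.2 (by positivity)
  have hs1 : 1 ≤ Real.sqrt (1 + σ ^ 2) := by
    rw [Real.one_le_sqrt]
    nlinarith [sq_nonneg σ]
  have e : ip (b - a₀) (nrm (Real.arctan σ)) =
      -((a₀.1 - b.1) * ((a₀.2 - b.2) / (a₀.1 - b.1) - σ)) / Real.sqrt (1 + σ ^ 2) := by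
    unfold ip nrm
    simp only [Prod.fst_sub, Prod.snd_sub, Real.cos_arctan, Real.sin_arctan]
    field_simp
    ring
  rw [e, abs_div, abs_neg, abs_mul, abs_of_pos hs, div_le_iff₀ hs]
  have h1 : |a₀.1 - b.1| * |(a₀.2 - b.2) / (a₀.1 - b.1) - σ| ≤ D * ϑ :=
    mul_le_mul hD h (abs_nonneg _) ((abs_nonneg _).trans hD)
  have h2 : 0 ≤ D * ϑ := (mul_nonneg (abs_nonneg _) (abs_nonneg _)).trans h1
  nlinarith

variable {ι : Type} [Fintype ι]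

/-- NEAR pairs -/
theorem rp_pin_near {lam : ι → ℝ} {pos : ι → ℝ × ℝ} {𝒢 : ι → ι → Prop} {A ρ σ₀ W W' δ : ℝ} {k : ℕ}
    (hp : RpPop lam pos A) (hg : RpGr pos 𝒢 σ₀) (hl : RpLev A ρ σ₀ W W' δ k)
    (ϑ wd κs σ : ℝ) (hns : RtNoStrip lam pos wd κs) (hϑ0 : 0 < ϑ) (hϑwd : ϑ * (2 * A + 1) ≤ wd) (q : ℤ × ℤ) :
    ∑ b' with (∃ a, rtCell k (pos a) = q ∧ 𝒢 b' a) ∧ |rpTs k q (pos b') - σ| ≤ ϑ, lam b' ≤ κs := by
  refine le_trans ?_ (hns ((q.1 : ℝ) / 2 ^ k, (q.2 : ℝ) / 2 ^ k) (Real.arctan σ))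
  refine Finset.sum_le_sum_of_subset_of_nonneg ?_ fun i _ _ => hp.lam0 i
  intro b' hb'
  rw [Finset.mem_filter] at hb' ⊢
  obtain ⟨-, ⟨a, ha, hab⟩, hσ⟩ := hb'
  refine ⟨Finset.mem_univ _, ?_⟩
  obtain ⟨h1, -, -, -⟩ := rp_geom_pop hl q a b' ha (hg.sub b' a hab)
  have hσ0 := hl.hσ0
  have hne : (q.1 : ℝ) / 2 ^ k - (pos b').1 ≠ 0 := by
    intro h0
    rw [h0, abs_zero] at h1
    linarith
  obtain ⟨⟨c1, c2⟩, -⟩ := rp_cell_coord k q (pos a) ha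
  have hk1 : (1 / 2 : ℝ) ^ k ≤ 1 := pow_le_one₀ (by norm_num) (by norm_num)
  have hA1 := abs_le.1 (hp.bd a).1
  have hA2 := abs_le.1 (hp.bd b').1
  have hD : |(q.1 : ℝ) / 2 ^ k - (pos b').1| ≤ 2 * A + 1 := by
    rw [abs_le]
    constructor <;> linarith [hA1.1, hA1.2, hA2.1, hA2.2]
  exact (rp_pin_strip ((q.1 : ℝ) / 2 ^ k, (q.2 : ℝ) / 2 ^ k) (pos b') σ ϑ (2 * A + 1) hD hne
    hσ).trans hϑwd

end Claimed.Agent.R255
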