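import Claimed.Agent.R255.Rate.RpPinA
import Claimed.Agent.R255.Rate.RpCover
import Claimed.Agent.R255.Rate.RpChild

/-!
# U4 (`rt_rp`), leaf L-RP-PIN-B (this file: `rp_pin_far`); plan of all three leaves L-RP-PIN-*: the bad pairs over one cell, by two transversal pins (stage 0 of the bootstrap).   (architect helper69)
`Λ = ∑_{a ∈ q} lam a > 0` (else trivial), `μ = rpMu lam pos k q (1/Λ)`, `Bad = RpBad lam pos 𝒢 W W' (δ^v)`, `g a = ∑_{b : Bad b a} lam b`, `S = ∑_a μ a g a`; LHS `= Λ S`.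
Cauchy-Schwarz: `S² ≤ ∑_a μ a (g a)² = ∑_b ∑_b' lam b lam b' m(b,b')`, `m(b,b') = ∑_{a : Bad b a ∧ Bad b' a} μ a ≤ 1`.
* NEAR pairs `|σ_b - σ_b'| ≤ ϑ` (`σ_b = rpTs k q (pos b)`) with `m(b,b') ≠ 0`: `b'` lies in the strip of half-width `ϑ (2A+1) ≤ wd` around the line through the corner of `q` of slope `σ_b`
  (`rp_pin_strip`), so `∑_{b'} ≤ κs` by `RtNoStrip`, and `∑_b lam b ≤ 1`.
* FAR pairs: by `rp_cover` (`l = δ^v`) the set `{a : Bad b a ∧ Bad b' a}` is covered by `< δ^(-v) δ^(-v)` parallelograms `{π_σ ∈ [e,e+δ], π_σ' ∈ [e',e'+δ]}`, each of which lies in a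
  square of half-side `5δ/ϑ` centred at one of its points (`rp_pin_par`), of `μ`-mass `≤ 100 K (5δ/ϑ)^s` (`rp_child_frost`).
So `S² ≤ κs + δ^(-2v) 100 K (5δ/ϑ)^s ≤ β²`.
-/

set_option autoImplicit false

namespace Claimed.Agent.R255

open Finset Classical
open Claimed.Agent.RW (KfFrost KfCov kfProj)

variable {ι : Type} [Fintype ι]

/-- FAR pairs -/
theorem rp_pin_far {lam : ι → ℝ} {pos : ι → ℝ × ℝ} {𝒢 : ι → ι → Prop} {A ρ σ₀ W W' δ : ℝ} {k : ℕ}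
    (hp : RpPop lam pos A) (hg : RpGr pos 𝒢 σ₀) (hl : RpLev A ρ σ₀ W W' δ k)
    (s v K ϑ c : ℝ) (hs0 : 0 ≤ s) (hs1 : s ≤ 1) (hK : 1 ≤ K) (her : RtTreeHer lam pos K s ρ)
    (hϑ0 : 0 < ϑ) (hϑ1 : ϑ ≤ 1) (h5 : 5 * δ / ϑ ≤ 1) (q : ℤ × ℤ) (hc : 0 ≤ c) (hμ1 : ∑ i, rpMu lam pos k q c i ≤ 1)
    (b b' : ι) (hbb : ϑ < |rpTs k q (pos b) - rpTs k q (pos b')|) :
    ∑ a with RpBad lam pos 𝒢 W W' (δ ^ v) b a ∧ RpBad lam pos 𝒢 W W' (δ ^ v) b' a, rpMu lam pos k q c a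
      ≤ δ ^ (-(2 * v)) * (100 * K) * (5 * δ / ϑ) ^ s := by
  have hW'0 : 0 < W' := lt_of_lt_of_le hl.hρ hl.hρW
  have hA0 : 0 < A := lt_of_lt_of_le one_pos hl.hA
  have h2k : (0:ℝ) < 2 ^ k := by positivity
  have hδ0 : 0 < δ := by rw [hl.hδ]; positivity
  set l := δ ^ v with hl_def
  have hl0 : 0 < l := Real.rpow_pos_of_pos hδ0 v
  obtain ⟨cov, hcard, hcov⟩ := rp_cover hp hg hl l hl0 q b
  obtain ⟨cov', hcard', hcov'⟩ := rp_cover hp hg hl l hl0 q b'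
  set r := 5 * δ / ϑ with hr
  have hδr : δ ≤ r := by
    rw [hr, le_div_iff₀ hϑ0]; nlinarith
  have hr0 : 0 < r := lt_of_lt_of_le hδ0 hδr
  have hρδ : ρ ≤ δ * (1/2:ℝ)^k := by
    have h : δ * (1/2:ℝ)^k = 16 * A * W' := by
      rw [hl.hδ, one_div, inv_pow]; field_simp
    rw [h]
    have h1 := hl.hρW
    have h2 := hl.hA
    nlinarith
  have hfr := rp_child_frost hp.lam0 K s ρ δ c k q hK hs0 hs1 hl.hρ hc her hρδ hμ1
  have hμ0 : ∀ a, 0 ≤ rpMu lam pos k q c a := by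
    intro a; unfold rpMu; split_ifs
    · exact mul_nonneg hc (hp.lam0 a)
    · exact le_rfl
  have hB0 : 0 ≤ 100 * K * r ^ s := by
    have := Real.rpow_pos_of_pos hr0 s
    positivity
  -- restriction to the cell
  set S : Finset ι := Finset.univ.filter (fun a => (RpBad lam pos 𝒢 W W' l b a ∧ RpBad lam pos 𝒢 W W' l b' a) ∧
    rtCell k (pos a) = q) with hS
  have h1 : ∑ a with RpBad lam pos 𝒢 W W' l b a ∧ RpBad lam pos 𝒢 W W' l b' a, rpMu lam pos k q c a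
      = ∑ a ∈ S, rpMu lam pos k q c a := by
    symm
    apply Finset.sum_subset
    · intro a ha
      simp only [hS, Finset.mem_filter] at ha ⊢
      exact ⟨ha.1, ha.2.1⟩
    · intro a ha hna
      simp only [hS, Finset.mem_filter, Finset.mem_univ, true_and] at ha hna
      unfold rpMu
      rw [if_neg (fun hq => hna ⟨ha, hq⟩)]
  rw [h1]
  -- the choice of the parallelogram
  have hex : ∀ a, ∃ p : ℝ × ℝ, a ∈ S → (p ∈ cov ×ˢ cov' ∧
      (p.1 ≤ kfProj (rpTs k q (pos b)) (rpXi k q (pos a)) ∧ kfProj (rpTs k q (pos b)) (rpXi k q (pos a)) ≤ p.1 + δ) ∧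
      (p.2 ≤ kfProj (rpTs k q (pos b')) (rpXi k q (pos a)) ∧ kfProj (rpTs k q (pos b')) (rpXi k q (pos a)) ≤ p.2 + δ)) := by
    intro a
    by_cases ha : a ∈ S
    · have ha' := ha
      rw [hS, Finset.mem_filter] at ha'
      obtain ⟨-, ⟨hb1, hb2⟩, hq⟩ := ha'
      obtain ⟨e, he, h1, h2⟩ := hcov _ ⟨a, hq, hb1, rfl⟩
      obtain ⟨e', he', h1', h2'⟩ := hcov' _ ⟨a, hq, hb2, rfl⟩
      exact ⟨(e, e'), fun _ => ⟨Finset.mem_product.2 ⟨he, he'⟩, ⟨h1, h2⟩, ⟨h1', h2'⟩⟩⟩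
    · exact ⟨(0, 0), fun h => absurd h ha⟩
  choose g hgS using hex
  have hfib : ∀ p ∈ cov ×ˢ cov', ∑ a ∈ S with g a = p, rpMu lam pos k q c a ≤ 100 * K * r ^ s := by
    intro p _
    by_cases hne : (S.filter (fun a => g a = p)).Nonempty
    · obtain ⟨a₀, ha₀⟩ := hne
      rw [Finset.mem_filter] at ha₀
      obtain ⟨ha₀S, hga₀⟩ := ha₀
      have ha₀' := ha₀S
      rw [hS, Finset.mem_filter] at ha₀'
      obtain ⟨-, ⟨hb1, hb2⟩, hq₀⟩ := ha₀'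
      have hσ : |rpTs k q (pos b)| ≤ 2 := (rp_geom_pop hl q a₀ b hq₀ (hg.sub b a₀ hb1.1)).2.1
      refine le_trans ?_ (hfr (rpPt pos k q a₀) r hδr h5)
      refine Finset.sum_le_sum_of_subset_of_nonneg ?_ (fun a _ _ => hμ0 a)
      intro a ha
      rw [Finset.mem_filter] at ha
      obtain ⟨haS, hga⟩ := ha
      have ha' := haS
      rw [hS, Finset.mem_filter] at ha'
      obtain ⟨-, -, hq⟩ := ha'
      rw [Finset.mem_filter]
      refine ⟨Finset.mem_univ _, ?_⟩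
      have e1 : rpPt pos k q a = rpXi k q (pos a) := by unfold rpPt; rw [if_pos hq]
      have e2 : rpPt pos k q a₀ = rpXi k q (pos a₀) := by unfold rpPt; rw [if_pos hq₀]
      rw [e1, e2]
      have P := hgS a haS
      have P₀ := hgS a₀ ha₀S
      rw [hga] at P
      rw [hga₀] at P₀
      exact rp_pin_par _ _ _ _ p.1 p.2 δ ϑ hϑ0 hϑ1 hδ0.le hσ hbb P.2.1 P.2.2 P₀.2.1 P₀.2.2
    · rw [Finset.not_nonempty_iff_eq_empty] at hne
      rw [hne, Finset.sum_empty]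
      exact hB0
  have hc1 : (cov.card : ℝ) ≤ δ ^ (-v) := by
    rw [Real.rpow_neg hδ0.le, ← hl_def, ← one_div, le_div_iff₀ hl0]
    exact hcard.le
  have hc2 : (cov'.card : ℝ) ≤ δ ^ (-v) := by
    rw [Real.rpow_neg hδ0.le, ← hl_def, ← one_div, le_div_iff₀ hl0]
    exact hcard'.le
  have hcc : (cov.card : ℝ) * (cov'.card : ℝ) ≤ δ ^ (-(2 * v)) := by
    have e : δ ^ (-(2 * v)) = δ ^ (-v) * δ ^ (-v) := by
      rw [← Real.rpow_add hδ0]; congr 1; ring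
    rw [e]
    exact mul_le_mul hc1 hc2 (Nat.cast_nonneg _) (Real.rpow_nonneg hδ0.le _)
  calc ∑ a ∈ S, rpMu lam pos k q c a
      = ∑ p ∈ cov ×ˢ cov', ∑ a ∈ S with g a = p, rpMu lam pos k q c a :=
        (Finset.sum_fiberwise_of_maps_to (fun a ha => (hgS a ha).1) _).symm
    _ ≤ ∑ _p ∈ cov ×ˢ cov', 100 * K * r ^ s := Finset.sum_le_sum hfib
    _ = ((cov.card : ℝ) * (cov'.card : ℝ)) * (100 * K * r ^ s) := by
        rw [Finset.sum_const, Finset.card_product, nsmul_eq_mul, Nat.cast_mul]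
    _ ≤ δ ^ (-(2 * v)) * (100 * K * r ^ s) := mul_le_mul_of_nonneg_right hcc hB0
    _ = δ ^ (-(2 * v)) * (100 * K) * r ^ s := by ring

end Claimed.Agent.R255
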