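import Claimed.Agent.R255.Rate.RpDefs

/-!
# U4 (`rt_rp`), leaf L-RP-REFMASS (this file: `rp_ref_gr`, `rp_ref_mass`): the refined graph (finite sums only).   (architect helper69)
* `rp_ref_gr`: `RpRef` is symmetric and contained in `𝒢`.
* `rp_ref_mass`: union bound, `1[𝒢 ∧ ¬Ref](i,j) ≤ ∑_{n<L} (1[Bad_n i j] + 1[Bad_n j i])`; the transposed sum equals the direct one (`Finset.sum_comm`, `mul_comm`).
* `rp_chain`: for a refined pair, `rpM i₀ i (W n) ≤ ∏_{m<n} l m` for `n ≤ L` (induction; `rpM i₀ i (W 0) ≤ ∑ lam ≤ 1`).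
* `rp_tele`: thinness.  If `W 0 ≤ w` use `hW0` and `∑ lam ≤ 1`.  Otherwise let `n+1` be the least index with `W (n+1) ≤ w` (`Nat.find`; `W L ≤ ρ ≤ w`), so `w < W n`, `n < L`.
  Split `{|sl - z| ≤ w}` into `{z - w ≤ sl ≤ z}` and `{z ≤ sl ≤ z + w}`; in each half pick a point `i*` of the set (if any): the half is contained in the cone `{|sl - sl(i*)| ≤ W n}`,
  whose mass is `rpM i₀ i* (W n) ≤ ∏_{m<n} l m`.
-/

set_option autoImplicit false

namespace Claimed.Agent.R255

open Finset Classical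

variable {ι : Type} [Fintype ι]

theorem rp_ref_gr {lam : ι → ℝ} {pos : ι → ℝ × ℝ} {𝒢 : ι → ι → Prop} {σ₀ : ℝ} (hg : RpGr pos 𝒢 σ₀) (L : ℕ) (W l : ℕ → ℝ) :
    RpGr pos (RpRef lam pos 𝒢 L W l) σ₀ := by
  exact ⟨fun i j h => ⟨hg.symm i j h.1, fun n hn => ⟨(h.2 n hn).2, (h.2 n hn).1⟩⟩,
    fun i j h => hg.sub i j h.1⟩

theorem rp_ref_mass {lam : ι → ℝ} {pos : ι → ℝ × ℝ} {𝒢 : ι → ι → Prop} (hlam : ∀ i, 0 ≤ lam i) (L : ℕ) (W l : ℕ → ℝ) (β : ℝ)
    (hbad : ∀ n < L, ∑ i, ∑ j with RpBad lam pos 𝒢 (W n) (W (n + 1)) (l n) i j, lam i * lam j ≤ β) :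
    ∑ i, ∑ j with 𝒢 i j ∧ ¬ RpRef lam pos 𝒢 L W l i j, lam i * lam j ≤ 2 * L * β := by
  have hnn : ∀ i j, 0 ≤ lam i * lam j := fun i j => mul_nonneg (hlam i) (hlam j)
  have key : ∀ i j, (if 𝒢 i j ∧ ¬ RpRef lam pos 𝒢 L W l i j then lam i * lam j else 0)
      ≤ ∑ n ∈ range L, ((if RpBad lam pos 𝒢 (W n) (W (n + 1)) (l n) i j then lam i * lam j else 0)
        + (if RpBad lam pos 𝒢 (W n) (W (n + 1)) (l n) j i then lam j * lam i else 0)) := by
    intro i j
    have hterm : ∀ n ∈ range L, 0 ≤ (if RpBad lam pos 𝒢 (W n) (W (n + 1)) (l n) i j then lam i * lam j else 0)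
        + (if RpBad lam pos 𝒢 (W n) (W (n + 1)) (l n) j i then lam j * lam i else 0) := by
      intro n _
      refine add_nonneg ?_ ?_
      · split_ifs
        exacts [hnn i j, le_rfl]
      · split_ifs
        exacts [hnn j i, le_rfl]
    by_cases h : 𝒢 i j ∧ ¬ RpRef lam pos 𝒢 L W l i j
    · rw [if_pos h]
      obtain ⟨hG, hnr⟩ := h
      have hex : ∃ n < L, RpBad lam pos 𝒢 (W n) (W (n + 1)) (l n) i j
          ∨ RpBad lam pos 𝒢 (W n) (W (n + 1)) (l n) j i := by
        by_contra hcon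
        push Not at hcon
        exact hnr ⟨hG, fun n hn => hcon n hn⟩
      obtain ⟨n, hn, hb⟩ := hex
      refine le_trans ?_ (Finset.single_le_sum hterm (Finset.mem_range.2 hn))
      rcases hb with hb | hb
      · rw [if_pos hb]
        have : 0 ≤ (if RpBad lam pos 𝒢 (W n) (W (n + 1)) (l n) j i then lam j * lam i else 0) := by
          split_ifs
          exacts [hnn j i, le_rfl]
        linarith
      · rw [if_pos hb, mul_comm (lam j)]
        have : 0 ≤ (if RpBad lam pos 𝒢 (W n) (W (n + 1)) (l n) i j then lam i * lam j else 0) := by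
          split_ifs
          exacts [hnn i j, le_rfl]
        linarith
    · rw [if_neg h]
      exact Finset.sum_nonneg hterm
  simp only [Finset.sum_filter] at hbad ⊢
  calc ∑ i, ∑ j, (if 𝒢 i j ∧ ¬ RpRef lam pos 𝒢 L W l i j then lam i * lam j else 0)
      ≤ ∑ i, ∑ j, ∑ n ∈ range L,
          ((if RpBad lam pos 𝒢 (W n) (W (n + 1)) (l n) i j then lam i * lam j else 0)
        + (if RpBad lam pos 𝒢 (W n) (W (n + 1)) (l n) j i then lam j * lam i else 0)) :=
        Finset.sum_le_sum fun i _ => Finset.sum_le_sum fun j _ => key i j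
    _ = ∑ n ∈ range L, ((∑ i, ∑ j, if RpBad lam pos 𝒢 (W n) (W (n + 1)) (l n) i j then lam i * lam j else 0)
        + ∑ i, ∑ j, if RpBad lam pos 𝒢 (W n) (W (n + 1)) (l n) j i then lam j * lam i else 0) := by
        simp only [Finset.sum_comm (s := (univ : Finset ι)) (t := range L)]
        simp only [Finset.sum_add_distrib]
    _ ≤ ∑ n ∈ range L, (β + β) := by
        refine Finset.sum_le_sum fun n hn => add_le_add (hbad n (Finset.mem_range.1 hn)) ?_
        rw [Finset.sum_comm]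
        exact hbad n (Finset.mem_range.1 hn)
    _ = 2 * L * β := by
        rw [Finset.sum_const, Finset.card_range, nsmul_eq_mul]
        ring

end Claimed.Agent.R255
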