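import Claimed.Agent.R255.Rate.RpCellW2
import Claimed.Agent.R255.Rate.RpTele
import Claimed.Agent.R255.Rate.RpLevel
import Claimed.Agent.R255.Rate.RpPar
import Claimed.Agent.R255.Rate.RpGlue

/-!
# U4 (`rt_rp`), GLUE L-RP-STEP: one step of the bootstrap.   (architect helper69)
Given `η₁`: `θ = ε/4`, `L` with `j₁ = rpE θ L 0 ≤ η₁/8` (`rp_E_small`), `a = θ j₁/2`, `ηin = min (min (θ j₁/8) (a ηW/4)) (η₁/(8 (L+1)))`.
`t₀` := the one of `RpStage A s u` at the loss `ηin`; given `κ₀` it returns `c₀, η₀, ρ₀`.  New data: `c = min c₀ (a ηW/4)/2`, `η = min η₀ ηin`,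
`ρ₁ = min` of `ρ₀` and the thresholds of `rp_lev_exists`, `rp_par_tele` (`v = u + ε`, `u' = u + ε/2`), `rp_par_step`.
For `ρ < ρ₁`: `𝒢₀` from the stage (`rt_treeher_mono`), levels `k n, δ n`; `W n = ρ^rpE θ L n`, `l n = (δ n)^(u+ε)`; `𝒢 = RpRef lam pos 𝒢₀ L W l`.
* `RpGr`: `rp_ref_gr` and `ρ^η₁ ≤ ρ^ηin`.
* mass: `Hor ∧ ¬𝒢 ⊆ (Hor ∧ ¬𝒢₀) ∪ (𝒢₀ ∧ ¬𝒢)`; `rp_ref_mass` with `β = 2 ρ^(a ηW/2)`; each level by `rp_level_of_cells` + `rp_cell_w2` (`κ = (δ n)^(ηW/2)`, `Kin = ρ^(-ηin)`, `K = ρ^(-ηin)`).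
* thin: `rp_tele` + `rp_par_tele`.
-/

set_option autoImplicit false

namespace Claimed.Agent.R255

open Finset Classical

theorem rp_step (A s ε ηW ρW u : ℝ) (hA : 1 ≤ A) (hs : 0 < s) (hs1 : s ≤ 1) (hε : 0 < ε) (hε1 : ε ≤ 1) (hηW : 0 < ηW)
    (hρW : 0 < ρW) (hu0 : 0 < u) (hu1 : u ≤ 1)
    (hW2 : ∀ δ : ℝ, 0 < δ → δ < ρW → RpW2 s u ε ηW δ) (h : RpStage A s u) : RpStage A s (u + ε / 2) := by
  intro η₁ hη₁
  obtain ⟨θ, hθdef⟩ : ∃ θ : ℝ, θ = ε / 4 := ⟨_, rfl⟩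
  have hθ : 0 < θ := by rw [hθdef]; positivity
  have hθ1 : θ ≤ 1 / 3 := by rw [hθdef]; linarith
  obtain ⟨L, hL⟩ := rp_E_small θ (η₁ / 8) hθ (by positivity)
  have hj₁ : 0 < rpE θ L 0 := rp_E_pos θ hθ L 0
  obtain ⟨a, hadef⟩ : ∃ a : ℝ, a = θ * rpE θ L 0 / 2 := ⟨_, rfl⟩
  have ha : 0 < a := by rw [hadef]; positivity
  obtain ⟨ηin, hηdef⟩ : ∃ ηin : ℝ, ηin = min (min (θ * rpE θ L 0 / 8) (a * ηW / 4)) (η₁ / (8 * ((L : ℝ) + 1))) := ⟨_, rfl⟩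
  have hL1 : (0 : ℝ) < 8 * ((L : ℝ) + 1) := by positivity
  have hηin0 : 0 < ηin := by
    rw [hηdef]
    exact lt_min (lt_min (by positivity) (by positivity)) (by positivity)
  have hηin1 : ηin ≤ θ * rpE θ L 0 / 8 := by
    rw [hηdef]; exact (min_le_left _ _).trans (min_le_left _ _)
  have hηin2 : ηin ≤ a * ηW / 4 := by
    rw [hηdef]; exact (min_le_left _ _).trans (min_le_right _ _)
  have hηin3' : ηin ≤ η₁ / (8 * ((L : ℝ) + 1)) := by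
    rw [hηdef]; exact min_le_right _ _
  have hηin5 : ηin * (8 * ((L : ℝ) + 1)) ≤ η₁ := (le_div_iff₀ hL1).1 hηin3'
  have hLnn : (0 : ℝ) ≤ (L : ℝ) := Nat.cast_nonneg L
  have hηin3 : ηin * L ≤ η₁ / 8 := by nlinarith
  have hηin4 : ηin ≤ η₁ := by nlinarith
  obtain ⟨t₀, ht0, ht1, hst⟩ := h ηin hηin0
  refine ⟨t₀, ht0, ht1, fun κ₀ hκ₀ => ?_⟩
  obtain ⟨c₀, η₀, ρ₀, hc₀, hη₀, hρ₀, hst⟩ := hst κ₀ hκ₀
  obtain ⟨ρa, hρa0, hρa1, hlev⟩ := rp_lev_exists A θ ηin L hA hθ hθ1 hηin0 hηin1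
  have huv : (u + ε / 2) * (1 + θ) ≤ u + ε := by
    rw [hθdef]; nlinarith
  obtain ⟨ρb, hρb0, hρb1, htele⟩ := rp_par_tele A θ ηin η₁ (u + ε) (u + ε / 2) L hA hθ hηin0 hη₁ (by positivity)
    (by linarith) (by positivity) huv hL hηin3
  obtain ⟨ρc, hρc0, hρc1, hpar⟩ := rp_par_step a ηW ηin ρW c₀ L ha hηW hηin0 hηin2 hρW hc₀
  refine ⟨min c₀ (a * ηW / 4) / 2, min η₀ ηin, min (min ρ₀ ρa) (min ρb ρc), ?_, lt_min hη₀ hηin0,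
    lt_min (lt_min hρ₀ hρa0) (lt_min hρb0 hρc0), ?_⟩
  · have : 0 < min c₀ (a * ηW / 4) := lt_min hc₀ (by positivity)
    positivity
  intro ρ hρ0 hρlt ι _ lam pos hp her hns
  have hρ_0 : ρ < ρ₀ := lt_of_lt_of_le hρlt ((min_le_left _ _).trans (min_le_left _ _))
  have hρ_a : ρ < ρa := lt_of_lt_of_le hρlt ((min_le_left _ _).trans (min_le_right _ _))
  have hρ_b : ρ < ρb := lt_of_lt_of_le hρlt ((min_le_right _ _).trans (min_le_left _ _))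
  have hρ_c : ρ < ρc := lt_of_lt_of_le hρlt ((min_le_right _ _).trans (min_le_right _ _))
  have hρ1 : ρ < 1 := lt_of_lt_of_le hρ_a hρa1
  have her₀ : RtTreeHer lam pos (ρ ^ (-η₀)) s ρ :=
    rt_treeher_mono hp.lam0 (Real.rpow_le_rpow_of_exponent_ge hρ0 hρ1.le (by linarith [min_le_left η₀ ηin])) her
  have herin : RtTreeHer lam pos (ρ ^ (-ηin)) s ρ :=
    rt_treeher_mono hp.lam0 (Real.rpow_le_rpow_of_exponent_ge hρ0 hρ1.le (by linarith [min_le_right η₀ ηin])) her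
  obtain ⟨𝒢₀, hg₀, hmass₀, hthin₀⟩ := hst ρ hρ0 hρ_0 ι lam pos hp her₀ hns
  obtain ⟨k, δ, hδpos, hlev⟩ := hlev ρ hρ0 hρ_a
  obtain ⟨hsum, hpar⟩ := hpar ρ hρ0 hρ_c
  obtain ⟨hW0, hprod⟩ := htele ρ hρ0 hρ_b δ (fun n hn => ⟨hδpos n, (hlev n hn).2.1⟩)
  have hK1 : 1 ≤ ρ ^ (-ηin) := Real.one_le_rpow_of_pos_of_le_one_of_nonpos hρ0 hρ1.le (by linarith)
  obtain ⟨W, hW⟩ : ∃ W : ℕ → ℝ, ∀ n, W n = ρ ^ rpE θ L n := ⟨_, fun _ => rfl⟩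
  obtain ⟨l, hl⟩ : ∃ l : ℕ → ℝ, ∀ n, l n = δ n ^ (u + ε) := ⟨_, fun _ => rfl⟩
  have hr := rp_ref_gr (lam := lam) hg₀ L W l
  have hbad : ∀ n < L, ∑ i, ∑ j with RpBad lam pos 𝒢₀ (W n) (W (n + 1)) (l n) i j, lam i * lam j
      ≤ 2 * ρ ^ (a * ηW / 2) := by
    intro n hn
    obtain ⟨hlv, -, hδa⟩ := hlev n hn
    rw [← hadef] at hδa
    obtain ⟨p1, p2, p3, p4⟩ := hpar (δ n) (hδpos n) hδa
    have hd1 : 0 < δ n ^ ηW := Real.rpow_pos_of_pos (hδpos n) _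
    have hd2 : 0 < δ n ^ (ηW / 2) := Real.rpow_pos_of_pos (hδpos n) _
    rw [hW n, hW (n + 1), hl n]
    refine (rp_level_of_cells hp (k n) _ (δ n ^ ηW + δ n ^ (ηW / 2)) (by positivity) (fun q => ?_)).trans p4
    exact rp_cell_w2 hp hg₀ hlv s u ε ηW (ρ ^ (-ηin)) (ρ ^ (-ηin)) (δ n ^ (ηW / 2)) hs.le hs1 hK1 (by positivity)
      hthin₀ herin (hW2 _ (hδpos n) p1) hd2 p2 p3 q
  have hm := rp_ref_mass hp.lam0 L W l _ hbad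
  have hsplit := rp_split_mass hp.lam0 (fun i j => RpHor pos i j ∧ ¬ RpRef lam pos 𝒢₀ L W l i j)
    (fun i j => RpHor pos i j ∧ ¬ 𝒢₀ i j) (fun i j => 𝒢₀ i j ∧ ¬ RpRef lam pos 𝒢₀ L W l i j) (by
      intro i j hij
      by_cases h0 : 𝒢₀ i j
      · exact Or.inr ⟨h0, hij.2⟩
      · exact Or.inl ⟨hij.1, h0⟩)
  refine ⟨RpRef lam pos 𝒢₀ L W l, ?_, ?_, ?_⟩
  · exact ⟨hr.symm, fun i j hij => ⟨(hr.sub i j hij).1,
      (Real.rpow_le_rpow_of_exponent_ge hρ0 hρ1.le hηin4).trans (hr.sub i j hij).2⟩⟩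
  · refine le_trans ?_ hsum
    refine le_trans ?_ (add_le_add hmass₀ hm)
    convert hsplit
    rfl
  · refine rp_tele hp L W l (fun n => ?_) ρ _ _ ?_ ?_ ?_
    · rw [hl n]; exact (Real.rpow_pos_of_pos (hδpos n) _).le
    · rw [hW L, rp_E_top θ hθ L, Real.rpow_one]
    · intro w; rw [hW 0]; exact hW0 w
    · intro n hn w
      rw [hW n, hW (n + 1), Finset.prod_congr rfl (fun m _ => hl m)]
      exact hprod n hn w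

end Claimed.Agent.R255
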