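-- KEEP
import Claimed.Agent.R255.Rate.Gr

/-!
# Row 255 (BR paper), Sec. 7, unit U6 (strip), file A: monotonicity in the tolerance, restriction of the labels to a strip      (helper294)

* `RtBlk.restr b S` : the block `b` with the label weights restricted to `S`.
* `rst_weaken` : restriction of the labels + larger scale + larger tolerance.
* `rst_is3w_mono`, `rst_is3_mono`, `rst_restrict` = the contracts `RtBlk.Is3w.mono`, `RtBlk.Is3.mono`, `rt_strip_restrict` of `Rate/Contracts.lean`.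
-/

set_option autoImplicit false

namespace Claimed.Agent.R255

open Finset Classical
open Claimed.Agent.RW (KfFrost)

/-- restriction of the labels -/
noncomputable def RtBlk.restr (b : RtBlk) (S : b.Th → Prop) : RtBlk :=
  { b with lam := fun t => if S t then b.lam t else 0 }

theorem RtBlk.restr_true (b : RtBlk) : b.restr (fun _ => True) = b := by
  cases b
  simp [RtBlk.restr]

theorem rst_cov_mono {S : Set ℝ} {r N N' : ℝ} (h : RtCov S r N) (hN : N ≤ N') : RtCov S r N' := by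
  obtain ⟨cov, h1, h2⟩ := h
  exact ⟨cov, h1.trans hN, h2⟩

theorem rst_cov2_mono {S : Set (ℝ × ℝ)} {r N N' : ℝ} (h : RtCov2 S r N) (hN : N ≤ N') : RtCov2 S r N' := by
  obtain ⟨cov, h1, h2⟩ := h
  exact ⟨cov, h1.trans hN, h2⟩

/-- Frostman bounds survive restrictions of the weights, larger constants and larger scales -/
theorem rst_kf_restr {ι Y : Type} [Fintype ι] [PseudoMetricSpace Y] {w : ι → ℝ} {pos : ι → Y} {C C' e ρ ρ' : ℝ}
    (S : ι → Prop) (hw : ∀ i, 0 ≤ w i) (hρ : 0 < ρ) (hC : C ≤ C') (hρ' : ρ ≤ ρ') (h : KfFrost w pos C e ρ) :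
    KfFrost (fun i => if S i then w i else 0) pos C' e ρ' := by
  intro z r hr hr1
  have hr0 : 0 < r := lt_of_lt_of_le hρ (hρ'.trans hr)
  calc ∑ i with dist (pos i) z ≤ r, (if S i then w i else 0) ≤ ∑ i with dist (pos i) z ≤ r, w i := by
        refine Finset.sum_le_sum fun i _ => ?_
        split_ifs
        · exact le_rfl
        · exact hw i
    _ ≤ C * r ^ e := h z r (hρ'.trans hr) hr1
    _ ≤ C' * r ^ e := mul_le_mul_of_nonneg_right hC (Real.rpow_nonneg hr0.le _)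

/-- restriction of the labels + larger scale + larger tolerance -/
theorem rst_weaken {b : RtBlk} (S : b.Th → Prop) {ρ η ρ' η' A x q z s σ : ℝ} (h0 : 0 < ρ) (hρ' : ρ ≤ ρ')
    (hK : ρ ^ (-η) ≤ ρ' ^ (-η')) (hk : ρ' ^ η' ≤ ρ ^ η) (hm : ρ' ^ η' ≤ ∑ t with S t, b.lam t)
    (h : b.Is3w ρ η A x q z s σ) : (b.restr S).Is3w ρ' η' A x q z s σ := by
  have h0' : 0 < ρ' := lt_of_lt_of_le h0 hρ'
  refine ⟨⟨h.μ0, ?_, h.μ1, ?_, h.bdP, h.bdT, ?_, ?_, ?_, ?_⟩, ?_, ?_, ?_, ?_⟩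
  · intro t
    show 0 ≤ (if S t then b.lam t else 0)
    split_ifs
    · exact h.lam0 t
    · exact le_rfl
  · show ∑ t, (if S t then b.lam t else 0) ≤ 1
    refine le_trans (Finset.sum_le_sum fun t _ => ?_) h.lam1
    split_ifs
    · exact le_rfl
    · exact h.lam0 t
  · show ρ' ^ η' ≤ ∑ t, (if S t then b.lam t else 0)
    rwa [← Finset.sum_filter]
  · intro t ht
    have ht' : 0 < (if S t then b.lam t else 0) := ht
    have ht2 : 0 < b.lam t := by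
      split_ifs at ht' with hS
      · exact ht'
      · exact absurd ht' (lt_irrefl _)
    exact hk.trans (h.nbr t ht2)
  · exact rst_kf_restr S h.lam0 h0 hK hρ' h.frC
  · exact rst_kf_restr S h.lam0 h0 hK hρ' h.frR
  · intro t x₀ y₀ w₀ z₀ r₁ r₂ r₃ a1 a2 a3 a4 a5 a6
    refine (h.box t x₀ y₀ w₀ z₀ r₁ r₂ r₃ (hρ'.trans a1) a2 (hρ'.trans a3) a4 (hρ'.trans a5) a6).trans ?_
    have e1 : 0 ≤ r₁ ^ x := Real.rpow_nonneg (h0'.le.trans a1) _
    have e2 : 0 ≤ r₂ ^ q := Real.rpow_nonneg (h0'.le.trans a3) _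
    have e3 : 0 ≤ r₃ ^ z := Real.rpow_nonneg (h0'.le.trans a5) _
    exact mul_le_mul_of_nonneg_right hK (by positivity)
  · intro t r' a1 a2
    exact rst_cov_mono (h.covX t r' (hρ'.trans a1) a2)
      (mul_le_mul_of_nonneg_right hK (Real.rpow_nonneg (h0'.le.trans a1) _))
  · intro t r' a1 a2
    exact rst_cov2_mono (h.covU t r' (hρ'.trans a1) a2)
      (mul_le_mul_of_nonneg_right hK (Real.rpow_nonneg (h0'.le.trans a1) _))
  · intro t r' a1 a2
    exact rst_cov_mono (h.covZ t r' (hρ'.trans a1) a2)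
      (mul_le_mul_of_nonneg_right hK (Real.rpow_nonneg (h0'.le.trans a1) _))

/-- = `RtBlk.Is3w.mono` -/
theorem rst_is3w_mono {b : RtBlk} {ρ η η' A x q z s σ : ℝ} (h0 : 0 < ρ) (h1 : ρ < 1) (hη : η ≤ η')
    (h : b.Is3w ρ η A x q z s σ) : b.Is3w ρ η' A x q z s σ := by
  have hk : ρ ^ η' ≤ ρ ^ η := Real.rpow_le_rpow_of_exponent_ge h0 h1.le hη
  have hK : ρ ^ (-η) ≤ ρ ^ (-η') := Real.rpow_le_rpow_of_exponent_ge h0 h1.le (by linarith)
  have := rst_weaken (fun _ => True) h0 le_rfl hK hk (by simpa using hk.trans h.mass) h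
  rwa [RtBlk.restr_true] at this

/-- = `RtBlk.Is3.mono` -/
theorem rst_is3_mono {b : RtBlk} {ρ η η' A x q z s σ : ℝ} (h0 : 0 < ρ) (h1 : ρ < 1) (hη : η ≤ η')
    (h : b.Is3 ρ η A x q z s σ) : b.Is3 ρ η' A x q z s σ := by
  refine ⟨rst_is3w_mono h0 h1 hη h.toIs3w, ?_⟩
  have hK : ρ ^ (-η) ≤ ρ ^ (-η') := Real.rpow_le_rpow_of_exponent_ge h0 h1.le (by linarith)
  intro k k' hkk hρ i₀
  refine (h.her k k' hkk hρ i₀).trans ?_
  have e1 : 0 ≤ ((1 / 2 : ℝ) ^ (k' - k)) ^ s := Real.rpow_nonneg (by positivity) _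
  have e2 : 0 ≤ ∑ i with rtCell k (b.pos i) = rtCell k (b.pos i₀), b.lam i :=
    Finset.sum_nonneg fun i _ => h.lam0 i
  gcongr

/-- = `rt_strip_restrict` -/
theorem rst_restrict {b : RtBlk} {ρ η A x q z s σ t₀ κ₀ : ℝ} (h0 : 0 < ρ) (h1 : ρ < 1) (ht : 0 < t₀) (ht1 : t₀ ≤ 1)
    (hη : 0 < η) (hκ : 0 < κ₀) (h : b.Is3 ρ η A x q z s σ) (hs : ¬ RtNoStrip b.lam b.pos (ρ ^ t₀) (ρ ^ κ₀)) :
    ∃ b' : RtBlk, b'.Is3w (ρ ^ t₀) ((η + κ₀) / t₀) A x q z s σ ∧ b'.InStrip (ρ ^ t₀) := by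
  unfold RtNoStrip at hs
  push Not at hs
  obtain ⟨p₀, φ, hlt⟩ := hs
  have e1 : (ρ ^ t₀) ^ ((η + κ₀) / t₀) = ρ ^ (η + κ₀) := by
    rw [← Real.rpow_mul h0.le, mul_div_cancel₀ _ ht.ne']
  have e2 : (ρ ^ t₀) ^ (-((η + κ₀) / t₀)) = ρ ^ (-(η + κ₀)) := by
    rw [← Real.rpow_mul h0.le]
    congr 1
    field_simp
  refine ⟨b.restr (fun t => |ip (b.pos t - p₀) (nrm φ)| ≤ ρ ^ t₀), ?_, p₀, φ, ?_⟩
  · refine rst_weaken _ h0 ?_ ?_ ?_ ?_ h.toIs3w
    · calc ρ = ρ ^ (1 : ℝ) := (Real.rpow_one ρ).symm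
        _ ≤ ρ ^ t₀ := Real.rpow_le_rpow_of_exponent_ge h0 h1.le ht1
    · rw [e2]
      exact Real.rpow_le_rpow_of_exponent_ge h0 h1.le (by linarith)
    · rw [e1]
      exact Real.rpow_le_rpow_of_exponent_ge h0 h1.le (by linarith)
    · rw [e1]
      exact (Real.rpow_le_rpow_of_exponent_ge h0 h1.le (by linarith)).trans hlt.le
  · intro t ht'
    have ht2 : 0 < (if |ip (b.pos t - p₀) (nrm φ)| ≤ ρ ^ t₀ then b.lam t else 0) := ht'
    split_ifs at ht2 with hS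
    · exact hS
    · exact absurd ht2 (lt_irrefl _)

end Claimed.Agent.R255
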